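import Vale.Agent.P136.Mod.CarlemanEst

/-!
# Weak solvability of the conjugated system

The Carleman estimate bounds test functions by the transposed operator; Hahn-Banach and Riesz
give a square integrable weak solution.
-/

noncomputable section

namespace Vale.Agent.P136

open MeasureTheory Metric Carleman
open scoped BigOperators ContDiff Matrix ComplexConjugate InnerProductSpace

namespace Carleman

variable {ι : Type} [Fintype ι]

/-- Vectors with the Euclidean norm. -/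
abbrev CE (ι : Type) [Fintype ι] : Type := EuclideanSpace ℂ ι

/-- Test functions. -/
def testSpace (ι : Type) [Fintype ι] (R : ℝ) : Submodule ℂ (R3 → ι → ℂ) where
  carrier := {φ | ContDiff ℝ ∞ φ ∧ tsupport φ ⊆ closedBall 0 R}
  zero_mem' := ⟨contDiff_const, by simp⟩
  add_mem' := fun hf hg =>
    ⟨hf.1.add hg.1, (tsupport_add _ _).trans (Set.union_subset hf.2 hg.2)⟩
  smul_mem' := fun c f hf =>
    ⟨hf.1.const_smul c, (closure_mono (Function.support_const_smul_subset c f)).trans hf.2⟩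

lemma toE_memLp {g : R3 → ι → ℂ} (hg : Continuous g) {K : Set R3} (hK : IsCompact K)
    (ho : ∀ x ∉ K, g x = 0) : MemLp (fun x => (WithLp.toLp 2 (g x) : CE ι)) 2 volume :=
  Continuous.memLp_of_hasCompactSupport (by fun_prop)
    (HasCompactSupport.of_support_subset_isCompact hK fun x hx => by
      by_contra h
      exact hx (by simp [ho x h]))

lemma norm_sq_Lp (u : Lp (CE ι) 2 (volume : Measure R3)) {g : R3 → ι → ℂ}
    (h : u =ᵐ[volume] fun x => (WithLp.toLp 2 (g x) : CE ι)) :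
    ‖u‖ ^ 2 = ∫ x, ∑ a, ‖g x a‖ ^ 2 := by
  have h1 : RCLike.re (⟪u, u⟫_ℂ) = ‖u‖ ^ 2 := inner_self_eq_norm_sq u
  rw [← h1, L2.inner_def, ← integral_re (L2.integrable_inner u u)]
  refine integral_congr_ae ?_
  filter_upwards [h] with x hx
  rw [inner_self_eq_norm_sq, hx, EuclideanSpace.norm_sq_eq]

lemma inner_toE (u : CE ι) (w : ι → ℂ) :
    ⟪u, WithLp.toLp 2 w⟫_ℂ = (fun a => conj (u a)) ⬝ᵥ w := by
  simp [PiLp.inner_apply, dotProduct, mul_comm]

lemma pd_add_fun {i : Fin 3} {E : Type*} [NormedAddCommGroup E] [NormedSpace ℝ E] {f g : R3 → E}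
    (hf : Differentiable ℝ f) (hg : Differentiable ℝ g) :
    pd i (f + g) = pd i f + pd i g :=
  funext fun x => P136.pd_add (hf x) (hg x)

lemma pd_smul_fun {i : Fin 3} {E : Type*} [NormedAddCommGroup E] [NormedSpace ℂ E] {f : R3 → E}
    (c : ℂ) (hf : Differentiable ℝ f) : pd i (c • f) = c • pd i f := by
  funext x
  simp [pd, fderiv_const_smul (hf x) c]

variable (A : Fin 3 → R3 → Matrix ι ι ℂ) (B : R3 → Matrix ι ι ℂ) (τ : ℝ) (θ : C3)

lemma sysConjT_add (hA : ∀ i a b, ContDiff ℝ ∞ fun x => A i x a b) {φ ψ : R3 → ι → ℂ}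
    (hφ : ContDiff ℝ ∞ φ) (hψ : ContDiff ℝ ∞ ψ) :
    sysConjT A B τ θ (φ + ψ) = sysConjT A B τ θ φ + sysConjT A B τ θ ψ := by
  have hm : ∀ (i : Fin 3) (f : R3 → ι → ℂ), ContDiff ℝ ∞ f →
      Differentiable ℝ fun y => (A i y)ᵀ *ᵥ f y := fun i f hf =>
    cd_diff (contDiff_pi.2 fun a => by
      simp only [Matrix.mulVec, dotProduct, Matrix.transpose_apply]
      exact ContDiff.sum fun c _ => (hA i c a).mul (contDiff_pi.1 hf c))
  have h0 : ∀ i, (fun y => (A i y)ᵀ *ᵥ (φ + ψ) y)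
      = (fun y => (A i y)ᵀ *ᵥ φ y) + fun y => (A i y)ᵀ *ᵥ ψ y := fun i =>
    funext fun y => Matrix.mulVec_add _ _ _
  have h1 : ∀ i, pd i (fun y => (A i y)ᵀ *ᵥ (φ y + ψ y))
      = pd i (fun y => (A i y)ᵀ *ᵥ φ y) + pd i (fun y => (A i y)ᵀ *ᵥ ψ y) := fun i => by
    rw [← pd_add_fun (hm _ φ hφ) (hm _ ψ hψ), ← h0]
    rfl
  funext x a
  simp only [sysConjT, Pi.add_apply, h1]
  simp only [dD, pd_add_fun (cd_diff hφ) (cd_diff hψ),
    pd_add_fun (cd_diff (smooth_pd hφ)) (cd_diff (smooth_pd hψ)), Fin.sum_univ_three,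
    Pi.add_apply, Pi.sub_apply, Pi.smul_apply, smul_eq_mul, Matrix.mulVec_add]
  ring

lemma sysConjT_smul (hA : ∀ i a b, ContDiff ℝ ∞ fun x => A i x a b) (c : ℂ) {φ : R3 → ι → ℂ}
    (hφ : ContDiff ℝ ∞ φ) : sysConjT A B τ θ (c • φ) = c • sysConjT A B τ θ φ := by
  have hm : ∀ i : Fin 3, Differentiable ℝ fun y => (A i y)ᵀ *ᵥ φ y := fun i =>
    cd_diff (contDiff_pi.2 fun a => by
      simp only [Matrix.mulVec, dotProduct, Matrix.transpose_apply]
      exact ContDiff.sum fun b _ => (hA i b a).mul (contDiff_pi.1 hφ b))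
  have e1 : ∀ i, pd i (c • φ) = c • pd i φ := fun i => pd_smul_fun c (cd_diff hφ)
  have e2 : ∀ i, pd i (pd i (c • φ)) = c • pd i (pd i φ) := fun i => by
    rw [e1, pd_smul_fun c (cd_diff (smooth_pd hφ))]
  have e3 : ∀ i, pd i (fun y => (A i y)ᵀ *ᵥ (c • φ) y)
      = c • pd i (fun y => (A i y)ᵀ *ᵥ φ y) := fun i => by
    rw [← pd_smul_fun c (hm i)]
    exact congrArg (pd i) (funext fun y => Matrix.mulVec_smul (A i y)ᵀ c (φ y))
  funext x a
  have h : ∀ (v : R3 → ι → ℂ), sysConjT A B τ θ v x a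
      = ∑ i, pd i (pd i v) x a - ∑ i, pd i (fun y => (A i y)ᵀ *ᵥ v y) x a + ((B x)ᵀ *ᵥ v x) a
        + (τ : ℂ) * (∑ i, θ i * ((A i x)ᵀ *ᵥ v x) a - 2 * ∑ i, θ i * pd i v x a) := fun v => by
    simp [sysConjT, dD]
  have hR : (c • sysConjT A B τ θ φ) x a = c * sysConjT A B τ θ φ x a := rfl
  rw [hR, h, h]
  simp only [e2, e3]
  simp only [e1, Pi.smul_apply, smul_eq_mul, Matrix.mulVec_smul, Fin.sum_univ_three]
  ring

variable {D H : Type*} [AddCommGroup D] [Module ℂ D] [NormedAddCommGroup H]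
  [InnerProductSpace ℂ H] [CompleteSpace H]

/-- Duality: a bound by `Q` turns the functional `⟪G, P ·⟫` into an inner product with `Q`. -/
lemma exists_dual (P Q : D →ₗ[ℂ] H) {C : ℝ} (hC : 0 ≤ C) (hPQ : ∀ φ, ‖P φ‖ ≤ C * ‖Q φ‖) (G : H) :
    ∃ r : H, ‖r‖ ≤ ‖G‖ * C ∧ ∀ φ, ⟪r, Q φ⟫_ℂ = ⟪G, P φ⟫_ℂ := by
  obtain ⟨σ, hσ⟩ := LinearMap.exists_rightInverse_of_surjective Q.rangeRestrict
    (LinearMap.range_eq_top.2 Q.surjective_rangeRestrict)
  have hQσ : ∀ y : LinearMap.range Q, Q (σ y) = y := fun y =>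
    congrArg Subtype.val (LinearMap.congr_fun hσ y)
  obtain ⟨g, hg, hgn⟩ := exists_extension_norm_eq (LinearMap.range Q)
    (((innerₛₗ ℂ G).comp (P.comp σ)).mkContinuous (‖G‖ * C) fun y => by
      simp only [LinearMap.comp_apply, innerₛₗ_apply_apply]
      refine (norm_inner_le_norm _ _).trans ?_
      rw [mul_assoc]
      refine mul_le_mul_of_nonneg_left ((hPQ (σ y)).trans ?_) (norm_nonneg _)
      rw [hQσ, Submodule.coe_norm])
  refine ⟨(InnerProductSpace.toDual ℂ H).symm g, ?_, fun φ => ?_⟩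
  · rw [LinearIsometryEquiv.norm_map, hgn]
    exact LinearMap.mkContinuous_norm_le _ (by positivity) _
  · rw [InnerProductSpace.toDual_symm_apply]
    refine (hg ⟨Q φ, LinearMap.mem_range_self Q φ⟩).trans ?_
    have h0 : P (σ ⟨Q φ, LinearMap.mem_range_self Q φ⟩ - φ) = 0 := norm_le_zero_iff.1 <| by
      refine (hPQ _).trans (le_of_eq ?_)
      simp [map_sub, hQσ]
    rw [map_sub, sub_eq_zero] at h0
    simp [h0]

end Carleman

/-- **Weak solvability for large frequency.** -/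
theorem weakSolve : WeakSolveOut := by
  intro ι _ A B hA hB θ hθ hnull R hR
  obtain ⟨F⟩ := exists_frame hθ hnull
  obtain ⟨K, τ₀, hK0, hτ₀, hest⟩ := sys_carleman F A B hA hB (R := R)
  have hball := isCompact_closedBall (0 : R3) R
  have hfin : volume (closedBall (0 : R3) R) ≠ ⊤ := hball.measure_lt_top.ne
  set V : ℝ := volume.real (closedBall (0 : R3) R) ^ (1 / 2 : ℝ)
  refine ⟨Real.sqrt (Fintype.card ι) * V * Real.sqrt K, τ₀, 0, hτ₀, fun τ hτ f hf S hS => ?_⟩
  have mP : ∀ φ : testSpace ι R,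
      MemLp (fun x => (WithLp.toLp 2 (φ.1 x) : CE ι)) 2 volume := fun φ =>
    toE_memLp φ.2.1.continuous hball fun x hx =>
      image_eq_zero_of_notMem_tsupport fun h => hx (φ.2.2 h)
  have mQ : ∀ φ : testSpace ι R,
      MemLp (fun x => (WithLp.toLp 2 (sysConjT A B τ θ φ.1 x) : CE ι)) 2 volume := fun φ =>
    toE_memLp (hest τ hτ φ.1 φ.2.1 φ.2.2).1 hball fun x hx =>
      (hest τ hτ φ.1 φ.2.1 φ.2.2).2.1 x fun h => hx (φ.2.2 h)
  let P : testSpace ι R →ₗ[ℂ] Lp (CE ι) 2 (volume : Measure R3) :=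
    { toFun := fun φ => (mP φ).toLp _
      map_add' := fun φ ψ => by
        rw [← MemLp.toLp_add]
        exact MemLp.toLp_congr _ _ (Filter.Eventually.of_forall fun x => rfl)
      map_smul' := fun c φ => by
        rw [RingHom.id_apply, ← MemLp.toLp_const_smul]
        exact MemLp.toLp_congr _ _ (Filter.Eventually.of_forall fun x => rfl) }
  let Q : testSpace ι R →ₗ[ℂ] Lp (CE ι) 2 (volume : Measure R3) :=
    { toFun := fun φ => (mQ φ).toLp _
      map_add' := fun φ ψ => by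
        rw [← MemLp.toLp_add]
        refine MemLp.toLp_congr _ _ (Filter.Eventually.of_forall fun x => ?_)
        simp [sysConjT_add A B τ θ hA φ.2.1 ψ.2.1]
      map_smul' := fun c φ => by
        rw [RingHom.id_apply, ← MemLp.toLp_const_smul]
        refine MemLp.toLp_congr _ _ (Filter.Eventually.of_forall fun x => ?_)
        simp [sysConjT_smul A B τ θ hA c φ.2.1] }
  have hPQ : ∀ φ, ‖P φ‖ ≤ Real.sqrt K * ‖Q φ‖ := fun φ => by
    have h := (hest τ hτ φ.1 φ.2.1 φ.2.2).2.2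
    rw [← norm_sq_Lp (P φ) (mP φ).coeFn_toLp, ← norm_sq_Lp (Q φ) (mQ φ).coeFn_toLp] at h
    rw [← Real.sqrt_sq (norm_nonneg (Q φ)), ← Real.sqrt_mul hK0]
    exact Real.le_sqrt_of_sq_le h
  -- the data
  have hS0 : 0 ≤ S := (norm_nonneg _).trans (hS 0 (mem_closedBall_self hR.le))
  set c := Real.sqrt (Fintype.card ι) * S with hc
  set F₀ : R3 → CE ι :=
    (closedBall (0 : R3) R).indicator fun x => WithLp.toLp 2 fun a => conj (f x a) with hF₀
  have hmeas : AEStronglyMeasurable F₀ volume :=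
    (Continuous.aestronglyMeasurable (by have := hf.continuous; fun_prop)).indicator
      isClosed_closedBall.measurableSet
  have hdom : ∀ x, ‖F₀ x‖ ≤ ‖(closedBall (0 : R3) R).indicator (fun _ => c) x‖ := fun x => by
    by_cases hx : x ∈ closedBall (0 : R3) R
    · simp only [hF₀, Set.indicator_of_mem hx]
      refine le_trans ?_ (le_abs_self c)
      rw [hc, EuclideanSpace.norm_eq, ← Real.sqrt_sq hS0, ← Real.sqrt_mul (Nat.cast_nonneg _)]
      refine Real.sqrt_le_sqrt ?_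
      calc ∑ a, ‖conj (f x a)‖ ^ 2 ≤ ∑ _a : ι, S ^ 2 := Finset.sum_le_sum fun a _ => by
            rw [RCLike.norm_conj]
            exact pow_le_pow_left₀ (norm_nonneg _) ((norm_le_pi_norm (f x) a).trans (hS x hx)) 2
        _ = _ := by simp
    · simp [hF₀, hx]
  have mF : MemLp F₀ 2 volume :=
    (memLp_indicator_const 2 isClosed_closedBall.measurableSet c (Or.inr hfin)).mono hmeas
      (Filter.Eventually.of_forall hdom)
  have hG : ‖mF.toLp F₀‖ ≤ Real.sqrt (Fintype.card ι) * V * S := by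
    have h1 : ‖mF.toLp F₀‖ ≤ ‖indicatorConstLp 2 isClosed_closedBall.measurableSet hfin c‖ := by
      refine Lp.norm_le_norm_of_ae_le ?_
      filter_upwards [mF.coeFn_toLp,
        indicatorConstLp_coeFn (p := 2) (hs := isClosed_closedBall.measurableSet) (hμs := hfin)
          (c := c)] with x hx1 hx2
      rw [hx1, hx2]
      exact hdom x
    refine h1.trans (le_of_eq ?_)
    rw [norm_indicatorConstLp two_ne_zero ENNReal.ofNat_ne_top, Real.norm_eq_abs,
      abs_of_nonneg (by positivity : 0 ≤ c), ENNReal.toReal_ofNat]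
    simp only [hc, V]
    ring
  obtain ⟨r₀, hr₀n, hkey⟩ := exists_dual P Q (Real.sqrt_nonneg K) hPQ (mF.toLp F₀)
  have hle : ∀ x, ‖(fun a => conj (r₀ x a))‖ ≤ ‖r₀ x‖ := fun x =>
    (pi_norm_le_iff_of_nonneg (norm_nonneg _)).2 fun a => by
      rw [RCLike.norm_conj]
      exact PiLp.norm_apply_le _ a
  refine ⟨fun x a => conj (r₀ x a), ?_, ?_, ?_⟩
  · refine MemLp.mono (Lp.memLp r₀) ?_ (Filter.Eventually.of_forall hle)
    exact (by fun_prop : Continuous fun u : CE ι => fun a => conj (u a)).comp_aestronglyMeasurable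
      (Lp.aestronglyMeasurable r₀)
  · intro φ hφ hsupp
    have h := hkey ⟨φ, hφ, hsupp.trans ball_subset_closedBall⟩
    rw [L2.inner_def, L2.inner_def] at h
    refine (integral_congr_ae ?_).trans (h.trans (integral_congr_ae ?_))
    · filter_upwards [(mQ ⟨φ, hφ, hsupp.trans ball_subset_closedBall⟩).coeFn_toLp] with x hx
      exact ((congrArg (fun u => ⟪r₀ x, u⟫_ℂ) hx).trans (inner_toE _ _)).symm
    · filter_upwards [(mP ⟨φ, hφ, hsupp.trans ball_subset_closedBall⟩).coeFn_toLp,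
        mF.coeFn_toLp] with x hx hxF
      refine ((congrArg₂ (fun u w => ⟪u, w⟫_ℂ) hxF hx).trans (inner_toE _ _)).trans ?_
      by_cases hxb : x ∈ closedBall (0 : R3) R
      · simp [hF₀, hxb]
      · simp [show φ x = 0 from
          image_eq_zero_of_notMem_tsupport fun h' => hxb (ball_subset_closedBall (hsupp h'))]
  · refine (eLpNorm_mono hle).trans ?_
    rw [← Lp.enorm_def, ← ofReal_norm]
    refine ENNReal.ofReal_le_ofReal (hr₀n.trans ?_)
    refine le_trans (mul_le_mul_of_nonneg_right hG (Real.sqrt_nonneg K)) (le_of_eq ?_)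
    rw [pow_zero, mul_one]
    ring

end Vale.Agent.P136
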