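import Vale.Agent.P136.Mod.CgoTools

/-!
# Special solutions and solvability

`cgo`: the amplitude expansion, a remainder from `SolveOut`, the exact reduction.
`green`: the same at one large frequency, with a forcing term.
-/

noncomputable section

namespace Vale.Agent.P136

open Metric Set Cgo
open scoped BigOperators Matrix ContDiff

namespace Cgo

/-- Solutions of the reduced system give solutions of the Lamé system, with forcing. -/
theorem lame_toU {C : Coef} {B : R3 → Matrix (Fin 4) (Fin 4) ℂ}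
    (hid : ∀ (U : Set R3) (Y : R3 → Fin 4 → ℂ), IsOpen U → ContDiffOn ℝ ∞ Y U → ∀ x ∈ U,
      ∀ l : Fin 3, lame C.lam C.mu (toU C Y) x l
        = (Real.sqrt (C.mu x) : ℂ) * sysOp (ikA C) B Y x l.castSucc
          + pd l (fun y => (C.beta y : ℂ) * sysOp (ikA C) B Y y 3) x)
    {R : ℝ} {Y F : R3 → Fin 4 → ℂ} (hY : ContDiff ℝ ∞ Y)
    (hF : ∀ x ∈ ball (0 : R3) R, sysOp (ikA C) B Y x = F x)
    (hF3 : ∀ x ∈ ball (0 : R3) R, F x 3 = 0) {x : R3} (hx : x ∈ ball (0 : R3) R) (l : Fin 3) :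
    lame C.lam C.mu (toU C Y) x l = (Real.sqrt (C.mu x) : ℂ) * F x l.castSucc := by
  rw [hid _ Y isOpen_ball hY.contDiffOn x hx l, hF x hx]
  have h0 : (fun y => (C.beta y : ℂ) * sysOp (ikA C) B Y y 3) =ᶠ[nhds x] fun _ => (0 : ℂ) := by
    filter_upwards [isOpen_ball.mem_nhds hx] with y hy
    rw [hF y hy, hF3 y hy, mul_zero]
  have h1 : pd l (fun y => (C.beta y : ℂ) * sysOp (ikA C) B Y y 3) x = 0 := by
    simp only [pd, h0.fderiv_eq, fderiv_fun_const]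
    simp
  rw [h1, add_zero]

theorem contDiff_toU (C : Coef) {Y : R3 → Fin 4 → ℂ} (hY : ContDiff ℝ ∞ Y) :
    ContDiff ℝ ∞ (toU C Y) := by
  refine contDiff_pi.2 fun l => ?_
  unfold toU
  exact ((((contDiff_ofReal (contDiff_sqrtMu C)).inv fun x => by
        exact_mod_cast (Real.sqrt_pos.2 (C.mu_pos x)).ne').mul (contDiff_pi.1 hY _)).add
      ((contDiff_ofReal (contDiff_nu C)).mul (contDiff_pd (contDiff_pi.1 hY 3) l))).sub
    ((contDiff_pi.1 hY 3).mul (contDiff_ofReal (contDiff_pd (contDiff_nu C) l)))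

/-- The displacement costs one derivative. -/
theorem bd_toU (C : Coef) {s : Set R3} (hs : IsCompact s) (n : ℕ) :
    ∃ K, 0 ≤ K ∧ ∀ (Y : R3 → Fin 4 → ℂ) (S : ℝ), ContDiff ℝ ∞ Y → Bd s (n + 1) Y S →
      Bd s n (toU C Y) (K * S) := by
  classical
  have ha : ContDiff ℝ ∞ fun x => ((Real.sqrt (C.mu x))⁻¹ : ℂ) :=
    (contDiff_ofReal (contDiff_sqrtMu C)).inv fun x => by
      exact_mod_cast (Real.sqrt_pos.2 (C.mu_pos x)).ne'
  have hb := contDiff_ofReal (contDiff_nu C)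
  have hc : ∀ l, ContDiff ℝ ∞ fun x => -((pd l C.nu x : ℝ) : ℂ) := fun l =>
    (contDiff_ofReal (contDiff_pd (contDiff_nu C) l)).neg
  obtain ⟨Ka, hKa, hA⟩ := bd_smul (F := ℂ) ha hs n
  obtain ⟨Kb, hKb, hB⟩ := bd_smul (F := ℂ) hb hs n
  choose Kc hKc hC using fun l => bd_smul (F := ℂ) (hc l) hs n
  obtain ⟨P, hP, hpi⟩ := bd_pi (ι := Fin 3)
  refine ⟨P * (Ka + Kb + ∑ l, Kc l), mul_nonneg hP (add_nonneg (add_nonneg hKa hKb)
    (Finset.sum_nonneg fun l _ => hKc l)), fun Y S hY h => ?_⟩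
  rw [mul_assoc]
  refine hpi s n _ _ (contDiff_toU C hY) fun l => ?_
  have hy : ∀ a, ContDiff ℝ ∞ fun y => Y y a := fun a => contDiff_pi.1 hY a
  have h0 : ∀ a, Bd s n (fun y => Y y a) S := fun a =>
    (h.comp_apply hY a).mono subset_rfl (Nat.le_succ n) le_rfl
  have t1 := hA _ S (hy l.castSucc) (h0 _)
  have t2 := hB _ S (contDiff_pd (hy 3) l) ((h.comp_apply hY 3).pd (hy 3) l)
  have t3 := hC l _ S (hy 3) (h0 3)
  have ht := ((t1.add (ha.smul (hy _)) (hb.smul (contDiff_pd (hy 3) l)) t2).add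
    ((ha.smul (hy _)).add (hb.smul (contDiff_pd (hy 3) l))) ((hc l).smul (hy 3)) t3)
  have e : (fun y => toU C Y y l) = fun y => ((Real.sqrt (C.mu y))⁻¹ : ℂ) • Y y l.castSucc
      + (C.nu y : ℂ) • pd l (fun z => Y z 3) y + (-((pd l C.nu y : ℝ) : ℂ)) • Y y 3 := by
    funext y
    simp only [toU, smul_eq_mul]
    ring
  rw [e]
  intro x hx i hi
  refine (ht x hx i hi).trans ?_
  have hS := h.nonneg ⟨x, hx⟩
  have : Kc l ≤ ∑ k, Kc k := Finset.single_le_sum (fun k _ => hKc k) (Finset.mem_univ l)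
  nlinarith

/-- A sequence of amplitudes. -/
theorem exists_amplitudes (hE : PlaneExistOut) (C : Coef) {B : R3 → Matrix (Fin 4) (Fin 4) ℂ}
    (hB : ∀ a b, ContDiff ℝ ∞ fun x => B x a b) {θ : C3} (hθ : θ ≠ 0) (hnull : ∑ i, θ i ^ 2 = 0)
    (R : ℝ) {Y₀ : R3 → Fin 4 → ℂ} (hY₀ : ContDiff ℝ ∞ Y₀) :
    ∃ Y : ℕ → R3 → Fin 4 → ℂ, Y 0 = Y₀ ∧ (∀ k, ContDiff ℝ ∞ (Y k)) ∧
      ∀ k, ∀ x ∈ ball (0 : R3) R, transp C θ (Y (k + 1)) x = -sysOp (ikA C) B (Y k) x := by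
  let M : R3 → Matrix (Fin 4) (Fin 4) ℂ := fun x => (-(1 : ℂ) / 2) • ∑ i, θ i • ikA C i x
  have hM : ∀ a b, ContDiff ℝ ∞ fun x => M x a b := fun a b => by
    simp only [M, Matrix.smul_apply, Matrix.sum_apply, smul_eq_mul]
    exact contDiff_const.mul (ContDiff.sum fun i _ => contDiff_const.mul (contDiff_ikA C i a b))
  have step : ∀ Z : {Z : R3 → Fin 4 → ℂ // ContDiff ℝ ∞ Z},
      ∃ Z' : {Z : R3 → Fin 4 → ℂ // ContDiff ℝ ∞ Z},
        ∀ x ∈ ball (0 : R3) R, transp C θ Z'.1 x = -sysOp (ikA C) B Z.1 x := fun Z => by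
    obtain ⟨v, hv, he⟩ := hE (Fin 4) M hM θ hθ hnull R
      (fun x => (-(1 : ℂ) / 2) • sysOp (ikA C) B Z.1 x)
      ((contDiff_sysOp (contDiff_ikA C) hB Z.2).const_smul _)
    refine ⟨⟨v, hv⟩, fun x hx => ?_⟩
    simp only [transp, he x hx, M, Matrix.smul_mulVec, Matrix.sum_mulVec]
    module
  choose next hnext using step
  exact ⟨fun k => (next^[k] ⟨Y₀, hY₀⟩).1, rfl, fun k => (next^[k] ⟨Y₀, hY₀⟩).2, fun k x hx => by
    simp only [Function.iterate_succ_apply']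
    exact hnext _ x hx⟩

/-- The tail of the partial sums. -/
def tail (Y : ℕ → R3 → Fin 4 → ℂ) (τ : ℝ) (n : ℕ) : R3 → Fin 4 → ℂ :=
  fun x => ∑ k ∈ Finset.range n, ((τ : ℂ)⁻¹ ^ (k + 2)) • Y (k + 2) x

theorem contDiff_tail {Y : ℕ → R3 → Fin 4 → ℂ} (hY : ∀ k, ContDiff ℝ ∞ (Y k)) (τ : ℝ) (n : ℕ) :
    ContDiff ℝ ∞ (tail Y τ n) :=
  ContDiff.sum fun k _ => (hY (k + 2)).const_smul _

/-- The expansion leaves one term. -/
theorem sysConj_expansion (C : Coef) (B : R3 → Matrix (Fin 4) (Fin 4) ℂ) {θ : C3}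
    {Y : ℕ → R3 → Fin 4 → ℂ} (hY : ∀ k, ContDiff ℝ ∞ (Y k)) {x : R3}
    (h0 : transp C θ (Y 0) x = 0)
    (hk : ∀ k, transp C θ (Y (k + 1)) x = -sysOp (ikA C) B (Y k) x) {τ : ℝ} (hτ : τ ≠ 0) (n : ℕ) :
    sysConj (ikA C) B τ θ (fun y => Y 0 y + (τ : ℂ)⁻¹ • Y 1 y + tail Y τ n y) x
      = ((τ : ℂ)⁻¹ ^ (n + 1)) • sysOp (ikA C) B (Y (n + 1)) x := by
  have hτ' : (τ : ℂ) ≠ 0 := by exact_mod_cast hτ
  have hc : ∀ k, sysConj (ikA C) B τ θ (Y k) x
      = sysOp (ikA C) B (Y k) x + (τ : ℂ) • transp C θ (Y k) x := fun k => rfl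
  have h01 : ContDiff ℝ ∞ fun y => Y 0 y + (τ : ℂ)⁻¹ • Y 1 y := (hY 0).add ((hY 1).const_smul _)
  induction n with
  | zero =>
    simp only [tail, Finset.range_zero, Finset.sum_empty, add_zero]
    rw [sysConj_add _ _ _ _ (hY 0) ((hY 1).const_smul _), sysConj_const_smul _ _ _ _ _ (hY 1),
      hc, hc, h0, hk, smul_add, smul_smul, inv_mul_cancel₀ hτ', one_smul, smul_zero, add_zero,
      zero_add, pow_one]
    abel
  | succ n ih =>
    have e : (fun y => Y 0 y + (τ : ℂ)⁻¹ • Y 1 y + tail Y τ (n + 1) y) = fun y =>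
        (Y 0 y + (τ : ℂ)⁻¹ • Y 1 y + tail Y τ n y) + ((τ : ℂ)⁻¹ ^ (n + 2)) • Y (n + 2) y := by
      funext y
      simp only [tail, Finset.sum_range_succ, add_assoc]
    rw [e, sysConj_add _ _ _ _ (h01.add (contDiff_tail hY τ n)) ((hY (n + 2)).const_smul _), ih,
      sysConj_const_smul _ _ _ _ _ (hY (n + 2)), hc, hk (n + 1), smul_add, smul_smul,
      show ((τ : ℂ)⁻¹ ^ (n + 2)) * τ = (τ : ℂ)⁻¹ ^ (n + 1) by
        rw [pow_succ _ (n + 1), mul_assoc, inv_mul_cancel₀ hτ', mul_one],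
      smul_neg, show n + 1 + 1 = n + 2 from rfl]
    abel

theorem Bd.pow_inv_smul {s : Set R3} {n : ℕ} {f : R3 → Fin 4 → ℂ} {S : ℝ}
    (hf : ContDiff ℝ ∞ f) (h : Bd s n f S) {τ : ℝ} (hτ : 0 < τ) (k : ℕ) :
    Bd s n (fun y => ((τ : ℂ)⁻¹ ^ k) • f y) (S / τ ^ k) := by
  intro x hx i hi
  rw [iteratedFDeriv_const_smul_apply' (hf.of_le (by exact_mod_cast le_top)).contDiffAt, norm_smul]
  simp only [norm_pow, norm_inv, Complex.norm_real, Real.norm_eq_abs, abs_of_pos hτ]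
  rw [div_eq_inv_mul, inv_pow]
  exact mul_le_mul_of_nonneg_left (h x hx i hi) (by positivity)

end Cgo

/-- (C3) special solutions. -/
theorem cgo (hI : IkeOut) (hS : SolveOut) (hE : PlaneExistOut) : CgoOut := by
  intro C θ hθ hnull R hR Y₀ hY₀ htr
  obtain ⟨B, hB, -, hid⟩ := hI C
  obtain ⟨Y, hY0, hY, hk⟩ := exists_amplitudes hE C hB hθ hnull (R + 1) hY₀
  obtain ⟨K, τ₀, m, p, hτ₀, hsol⟩ := hS (Fin 4) (ikA C) B (contDiff_ikA C) hB θ hθ hnull R 3 hR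
  set n := p + 1 with hn
  have hs : IsCompact (closedBall (0 : R3) (R + 1)) := isCompact_closedBall _ _
  have hF : ContDiff ℝ ∞ (sysOp (ikA C) B (Y (n + 1))) :=
    contDiff_sysOp (contDiff_ikA C) hB (hY (n + 1))
  obtain ⟨S, hS0, hSb⟩ := bd_of_compact hF.neg hs m
  choose SY hSY0 hSY using fun k => bd_of_compact (hY k) hs 3
  -- the remainder equation
  have hr : ∀ τ : ℝ, ∃ r : R3 → Fin 4 → ℂ, τ₀ ≤ τ → ContDiff ℝ ∞ r ∧
      (∀ x ∈ ball (0 : R3) R, sysConj (ikA C) B τ θ r x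
        = ((τ : ℂ)⁻¹ ^ (n + 1)) • -sysOp (ikA C) B (Y (n + 1)) x) ∧
      Bd (ball (0 : R3) R) 3 r (K * τ ^ p * (S / τ ^ (n + 1))) := by
    intro τ
    by_cases hτ : τ₀ ≤ τ
    · obtain ⟨r, h1, h2, h3⟩ := hsol τ hτ _ (hF.neg.const_smul ((τ : ℂ)⁻¹ ^ (n + 1)))
        (S / τ ^ (n + 1)) (hSb.pow_inv_smul hF.neg (hτ₀.trans_le hτ) _)
      exact ⟨r, fun _ => ⟨h1, h2, h3⟩⟩
    · exact ⟨0, fun h => absurd h hτ⟩
  choose r hr using hr
  refine ⟨Y 1, fun τ y => tail Y τ n y + r τ y,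
    (∑ k ∈ Finset.range n, SY (k + 2)) + |K| * S, max τ₀ 1, hY 1, by positivity, fun τ hτ => ?_⟩
  have hτ0 : τ₀ ≤ τ := (le_max_left _ _).trans hτ
  have hτ1 : 1 ≤ τ := (le_max_right _ _).trans hτ
  have hτp : 0 < τ := lt_of_lt_of_le one_pos hτ1
  obtain ⟨h1, h2, h3⟩ := hr τ hτ0
  have ht := contDiff_tail hY τ n
  refine ⟨ht.add h1, fun x hx i hi => ?_, fun x hx => ?_⟩
  · have hsub : ball (0 : R3) R ⊆ closedBall 0 (R + 1) :=
      ball_subset_closedBall.trans (closedBall_subset_closedBall (by linarith))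
    have htail : Bd (closedBall (0 : R3) (R + 1)) 3 (tail Y τ n)
        (∑ k ∈ Finset.range n, SY (k + 2) / τ ^ 2) :=
      Bd.sum _ (fun k => (hY (k + 2)).const_smul _) fun k _ =>
        ((hSY (k + 2)).pow_inv_smul (hY (k + 2)) hτp (k + 2)).mono subset_rfl le_rfl
          (div_le_div_of_nonneg_left (hSY0 _) (by positivity) (pow_le_pow_right₀ hτ1 (by omega)))
    refine (((htail.mono hsub le_rfl le_rfl).add ht h1 h3) x hx i hi).trans ?_
    rw [← Finset.sum_div, add_div]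
    gcongr
    rw [show K * τ ^ p * (S / τ ^ (n + 1)) = K * S / τ ^ 2 by
      rw [hn, show p + 1 + 1 = p + 2 from rfl, pow_add]
      field_simp]
    gcongr
    exact le_abs_self K
  · have hx' : x ∈ ball (0 : R3) (R + 1) := ball_subset_ball (by linarith) hx
    have hZ : ContDiff ℝ ∞ fun y => Y₀ y + (τ : ℂ)⁻¹ • Y 1 y + (tail Y τ n y + r τ y) :=
      (hY₀.add ((hY 1).const_smul _)).add (ht.add h1)
    funext l
    rw [lame_toU hid (Y := fun y => cexpθ τ θ y • (Y₀ y + (τ : ℂ)⁻¹ • Y 1 y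
      + (tail Y τ n y + r τ y))) (F := fun _ => 0) ((contDiff_cexpθ τ θ).smul hZ)
      (fun z hz => ?_) (fun _ _ => rfl) hx l]
    · simp
    have hz' : z ∈ ball (0 : R3) (R + 1) := ball_subset_ball (by linarith) hz
    rw [sysOp_cexpθ _ _ _ hnull hZ]
    have e : (fun y => Y₀ y + (τ : ℂ)⁻¹ • Y 1 y + (tail Y τ n y + r τ y))
        = fun y => (Y 0 y + (τ : ℂ)⁻¹ • Y 1 y + tail Y τ n y) + r τ y := by
      funext y
      rw [hY0, ← add_assoc]
    rw [e, sysConj_add _ _ _ _ (((hY 0).add ((hY 1).const_smul _)).add ht) h1,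
      sysConj_expansion C B hY (hY0 ▸ htr z hz') (fun k => hk k z hz') hτp.ne', h2 z hz, smul_neg,
      add_neg_cancel, smul_zero]

/-- (B'') solvability with finitely many derivatives. -/
theorem green (hI : IkeOut) (hS : SolveOut) : GreenOut := by
  intro C R hR
  obtain ⟨B, hB, -, hid⟩ := hI C
  set θ : C3 := ![1, Complex.I, 0] with hθdef
  have hθ : θ ≠ 0 := fun h => by simpa [hθdef] using congr_fun h 0
  have hnull : ∑ i, θ i ^ 2 = 0 := by simp [hθdef, Fin.sum_univ_three]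
  obtain ⟨K, τ₀, m, p, hτ₀, hsol⟩ := hS (Fin 4) (ikA C) B (contDiff_ikA C) hB θ hθ hnull R 3 hR
  -- the forcing of the conjugated system
  let g : R3 → ℂ := fun x => cexpθ (-τ₀) θ x * ((Real.sqrt (C.mu x))⁻¹ : ℂ)
  have hg : ContDiff ℝ ∞ g := (contDiff_cexpθ _ _).mul
    ((contDiff_ofReal (contDiff_sqrtMu C)).inv fun x => by
      exact_mod_cast (Real.sqrt_pos.2 (C.mu_pos x)).ne')
  have hs : IsCompact (closedBall (0 : R3) (R + 1)) := isCompact_closedBall _ _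
  obtain ⟨Kg, hKg, hgb⟩ := bd_smul (F := C3) hg hs m
  let J : C3 →L[ℝ] (Fin 4 → ℂ) := ∑ l : Fin 3,
    (ContinuousLinearMap.single ℝ (fun _ : Fin 4 => ℂ) l.castSucc).comp (ev l)
  obtain ⟨Ke, hKe, heb⟩ :=
    bd_smul (F := Fin 4 → ℂ) (contDiff_cexpθ τ₀ θ) (isCompact_closedBall (0 : R3) R) 3
  obtain ⟨Ku, hKu, hub⟩ := bd_toU C (isCompact_closedBall (0 : R3) R) 2
  refine ⟨Ku * (Ke * (|K| * τ₀ ^ p * (‖J‖ * Kg))), m, fun f hf S hf' => ?_⟩
  have hfb : Bd (closedBall (0 : R3) (R + 1)) m f S :=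
    Bd.mono hf' (closedBall_subset_closedBall (by linarith)) le_rfl le_rfl
  have hgf : ContDiff ℝ ∞ fun y => g y • f y := hg.smul hf
  obtain ⟨r, hr, hreq, hrb⟩ := hsol τ₀ le_rfl (fun y => J (g y • f y)) (J.contDiff.comp hgf)
    (‖J‖ * (Kg * S)) ((hgb f S hf hfb).clm hgf J)
  set Z : R3 → Fin 4 → ℂ := fun y => cexpθ τ₀ θ y • r y with hZdef
  have hZ : ContDiff ℝ ∞ Z := (contDiff_cexpθ τ₀ θ).smul hr
  refine ⟨toU C Z, contDiff_toU C hZ, fun x hx => ?_, ?_⟩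
  · have hJ : ∀ (v : C3), J v 3 = 0 ∧ ∀ l : Fin 3, J v l.castSucc = v l := fun v => by
      simp [J, ev, Fin.sum_univ_three, Pi.single_apply, Fin.forall_fin_succ]
    funext l
    rw [lame_toU hid (F := fun y => cexpθ τ₀ θ y • J (g y • f y)) hZ (fun y hy => ?_)
      (fun y hy => by simp [(hJ _).1]) hx l]
    · have hsq : (Real.sqrt (C.mu x) : ℂ) ≠ 0 := by
        exact_mod_cast (Real.sqrt_pos.2 (C.mu_pos x)).ne'
      simp only [Pi.smul_apply, (hJ _).2, smul_eq_mul, g]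
      rw [show cexpθ τ₀ θ x * (cexpθ (-τ₀) θ x * ((Real.sqrt (C.mu x) : ℂ))⁻¹ * f x l)
        = (cexpθ τ₀ θ x * cexpθ (-τ₀) θ x) * ((Real.sqrt (C.mu x) : ℂ))⁻¹ * f x l by ring,
        cexpθ_neg_mul, one_mul, mul_inv_cancel_left₀ hsq]
    · rw [sysOp_cexpθ _ _ _ hnull hr, hreq y hy]
  · intro x hx i hi
    have hx' := ball_subset_closedBall hx
    have hcl : closure (ball (0 : R3) R) = closedBall 0 R := closure_ball 0 hR.ne'
    have hrb' : Bd (closedBall (0 : R3) R) 3 r (|K| * τ₀ ^ p * (‖J‖ * (Kg * S))) := by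
      intro y hy k hk
      have hS0 : 0 ≤ S :=
        (norm_nonneg _).trans (hf' 0 (mem_closedBall_self (by linarith)) 0 (Nat.zero_le m))
      have hK : ∀ z ∈ ball (0 : R3) R,
          ‖iteratedFDeriv ℝ k r z‖ ≤ |K| * τ₀ ^ p * (‖J‖ * (Kg * S)) := fun z hz =>
        (hrb z hz k hk).trans (by gcongr; exact le_abs_self K)
      rw [← hcl] at hy
      exact le_on_closure hK
        (hr.continuous_iteratedFDeriv (by exact_mod_cast le_top)).norm.continuousOn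
        continuousOn_const hy
    refine (hub Z _ hZ (heb r _ hr hrb') x hx' i hi).trans (le_of_eq ?_)
    ring

end Vale.Agent.P136
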