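import Vale.Agent.P136.Mod.Calc

/-!
# Extension of the moduli (PROOF.md, end of section 1)

Admissible moduli extend to coefficients on the whole space; if two pairs have equal jets on the
boundary, the second pair is glued to the extension of the first one across the boundary and the
integral identity follows from the common pairing.
-/

noncomputable section

namespace Vale.Agent.P136.Extend

open MeasureTheory Metric Filter Set
open scoped Topology ContDiff Manifold

open Vale.Agent.P136

theorem eq_zero_of_iterated {F : Type} [NormedAddCommGroup F] [NormedSpace ℝ F] {d : R3 → F}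
    {x : R3} (h : iteratedFDeriv ℝ 0 d x = 0) : d x = 0 := by
  have := congrArg (fun T => T 0) h
  simpa only [iteratedFDeriv_zero_apply, zero_apply] using this

/-- A function that vanishes to infinite order on the frontier of an open set stays smooth when it
is cut off outside the closure. -/
theorem contDiff_indicator {Ω : Set R3} (hΩ : IsOpen Ω) (n : ℕ) :
    ∀ {F : Type} [NormedAddCommGroup F] [NormedSpace ℝ F] (d : R3 → F),
      ContDiff ℝ ∞ d → (∀ m : ℕ, ∀ x ∈ frontier Ω, iteratedFDeriv ℝ m d x = 0) →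
      ContDiff ℝ n ((closure Ω).indicator d) := by
  induction n with
  | zero =>
    intro F _ _ d hd hflat
    rw [Nat.cast_zero, contDiff_zero]
    refine continuous_indicator (fun x hx => ?_) hd.continuous.continuousOn
    have hx' : x ∈ frontier Ω := frontier_closure_subset hx
    exact eq_zero_of_iterated (hflat 0 x hx')
  | succ n ih =>
    intro F _ _ d hd hflat
    have key : ∀ x, HasFDerivAt ((closure Ω).indicator d)
        ((closure Ω).indicator (fderiv ℝ d) x) x := by
      intro x
      by_cases hx : x ∈ closure Ω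
      · rw [indicator_of_mem hx]
        have hdiff := (hd.differentiable (by simp) x).hasFDerivAt
        by_cases hxΩ : x ∈ Ω
        · refine hdiff.congr_of_eventuallyEq ?_
          filter_upwards [hΩ.mem_nhds hxΩ] with y hy
          exact indicator_of_mem (subset_closure hy) d
        · have hf : x ∈ frontier Ω := by
            rw [hΩ.frontier_eq]
            exact ⟨hx, hxΩ⟩
          have h0 : d x = 0 := eq_zero_of_iterated (hflat 0 x hf)
          have h1 : fderiv ℝ d x = 0 := by
            rw [← norm_eq_zero, ← norm_iteratedFDeriv_zero (𝕜 := ℝ) (f := fderiv ℝ d),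
              norm_iteratedFDeriv_fderiv, hflat 1 x hf, norm_zero]
          rw [h1] at hdiff ⊢
          rw [hasFDerivAt_iff_isLittleO_nhds_zero] at hdiff ⊢
          refine (Asymptotics.isBigO_of_le _ fun h => ?_).trans_isLittleO hdiff
          simp only [h0, indicator_of_mem hx, sub_zero, zero_apply]
          exact norm_indicator_le_norm_self _ _
      · rw [indicator_of_notMem hx]
        refine (hasFDerivAt_const (0 : F) x).congr_of_eventuallyEq ?_
        filter_upwards [isClosed_closure.isOpen_compl.mem_nhds hx] with y hy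
        exact indicator_of_notMem hy d
    rw [Nat.cast_succ, contDiff_succ_iff_fderiv]
    refine ⟨fun x => (key x).differentiableAt, by simp, ?_⟩
    rw [show fderiv ℝ ((closure Ω).indicator d) = (closure Ω).indicator (fderiv ℝ d) from
      funext fun x => (key x).fderiv]
    refine ih _ (hd.fderiv_right (m := ∞) (by simp)) fun m x hx => ?_
    rw [← norm_eq_zero, norm_iteratedFDeriv_fderiv, hflat (m + 1) x hx, norm_zero]

open Classical in
/-- Smooth gluing of two functions with equal jets on the frontier. -/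
theorem contDiff_glue {Ω : Set R3} (hΩ : IsOpen Ω) {f g : R3 → ℝ} (hf : ContDiff ℝ ∞ f)
    (hg : ContDiff ℝ ∞ g)
    (h : ∀ m : ℕ, ∀ x ∈ frontier Ω, iteratedFDeriv ℝ m f x = iteratedFDeriv ℝ m g x) :
    ContDiff ℝ ∞ fun x => if x ∈ closure Ω then g x else f x := by
  have hsmooth : ContDiff ℝ ∞ ((closure Ω).indicator fun x => g x - f x) := by
    refine contDiff_infty.2 fun n => contDiff_indicator hΩ n _ (hg.sub hf) fun m x hx => ?_
    rw [show (fun x => g x - f x) = g - f from rfl,
      iteratedFDeriv_sub_apply (hg.of_le (by exact_mod_cast le_top)).contDiffAt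
        (hf.of_le (by exact_mod_cast le_top)).contDiffAt, h m x hx, sub_self]
  convert hf.add hsmooth using 1
  funext x
  by_cases hx : x ∈ closure Ω <;> simp [hx]

/-- A smooth cut-off equal to one near a compact set, supported in an open set and in a ball. -/
theorem exists_cutoff {K O : Set R3} (hK : IsCompact K) (hO : IsOpen O) (hKO : K ⊆ O) :
    ∃ (χ : R3 → ℝ) (r : ℝ), 0 < r ∧ ContDiff ℝ ∞ χ ∧ (∃ U, IsOpen U ∧ K ⊆ U ∧ ∀ x ∈ U, χ x = 1) ∧
      (∀ x, 0 ≤ χ x ∧ χ x ≤ 1) ∧ (∀ x, x ∉ O → χ x = 0) ∧ ∀ x, r ≤ ‖x‖ → χ x = 0 := by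
  obtain ⟨r₀, hr₀⟩ := hK.isBounded.subset_ball (0 : R3)
  set r := max r₀ 1 with hr
  have hsub : K ⊆ O ∩ ball 0 r :=
    subset_inter hKO (hr₀.trans (ball_subset_ball (le_max_left _ _)))
  obtain ⟨f, hf1, hf0, hf01⟩ := exists_contMDiffMap_one_nhds_of_subset_interior
    (n := (⊤ : ℕ∞)) 𝓘(ℝ, R3) hK.isClosed (by rwa [(hO.inter isOpen_ball).interior_eq])
  obtain ⟨U, hU, hKU, hU1⟩ := eventually_nhdsSet_iff_exists.1 hf1
  refine ⟨f, r, lt_max_of_lt_right one_pos, contMDiff_iff_contDiff.1 f.contMDiff,
    ⟨U, hU, hKU, hU1⟩, fun x => ⟨(hf01 x).1, (hf01 x).2⟩, fun x hx => hf0 x fun h => hx h.1,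
    fun x hx => hf0 x fun h => ?_⟩
  have := mem_ball_zero_iff.1 h.2
  linarith

/-- (B0) admissible moduli extend to coefficients on the whole space. -/
theorem coefExt : CoefExtOut := by
  intro Ω lam mu hΩ hA
  have hK : IsCompact (closure Ω) := hΩ.bounded.isCompact_closure
  obtain ⟨χ, r, hr, hχ, ⟨U, hU, hKU, hU1⟩, h01, hO, hout⟩ :=
    exists_cutoff (O := {x | 0 < mu x} ∩ {x | 0 < 3 * lam x + 2 * mu x}) hK
      ((isOpen_lt continuous_const hA.smooth_mu.continuous).inter
        (isOpen_lt continuous_const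
          ((continuous_const.mul hA.smooth_lam.continuous).add
            (continuous_const.mul hA.smooth_mu.continuous))))
      (fun x hx => ⟨hA.mu_pos x hx, hA.bulk_pos x hx⟩)
  refine ⟨{
    lam := fun x => χ x * lam x + (1 - χ x)
    mu := fun x => χ x * mu x + (1 - χ x)
    lam0 := 1
    rad := r
    rad_pos := hr
    smooth_lam := (hχ.mul hA.smooth_lam).add (contDiff_const.sub hχ)
    smooth_mu := (hχ.mul hA.smooth_mu).add (contDiff_const.sub hχ)
    mu_pos := ?_
    bulk_pos := ?_
    lam_out := fun x hx => by simp [hout x hx]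
    mu_out := fun x hx => by simp [hout x hx] }, U, hU, hKU, fun x hx => by simp [hU1 x hx]⟩
  · intro x
    by_cases hx : x ∈ {x | 0 < mu x} ∩ {x | 0 < 3 * lam x + 2 * mu x}
    · have h1 : 0 < mu x := hx.1
      rcases (h01 x).1.eq_or_lt with h | h
      · simp [← h]
      · nlinarith [mul_pos h h1, (h01 x).2]
    · simp [hO x hx]
  · intro x
    by_cases hx : x ∈ {x | 0 < mu x} ∩ {x | 0 < 3 * lam x + 2 * mu x}
    · have h1 : 0 < 3 * lam x + 2 * mu x := hx.2
      rcases (h01 x).1.eq_or_lt with h | h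
      · norm_num [← h]
      · nlinarith [mul_pos h h1, (h01 x).2]
    · norm_num [hO x hx]

theorem energy_comm (lam mu : R3 → ℝ) (u v : R3 → C3) : energy lam mu u v = energy lam mu v u := by
  funext x
  simp only [energy]
  congr 1
  · ring
  · congr 1
    exact Finset.sum_congr rfl fun i _ => Finset.sum_congr rfl fun j _ => mul_comm _ _

theorem continuousOn_energy {U : Set R3} (hU : IsOpen U) {lam mu : R3 → ℝ} (hl : Continuous lam)
    (hm : Continuous mu) {u v : R3 → C3} (hu : ContDiffOn ℝ 2 u U) (hv : ContDiffOn ℝ 2 v U) :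
    ContinuousOn (energy lam mu u v) U := by
  have hpd : ∀ {w : R3 → C3}, ContDiffOn ℝ 2 w U → ∀ i j : Fin 3,
      ContinuousOn (pd i fun y => w y j) U := fun {w} hw i j =>
    ((contDiffOn_pi.1 hw j).continuousOn_fderiv_of_isOpen hU (by simp)).clm_apply continuousOn_const
  have hdvg : ∀ {w : R3 → C3}, ContDiffOn ℝ 2 w U → ContinuousOn (dvg w) U := fun {w} hw =>
    continuousOn_finsetSum _ fun i _ => hpd hw i i
  have hst : ∀ {w : R3 → C3}, ContDiffOn ℝ 2 w U → ∀ i j : Fin 3,
      ContinuousOn (strain w i j) U := fun {w} hw i j =>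
    ((hpd hw j i).add (hpd hw i j)).div_const _
  exact ((Complex.continuous_ofReal.comp hl).continuousOn.mul ((hdvg hu).mul (hdvg hv))).add
    ((continuousOn_const.mul (Complex.continuous_ofReal.comp hm).continuousOn).mul
      (continuousOn_finsetSum _ fun i _ => continuousOn_finsetSum _ fun j _ =>
        (hst hu i j).mul (hst hv i j)))

/-- The Lamé operator is local in the coefficients. -/
theorem lame_congr {lam lam' mu mu' : R3 → ℝ} {u : R3 → C3} {x : R3} (hl : lam =ᶠ[𝓝 x] lam')
    (hm : mu =ᶠ[𝓝 x] mu') : lame lam mu u x = lame lam' mu' u x := by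
  funext l
  simp only [lame]
  congr 1
  · exact pd_congr (hl.mono fun y hy => by simp only [hy])
  · exact Finset.sum_congr rfl fun j _ => pd_congr (hm.mono fun y hy => by simp only [hy])

open Classical in
/-- (B') equal jets give a common extension carrying the identity. -/
theorem extend : ExtendOut := by
  intro Ω lam₁ mu₁ lam₂ mu₂ hΩ hA₁ hA₂ hsame hjet
  obtain ⟨C₁, U, hU, hKU, hCU⟩ := coefExt Ω lam₁ mu₁ hΩ hA₁
  obtain ⟨r₀, hr₀⟩ := hΩ.bounded.isCompact_closure.isBounded.subset_ball (0 : R3)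
  set R := max r₀ C₁.rad with hR
  have hKR : closure Ω ⊆ ball 0 R := hr₀.trans (ball_subset_ball (le_max_left _ _))
  have hnot : ∀ x : R3, R ≤ ‖x‖ → x ∉ closure Ω := fun x hx h => by
    have := mem_ball_zero_iff.1 (hKR h)
    linarith
  have hflat : ∀ {f g : R3 → ℝ} {C : R3 → ℝ}, (∀ x ∈ U, C x = f x) →
      (∀ m : ℕ, ∀ x ∈ frontier Ω, iteratedFDeriv ℝ m f x = iteratedFDeriv ℝ m g x) →
      ∀ m : ℕ, ∀ x ∈ frontier Ω, iteratedFDeriv ℝ m C x = iteratedFDeriv ℝ m g x := by
    intro f g C hCf hfg m x hx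
    rw [← hfg m x hx]
    refine (Filter.EventuallyEq.iteratedFDeriv ℝ ?_ m).eq_of_nhds
    filter_upwards [hU.mem_nhds (hKU (frontier_subset_closure hx))] with y hy
    exact hCf y hy
  have hl₂ := contDiff_glue hΩ.isOpen C₁.smooth_lam hA₂.smooth_lam
    (hflat (fun x hx => (hCU x hx).1) fun m x hx => (hjet m x hx).1)
  have hm₂ := contDiff_glue hΩ.isOpen C₁.smooth_mu hA₂.smooth_mu
    (hflat (fun x hx => (hCU x hx).2) fun m x hx => (hjet m x hx).2)
  let C₂ : Coef :=
    { lam := fun x => if x ∈ closure Ω then lam₂ x else C₁.lam x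
      mu := fun x => if x ∈ closure Ω then mu₂ x else C₁.mu x
      lam0 := C₁.lam0
      rad := R
      rad_pos := lt_max_of_lt_right C₁.rad_pos
      smooth_lam := hl₂
      smooth_mu := hm₂
      mu_pos := fun x => by
        split_ifs with h
        · exact hA₂.mu_pos x h
        · exact C₁.mu_pos x
      bulk_pos := fun x => by
        split_ifs with h
        · exact hA₂.bulk_pos x h
        · exact C₁.bulk_pos x
      lam_out := fun x hx => by
        simp [hnot x hx, C₁.lam_out x ((le_max_right _ _).trans hx)]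
      mu_out := fun x hx => by
        simp [hnot x hx, C₁.mu_out x ((le_max_right _ _).trans hx)] }
  refine ⟨C₁, C₂, R, C₂.rad_pos, hKR,
    ⟨le_max_right _ _, le_rfl, fun x hx => by simp [C₂, hnot x hx],
      fun x hx => by simp [C₂, hnot x hx]⟩, ?_,
    fun x hx => ⟨(hCU x (hKU hx)).1, (hCU x (hKU hx)).2, by simp [C₂, hx], by simp [C₂, hx]⟩⟩
  intro R' u₁ u₂ hRR' hu₁ hu₂ hs₁ hs₂
  -- outside `Ω` the coefficients agree
  have heq : ∀ x, x ∉ Ω → C₁.lam x = C₂.lam x ∧ C₁.mu x = C₂.mu x := by
    intro x hx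
    by_cases hc : x ∈ closure Ω
    · have hf : x ∈ frontier Ω := by
        rw [hΩ.isOpen.frontier_eq]
        exact ⟨hc, hx⟩
      have h := hjet 0 x hf
      have h1 := congrArg (fun T => T 0) h.1
      have h2 := congrArg (fun T => T 0) h.2
      simp only [iteratedFDeriv_zero_apply] at h1 h2
      simp [C₂, hc, (hCU x (hKU hc)).1, (hCU x (hKU hc)).2, h1, h2]
    · simp [C₂, hc]
  rw [setIntegral_eq_of_subset_of_forall_sdiff_eq_zero measurableSet_ball
    (subset_closure.trans hKR : Ω ⊆ ball 0 R)]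
  swap
  · intro x hx
    obtain ⟨h1, h2⟩ := heq x hx.2
    simp [energy, h1, h2]
  obtain ⟨Λ, hsymm, hD₁, hD₂⟩ := hsame
  have hKR' : closure Ω ⊆ ball 0 R' := hKR.trans (ball_subset_ball hRR'.le)
  have e₁ : ∀ x ∈ Ω, lame lam₁ mu₁ u₁ x = 0 := fun x hx => by
    rw [← hs₁ x (hKR' (subset_closure hx))]
    refine lame_congr ?_ ?_ <;>
      filter_upwards [hU.mem_nhds (hKU (subset_closure hx))] with y hy
    · exact (hCU y hy).1.symm
    · exact (hCU y hy).2.symm
  have e₂ : ∀ x ∈ Ω, lame lam₂ mu₂ u₂ x = 0 := fun x hx => by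
    rw [← hs₂ x (hKR' (subset_closure hx))]
    refine lame_congr ?_ ?_ <;> filter_upwards [hΩ.isOpen.mem_nhds hx] with y hy
    · simp [C₂, subset_closure hy]
    · simp [C₂, subset_closure hy]
  have hΛ : ∫ x in Ω, energy lam₁ mu₁ u₁ u₂ x = ∫ x in Ω, energy lam₂ mu₂ u₁ u₂ x := by
    rw [← hD₁ _ u₁ u₂ isOpen_ball hKR' hu₁ hu₂ e₁, hsymm,
      hD₂ _ u₂ u₁ isOpen_ball hKR' hu₂ hu₁ e₂, energy_comm]
  have hc₁ : ∀ x ∈ Ω, energy C₁.lam C₁.mu u₁ u₂ x = energy lam₁ mu₁ u₁ u₂ x := fun x hx => by
    simp [energy, (hCU x (hKU (subset_closure hx))).1, (hCU x (hKU (subset_closure hx))).2]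
  have hc₂ : ∀ x ∈ Ω, energy C₂.lam C₂.mu u₁ u₂ x = energy lam₂ mu₂ u₁ u₂ x := fun x hx => by
    simp [energy, C₂, subset_closure hx]
  have hint : ∀ {lam mu : R3 → ℝ}, Continuous lam → Continuous mu →
      IntegrableOn (energy lam mu u₁ u₂) Ω := fun hl hm =>
    (((continuousOn_energy isOpen_ball hl hm hu₁ hu₂).mono hKR').integrableOn_compact
      hΩ.bounded.isCompact_closure).mono_set subset_closure
  rw [setIntegral_congr_fun hΩ.isOpen.measurableSet
    (g := fun x => energy lam₁ mu₁ u₁ u₂ x - energy lam₂ mu₂ u₁ u₂ x)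
    (fun x hx => by simp only [hc₁ x hx, hc₂ x hx]),
    integral_sub (hint hA₁.smooth_lam.continuous hA₁.smooth_mu.continuous)
      (hint hA₂.smooth_lam.continuous hA₂.smooth_mu.continuous), hΛ, sub_self]

end Vale.Agent.P136.Extend

namespace Vale.Agent.P136

theorem coefExt : CoefExtOut := Extend.coefExt

theorem extend : ExtendOut := Extend.extend

end Vale.Agent.P136
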