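import Vale.Agent.P136.Spec

/-!
# Spinors and null vectors

`pauli w σ` forgets exactly the multiples of `null σ`; `lift σ` is a linear right inverse.
-/

noncomputable section

namespace Vale.Agent.P136.Orth

open scoped Matrix ComplexConjugate

/-- The squared length of a spinor. -/
def nrm2 (σ : Fin 2 → ℂ) : ℂ := σ 0 * conj (σ 0) + σ 1 * conj (σ 1)

theorem nrm2_ne {σ : Fin 2 → ℂ} (hσ : σ ≠ 0) : nrm2 σ ≠ 0 := by
  intro h
  have h' : (Complex.normSq (σ 0) + Complex.normSq (σ 1) : ℝ) = 0 := by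
    have := congrArg Complex.re h
    simpa [nrm2, Complex.mul_conj] using this
  have h0 := Complex.normSq_nonneg (σ 0)
  have h1 := Complex.normSq_nonneg (σ 1)
  refine hσ (funext (Fin.forall_fin_two.mpr ⟨?_, ?_⟩))
  · exact Complex.normSq_eq_zero.mp (by linarith)
  · exact Complex.normSq_eq_zero.mp (by linarith)

/-- A vector with a given spinor. -/
def lift (σ φ : Fin 2 → ℂ) : C3 :=
  let a' := conj (σ 0); let b' := conj (σ 1)
  let c := a' * φ 0 + b' * φ 1; let N := nrm2 σ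
  let p := φ 0 * b' / N + c * b' * σ 0 / N ^ 2
  let q := φ 1 * a' / N + c * a' * σ 1 / N ^ 2
  ![(p + q) / 2, (q - p) / (2 * Complex.I), φ 0 * a' / N - c * b' * σ 1 / N ^ 2]

/-- The coefficient of the null vector. -/
def kerCoef (σ : Fin 2 → ℂ) (w : C3) : ℂ :=
  let φ := pauli w ![-conj (σ 1), conj (σ 0)]
  (conj (σ 0) * φ 0 + conj (σ 1) * φ 1) / (2 * nrm2 σ ^ 2)

theorem null_sq (σ : Fin 2 → ℂ) : ∑ i, null σ i ^ 2 = 0 := by
  simp [null, Fin.sum_univ_three, mul_pow, Complex.I_sq]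
  ring

theorem null_dot (σ : Fin 2 → ℂ) : null σ ⬝ᵥ null σ = 0 := by
  simpa [dotProduct, sq] using null_sq σ

theorem null_ne {σ : Fin 2 → ℂ} (hσ : σ ≠ 0) : null σ ≠ 0 := by
  intro h
  refine hσ (funext fun i => ?_)
  have h0 := congrFun h 0
  have h1 := congrFun h 1
  simp [null] at h0 h1
  revert i
  refine Fin.forall_fin_two.mpr ⟨?_, ?_⟩ <;> apply pow_eq_zero_iff (n := 2) two_ne_zero |>.mp
  · linear_combination (1 / 2 : ℂ) * h0 + (1 / 2 : ℂ) * h1
  · linear_combination (-1 / 2 : ℂ) * h0 + (1 / 2 : ℂ) * h1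

theorem pauli_null (σ : Fin 2 → ℂ) : pauli (null σ) σ = 0 := by
  funext i
  fin_cases i <;> simp [pauli, null] <;> ring_nf <;> simp [Complex.I_sq] <;> ring

theorem eps_pauli (σ : Fin 2 → ℂ) (w : C3) :
    σ 0 * pauli w σ 1 - σ 1 * pauli w σ 0 = null σ ⬝ᵥ w := by
  simp [pauli, null, dotProduct, Fin.sum_univ_three]
  ring

theorem pauli_add (u v : C3) (σ : Fin 2 → ℂ) : pauli (u + v) σ = pauli u σ + pauli v σ := by
  funext i; fin_cases i <;> simp [pauli] <;> ring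

theorem pauli_sub (u v : C3) (σ : Fin 2 → ℂ) : pauli (u - v) σ = pauli u σ - pauli v σ := by
  funext i; fin_cases i <;> simp [pauli] <;> ring

theorem pauli_smul (c : ℂ) (u : C3) (σ : Fin 2 → ℂ) : pauli (c • u) σ = c • pauli u σ := by
  funext i; fin_cases i <;> simp [pauli] <;> ring

theorem pauli_smul' (c : ℂ) (u : C3) (σ : Fin 2 → ℂ) : pauli u (c • σ) = c • pauli u σ := by
  funext i; fin_cases i <;> simp [pauli] <;> ring

theorem pauli_lift {σ : Fin 2 → ℂ} (hσ : σ ≠ 0) (φ : Fin 2 → ℂ) : pauli (lift σ φ) σ = φ := by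
  have hN := nrm2_ne hσ
  funext i
  fin_cases i <;> simp [pauli, lift] <;> field_simp <;> simp [nrm2] <;> ring

theorem decomp {σ : Fin 2 → ℂ} (hσ : σ ≠ 0) (w : C3) :
    w = lift σ (pauli w σ) + kerCoef σ w • null σ := by
  have hN := nrm2_ne hσ
  funext i
  fin_cases i <;> simp [pauli, lift, kerCoef, null] <;> field_simp <;> simp [nrm2] <;> ring_nf <;>
    simp [Complex.I_sq] <;> ring

/-- The transverse unit vector. -/
def nvec (σ : Fin 2 → ℂ) : C3 := lift σ σ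

/-- A vector dual to the null vector. -/
def mvec (σ : Fin 2 → ℂ) : C3 := lift σ ![-conj (σ 1) / nrm2 σ, conj (σ 0) / nrm2 σ]

theorem null_dot_nvec {σ : Fin 2 → ℂ} (hσ : σ ≠ 0) : null σ ⬝ᵥ nvec σ = 0 := by
  rw [← eps_pauli, nvec, pauli_lift hσ]; ring

theorem null_dot_mvec {σ : Fin 2 → ℂ} (hσ : σ ≠ 0) : null σ ⬝ᵥ mvec σ = 1 := by
  rw [← eps_pauli, mvec, pauli_lift hσ]
  have hN := nrm2_ne hσ
  simp
  field_simp
  simp [nrm2]

theorem pauli_pauli (u v : C3) (σ : Fin 2 → ℂ) :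
    pauli u (pauli v σ) + pauli v (pauli u σ) = (2 * (u ⬝ᵥ v)) • σ := by
  funext i
  fin_cases i <;> simp [pauli, dotProduct, Fin.sum_univ_three] <;> ring_nf <;>
    simp [Complex.I_sq] <;> ring

theorem smul_spinor_inj {σ : Fin 2 → ℂ} (hσ : σ ≠ 0) {a b : ℂ} (h : a • σ = b • σ) : a = b :=
  smul_left_injective ℂ hσ h

theorem nvec_dot_nvec {σ : Fin 2 → ℂ} (hσ : σ ≠ 0) : nvec σ ⬝ᵥ nvec σ = 1 := by
  have h := pauli_pauli (nvec σ) (nvec σ) σ
  simp only [nvec, pauli_lift hσ] at h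
  rw [← two_smul ℂ σ] at h
  have := smul_spinor_inj hσ h
  simp only [nvec]
  linear_combination (-1 / 2 : ℂ) * this

/-- A vector orthogonal to the null vector is seen through its transverse component. -/
theorem pauli_of_perp {σ : Fin 2 → ℂ} (hσ : σ ≠ 0) {d : C3} (hd : null σ ⬝ᵥ d = 0) :
    pauli d σ = (nvec σ ⬝ᵥ d) • σ := by
  rw [← eps_pauli] at hd
  have hN := nrm2_ne hσ
  obtain ⟨α, hα⟩ : ∃ α : ℂ, pauli d σ = α • σ := by
    refine ⟨(conj (σ 0) * pauli d σ 0 + conj (σ 1) * pauli d σ 1) / nrm2 σ, funext fun i => ?_⟩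
    fin_cases i <;> simp <;> field_simp <;> simp [nrm2]
    · linear_combination (-conj (σ 1)) * hd
    · linear_combination (conj (σ 0)) * hd
  have h := pauli_pauli d (nvec σ) σ
  rw [hα, pauli_smul', nvec, pauli_lift hσ, hα, ← add_smul] at h
  have := smul_spinor_inj hσ h
  rw [hα, dotProduct_comm, nvec]
  congr 1
  linear_combination (1 / 2 : ℂ) * this

theorem lift_add (σ φ ψ : Fin 2 → ℂ) : lift σ (φ + ψ) = lift σ φ + lift σ ψ := by
  funext i; fin_cases i <;> simp [lift] <;> ring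

theorem lift_smul (σ : Fin 2 → ℂ) (c : ℂ) (φ : Fin 2 → ℂ) : lift σ (c • φ) = c • lift σ φ := by
  funext i; fin_cases i <;> simp [lift] <;> ring

end Vale.Agent.P136.Orth
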