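import Vale.Agent.P136.Mod.Calc
import Vale.Agent.P136.Mod.OrthAlg

/-!
# Orthogonality gives a gauge

Each solution of the first transport system has an extension which solves the second and agrees with
it far out, and likewise for the adjoint systems. Their pairing is constant on planes, so the value
of the extension depends only on the value of the solution, linearly.
-/

noncomputable section

namespace Vale.Agent.P136.Gauge

open MeasureTheory Metric Filter
open scoped BigOperators Matrix ContDiff Topology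

/-! ### Calculus -/

lemma dD_congr {E : Type*} [NormedAddCommGroup E] [NormedSpace ℂ E] {θ : C3} {x : R3}
    {f g : R3 → E} (h : f =ᶠ[𝓝 x] g) : dD θ f x = dD θ g x := by
  simp [dD, pd_congr h]

lemma dD_const {E : Type*} [NormedAddCommGroup E] [NormedSpace ℂ E] (θ : C3) (x : R3) (c : E) :
    dD θ (fun _ => c) x = 0 := by
  simp [dD]

lemma dD_add {E : Type*} [NormedAddCommGroup E] [NormedSpace ℂ E] {θ : C3} {x : R3} {f g : R3 → E}
    (hf : DifferentiableAt ℝ f x) (hg : DifferentiableAt ℝ g x) :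
    dD θ (fun y => f y + g y) x = dD θ f x + dD θ g x := by
  simp [dD, pd_add hf hg, Finset.sum_add_distrib]

lemma dD_sub {E : Type*} [NormedAddCommGroup E] [NormedSpace ℂ E] {θ : C3} {x : R3} {f g : R3 → E}
    (hf : DifferentiableAt ℝ f x) (hg : DifferentiableAt ℝ g x) :
    dD θ (fun y => f y - g y) x = dD θ f x - dD θ g x := by
  simp [dD, pd_sub hf hg, Finset.sum_sub_distrib, smul_sub]

lemma dD_sum {κ E : Type*} [NormedAddCommGroup E] [NormedSpace ℂ E] (s : Finset κ) {θ : C3}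
    {x : R3} {f : κ → R3 → E} (hf : ∀ k ∈ s, DifferentiableAt ℝ (f k) x) :
    dD θ (fun y => ∑ k ∈ s, f k y) x = ∑ k ∈ s, dD θ (f k) x := by
  simp only [dD, pd_sum s hf, Finset.smul_sum]
  exact Finset.sum_comm

lemma dD_dotProduct {ι : Type*} [Fintype ι] {θ : C3} {x : R3} {a b : R3 → ι → ℂ}
    (ha : DifferentiableAt ℝ a x) (hb : DifferentiableAt ℝ b x) :
    dD θ (fun y => a y ⬝ᵥ b y) x = dD θ a x ⬝ᵥ b x + a x ⬝ᵥ dD θ b x := by
  have ha' := differentiableAt_pi.1 ha
  have hb' := differentiableAt_pi.1 hb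
  simp only [dotProduct, ← Finset.sum_add_distrib]
  rw [dD_sum Finset.univ (f := fun k y => a y k * b y k) (fun k _ => (ha' k).mul (hb' k))]
  exact Finset.sum_congr rfl fun k _ => by
    rw [dD_mul (ha' k) (hb' k), dD_apply ha, dD_apply hb]

/-! ### The matrix of the transport system -/

lemma smooth_stM (C : Coef) (σ : Fin 2 → ℂ) (i j : Fin 3) :
    ContDiff ℝ ∞ fun x => stM C σ x i j := by
  have hsq : ContDiff ℝ ∞ fun x => (Real.sqrt (C.mu x) : ℂ) :=
    Complex.ofRealCLM.contDiff.comp C.smooth_sqrt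
  have hk : ContDiff ℝ ∞ fun x => (C.kap x : ℂ) := Complex.ofRealCLM.contDiff.comp C.smooth_kap
  have hh : ∀ a b, ContDiff ℝ ∞ fun x => (C.hnu a b x : ℂ) := fun a b =>
    Complex.ofRealCLM.contDiff.comp (C.smooth_hnu a b)
  have hg : ∀ a, ContDiff ℝ ∞ fun x => (C.glm a x : ℂ) := fun a =>
    Complex.ofRealCLM.contDiff.comp (C.smooth_glm a)
  have hv : ∀ (c : ℂ) (s : ℂ) (a : Fin 3), ContDiff ℝ ∞ fun x =>
      (Real.sqrt (C.mu x) : ℂ) * (∑ k, (C.hnu a k x : ℂ) * null σ k) * c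
        + (C.glm a x : ℂ) * s / 2 := fun c s a =>
    ((hsq.mul (ContDiff.sum fun k _ => (hh a k).mul contDiff_const)).mul contDiff_const).add
      (((hg a).mul contDiff_const).div_const 2)
  simp only [stM, Matrix.of_apply, stApply, pauli]
  fin_cases i
  · exact ((hk.mul contDiff_const).neg).div_const 2
  · exact ((hv _ _ 2).mul contDiff_const).add
      (((hv _ _ 0).sub (contDiff_const.mul (hv _ _ 1))).mul contDiff_const)
  · exact (((hv _ _ 0).add (contDiff_const.mul (hv _ _ 1))).mul contDiff_const).sub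
      ((hv _ _ 2).mul contDiff_const)

lemma stM_eq {C₁ C₂ : Coef} {R : ℝ} (h : EqOut C₁ C₂ R) (σ : Fin 2 → ℂ) {x : R3}
    (hx : R < ‖x‖) : stM C₁ σ x = stM C₂ σ x := by
  have hU : IsOpen {y : R3 | R < ‖y‖} := isOpen_lt continuous_const continuous_norm
  have hev : ∀ᶠ y in 𝓝 x, R < ‖y‖ := hU.mem_nhds hx
  have hmu : C₁.mu =ᶠ[𝓝 x] C₂.mu := hev.mono fun y hy => h.mu y hy.le
  have hnu : C₁.nu =ᶠ[𝓝 x] C₂.nu := hmu.mono fun y hy => by simp [Coef.nu, hy]
  have hd : ∀ a, pd a C₁.nu =ᶠ[𝓝 x] pd a C₂.nu := fun a =>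
    hnu.eventuallyEq_nhds.mono fun y hy => pd_congr hy
  have e1 : ∀ a b, C₁.hnu a b x = C₂.hnu a b x := fun a b => pd_congr (hd b)
  have e2 : ∀ a, C₁.glm a x = C₂.glm a x := fun a => by
    simp [Coef.glm, pd_congr hmu, h.mu x hx.le]
  have e3 : C₁.kap x = C₂.kap x := by simp [Coef.kap, h.mu x hx.le, h.lam x hx.le]
  ext i j
  simp only [stM, Matrix.of_apply, stApply, e1, e2, e3, h.mu x hx.le]

/-! ### Extensions of solutions -/

/-- `y'` solves `M'` and equals the solution `y` of `M` far out. -/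
structure Twin (θ : C3) (M M' : R3 → Matrix (Fin 3) (Fin 3) ℂ) (R : ℝ)
    (y y' : R3 → Fin 3 → ℂ) : Prop where
  smooth : ContDiff ℝ ∞ y
  smooth' : ContDiff ℝ ∞ y'
  eqn : ∀ x ∈ ball (0 : R3) (R + 8), dD θ y x = M x *ᵥ y x
  eqn' : ∀ x ∈ ball (0 : R3) (R + 8), dD θ y' x = M' x *ᵥ y' x
  out : ∀ x, R + 7 < ‖x‖ → y' x = y x

/-- Orthogonality to the adjoint solutions gives a twin. -/
lemma exists_twin (hV : PlaneValueOut) (hX : PlaneExtOut) {θ : C3} (hθ : θ ≠ 0)
    (hn : ∑ i, θ i ^ 2 = 0) {M M' : R3 → Matrix (Fin 3) (Fin 3) ℂ}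
    (hM : ∀ a b, ContDiff ℝ ∞ fun x => M x a b) (hM' : ∀ a b, ContDiff ℝ ∞ fun x => M' x a b)
    {R : ℝ} (hR : 0 < R) (hMM : ∀ x, R < ‖x‖ → M x = M' x)
    (horth : ∀ y z : R3 → Fin 3 → ℂ, ContDiff ℝ ∞ y → ContDiff ℝ ∞ z →
      (∀ x ∈ ball 0 (R + 7), dD θ y x = M x *ᵥ y x) →
      (∀ x ∈ ball 0 (R + 7), dD θ z x = -((M' x)ᵀ *ᵥ z x)) →
      ∫ x, z x ⬝ᵥ ((M' x - M x) *ᵥ y x) = 0)
    (x₀ : R3) (c : Fin 3 → ℂ) : ∃ y y', Twin θ M M' R y y' ∧ y x₀ = c := by
  obtain ⟨y, hy, hy0, hye⟩ := hV (Fin 3) M hM θ hθ hn (R + 8) x₀ c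
  have hf : ContDiff ℝ ∞ fun x => (M' x - M x) *ᵥ y x := by
    refine contDiff_pi.2 fun a => ?_
    simp only [Matrix.mulVec, dotProduct, Matrix.sub_apply]
    exact ContDiff.sum fun b _ => ((hM' a b).sub (hM a b)).mul (contDiff_pi.1 hy b)
  obtain ⟨v, hv, hvo, hve⟩ := hX (Fin 3) M' hM' θ hθ hn (R + 4)
    (fun x => (M' x - M x) *ᵥ y x) (by linarith) hf
    (fun x hx => by simp [hMM x (by linarith)])
    (fun z hz hze => horth y z hy hz (fun x hx => hye x (ball_subset_ball (by linarith) hx))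
      fun x hx => hze x (by
      rwa [show R + 4 + 3 = R + 7 by ring]))
  refine ⟨y, fun x => y x + v x, ⟨hy, hy.add hv, hye, fun x hx => ?_, fun x hx => ?_⟩, hy0⟩
  · rw [dD_add (hy.differentiable (by simp) x) (hv.differentiable (by simp) x), hye x hx, hve x,
      Matrix.sub_mulVec, Matrix.mulVec_add]
    abel
  · simp [hvo x (by linarith)]

/-- A function which is constant along planes and vanishes far out is zero. -/
lemma eq_zero_of_dD (hB : PlaneBoundOut) {θ : C3} (hθ : θ ≠ 0) (hn : ∑ i, θ i ^ 2 = 0) {R : ℝ}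
    {q : R3 → ℂ} (hq : ContDiff ℝ ∞ q) (hout : ∀ x, R < ‖x‖ → q x = 0)
    (hd : ∀ x, dD θ q x = 0) (x : R3) : q x = 0 := by
  obtain ⟨K, hK⟩ := hB Unit Unit Set.univ isCompact_univ (fun _ => θ) (fun _ _ => 0)
    continuousOn_const (fun _ _ => ⟨hθ, hn⟩) (fun _ _ => continuousOn_const) R
  have hv : ContDiff ℝ ∞ fun (x : R3) (_ : Unit) => q x := contDiff_pi.2 fun _ => hq
  have h0 : ∀ x, dD θ (fun (x : R3) (_ : Unit) => q x) x = 0 := fun x => by
    funext a
    rw [dD_apply (hv.differentiable (by simp) x)]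
    exact hd x
  have h := hK () trivial _ (hv.of_le (by exact_mod_cast le_top)) fun x hx =>
    funext fun _ => hout x hx
  simp only [h0, Matrix.zero_mulVec, sub_zero, norm_zero, ne_eq, OfNat.ofNat_ne_zero,
    not_false_eq_true, zero_pow, integral_zero, mul_zero] at h
  have hc : Continuous fun x => ‖q x‖ ^ 2 := (continuous_norm.comp hq.continuous).pow 2
  have hs : HasCompactSupport fun x => ‖q x‖ ^ 2 :=
    HasCompactSupport.intro (isCompact_closedBall (0 : R3) R) fun x hx => by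
      rw [mem_closedBall_zero_iff, not_le] at hx
      simp [hout x hx]
  have h' : ∫ x, ‖q x‖ ^ 2 = 0 := le_antisymm (by simpa using h)
    (integral_nonneg fun _ => sq_nonneg _)
  have hae := (integral_eq_zero_iff_of_nonneg (fun _ => sq_nonneg _)
    (hc.integrable_of_hasCompactSupport hs)).1 h'
  have h2 : ‖q x‖ ^ 2 = 0 := congrFun ((hc.ae_eq_iff_eq volume continuous_const).1 hae) x
  simpa using h2

/-- The pairing of twins with adjoint twins does not change. -/
lemma Twin.pairing (hB : PlaneBoundOut) {θ : C3} (hθ : θ ≠ 0) (hn : ∑ i, θ i ^ 2 = 0) {R : ℝ}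
    {M₁ M₂ : R3 → Matrix (Fin 3) (Fin 3) ℂ} {y y' z z' : R3 → Fin 3 → ℂ}
    (hy : Twin θ M₁ M₂ R y y') (hz : Twin θ (fun x => -(M₂ x)ᵀ) (fun x => -(M₁ x)ᵀ) R z z')
    (x : R3) : y' x ⬝ᵥ z x = y x ⬝ᵥ z' x := by
  have key : ∀ (M : Matrix (Fin 3) (Fin 3) ℂ) (a b : Fin 3 → ℂ),
      (M *ᵥ a) ⬝ᵥ b + a ⬝ᵥ (-Mᵀ *ᵥ b) = 0 := fun M a b => by
    rw [Matrix.neg_mulVec, dotProduct_neg, Matrix.dotProduct_mulVec, Matrix.vecMul_transpose,
      add_neg_cancel]
  have hd : ∀ {a b : R3 → Fin 3 → ℂ}, ContDiff ℝ ∞ a → ContDiff ℝ ∞ b →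
      ContDiff ℝ ∞ fun x => a x ⬝ᵥ b x := fun ha hb =>
    ContDiff.sum fun k _ => (contDiff_pi.1 ha k).mul (contDiff_pi.1 hb k)
  have hq := (hd hy.smooth' hz.smooth).sub (hd hy.smooth hz.smooth')
  refine sub_eq_zero.1 (eq_zero_of_dD hB hθ hn (q := fun x => y' x ⬝ᵥ z x - y x ⬝ᵥ z' x)
    (R := R + 7) hq (fun x hx => by rw [hy.out x hx, hz.out x hx, sub_self]) (fun x => ?_) x)
  rcases lt_or_ge ‖x‖ (R + 8) with hx | hx
  · have hm := mem_ball_zero_iff.2 hx
    have hdiff : ∀ {a : R3 → Fin 3 → ℂ}, ContDiff ℝ ∞ a → DifferentiableAt ℝ a x :=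
      fun ha => ha.differentiable (by simp) x
    rw [dD_sub ((hd hy.smooth' hz.smooth).differentiable (by simp) x)
      ((hd hy.smooth hz.smooth').differentiable (by simp) x),
      dD_dotProduct (hdiff hy.smooth') (hdiff hz.smooth),
      dD_dotProduct (hdiff hy.smooth) (hdiff hz.smooth'),
      hy.eqn' x hm, hy.eqn x hm, hz.eqn' x hm, hz.eqn x hm, key, key, sub_self]
  · have hev : ∀ᶠ w in 𝓝 x, R + 7 < ‖w‖ :=
      (isOpen_lt continuous_const continuous_norm).mem_nhds (show R + 7 < ‖x‖ by linarith)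
    rw [dD_congr (g := fun _ => (0 : ℂ)) (hev.mono fun w hw => by
      simp [hy.out w hw, hz.out w hw]), dD_const]

/-! ### The gauge -/

lemma contDiff_det {n : ℕ} {A : R3 → Matrix (Fin n) (Fin n) ℂ}
    (h : ∀ a b, ContDiff ℝ ∞ fun x => A x a b) : ContDiff ℝ ∞ fun x => (A x).det := by
  simp only [Matrix.det_apply']
  exact ContDiff.sum fun p _ => contDiff_const.mul (contDiff_prod fun k _ => h _ _)

lemma contDiff_adjugate {n : ℕ} {A : R3 → Matrix (Fin n) (Fin n) ℂ}
    (h : ∀ a b, ContDiff ℝ ∞ fun x => A x a b) (i j : Fin n) :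
    ContDiff ℝ ∞ fun x => (A x).adjugate i j := by
  simp only [Matrix.adjugate_apply]
  refine contDiff_det fun a b => ?_
  simp only [Matrix.updateRow_apply]
  split_ifs
  · exact contDiff_const
  · exact h a b

/-- The gauge in one direction. -/
lemma exists_gauge_dir (hV : PlaneValueOut) (hX : PlaneExtOut) (hB : PlaneBoundOut)
    {C₁ C₂ : Coef} {R : ℝ} (hR : 0 < R) (he : EqOut C₁ C₂ R) (ho : Orth C₁ C₂ R)
    {σ : Fin 2 → ℂ} (hσ : σ ≠ 0) :
    ∃ X : R3 → Matrix (Fin 3) (Fin 3) ℂ, (∀ a b, ContDiff ℝ ∞ fun x => X x a b) ∧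
      (∀ x, R + 7 < ‖x‖ → X x = 1) ∧
      ∀ x a b, dD (null σ) (fun y => X y a b) x
        = (stM C₂ σ x * X x - X x * stM C₁ σ x) a b := by
  set θ := null σ
  have hθ : θ ≠ 0 := Orth.null_ne hσ
  have hn : ∑ i, θ i ^ 2 = 0 := Orth.null_sq σ
  set M₁ := stM C₁ σ
  set M₂ := stM C₂ σ
  have h1 : ∀ a b, ContDiff ℝ ∞ fun x => M₁ x a b := smooth_stM C₁ σ
  have h2 : ∀ a b, ContDiff ℝ ∞ fun x => M₂ x a b := smooth_stM C₂ σ
  have hN₁ : ∀ a b, ContDiff ℝ ∞ fun x => (-(M₁ x)ᵀ) a b := fun a b => (h1 b a).neg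
  have hN₂ : ∀ a b, ContDiff ℝ ∞ fun x => (-(M₂ x)ᵀ) a b := fun a b => (h2 b a).neg
  have hM : ∀ x, R < ‖x‖ → M₁ x = M₂ x := fun x hx => stM_eq he σ hx
  -- adjoint twins with unit values
  have hz : ∀ (x : R3) (a : Fin 3), ∃ z z', Twin θ (fun x => -(M₂ x)ᵀ) (fun x => -(M₁ x)ᵀ) R z z' ∧
      z x = Pi.single a 1 := by
    intro x a
    refine exists_twin hV hX hθ hn hN₂ hN₁ hR (fun x hx => by simp [hM x hx]) ?_ x (Pi.single a 1)
    intro z y hzs hys hze hye
    rw [← ho σ hσ y z hys hzs (fun x hx => by simpa [Matrix.neg_mulVec] using hye x hx)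
      (fun x hx => by simpa [Matrix.neg_mulVec] using hze x hx)]
    refine integral_congr_ae (Eventually.of_forall fun x => ?_)
    simp only [M₁, M₂, neg_sub_neg]
    rw [← Matrix.transpose_sub, Matrix.dotProduct_mulVec, Matrix.vecMul_transpose, dotProduct_comm]
  choose z z' hz hz0 using hz
  set X : R3 → Matrix (Fin 3) (Fin 3) ℂ := fun x => Matrix.of fun a b => z' x a x b
  -- the gauge maps solutions to their twins
  have hmap : ∀ {y y'}, Twin θ M₁ M₂ R y y' → ∀ x, y' x = X x *ᵥ y x := fun hy x => by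
    funext a
    have h := hy.pairing hB hθ hn (hz x a) x
    rw [hz0, dotProduct_single, mul_one, dotProduct_comm] at h
    rw [h]
    rfl
  have hXout : ∀ x, R + 7 < ‖x‖ → X x = 1 := fun x hx => by
    ext a b
    show z' x a x b = _
    rw [(hz x a).out x hx, hz0, Matrix.one_apply, Pi.single_apply]
    exact if_congr eq_comm rfl rfl
  have hy : ∀ (x : R3) (b : Fin 3), ∃ y y', Twin θ M₁ M₂ R y y' ∧ y x = Pi.single b 1 :=
    fun x b => exists_twin hV hX hθ hn h1 h2 hR hM (ho σ hσ) x _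
  choose y y' hy hy0 using hy
  have hXs : ∀ a b, ContDiff ℝ ∞ fun x => X x a b := by
    intro a b
    rw [contDiff_iff_contDiffAt]
    intro x₀
    set A : R3 → Matrix (Fin 3) (Fin 3) ℂ := fun x => Matrix.of fun c d => y x₀ d x c
    set A' : R3 → Matrix (Fin 3) (Fin 3) ℂ := fun x => Matrix.of fun c d => y' x₀ d x c
    have hA : ∀ c d, ContDiff ℝ ∞ fun x => A x c d := fun c d =>
      contDiff_pi.1 (hy x₀ d).smooth c
    have hA' : ∀ x, A' x = X x * A x := fun x => by
      ext c d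
      show y' x₀ d x c = _
      rw [hmap (hy x₀ d) x]
      rfl
    have h0 : A x₀ = 1 := by
      ext c d
      show y x₀ d x₀ c = _
      rw [hy0, Matrix.one_apply, Pi.single_apply]
    have hev : (fun x => X x a b) =ᶠ[𝓝 x₀]
        fun x => (A' x * (A x).adjugate) a b / (A x).det := by
      filter_upwards [(contDiff_det hA).continuous.continuousAt.eventually_ne
        (show (A x₀).det ≠ 0 by simp [h0])] with x hx
      rw [hA' x, Matrix.mul_assoc, Matrix.mul_adjugate, Matrix.mul_smul, Matrix.mul_one,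
        Matrix.smul_apply, smul_eq_mul, mul_div_cancel_left₀ _ hx]
    refine ContDiffAt.congr_of_eventuallyEq ?_ hev
    simp only [div_eq_mul_inv]
    refine ContDiffAt.mul ?_ ((contDiff_det hA).contDiffAt.inv (by simp [h0]))
    simp only [Matrix.mul_apply]
    exact (ContDiff.sum fun c _ => (contDiff_pi.1 (hy x₀ c).smooth' a).mul
      (contDiff_adjugate hA c b)).contDiffAt
  refine ⟨X, hXs, hXout, fun x a b => ?_⟩
  rcases lt_or_ge ‖x‖ (R + 8) with hx | hx
  · have hm := mem_ball_zero_iff.2 hx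
    have hs := (hy x b).smooth'
    have hl : dD θ (fun w => y' x b w a) x = (M₂ x * X x) a b := by
      rw [← dD_apply (hs.differentiable (by simp) x), (hy x b).eqn' x hm, hmap (hy x b) x, hy0,
        Matrix.mulVec_mulVec, Matrix.mulVec_single_one]
      rfl
    have hr : dD θ (fun w => ∑ c, X w a c * y x b w c) x
        = dD θ (fun w => X w a b) x + (X x * M₁ x) a b := by
      have hdy : ∀ c, DifferentiableAt ℝ (fun w => y x b w c) x := fun c =>
        (contDiff_pi.1 (hy x b).smooth c).differentiable (by simp) x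
      have hdX : ∀ c, DifferentiableAt ℝ (fun w => X w a c) x := fun c =>
        (hXs a c).differentiable (by simp) x
      rw [dD_sum Finset.univ (f := fun c w => X w a c * y x b w c)
        (fun c _ => (hdX c).mul (hdy c)), Matrix.mul_apply]
      have hc : ∀ c, dD θ (fun w => X w a c * y x b w c) x
          = (if c = b then dD θ (fun w => X w a c) x else 0) + X x a c * M₁ x c b := fun c => by
        rw [dD_mul (hdX c) (hdy c), ← dD_apply ((hy x b).smooth.differentiable (by simp) x) c,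
          (hy x b).eqn x hm, hy0, Matrix.mulVec_single_one, Pi.single_apply]
        split_ifs <;> simp
      simp [hc, Finset.sum_add_distrib]
    have he' : (fun w => y' x b w a) = fun w => ∑ c, X w a c * y x b w c := funext fun w => by
      rw [hmap (hy x b) w]
      rfl
    rw [he', hr] at hl
    rw [Matrix.sub_apply]
    exact eq_sub_of_add_eq hl
  · have hx6 : R + 7 < ‖x‖ := by linarith
    have hev : ∀ᶠ w in 𝓝 x, R + 7 < ‖w‖ :=
      (isOpen_lt continuous_const continuous_norm).mem_nhds hx6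
    rw [dD_congr (g := fun _ => (1 : Matrix (Fin 3) (Fin 3) ℂ) a b)
      (hev.mono fun w hw => by simp [hXout w hw]), dD_const, hXout x hx6, hM x (by linarith)]
    simp

end Gauge

open Gauge in
/-- (E') orthogonality gives a gauge. -/
theorem gauge (hV : PlaneValueOut) (hX : PlaneExtOut) (hB : PlaneBoundOut) : GaugeOut := by
  intro C₁ C₂ R hR he ho
  choose! X hs hout heq using fun σ (hσ : σ ≠ (0 : Fin 2 → ℂ)) =>
    exists_gauge_dir hV hX hB hR he ho hσ
  exact ⟨X, hs, hout, heq⟩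

end Vale.Agent.P136
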