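import Vale.Agent.P136.Mod.HolLine

/-!
# The gauge is polynomial in the spinor

Its entries are homogeneous of degrees `0`, `-1`, `1` in the spinor and holomorphic away from the
origin, so Liouville's theorem on two lines makes them constant, zero and linear.
-/

noncomputable section

namespace Vale.Agent.P136

namespace Hol

open MeasureTheory Metric Filter Bornology
open scoped BigOperators Matrix ContDiff Topology

/-- Holomorphic on the two standard lines. -/
structure HolLines (F : (Fin 2 → ℂ) → ℂ) : Prop where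
  left : Differentiable ℂ fun t => F ![1, t]
  right : Differentiable ℂ fun t => F ![t, 1]

lemma vec_ne_zero {σ : Fin 2 → ℂ} (h : σ 0 ≠ 0 ∨ σ 1 ≠ 0) : σ ≠ 0 := by
  rintro rfl
  simp at h

lemma eventually_ne_zero_cocompact : ∀ᶠ t : ℂ in cocompact ℂ, t ≠ 0 :=
  (isCompact_singleton (x := (0 : ℂ))).compl_mem_cocompact

lemma tendsto_line {F : (Fin 2 → ℂ) → ℂ} (hF : HolLines F) {f : ℂ → ℂ}
    (hf : ∀ t, t ≠ 0 → f t = F ![t⁻¹, 1]) : Tendsto f (cocompact ℂ) (𝓝 (F ![0, 1])) := by
  refine Tendsto.congr' (eventually_ne_zero_cocompact.mono fun t ht => (hf t ht).symm) ?_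
  have hi : Tendsto (fun t : ℂ => t⁻¹) (cocompact ℂ) (𝓝 0) := by
    rw [← Metric.cobounded_eq_cocompact]
    exact tendsto_inv₀_cobounded
  exact (hF.right.continuous.tendsto 0).comp hi

lemma smul_vec {t : ℂ} (ht : t ≠ 0) : t • ![t⁻¹, 1] = ![1, t] := by
  funext i; fin_cases i <;> simp [ht]

/-- Degree zero. -/
lemma const_of_homog {F : (Fin 2 → ℂ) → ℂ} (hF : HolLines F)
    (hh : ∀ c : ℂ, c ≠ 0 → ∀ σ, σ ≠ 0 → F (c • σ) = F σ) {σ : Fin 2 → ℂ} (hσ : σ ≠ 0) :
    F σ = F ![1, 0] := by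
  have h1 : ∀ t, F ![1, t] = F ![0, 1] := fun t =>
    hF.left.apply_eq_of_tendsto_cocompact t (tendsto_line hF fun s hs => by
      rw [← smul_vec hs]; exact hh s hs _ (vec_ne_zero (Or.inr (by simp))))
  rcases eq_or_ne (σ 0) 0 with h0 | h0
  · have h1' : σ 1 ≠ 0 := fun h => hσ (funext fun i => by fin_cases i <;> simp [h0, h])
    have e : σ = σ 1 • ![0, 1] := funext fun i => by fin_cases i <;> simp [h0]
    rw [e, hh _ h1' _ (vec_ne_zero (Or.inr (by simp))), h1 0]
  · have e : σ = σ 0 • ![1, σ 1 / σ 0] := funext fun i => by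
      fin_cases i <;> simp [mul_div_cancel₀ _ h0]
    rw [e, hh _ h0 _ (vec_ne_zero (Or.inl (by simp))), h1, h1 0]

/-- Degree minus one. -/
lemma zero_of_homog {F : (Fin 2 → ℂ) → ℂ} (hF : HolLines F)
    (hh : ∀ c : ℂ, c ≠ 0 → ∀ σ, σ ≠ 0 → F (c • σ) = c⁻¹ * F σ) {σ : Fin 2 → ℂ} (hσ : σ ≠ 0) :
    F σ = 0 := by
  have key : ∀ i : Fin 2, σ i * F σ = (![1, 0] : Fin 2 → ℂ) i * F ![1, 0] := fun i => by
    refine const_of_homog (F := fun s => s i * F s) ⟨?_, ?_⟩ (fun c hc s hs => ?_) hσ
    · fin_cases i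
      · simpa using hF.left
      · simpa using differentiable_fun_id.fun_mul hF.left
    · fin_cases i
      · simpa using differentiable_fun_id.fun_mul hF.right
      · simpa using hF.right
    · simp only [Pi.smul_apply, smul_eq_mul, hh c hc s hs]
      field_simp
  have h10 : F ![1, 0] = 0 := by
    refine Eq.symm ?_
    have := const_of_homog (F := fun s => s 0 * F s) ⟨by simpa using hF.left,
      by simpa using differentiable_fun_id.fun_mul hF.right⟩ (fun c hc s hs => by
        simp only [Pi.smul_apply, smul_eq_mul, hh c hc s hs]; field_simp)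
      (vec_ne_zero (σ := ![0, 1]) (Or.inr (by simp)))
    simpa using this
  rcases eq_or_ne (σ 0) 0 with h0 | h0
  · have h1 : σ 1 ≠ 0 := fun h => hσ (funext fun i => by fin_cases i <;> simp [h0, h])
    simpa [h10, h1] using key 1
  · simpa [h10, h0] using key 0

/-- Degree one. -/
lemma linear_of_homog {F : (Fin 2 → ℂ) → ℂ} (hF : HolLines F)
    (hh : ∀ c : ℂ, c ≠ 0 → ∀ σ, σ ≠ 0 → F (c • σ) = c * F σ) {σ : Fin 2 → ℂ} (hσ : σ ≠ 0) :
    F σ = σ 0 * F ![1, 0] + σ 1 * F ![0, 1] := by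
  set f : ℂ → ℂ := fun t => F ![1, t] with hf
  set d := dslope f 0 with hd
  have hdd : Differentiable ℂ d := differentiableOn_univ.1
    ((Complex.differentiableOn_dslope univ_mem).2 hF.left.differentiableOn)
  have hlim : Tendsto d (cocompact ℂ) (𝓝 (F ![0, 1])) := by
    have hi : Tendsto (fun t : ℂ => f 0 * t⁻¹) (cocompact ℂ) (𝓝 0) := by
      have h := (tendsto_inv₀_cobounded (α := ℂ)).const_mul (f 0)
      rwa [Metric.cobounded_eq_cocompact, mul_zero] at h
    have hs := (tendsto_line hF (f := fun t => F ![t⁻¹, 1]) fun _ _ => rfl).sub hi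
    rw [sub_zero] at hs
    refine hs.congr' (eventually_ne_zero_cocompact.mono fun t ht => ?_)
    have e : f t = t * F ![t⁻¹, 1] := by
      rw [hf]; simp only
      rw [← smul_vec ht, hh t ht _ (vec_ne_zero (Or.inr (by simp)))]
    rw [hd, dslope_of_ne _ ht, slope_def_module, e, sub_zero, smul_eq_mul]
    field_simp
  have h1 : ∀ t, F ![1, t] = F ![1, 0] + t * F ![0, 1] := fun t => by
    have h := sub_smul_dslope f 0 t
    rw [← hd, hdd.apply_eq_of_tendsto_cocompact t hlim, sub_zero, smul_eq_mul] at h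
    rw [h]; simp [hf]
  rcases eq_or_ne (σ 0) 0 with h0 | h0
  · have h1' : σ 1 ≠ 0 := fun h => hσ (funext fun i => by fin_cases i <;> simp [h0, h])
    have e : σ = σ 1 • ![0, 1] := funext fun i => by fin_cases i <;> simp [h0]
    conv_lhs => rw [e, hh _ h1' _ (vec_ne_zero (Or.inr (by simp)))]
    rw [h0, zero_mul, zero_add]
  · have e : σ = σ 0 • ![1, σ 1 / σ 0] := funext fun i => by
      fin_cases i <;> simp [mul_div_cancel₀ _ h0]
    conv_lhs => rw [e, hh _ h0 _ (vec_ne_zero (Or.inl (by simp))), h1]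
    field_simp

lemma eq_zero_of_integral {D : R3 → ℂ} (hD : Continuous D) {R : ℝ}
    (h0 : ∀ x, R < ‖x‖ → D x = 0)
    (h : ∀ g : R3 → ℂ, Continuous g → HasCompactSupport g → ∫ x, g x * D x = 0) (x : R3) :
    D x = 0 := by
  by_contra hx
  have h1 := h (fun y => (starRingEnd ℂ) (D y)) (Complex.continuous_conj.comp hD)
    (hasCompactSupport_out (R := R) fun y hy => by simp [h0 y hy])
  simp only [← Complex.normSq_eq_conj_mul_self] at h1
  rw [integral_complex_ofReal, Complex.ofReal_eq_zero] at h1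
  have := Continuous.integral_pos_of_hasCompactSupport_nonneg_nonzero (μ := (volume : Measure R3))
    (x := x) (Complex.continuous_normSq.comp hD)
    (hasCompactSupport_out (R := R) fun y hy => by simp [h0 y hy])
    (fun y => Complex.normSq_nonneg _) (by simpa using hx)
  simp only [Function.comp_apply] at this
  linarith

variable {C₁ C₂ : Coef} {R : ℝ} {X : (Fin 2 → ℂ) → R3 → Matrix (Fin 3) (Fin 3) ℂ}

/-- A test integral of an entry. -/
def entryInt (X : (Fin 2 → ℂ) → R3 → Matrix (Fin 3) (Fin 3) ℂ) (g : R3 → ℂ) (a b : Fin 3)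
    (σ : Fin 2 → ℂ) : ℂ := ∫ x, g x * X σ x a b

lemma integrable_entry (hG : IsGauge C₁ C₂ R X) {σ : Fin 2 → ℂ} (hσ : σ ≠ 0) {g : R3 → ℂ}
    (hg : Continuous g) (hs : HasCompactSupport g) (a b : Fin 3) :
    Integrable fun x => g x * X σ x a b :=
  (hg.mul (hG.smooth σ hσ a b).continuous).integrable_of_hasCompactSupport hs.mul_right

lemma holLines_entry (hB : PlaneBoundOut) (hX : PlaneExtOut) (hR : 0 < R) (he : EqOut C₁ C₂ R)
    (hG : IsGauge C₁ C₂ R X) {g : R3 → ℂ} (hg : Continuous g) (hs : HasCompactSupport g)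
    (a b : Fin 3) : HolLines (entryInt X g a b) := by
  have key : ∀ p q : Fin 2 → ℂ, (∀ t : ℂ, p + t • q ≠ 0) →
      Differentiable ℂ fun t : ℂ => entryInt X g a b (p + t • q) := by
    intro p q hne
    have e : (fun t : ℂ => entryInt X g a b (p + t • q)) = fun t : ℂ =>
        (∫ x, g x * (X (p + t • q) x - 1) a b) + ∫ x, g x * (1 : Matrix (Fin 3) (Fin 3) ℂ) a b := by
      funext t
      have hi : Integrable (fun x => g x * (1 : Matrix (Fin 3) (Fin 3) ℂ) a b) :=
        (hg.mul continuous_const).integrable_of_hasCompactSupport hs.mul_right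
      show _ = (∫ x, g x * (X (p + t • q) x a b - (1 : Matrix (Fin 3) (Fin 3) ℂ) a b)) + _
      simp only [entryInt, mul_sub]
      rw [integral_sub (integrable_entry hG (hne t) hg hs a b) hi, sub_add_cancel]
    rw [e]
    exact (differentiable_line p q hB hX hR he hG hne hg a b).add_const _
  constructor
  · convert key ![1, 0] ![0, 1] (fun t => vec_ne_zero (Or.inl (by simp))) using 1
    funext t; congr 1; funext i; fin_cases i <;> simp
  · convert key ![0, 1] ![1, 0] (fun t => vec_ne_zero (Or.inr (by simp))) using 1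
    funext t; congr 1; funext i; fin_cases i <;> simp

lemma homog_entry (hB : PlaneBoundOut) (hG : IsGauge C₁ C₂ R X) (g : R3 → ℂ) (a b : Fin 3)
    {c : ℂ} (hc : c ≠ 0) {σ : Fin 2 → ℂ} (hσ : σ ≠ 0) :
    entryInt X g a b (c • σ) =
      (![1, c, c] : Fin 3 → ℂ) a / (![1, c, c] : Fin 3 → ℂ) b * entryInt X g a b σ := by
  rw [entryInt, entryInt, ← integral_const_mul]
  simp only [gauge_smul hB hG hσ hc, mul_left_comm (g _)]

/-- The entries as functions of the spinor. -/
lemma entry_eq (hB : PlaneBoundOut) (hX : PlaneExtOut) (hR : 0 < R) (he : EqOut C₁ C₂ R)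
    (hG : IsGauge C₁ C₂ R X) {σ : Fin 2 → ℂ} (hσ : σ ≠ 0) (x : R3) :
    X σ x 0 0 = X ![1, 0] x 0 0 ∧
    (∀ j : Fin 2, X σ x 0 j.succ = 0) ∧
    (∀ i : Fin 2, X σ x i.succ 0 = σ 0 * X ![1, 0] x i.succ 0 + σ 1 * X ![0, 1] x i.succ 0) ∧
    ∀ i j : Fin 2, X σ x i.succ j.succ = X ![1, 0] x i.succ j.succ := by
  have he1 : (![1, 0] : Fin 2 → ℂ) ≠ 0 := vec_ne_zero (Or.inl (by simp))
  have he2 : (![0, 1] : Fin 2 → ℂ) ≠ 0 := vec_ne_zero (Or.inr (by simp))
  have hsucc : ∀ (c : ℂ) (i : Fin 2), (![1, c, c] : Fin 3 → ℂ) i.succ = c := fun c i => by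
    fin_cases i <;> simp
  have hzero : ∀ a b : Fin 3,
      (∀ c : ℂ, c ≠ 0 → (![1, c, c] : Fin 3 → ℂ) a / (![1, c, c] : Fin 3 → ℂ) b = 1) →
      X σ x a b = X ![1, 0] x a b := by
    intro a b hab
    refine sub_eq_zero.1 (eq_zero_of_integral (R := R + 7) (D := fun y => X σ y a b - X ![1, 0] y a b)
      ((hG.smooth σ hσ a b).continuous.sub (hG.smooth _ he1 a b).continuous)
      (fun y hy => by simp [hG.out σ hσ y hy, hG.out _ he1 y hy]) (fun g hg hs => ?_) x)
    simp only [mul_sub]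
    rw [integral_sub (integrable_entry hG hσ hg hs a b) (integrable_entry hG he1 hg hs a b)]
    exact sub_eq_zero.2 (const_of_homog (holLines_entry hB hX hR he hG hg hs a b)
      (fun c hc s hs' => by rw [homog_entry hB hG g a b hc hs', hab c hc, one_mul]) hσ)
  refine ⟨hzero 0 0 fun c hc => by simp, fun j => ?_, fun i => ?_, fun i j => hzero _ _
    fun c hc => by rw [hsucc, hsucc, div_self hc]⟩
  · refine eq_zero_of_integral (R := R + 7) (hG.smooth σ hσ 0 j.succ).continuous
      (fun y hy => by simp [hG.out σ hσ y hy, (Fin.succ_ne_zero j).symm])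
      (fun g hg hs => ?_) x
    exact zero_of_homog (holLines_entry hB hX hR he hG hg hs _ _)
      (fun c hc s hs' => by rw [homog_entry hB hG g _ _ hc hs', hsucc]; simp) hσ
  · refine sub_eq_zero.1 (eq_zero_of_integral (R := R + 7)
      (D := fun y => X σ y i.succ 0 - (σ 0 * X ![1, 0] y i.succ 0 + σ 1 * X ![0, 1] y i.succ 0))
      ((hG.smooth σ hσ _ _).continuous.sub ((continuous_const.mul
        (hG.smooth _ he1 _ _).continuous).add (continuous_const.mul (hG.smooth _ he2 _ _).continuous)))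
      (fun y hy => by simp [hG.out σ hσ y hy, hG.out _ he1 y hy, hG.out _ he2 y hy])
      (fun g hg hs => ?_) x)
    have h1 := integrable_entry hG hσ hg hs i.succ 0
    have h2 := (integrable_entry hG he1 hg hs i.succ 0).const_mul (σ 0)
    have h3 := (integrable_entry hG he2 hg hs i.succ 0).const_mul (σ 1)
    simp only [mul_sub, mul_add, mul_left_comm (g _)]
    rw [integral_sub h1 (h2.fun_add h3), integral_add h2 h3, integral_const_mul, integral_const_mul]
    exact sub_eq_zero.2 (linear_of_homog (holLines_entry hB hX hR he hG hg hs _ _)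
      (fun c hc s hs' => by rw [homog_entry hB hG g _ _ hc hs', hsucc]; simp) hσ)

end Hol

open scoped Matrix

open Hol in
/-- **The gauge is polynomial.** -/
theorem hol (_hV : PlaneValueOut) (hX : PlaneExtOut) (hB : PlaneBoundOut) : HolOut := by
  intro C₁ C₂ R hR he X hG
  refine ⟨fun x => X ![1, 0] x 0 0,
    fun x => Matrix.of fun i j => X (![![1, 0], ![0, 1]] j) x i.succ 0,
    fun x => Matrix.of fun i j => X ![1, 0] x i.succ j.succ, ?_⟩
  set X' : (Fin 2 → ℂ) → R3 → Matrix (Fin 3) (Fin 3) ℂ := fun σ x => Matrix.of fun i j =>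
    Fin.cases (Fin.cases (X ![1, 0] x 0 0) (fun _ => 0) j)
      (fun i' => Fin.cases (((Matrix.of (fun (i j : Fin 2) => X (![![1, 0], ![0, 1]] j) x i.succ 0) : Matrix (Fin 2) (Fin 2) ℂ) *ᵥ σ) i')
        (fun j' => X ![1, 0] x i'.succ j'.succ) j) i with hX'
  have key : ∀ σ, σ ≠ 0 → X' σ = X σ := by
    intro σ hσ
    funext x
    obtain ⟨h00, h0j, hi0, hij⟩ := entry_eq hB hX hR he hG hσ x
    ext i j
    refine Fin.cases ?_ (fun i' => ?_) i <;> refine Fin.cases ?_ (fun j' => ?_) j
    · simp [hX', h00]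
    · simp [hX', h0j j']
    · simp [hX', hi0 i', Matrix.mulVec, dotProduct, Fin.sum_univ_two, mul_comm (σ _)]
    · simp [hX', hij i' j']
  show IsGauge C₁ C₂ R X'
  exact ⟨fun σ hσ => by rw [key σ hσ]; exact hG.smooth σ hσ,
    fun σ hσ => by rw [key σ hσ]; exact hG.out σ hσ,
    fun σ hσ => by rw [key σ hσ]; exact hG.eqn σ hσ⟩

end Vale.Agent.P136
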