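import Vale.Agent.P136.Mod.IkehataCalc

/-!
# The Ikehata reduction

`u = w / sqrt mu + nu ∇g - g ∇nu` turns the Lamé system into a system with Laplacian principal
part, exactly, with explicit zero order coefficients which vanish where the moduli are constant.
-/

noncomputable section

namespace Vale.Agent.P136

open scoped BigOperators Matrix ContDiff

namespace Ikehata

variable (C : Coef)

/-- `mu`, complex. -/
def cm (x : R3) : ℂ := (C.mu x : ℂ)
/-- `lam`, complex. -/
def cl (x : R3) : ℂ := (C.lam x : ℂ)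
/-- `1 / sqrt mu`, complex. -/
def ch (x : R3) : ℂ := ((Real.sqrt (C.mu x))⁻¹ : ℂ)
/-- `1 / mu`, complex. -/
def cn (x : R3) : ℂ := (C.nu x : ℂ)
/-- `(lam + 2 mu) / mu`, complex. -/
def cb (x : R3) : ℂ := (C.beta x : ℂ)

lemma beta_pos (x : R3) : 0 < C.beta x :=
  div_pos (by linarith [C.bulk_pos x, C.mu_pos x]) (C.mu_pos x)

lemma cb_ne (x : R3) : cb C x ≠ 0 := Complex.ofReal_ne_zero.2 (beta_pos C x).ne'

lemma smooth_cm : ContDiff ℝ ∞ (cm C) := Complex.ofRealCLM.contDiff.comp C.smooth_mu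

lemma smooth_cl : ContDiff ℝ ∞ (cl C) := Complex.ofRealCLM.contDiff.comp C.smooth_lam

lemma smooth_cn : ContDiff ℝ ∞ (cn C) := Complex.ofRealCLM.contDiff.comp C.smooth_nu

lemma smooth_ch : ContDiff ℝ ∞ (ch C) := by
  rw [show ch C = Complex.ofRealCLM ∘ fun x => (Real.sqrt (C.mu x))⁻¹ from
    funext fun x => by simp [ch]]
  exact Complex.ofRealCLM.contDiff.comp ((C.smooth_mu.sqrt fun x => (C.mu_pos x).ne').inv
    fun x => (Real.sqrt_pos.2 (C.mu_pos x)).ne')

lemma smooth_cb : ContDiff ℝ ∞ (cb C) := Complex.ofRealCLM.contDiff.comp C.smooth_beta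

/-- The zero order coefficients. -/
def ikB (x : R3) : Matrix (Fin 4) (Fin 4) ℂ :=
  Matrix.of fun a b =>
    Fin.lastCases
      (Fin.lastCases (-(cl C x * (∑ j, pd j (pd j (cn C)) x)) / cb C x)
        (fun j => ((cl C x + cm C x) * pd j (ch C) x + ch C x * pd j (cm C) x) / cb C x) b)
      (fun l => Fin.lastCases
        (ch C x * (-2 * cm C x * (∑ j, pd l (pd j (pd j (cn C))) x)
          + 2 * cm C x * cm C x * ∑ j, pd j (cn C) x * pd l (pd j (cn C)) x))
        (fun j => ch C x * ((if j = l then cm C x * (∑ k, pd k (pd k (ch C)) x)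
              + ∑ k, pd k (cm C) x * pd k (ch C) x else 0)
            - pd l (cm C) x * pd j (ch C) x - ch C x * pd l (pd j (cm C)) x)) b) a

lemma smooth_ikB (a b : Fin 4) : ContDiff ℝ ∞ fun x => ikB C x a b := by
  have hm := smooth_cm C; have hl := smooth_cl C; have hh := smooth_ch C; have hn := smooth_cn C
  have d1 : ∀ {f : R3 → ℂ}, ContDiff ℝ ∞ f → ∀ i, ContDiff ℝ ∞ (pd i f) :=
    fun hf i => smooth_pd hf
  have hsum : ContDiff ℝ ∞ fun x => ∑ j, pd j (pd j (cn C)) x :=
    ContDiff.sum fun j _ => d1 (d1 hn j) j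
  induction a using Fin.lastCases with
  | last =>
    induction b using Fin.lastCases with
    | last =>
      simp only [ikB, Matrix.of_apply, Fin.lastCases_last]
      simp only [div_eq_mul_inv]
      exact ((hl.mul hsum).neg).mul ((smooth_cb C).inv (cb_ne C))
    | cast j =>
      simp only [ikB, Matrix.of_apply, Fin.lastCases_last, Fin.lastCases_castSucc]
      simp only [div_eq_mul_inv]
      exact (((hl.add hm).mul (d1 hh j)).add (hh.mul (d1 hm j))).mul ((smooth_cb C).inv (cb_ne C))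
  | cast l =>
    induction b using Fin.lastCases with
    | last =>
      simp only [ikB, Matrix.of_apply, Fin.lastCases_last, Fin.lastCases_castSucc]
      exact hh.mul (((contDiff_const.mul hm).mul (ContDiff.sum fun j _ => d1 (d1 (d1 hn j) j) l)).add
        (((contDiff_const.mul hm).mul hm).mul
          (ContDiff.sum fun j _ => (d1 hn j).mul (d1 (d1 hn j) l))))
    | cast j =>
      simp only [ikB, Matrix.of_apply, Fin.lastCases_castSucc]
      refine hh.mul ((ContDiff.sub ?_ ((d1 hm l).mul (d1 hh j))).sub (hh.mul (d1 (d1 hm j) l)))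
      split_ifs
      · exact (hm.mul (ContDiff.sum fun k _ => d1 (d1 hh k) k)).add
          (ContDiff.sum fun k _ => (d1 hm k).mul (d1 hh k))
      · exact contDiff_const

lemma ikB_eq_zero {x : R3} (hx : C.rad < ‖x‖) : ikB C x = 0 := by
  have hO : IsOpen {y : R3 | C.rad < ‖y‖} := isOpen_lt continuous_const continuous_norm
  have z : ∀ {f : R3 → ℂ} {c : ℂ}, (∀ y, C.rad < ‖y‖ → f y = c) → ∀ i y, C.rad < ‖y‖ →
      pd i f y = 0 := fun {f c} hf i y hy => by
    rw [pd_congrOn hO (g := fun _ => c) hf hy i, pd_const]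
  have h1 := z (f := cm C) (c := 1) fun y hy => by simp [cm, C.mu_out y hy.le]
  have h2 := z (f := ch C) (c := 1) fun y hy => by simp [ch, C.mu_out y hy.le]
  have h3 := z (f := cn C) (c := 1) fun y hy => by simp [cn, Coef.nu, C.mu_out y hy.le]
  have h11 := fun l j => z (h1 j) l x hx
  have h22 := fun l j => z (h2 j) l x hx
  have h33 := fun l j => z (h3 j) l x hx
  have h333 := fun l j => z (fun y hy => z (h3 j) j y hy) l x hx
  ext a b
  induction a using Fin.lastCases <;> induction b using Fin.lastCases <;>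
    simp [-Fin.reduceLast, ikB, h1 _ x hx, h2 _ x hx, h3 _ x hx, h11, h22, h33, h333]

lemma sysOp_apply {U : Set R3} (hU : IsOpen U) {Y : R3 → Fin 4 → ℂ} (hY : ContDiffOn ℝ ∞ Y U)
    {y : R3} (hy : y ∈ U) (A : Fin 3 → R3 → Matrix (Fin 4) (Fin 4) ℂ)
    (B : R3 → Matrix (Fin 4) (Fin 4) ℂ) (a : Fin 4) :
    sysOp A B Y y a = ∑ i, pd i (pd i (fun z => Y z a)) y
      + ∑ i, ∑ b, A i y a b * pd i (fun z => Y z b) y + ∑ b, B y a b * Y y b := by
  have hd : ∀ z ∈ U, DifferentiableAt ℝ Y z := fun z hz =>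
    ((hY z hz).contDiffAt (hU.mem_nhds hz)).differentiableAt (by simp)
  simp only [sysOp, Pi.add_apply, Finset.sum_apply, Matrix.mulVec, dotProduct]
  congr 1
  congr 1
  · refine Finset.sum_congr rfl fun i _ => ?_
    have h2 : DifferentiableAt ℝ (pd i Y) y :=
      (((hY.fderiv_of_isOpen hU (m := ∞) (by simp)).clm_apply contDiffOn_const) y hy
        |>.contDiffAt (hU.mem_nhds hy)).differentiableAt (by simp)
    rw [pd_apply h2 a]
    exact pd_congrOn hU (fun z hz => pd_apply (hd z hz) a) hy i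
  · exact Finset.sum_congr rfl fun i _ => Finset.sum_congr rfl fun b _ => by
      rw [pd_apply (hd y hy)]

end Ikehata

open Ikehata in
/-- The exact reduction. -/
theorem ike : IkeOut := by
  intro C
  refine ⟨ikB C, smooth_ikB C, fun x hx => ikB_eq_zero C hx, fun U Y hU hY x hx l => ?_⟩
  set φ : R3 → ℂ := fun y => Y y 3 with hφdef
  set w : Fin 3 → R3 → ℂ := fun k y => Y y k.castSucc with hwdef
  have hcomp : ∀ a, Sm U fun y => Y y a := fun a => contDiffOn_pi.1 hY a
  have sm : Sm U (cm C) := (smooth_cm C).contDiffOn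
  have sl : Sm U (cl C) := (smooth_cl C).contDiffOn
  have sh : Sm U (ch C) := (smooth_ch C).contDiffOn
  have sn : Sm U (cn C) := (smooth_cn C).contDiffOn
  have hφ : Sm U φ := hcomp 3
  have hw : ∀ k, Sm U (w k) := fun k => hcomp _
  have hpos := fun y => Real.sqrt_pos.2 (C.mu_pos y)
  have hmN : ∀ y ∈ U, cm C y * cn C y = 1 := fun y _ => by
    simp [cm, cn, Coef.nu, (C.mu_pos y).ne']
  have hHH : ∀ y ∈ U, ch C y * ch C y = cn C y := fun y _ => by
    simp only [ch, cn, Coef.nu, ← mul_inv, ← Complex.ofReal_mul,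
      Real.mul_self_sqrt (C.mu_pos y).le, Complex.ofReal_inv]
  -- the two sides of the Lamé operator
  have hu : ∀ y ∈ U, ∀ j k, pd j (fun z => toU C Y z k) y = dU (ch C) (cn C) φ w j k y := by
    intro y hy j k
    rw [← pd_disp hU sh sn hφ hw hy j k]
    refine pd_congrOn hU (fun z _ => ?_) hy j
    rw [toU, ← pd_ofReal ((C.smooth_nu.differentiable (by simp)) z)]
    rfl
  have hlame : lame C.lam C.mu (toU C Y) x l =
      pd l (fun y => cl C y * ∑ i, dU (ch C) (cn C) φ w i i y) x
        + ∑ j, pd j (fun y => cm C y * (dU (ch C) (cn C) φ w j l y + dU (ch C) (cn C) φ w l j y)) x := by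
    simp only [lame]
    congr 1
    · refine pd_congrOn hU (fun y hy => ?_) hx l
      simp only [dvg, cl]
      rw [Finset.sum_congr rfl fun i _ => hu y hy i i]
    · refine Finset.sum_congr rfl fun j _ => pd_congrOn hU (fun y hy => ?_) hx j
      simp only [strain, cm]
      rw [hu y hy j l, hu y hy l j]
      ring
  rw [hlame, core hU sl sm sh sn hφ hw hmN hHH hx l]
  -- the coefficients
  have hA : ∀ (y : R3) (i : Fin 3) (a : Fin 3) (v : Fin 4 → ℂ),
      (∑ b, ikA C i y a.castSucc b * v b) =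
        -2 * (Real.sqrt (C.mu y) : ℂ) * (C.hnu a i y : ℂ) * v 3 - (C.glm a y : ℂ) * v i.castSucc :=
    fun y i a v => by
      fin_cases i <;> fin_cases a <;> simp [ikA, Fin.sum_univ_four] <;> ring
  have hA3 : ∀ (y : R3) (i : Fin 3) (v : Fin 4 → ℂ),
      (∑ b, ikA C i y 3 b * v b) = (C.kap y : ℂ) * v i.castSucc := fun y i v => by
    fin_cases i <;> simp [ikA, Fin.sum_univ_four]
  have hh : ∀ (y : R3) (a i : Fin 3), (C.hnu a i y : ℂ) = pd a (pd i (cn C)) y := fun y a i => by
    rw [show pd i (cn C) = fun z => ((pd i C.nu z : ℝ) : ℂ) from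
      funext fun z => pd_ofReal ((C.smooth_nu.differentiable (by simp)) z),
      pd_ofReal (((smooth_pd C.smooth_nu).differentiable (by simp)) y)]
    rfl
  have hg : ∀ (y : R3) (a : Fin 3), (C.glm a y : ℂ) = pd a (cm C) y / cm C y := fun y a => by
    rw [show pd a (cm C) y = ((pd a C.mu y : ℝ) : ℂ) from pd_ofReal ((C.smooth_mu.differentiable (by simp)) y)]
    simp [Coef.glm, cm]
  have hS : ∀ y, (Real.sqrt (C.mu y) : ℂ) = cm C y * ch C y := fun y => by
    rw [cm, ch, eq_mul_inv_iff_mul_eq₀ (by exact_mod_cast (hpos y).ne'), ← Complex.ofReal_mul,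
      Real.mul_self_sqrt (C.mu_pos y).le]
  have hsum : ∀ f : Fin 4 → ℂ, ∑ b, f b = (∑ j : Fin 3, f j.castSucc) + f 3 := fun f =>
    Fin.sum_univ_castSucc f
  have hrow : ∀ y ∈ U, cb C y * sysOp (ikA C) (ikB C) Y y 3 =
      scalarPart (cl C) (cm C) (ch C) (cn C) φ w y := by
    intro y hy
    have hb := cb_ne C y
    have hbN : cb C y = (cl C y + (cm C y + cm C y)) * cn C y := by
      simp [cb, cl, cm, cn, Coef.beta, Coef.nu]; ring
    have hbk : cb C y * (C.kap y : ℂ) = (cl C y + cm C y) * ch C y := by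
      have h1 : C.beta y * C.kap y = (C.lam y + C.mu y) * (Real.sqrt (C.mu y))⁻¹ := by
        have h2 : 0 < C.lam y + 2 * C.mu y := by linarith [C.bulk_pos y, C.mu_pos y]
        have h3 := Real.mul_self_sqrt (C.mu_pos y).le
        have h4 := hpos y
        rw [Coef.beta, Coef.kap]
        field_simp [h4.ne', h2.ne', (C.mu_pos y).ne']
        nlinarith [h3]
      have h5 := congrArg ((↑) : ℝ → ℂ) h1
      simpa [cb, cl, cm, ch] using h5
    rw [sysOp_apply hU hY hy, Finset.sum_congr rfl fun i _ => hA3 y i _, hsum]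
    simp only [show (3 : Fin 4) = Fin.last 3 from rfl, ikB, Matrix.of_apply, Fin.lastCases_last,
      Fin.lastCases_castSucc, scalarPart]
    rw [← hbN, ← hbk]
    simp only [hφdef, hwdef, Fin.sum_univ_three]
    field_simp
    simp only [show (3 : Fin 4) = Fin.last 3 from rfl]
    ring
  rw [pd_congrOn hU (g := fun y => (C.beta y : ℂ) * sysOp (ikA C) (ikB C) Y y 3)
    (fun y hy => (hrow y hy).symm) hx l]
  congr 1
  rw [sysOp_apply hU hY hx, Finset.sum_congr rfl fun i _ => hA x i l _, hsum, hS]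
  have h3 : (3 : Fin 4) = Fin.last 3 := rfl
  simp only [ikB, Matrix.of_apply, h3, Fin.lastCases_last, Fin.lastCases_castSucc, hh, hg,
    vectorPart]
  simp only [hφdef, hwdef, h3]
  have hmh : cm C x * ch C x * ch C x = 1 := by rw [mul_assoc, hHH x hx, hmN x hx]
  have hm0 : cm C x ≠ 0 := Complex.ofReal_ne_zero.2 (C.mu_pos x).ne'
  have hh0 : ch C x ≠ 0 := fun h0 => by simp [h0] at hmh
  have hmx : cm C x = 1 / (ch C x * ch C x) := by
    rw [eq_div_iff (mul_ne_zero hh0 hh0), ← mul_assoc]; exact hmh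
  simp only [mul_ite, mul_zero, ite_mul, zero_mul, sub_mul, mul_sub, Finset.sum_sub_distrib,
    Finset.sum_ite_eq', Finset.mem_univ, if_true, Fin.sum_univ_three, hmx]
  field_simp
  ring

end Vale.Agent.P136
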