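import Vale.Agent.P136.Mod.JetCut

/-!
# (B) equal displacement-to-traction maps give equal jets at the boundary

Induction on the order. At a boundary point the integral identity, tested on solutions concentrated
there and rescaled, tends to an integral over the half space of the leading Taylor coefficients.
-/

noncomputable section

namespace Vale.Agent.P136.Jet

open MeasureTheory Metric Filter Topology
open scoped BigOperators ContDiff RealInnerProductSpace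

/-- The matrix of first derivatives. -/
def grd (u : R3 → C3) (x : R3) (k l : Fin 3) : ℂ := pd k (fun y => u y l) x

/-- The energy density as a form in the first derivatives. -/
def dens (a b : ℂ) (D₁ D₂ : Fin 3 → Fin 3 → ℂ) : ℂ :=
  a * ((∑ i, D₁ i i) * ∑ i, D₂ i i)
    + 2 * b * ∑ i, ∑ j, (D₁ j i + D₁ i j) / 2 * ((D₂ j i + D₂ i j) / 2)

theorem energy_eq (lam mu : R3 → ℝ) (u v : R3 → C3) (x : R3) :
    energy lam mu u v x = dens (lam x) (mu x) (grd u x) (grd v x) := rfl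

theorem dens_comm (a b : ℂ) (D₁ D₂ : Fin 3 → Fin 3 → ℂ) : dens a b D₁ D₂ = dens a b D₂ D₁ := by
  simp only [dens, Fin.sum_univ_three]
  ring

theorem dens_scale (a b : ℂ) (c e : ℝ) (D₁ D₂ : Fin 3 → Fin 3 → ℂ) :
    dens (a / (e : ℂ)) (b / (e : ℂ)) (c • D₁) (c • D₂) =
      (c : ℂ) ^ 2 / (e : ℂ) * dens a b D₁ D₂ := by
  simp only [dens, Pi.smul_apply, Complex.real_smul, Fin.sum_univ_three]
  ring

theorem norm_dens_le (a b : ℂ) {D₁ D₂ : Fin 3 → Fin 3 → ℂ} {B₁ B₂ : ℝ}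
    (h₁ : ∀ k l, ‖D₁ k l‖ ≤ B₁) (h₂ : ∀ k l, ‖D₂ k l‖ ≤ B₂) :
    ‖dens a b D₁ D₂‖ ≤ 18 * (‖a‖ + ‖b‖) * (B₁ * B₂) := by
  have hB₁ : 0 ≤ B₁ := (norm_nonneg _).trans (h₁ 0 0)
  have hB₂ : 0 ≤ B₂ := (norm_nonneg _).trans (h₂ 0 0)
  have t : ∀ {D : Fin 3 → Fin 3 → ℂ} {B : ℝ}, (∀ k l, ‖D k l‖ ≤ B) →
      ‖∑ i, D i i‖ ≤ 3 * B := fun {D B} h => by
    refine (norm_sum_le _ _).trans ?_
    simpa using Finset.sum_le_sum (s := Finset.univ) fun i _ => h i i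
  have s : ∀ {D : Fin 3 → Fin 3 → ℂ} {B : ℝ}, (∀ k l, ‖D k l‖ ≤ B) →
      ∀ i j, ‖(D j i + D i j) / 2‖ ≤ B := fun {D B} h i j => by
    rw [norm_div, Complex.norm_ofNat, div_le_iff₀ two_pos]
    linarith [norm_add_le (D j i) (D i j), h j i, h i j]
  have hS : ‖∑ i, ∑ j, (D₁ j i + D₁ i j) / 2 * ((D₂ j i + D₂ i j) / 2)‖ ≤ 9 * (B₁ * B₂) := by
    refine (norm_sum_le _ _).trans ((Finset.sum_le_sum fun i _ => (norm_sum_le _ _).trans
      (Finset.sum_le_sum fun j _ => (norm_mul_le _ _).trans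
        (mul_le_mul (s h₁ i j) (s h₂ i j) (norm_nonneg _) hB₁))).trans ?_)
    simp
    nlinarith
  refine (norm_add_le _ _).trans ?_
  rw [norm_mul, norm_mul, norm_mul, norm_mul, Complex.norm_ofNat]
  have hT := mul_le_mul (t h₁) (t h₂) (norm_nonneg _) (by positivity)
  have e1 := mul_le_mul_of_nonneg_left hT (norm_nonneg a)
  have e2 := mul_le_mul_of_nonneg_left hS (by positivity : 0 ≤ 2 * ‖b‖)
  nlinarith [mul_nonneg (norm_nonneg a) (mul_nonneg hB₁ hB₂)]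

theorem continuous_grd {u : R3 → C3} (hu : ContDiff ℝ 2 u) : Continuous (grd u) :=
  continuous_pi fun k => continuous_pi fun l =>
    (((contDiff_pi.1 hu l).continuous_fderiv (by norm_num)).clm_apply
      (continuous_const (y := EuclideanSpace.single k (1 : ℝ))))

theorem continuous_dens {X : Type*} [TopologicalSpace X] {a b : X → ℝ}
    {D₁ D₂ : X → Fin 3 → Fin 3 → ℂ} (ha : Continuous a) (hb : Continuous b) (h₁ : Continuous D₁)
    (h₂ : Continuous D₂) : Continuous fun x => dens (a x) (b x) (D₁ x) (D₂ x) := by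
  unfold dens
  fun_prop

theorem tendsto_dens {ι : Type*} {L : Filter ι} {a b : ι → ℝ} {D₁ D₂ : ι → Fin 3 → Fin 3 → ℂ}
    {a₀ b₀ : ℝ} {E₁ E₂ : Fin 3 → Fin 3 → ℂ} (ha : Tendsto a L (𝓝 a₀)) (hb : Tendsto b L (𝓝 b₀))
    (h₁ : Tendsto D₁ L (𝓝 E₁)) (h₂ : Tendsto D₂ L (𝓝 E₂)) :
    Tendsto (fun s => dens (a s) (b s) (D₁ s) (D₂ s)) L (𝓝 (dens a₀ b₀ E₁ E₂)) := by
  have hcont : Continuous fun q : ℝ × ℝ × (Fin 3 → Fin 3 → ℂ) × (Fin 3 → Fin 3 → ℂ) =>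
      dens (q.1 : ℂ) (q.2.1 : ℂ) q.2.2.1 q.2.2.2 :=
    continuous_dens (X := ℝ × ℝ × (Fin 3 → Fin 3 → ℂ) × (Fin 3 → Fin 3 → ℂ)) (a := fun q => q.1)
      (b := fun q => q.2.1) (D₁ := fun q => q.2.2.1) (D₂ := fun q => q.2.2.2) continuous_fst (by fun_prop) (by fun_prop) (by fun_prop)
  exact (hcont.tendsto (a₀, b₀, E₁, E₂)).comp (ha.prodMk_nhds (hb.prodMk_nhds (h₁.prodMk_nhds h₂)))

/-- The integral identity of two pairs of moduli with one pairing. -/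
theorem dn_identity {Ω : Set R3} {lam₁ mu₁ lam₂ mu₂ : R3 → ℝ} (hΩ : SmoothDomain Ω)
    (hA₁ : Admissible Ω lam₁ mu₁) (hA₂ : Admissible Ω lam₂ mu₂)
    (h : SameDN Ω lam₁ mu₁ lam₂ mu₂) {u v : R3 → C3} (hu : ContDiff ℝ 2 u) (hv : ContDiff ℝ 2 v)
    (e₁ : ∀ x ∈ Ω, lame lam₁ mu₁ u x = 0) (e₂ : ∀ x ∈ Ω, lame lam₂ mu₂ v x = 0) :
    ∫ x in Ω, dens ((lam₁ x - lam₂ x : ℝ) : ℂ) ((mu₁ x - mu₂ x : ℝ) : ℂ) (grd u x) (grd v x)
      = 0 := by
  obtain ⟨Λ, hsym, h₁, h₂⟩ := h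
  have i₁ := h₁ Set.univ u v isOpen_univ (Set.subset_univ _) hu.contDiffOn hv.contDiffOn e₁
  have i₂ := h₂ Set.univ v u isOpen_univ (Set.subset_univ _) hv.contDiffOn hu.contDiffOn e₂
  rw [hsym, i₁] at i₂
  have hint : ∀ f : R3 → ℂ, Continuous f → IntegrableOn f Ω := fun f hf =>
    (hf.continuousOn.integrableOn_compact hΩ.bounded.isCompact_closure).mono_set subset_closure
  have hc : ∀ {lam mu : R3 → ℝ}, Admissible Ω lam mu →
      Continuous fun x => dens (lam x) (mu x) (grd u x) (grd v x) := fun hA =>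
    continuous_dens hA.smooth_lam.continuous hA.smooth_mu.continuous (continuous_grd hu)
      (continuous_grd hv)
  simp only [energy_eq, dens_comm _ _ (grd v _)] at i₂
  rw [setIntegral_congr_fun hΩ.isOpen.measurableSet (g := fun x =>
      dens (lam₁ x) (mu₁ x) (grd u x) (grd v x) - dens (lam₂ x) (mu₂ x) (grd u x) (grd v x))
      fun x _ => by simp only [dens, Complex.ofReal_sub]; ring,
    integral_sub (hint _ (hc hA₁)) (hint _ (hc hA₂)), i₂, sub_self]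

theorem integral_blowup {F : R3 → ℂ} (h : ∫ x, F x = 0) (p : R3) (ε : ℝ) :
    ∫ y, F (p + ε • y) = 0 := by
  rw [Measure.integral_comp_smul volume (fun z => F (p + z)), integral_add_left_eq_self F p, h,
    smul_zero]

theorem weight_le (a b c d r : ℝ) (j : ℕ) :
    18 * (|a| * |r| ^ j + |b| * |r| ^ j) *
        (|c| / (1 + |r| ^ 2) ^ (j + 2) * (|d| / (1 + |r| ^ 2) ^ (j + 2))) ≤
      18 * (|a| + |b|) * (|c| * |d|) * (1 / (1 + |r| ^ 2) ^ 2) := by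
  have hr : |r| ^ j ≤ (1 + |r| ^ 2) ^ (2 * j + 2) :=
    (pow_le_pow_left₀ (abs_nonneg r) (by nlinarith [sq_nonneg (|r| - 1)]) j).trans
      (pow_le_pow_right₀ (by nlinarith) (by omega))
  calc 18 * (|a| * |r| ^ j + |b| * |r| ^ j) *
        (|c| / (1 + |r| ^ 2) ^ (j + 2) * (|d| / (1 + |r| ^ 2) ^ (j + 2)))
      = 18 * (|a| + |b|) * (|c| * |d|) *
          (|r| ^ j / (1 + |r| ^ 2) ^ (j + 2 + (j + 2))) := by
        generalize 1 + |r| ^ 2 = w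
        ring
    _ ≤ 18 * (|a| + |b|) * (|c| * |d|) *
          ((1 + |r| ^ 2) ^ (2 * j + 2) / (1 + |r| ^ 2) ^ (j + 2 + (j + 2))) :=
        mul_le_mul_of_nonneg_left (div_le_div_of_nonneg_right hr (by positivity)) (by positivity)
    _ = _ := by
        rw [show j + 2 + (j + 2) = 2 * j + 2 + 2 by omega, pow_add _ (2 * j + 2),
          div_mul_cancel_left₀ (by positivity), one_div]

/-- The rescaled density. -/
def blow (Ω : Set R3) (dl dm : R3 → ℝ) (j : ℕ) (u v : R3 → C3) (p : R3) (ε : ℝ) : R3 → ℂ :=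
  Set.indicator {y | p + ε • y ∈ Ω} fun y =>
    dens ((dl (p + ε • y) / ε ^ j : ℝ) : ℂ) ((dm (p + ε • y) / ε ^ j : ℝ) : ℂ)
      (ε • grd u (p + ε • y)) (ε • grd v (p + ε • y))

variable {Ω : Set R3} {dl dm : R3 → ℝ} {j : ℕ} {u v : R3 → C3} {p : R3}

theorem blow_meas (hΩ : IsOpen Ω) (hl : Continuous dl) (hm : Continuous dm)
    (hu : ContDiff ℝ 2 u) (hv : ContDiff ℝ 2 v) (ε : ℝ) :
    AEStronglyMeasurable (blow Ω dl dm j u v p ε) volume := by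
  have ha : Continuous fun y : R3 => p + ε • y := by fun_prop
  have hd : Continuous fun y => dens ((dl (p + ε • y) / ε ^ j : ℝ) : ℂ)
      ((dm (p + ε • y) / ε ^ j : ℝ) : ℂ) (ε • grd u (p + ε • y)) (ε • grd v (p + ε • y)) :=
    continuous_dens (a := fun y => dl (p + ε • y) / ε ^ j) (b := fun y => dm (p + ε • y) / ε ^ j)
      (D₁ := fun y => ε • grd u (p + ε • y)) (D₂ := fun y => ε • grd v (p + ε • y))
      ((hl.comp ha).div_const _) ((hm.comp ha).div_const _)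
      (((continuous_grd hu).comp ha).const_smul ε) (((continuous_grd hv).comp ha).const_smul ε)
  exact (hd.stronglyMeasurable.indicator (hΩ.preimage ha).measurableSet).aestronglyMeasurable

theorem blow_integral (hΩ : IsOpen Ω) (ε : ℝ)
    (h : ∫ x in Ω, dens (dl x) (dm x) (grd u x) (grd v x) = 0) :
    ∫ y, blow Ω dl dm j u v p ε y = 0 := by
  rw [← integral_indicator hΩ.measurableSet] at h
  have e : blow Ω dl dm j u v p ε = fun y => (ε : ℂ) ^ 2 / ((ε ^ j : ℝ) : ℂ) *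
      Ω.indicator (fun x => dens (dl x) (dm x) (grd u x) (grd v x)) (p + ε • y) := by
    funext y
    by_cases hy : p + ε • y ∈ Ω
    · simp only [blow, Set.indicator_of_mem (s := {y | p + ε • y ∈ Ω}) hy,
        Set.indicator_of_mem hy, Complex.ofReal_div]
      exact dens_scale _ _ _ _ _ _
    · simp only [blow, Set.indicator_of_notMem (s := {y | p + ε • y ∈ Ω}) hy,
        Set.indicator_of_notMem hy, mul_zero]
  rw [e, integral_const_mul, integral_blowup h, mul_zero]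

theorem blow_bound {R Kl Km K₁ K₂ : ℝ} (hR : Ω ⊆ closedBall p R)
    (hl : ∀ x, ‖x - p‖ ≤ R → |dl x| ≤ Kl * ‖x - p‖ ^ j)
    (hm : ∀ x, ‖x - p‖ ≤ R → |dm x| ≤ Km * ‖x - p‖ ^ j) {ε : ℝ} (hε : 0 < ε)
    (hu : ∀ y, p + ε • y ∈ Ω → ∀ k l,
      ‖ε • grd u (p + ε • y) k l‖ ≤ K₁ / (1 + ‖y‖ ^ 2) ^ (j + 2))
    (hv : ∀ y, p + ε • y ∈ Ω → ∀ k l,
      ‖ε • grd v (p + ε • y) k l‖ ≤ K₂ / (1 + ‖y‖ ^ 2) ^ (j + 2)) (y : R3) :
    ‖blow Ω dl dm j u v p ε y‖ ≤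
      18 * (|Kl| + |Km|) * (|K₁| * |K₂|) * (1 / (1 + ‖y‖ ^ 2) ^ 2) := by
  by_cases hy : p + ε • y ∈ Ω
  · rw [blow, Set.indicator_of_mem (s := {y | p + ε • y ∈ Ω}) hy]
    have hnorm : ‖p + ε • y - p‖ = ε * ‖y‖ := by
      rw [add_sub_cancel_left, norm_smul, Real.norm_of_nonneg hε.le]
    have hxR : ‖p + ε • y - p‖ ≤ R := mem_closedBall_iff_norm.1 (hR hy)
    have hq : ∀ {d : R3 → ℝ} {K : ℝ}, (∀ x, ‖x - p‖ ≤ R → |d x| ≤ K * ‖x - p‖ ^ j) →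
        ‖((d (p + ε • y) / ε ^ j : ℝ) : ℂ)‖ ≤ |K| * ‖y‖ ^ j := fun {d K} hd => by
      rw [Complex.norm_real, Real.norm_eq_abs, abs_div, abs_of_pos (pow_pos hε j),
        div_le_iff₀ (pow_pos hε j)]
      refine (hd _ hxR).trans ?_
      rw [hnorm, mul_pow, mul_assoc, mul_comm (‖y‖ ^ j)]
      exact mul_le_mul_of_nonneg_right (le_abs_self K) (by positivity)
    have hle : ∀ K : ℝ, K / (1 + ‖y‖ ^ 2) ^ (j + 2) ≤ |K| / (1 + ‖y‖ ^ 2) ^ (j + 2) := fun K =>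
      div_le_div_of_nonneg_right (le_abs_self K) (by positivity)
    refine (norm_dens_le _ _ (fun k l => (hu y hy k l).trans (hle K₁))
      (fun k l => (hv y hy k l).trans (hle K₂))).trans ?_
    refine (mul_le_mul_of_nonneg_right (mul_le_mul_of_nonneg_left (add_le_add (hq hl) (hq hm))
      (by norm_num)) (by positivity)).trans ?_
    simpa only [abs_norm] using weight_le Kl Km K₁ K₂ ‖y‖ j
  · rw [blow, Set.indicator_of_notMem (s := {y | p + ε • y ∈ Ω}) hy, norm_zero]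
    positivity

theorem integrable_weight (B : ℝ) :
    Integrable fun y : R3 => B * (1 / (1 + ‖y‖ ^ 2) ^ 2) := by
  have h := integrable_rpow_neg_one_add_norm_sq (E := R3) (μ := volume) (r := 4)
    (by simp; norm_num)
  refine Integrable.const_mul (h.congr (Filter.Eventually.of_forall fun y => ?_)) B
  show (1 + ‖y‖ ^ 2) ^ (-(4 : ℝ) / 2) = 1 / (1 + ‖y‖ ^ 2) ^ 2
  rw [show -(4 : ℝ) / 2 = -((2 : ℕ) : ℝ) by norm_num, Real.rpow_neg (by positivity),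
    Real.rpow_natCast, one_div]

theorem tendsto_cube : Tendsto (fun s : ℝ => s ^ 3) (𝓝[>] 0) (𝓝[>] 0) :=
  tendsto_nhdsWithin_of_tendsto_nhds_of_eventually_within _
    (by simpa using ((continuous_pow 3).tendsto (0 : ℝ)).mono_left nhdsWithin_le_nhds)
    (eventually_nhdsWithin_of_forall fun s (hs : 0 < s) => pow_pos hs 3)

theorem hyperplane_null {n : R3} (hn : ‖n‖ = 1) : ∀ᵐ y : R3, ⟪n, y⟫ ≠ 0 := by
  rw [ae_iff]
  refine measure_mono_null (t := (LinearMap.ker (innerSL ℝ n).toLinearMap : Set R3))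
    (fun y hy => by simpa using hy) (Measure.addHaar_submodule volume _ fun hk => ?_)
  have : n ∈ LinearMap.ker (innerSL ℝ n).toLinearMap := hk ▸ Submodule.mem_top
  simp [hn] at this

theorem blow_tendsto {n : R3} (hn : Normal Ω p n) {u v : ℝ → R3 → C3} {V₁ V₂ : R3 → C3}
    {cl cm : ℝ} {y : R3} (hy : ⟪n, y⟫ ≠ 0)
    (hl : Tendsto (fun ε : ℝ => dl (p + ε • y) / ε ^ j) (𝓝[>] 0) (𝓝 (cl * ⟪n, y⟫ ^ j)))
    (hm : Tendsto (fun ε : ℝ => dm (p + ε • y) / ε ^ j) (𝓝[>] 0) (𝓝 (cm * ⟪n, y⟫ ^ j)))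
    (hu : ⟪n, y⟫ < 0 → ∀ k l,
      Tendsto (fun s => (s ^ 3 : ℝ) • grd (u s) (p + s ^ 3 • y) k l) (𝓝[>] 0) (𝓝 (grd V₁ y k l)))
    (hv : ⟪n, y⟫ < 0 → ∀ k l,
      Tendsto (fun s => (s ^ 3 : ℝ) • grd (v s) (p + s ^ 3 • y) k l) (𝓝[>] 0) (𝓝 (grd V₂ y k l))) :
    Tendsto (fun s => blow Ω dl dm j (u s) (v s) p (s ^ 3) y) (𝓝[>] 0)
      (𝓝 (Set.indicator {y | ⟪n, y⟫ < 0} (fun y => dens ((cl * ⟪n, y⟫ ^ j : ℝ) : ℂ)
        ((cm * ⟪n, y⟫ ^ j : ℝ) : ℂ) (grd V₁ y) (grd V₂ y)) y)) := by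
  rcases lt_or_gt_of_ne hy with hy | hy
  · rw [Set.indicator_of_mem (show y ∈ {y | ⟪n, y⟫ < 0} from hy)]
    refine Tendsto.congr' ((tendsto_cube.eventually (hn.inside y hy)).mono fun s hs =>
      (Set.indicator_of_mem (s := {y | p + s ^ 3 • y ∈ Ω}) hs _).symm) ?_
    exact tendsto_dens (hl.comp tendsto_cube) (hm.comp tendsto_cube)
      (tendsto_pi_nhds.2 fun k => tendsto_pi_nhds.2 fun l => hu hy k l)
      (tendsto_pi_nhds.2 fun k => tendsto_pi_nhds.2 fun l => hv hy k l)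
  · rw [Set.indicator_of_notMem (show y ∉ {y | ⟪n, y⟫ < 0} from not_lt.2 hy.le)]
    exact tendsto_const_nhds.congr' ((tendsto_cube.eventually (hn.outside y hy)).mono fun s hs =>
      (Set.indicator_of_notMem (s := {y | p + s ^ 3 • y ∈ Ω}) hs _).symm)

/-- The identity at the limit of the blow up. -/
theorem limit_zero (hG : GreenOut) {Ω : Set R3} {lam₁ mu₁ lam₂ mu₂ : R3 → ℝ}
    (hΩ : SmoothDomain Ω) (hA₁ : Admissible Ω lam₁ mu₁) (hA₂ : Admissible Ω lam₂ mu₂)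
    (hS : SameDN Ω lam₁ mu₁ lam₂ mu₂) {p n : R3} (hn : Normal Ω p n) (O : R3 ≃ₗᵢ[ℝ] R3)
    (hO : ∀ y, Z O y = ⟪n, y⟫) {C₁ C₂ : Coef} {U₁ U₂ : Set R3} (hU₁ : IsOpen U₁)
    (hU₂ : IsOpen U₂) (hc₁ : closure Ω ⊆ U₁) (hc₂ : closure Ω ⊆ U₂)
    (hC₁ : ∀ x ∈ U₁, C₁.lam x = lam₁ x ∧ C₁.mu x = mu₁ x)
    (hC₂ : ∀ x ∈ U₂, C₂.lam x = lam₂ x ∧ C₂.mu x = mu₂ x) {j : ℕ} {cl cm : ℝ}
    (hlT : ∀ y, Tendsto (fun ε : ℝ => (lam₁ (p + ε • y) - lam₂ (p + ε • y)) / ε ^ j) (𝓝[>] 0)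
      (𝓝 (cl * ⟪n, y⟫ ^ j)))
    (hlB : ∀ R, ∃ K, ∀ x, ‖x - p‖ ≤ R → |lam₁ x - lam₂ x| ≤ K * ‖x - p‖ ^ j)
    (hmT : ∀ y, Tendsto (fun ε : ℝ => (mu₁ (p + ε • y) - mu₂ (p + ε • y)) / ε ^ j) (𝓝[>] 0)
      (𝓝 (cm * ⟪n, y⟫ ^ j)))
    (hmB : ∀ R, ∃ K, ∀ x, ‖x - p‖ ≤ R → |mu₁ x - mu₂ x| ≤ K * ‖x - p‖ ^ j)
    {V₁ V₂ : R3 → C3} (hV₁ : ∀ l, (fun y => V₁ y l) ∈ Cls O) (hV₂ : ∀ l, (fun y => V₂ y l) ∈ Cls O)
    (h₁ : ∀ y, lame (fun _ => C₁.lam p) (fun _ => C₁.mu p) V₁ y = 0)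
    (h₂ : ∀ y, lame (fun _ => C₂.lam p) (fun _ => C₂.mu p) V₂ y = 0)
    (G : R3 → ℂ) (hGdef : G = Set.indicator {y | ⟪n, y⟫ < 0} fun y =>
      dens ((cl * ⟪n, y⟫ ^ j : ℝ) : ℂ) ((cm * ⟪n, y⟫ ^ j : ℝ) : ℂ) (grd V₁ y) (grd V₂ y)) :
    Integrable G ∧ ∫ y, G y = 0 := by
  obtain ⟨u₁, hu₁, he₁, ⟨K₁, hb₁⟩, ht₁⟩ :=
    approx hG hΩ.bounded hn O hO C₁ hU₁ hc₁ hC₁ hV₁ h₁ (j + 2)
  obtain ⟨u₂, hu₂, he₂, ⟨K₂, hb₂⟩, ht₂⟩ :=
    approx hG hΩ.bounded hn O hO C₂ hU₂ hc₂ hC₂ hV₂ h₂ (j + 2)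
  obtain ⟨R, hR⟩ := hΩ.bounded.subset_closedBall p
  obtain ⟨Kl, hKl⟩ := hlB R
  obtain ⟨Km, hKm⟩ := hmB R
  set F : ℝ → R3 → ℂ := fun s => blow Ω (fun x => lam₁ x - lam₂ x) (fun x => mu₁ x - mu₂ x) j
    (u₁ s) (u₂ s) p (s ^ 3) with hF
  have hmeas : ∀ s, AEStronglyMeasurable (F s) volume := fun s =>
    blow_meas hΩ.isOpen (hA₁.smooth_lam.continuous.sub hA₂.smooth_lam.continuous)
      (hA₁.smooth_mu.continuous.sub hA₂.smooth_mu.continuous) (hu₁ s) (hu₂ s) _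
  have hbd : ∀ᶠ s in 𝓝[>] (0 : ℝ), ∀ y, ‖F s y‖ ≤
      18 * (|Kl| + |Km|) * (|K₁| * |K₂|) * (1 / (1 + ‖y‖ ^ 2) ^ 2) := by
    filter_upwards [self_mem_nhdsWithin, hb₁, hb₂] with s (hs : 0 < s) b₁ b₂
    exact blow_bound hR hKl hKm (pow_pos hs 3) b₁ b₂
  have hlim : ∀ᵐ y : R3, Tendsto (fun s => F s y) (𝓝[>] 0) (𝓝 (G y)) := by
    filter_upwards [hyperplane_null hn.unit] with y hy
    rw [hGdef]
    exact blow_tendsto hn hy (hlT y) (hmT y) (fun h => ht₁ y h) (fun h => ht₂ y h)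
  have hzero : ∀ᶠ s in 𝓝[>] (0 : ℝ), ∫ y, F s y = 0 := by
    filter_upwards [he₁, he₂] with s e₁ e₂
    exact blow_integral hΩ.isOpen _ (dn_identity hΩ hA₁ hA₂ hS (hu₁ s) (hu₂ s) e₁ e₂)
  have hGi : Integrable G := (integrable_weight _).mono'
    (aestronglyMeasurable_of_tendsto_ae (𝓝[>] (0 : ℝ)) hmeas hlim)
    (hlim.mono fun y hy => le_of_tendsto hy.norm (hbd.mono fun s hs => hs y))
  exact ⟨hGi, tendsto_nhds_unique (tendsto_integral_filter_of_dominated_convergence _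
    (Eventually.of_forall hmeas) (hbd.mono fun s hs => Eventually.of_forall hs)
    (integrable_weight _) hlim) (tendsto_const_nhds.congr' (hzero.mono fun s hs => hs.symm))⟩

theorem coef_zero {n : R3} (hn : ‖n‖ = 1) {h : R3 → ℝ} (hc : Continuous h) (h0 : ∀ y, 0 ≤ h y)
    (hp : 0 < h 0) {c : ℝ} {j : ℕ} {G : R3 → ℂ}
    (hG : G = Set.indicator {y | ⟪n, y⟫ < 0} fun y => ((c * ⟪n, y⟫ ^ j * h y : ℝ) : ℂ))
    (hi : Integrable G) (hI : ∫ y, G y = 0) : c = 0 := by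
  by_contra hne
  set d := c * (-1) ^ j with hd
  have hd0 : d ≠ 0 := mul_ne_zero hne (pow_ne_zero _ (by norm_num))
  set r : R3 → ℝ := fun y => (G y).re / d with hr
  have hin : ∀ y, ⟪n, y⟫ < 0 → r y = (-⟪n, y⟫) ^ j * h y := fun y hy => by
    rw [hr, hG]
    simp only [Set.indicator_of_mem (show y ∈ {y | ⟪n, y⟫ < 0} from hy), Complex.ofReal_re]
    rw [div_eq_iff hd0, hd, neg_pow ⟪n, y⟫]
    ring_nf
    rw [pow_mul', neg_one_sq, one_pow, mul_one]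
  have hr0 : 0 ≤ r := fun y => by
    by_cases hy : ⟪n, y⟫ < 0
    · rw [hin y hy]
      exact mul_nonneg (pow_nonneg (neg_nonneg.2 hy.le) j) (h0 y)
    · simp [hr, hG, Set.indicator_of_notMem (show y ∉ {y | ⟪n, y⟫ < 0} from hy)]
  have hri : Integrable r := hi.re.div_const d
  have hrI : ∫ y, r y = 0 := by
    rw [integral_div]
    rw [show (∫ y, (G y).re) = (∫ y, G y).re from integral_re hi, hI]
    simp
  have hae := (integral_eq_zero_iff_of_nonneg hr0 hri).1 hrI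
  set W : Set R3 := {y | ⟪n, y⟫ < 0} ∩ {y | 0 < h y}
  have hW : IsOpen W := (isOpen_lt (by fun_prop) continuous_const).inter
    (isOpen_lt continuous_const hc)
  have hW0 : volume W = 0 := measure_mono_null (fun y hy => by
    show ¬ r y = (0 : R3 → ℝ) y
    rw [hin y hy.1, Pi.zero_apply]
    exact (mul_pos (pow_pos (neg_pos.2 hy.1) j) hy.2).ne') (ae_iff.1 hae)
  rw [hW.measure_eq_zero_iff (μ := volume)] at hW0
  have ht : Tendsto (fun t : ℝ => h ((-t) • n)) (𝓝[>] 0) (𝓝 (h 0)) := by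
    have : Continuous fun t : ℝ => h ((-t) • n) := by fun_prop
    simpa using (this.tendsto 0).mono_left nhdsWithin_le_nhds
  obtain ⟨t, ht1, ht2⟩ :=
    ((ht.eventually (eventually_gt_nhds hp)).and self_mem_nhdsWithin).exists
  have : (-t) • n ∈ W := ⟨by
    simp only [Set.mem_ofPred_eq, inner_smul_right, real_inner_self_eq_norm_sq, hn]
    linarith, ht1⟩
  simp [hW0] at this

theorem exists_frame {n : R3} (hn : ‖n‖ = 1) : ∃ O : R3 ≃ₗᵢ[ℝ] R3, ∀ y, Z O y = ⟪n, y⟫ := by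
  set e : R3 := EuclideanSpace.single 2 1 with he
  set O := Submodule.reflection (ℝ ∙ (n - e))ᗮ
  refine ⟨O, fun y => ?_⟩
  have hOn : O n = e := Submodule.reflection_sub (by simp [he, hn])
  rw [show Z O y = O y 2 from rfl, ← O.inner_map_map n y, hOn, he, EuclideanSpace.inner_single_left]
  simp

/-- (B) equal maps give equal jets at the boundary. -/
theorem jet (hG : GreenOut) (hC : CoefExtOut) : JetOut := by
  intro Ω lam₁ mu₁ lam₂ mu₂ hΩ hA₁ hA₂ hS m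
  obtain ⟨C₁, U₁, hU₁, hc₁, hC₁⟩ := hC Ω lam₁ mu₁ hΩ hA₁
  obtain ⟨C₂, U₂, hU₂, hc₂, hC₂⟩ := hC Ω lam₂ mu₂ hΩ hA₂
  induction m using Nat.strong_induction_on with
  | _ j ih =>
    intro p hp
    have hl : ContDiff ℝ ∞ fun x => lam₁ x - lam₂ x := hA₁.smooth_lam.sub hA₂.smooth_lam
    have hm : ContDiff ℝ ∞ fun x => mu₁ x - mu₂ x := hA₁.smooth_mu.sub hA₂.smooth_mu
    have hd : ∀ (f g : R3 → ℝ), ContDiff ℝ ∞ f → ContDiff ℝ ∞ g → ∀ (i : ℕ) q,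
        iteratedFDeriv ℝ i (fun x => f x - g x) q
          = iteratedFDeriv ℝ i f q - iteratedFDeriv ℝ i g q := fun f g hf hg i q =>
      iteratedFDeriv_sub_apply (hf.of_le (WithTop.coe_le_coe.2 le_top)).contDiffAt
        (hg.of_le (WithTop.coe_le_coe.2 le_top)).contDiffAt
    obtain ⟨n, hn⟩ := exists_normal hΩ hp
    obtain ⟨cl, hcl, hlT, hlB⟩ := flat_top hΩ hp hn hl (j := j) fun i hi q hq => by
      rw [hd _ _ hA₁.smooth_lam hA₂.smooth_lam, (ih i hi q hq).1, sub_self]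
    obtain ⟨cm, hcm, hmT, hmB⟩ := flat_top hΩ hp hn hm (j := j) fun i hi q hq => by
      rw [hd _ _ hA₁.smooth_mu hA₂.smooth_mu, (ih i hi q hq).2, sub_self]
    obtain ⟨O, hO⟩ := exists_frame hn.unit
    obtain ⟨P, E, S, hP, hEc, hSc, hE0, hEp, hSp, hPd, hPE, hsys⟩ := exists_fields O
    obtain ⟨hP₁, Q₁, hQ₁, hQe₁, hQd₁⟩ := hsys (C₁.lam p) (C₁.mu p) (C₁.mu_pos p)
      (C₁.lam_add_two_mu_pos p)
    obtain ⟨hP₂, Q₂, hQ₂, hQe₂, hQd₂⟩ := hsys (C₂.lam p) (C₂.mu p) (C₂.mu_pos p)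
      (C₂.lam_add_two_mu_pos p)
    have hcm0 : cm = 0 := by
      obtain ⟨hi, hI⟩ := limit_zero hG hΩ hA₁ hA₂ hS hn O hO hU₁ hU₂ hc₁ hc₂ hC₁ hC₂ hlT hlB hmT hmB
        hP hP hP₁ hP₂ _ rfl
      refine coef_zero (j := j) hn.unit (h := fun y => 2 * E y) (by fun_prop)
        (fun y => by linarith [hE0 y]) (by linarith) ?_ hi hI
      refine Set.indicator_congr fun y _ => ?_
      rw [← energy_eq (fun y => cl * ⟪n, y⟫ ^ j) (fun y => cm * ⟪n, y⟫ ^ j) P P y, energy, hPd, hPE]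
      push_cast
      ring
    have hcl0 : cl = 0 := by
      obtain ⟨hi, hI⟩ := limit_zero hG hΩ hA₁ hA₂ hS hn O hO hU₁ hU₂ hc₁ hc₂ hC₁ hC₂ hlT hlB hmT hmB
        hQ₁ hQ₂ hQe₁ hQe₂ _ rfl
      have hpos := mul_pos (C₁.lam_add_two_mu_pos p) (C₂.lam_add_two_mu_pos p)
      refine coef_zero (j := j) hn.unit (h := fun y => S y * S y /
        ((C₁.lam p + 2 * C₁.mu p) * (C₂.lam p + 2 * C₂.mu p))) (by fun_prop)
        (fun y => div_nonneg (mul_self_nonneg _) hpos.le)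
        (div_pos (mul_self_pos.2 hSp) hpos) ?_ hi hI
      refine Set.indicator_congr fun y _ => ?_
      rw [← energy_eq (fun y => cl * ⟪n, y⟫ ^ j) (fun y => cm * ⟪n, y⟫ ^ j) Q₁ Q₂ y, energy,
        hQd₁, hQd₂, hcm0]
      push_cast
      simp only [div_eq_mul_inv, mul_inv]
      ring
    exact ⟨sub_eq_zero.1 ((hd _ _ hA₁.smooth_lam hA₂.smooth_lam j p).symm.trans (hcl hcl0)),
      sub_eq_zero.1 ((hd _ _ hA₁.smooth_mu hA₂.smooth_mu j p).symm.trans (hcm hcm0))⟩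

end Vale.Agent.P136.Jet
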