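import Vale.Agent.P136.Mod.OrthAsymp

/-!
# The pairings given by the integral identity
-/

noncomputable section

namespace Vale.Agent.P136.Orth

open MeasureTheory Metric Filter Topology
open scoped BigOperators ContDiff Matrix

variable {φ : R3 → ℝ}

theorem norm_component_le {r : R3 → Fin 4 → ℂ} {x : R3} {S : ℝ} (hr : ContDiff ℝ ∞ r)
    (h : ∀ i ≤ 2, ‖iteratedFDeriv ℝ i r x‖ ≤ S) (a : Fin 4) (j l : Fin 3) :
    ‖r x a‖ ≤ S ∧ ‖pd j (fun y => r y a) x‖ ≤ S ∧ ‖pd j (pd l fun y => r y a) x‖ ≤ S := by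
  have he : ∀ m : Fin 3, ‖(EuclideanSpace.single m 1 : R3)‖ = 1 := fun m => by simp
  have hd : ∀ y, DifferentiableAt ℝ r y := fun y => hr.differentiable (by simp) y
  refine ⟨(norm_le_pi_norm (r x) a).trans (by simpa using h 0 (by norm_num)), ?_, ?_⟩
  · rw [← pd_apply (hd x)]
    refine (norm_le_pi_norm _ a).trans ?_
    refine ((fderiv ℝ r x).le_opNorm _).trans ?_
    rw [he, mul_one]
    simpa using h 1 (by norm_num)
  · have hl : (pd l fun y => r y a) = fun y => pd l r y a := funext fun y => (pd_apply (hd y) a).symm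
    rw [hl, ← pd_apply ((smooth_pd hr).differentiable (by simp) x)]
    refine (norm_le_pi_norm _ a).trans ?_
    have h2 := (iteratedFDeriv ℝ 2 r x).le_opNorm
      (![EuclideanSpace.single j 1, EuclideanSpace.single l 1] : Fin 2 → R3)
    rw [iteratedFDeriv_two_apply, Fin.prod_univ_two] at h2
    simp only [Matrix.cons_val_zero, Matrix.cons_val_one, he, mul_one] at h2
    have hd2 : DifferentiableAt ℝ (fderiv ℝ r) x :=
      (hr.fderiv_right (m := ∞) (by simp)).differentiable (by simp) x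
    have e : pd j (pd l r) x
        = fderiv ℝ (fderiv ℝ r) x (EuclideanSpace.single j 1) (EuclideanSpace.single l 1) := by
      show fderiv ℝ (fun y => fderiv ℝ r y (EuclideanSpace.single l 1)) x
          (EuclideanSpace.single j 1) = _
      simp [fderiv_clm_apply hd2 (differentiableAt_const _)]
    rw [e]
    exact h2.trans (h 2 le_rfl)

/-- The amplitude converges in `C¹` on compact sets. -/
theorem q_close {θ : C3} {Y₀ Y₁ : R3 → Fin 4 → ℂ} {r : ℝ → R3 → Fin 4 → ℂ}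
    (h₀ : ContDiff ℝ ∞ Y₀) (h₁ : ContDiff ℝ ∞ Y₁) {ρ K τ₀ : ℝ}
    (hr : ∀ τ, τ₀ ≤ τ → ContDiff ℝ ∞ (r τ))
    (hK : ∀ τ, τ₀ ≤ τ → ∀ x ∈ ball (0 : R3) ρ, ∀ i ≤ 3, ‖iteratedFDeriv ℝ i (r τ) x‖ ≤ K / τ ^ 2)
    {S : Set R3} (hS : IsCompact S) (hSρ : S ⊆ ball 0 ρ) :
    ∃ M : ℝ, ∀ τ : ℝ, max τ₀ 1 ≤ τ → ∀ x ∈ S, ∀ l j : Fin 3,
      ‖qAmp θ Y₀ Y₁ (r τ) (τ : ℂ) x l - qLim θ Y₀ Y₁ x l‖ ≤ M / τ ∧
      ‖grad (qAmp θ Y₀ Y₁ (r τ) (τ : ℂ)) x l j - grad (qLim θ Y₀ Y₁) x l j‖ ≤ M / τ := by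
  let P : R3 → C3 × (Fin 3 → Fin 3 → ℂ) := fun x =>
    (pot Y₁ x, fun l j => pd j (fun y => pot Y₁ y l) x)
  have hP : Continuous P := by
    refine Continuous.prodMk (continuous_pi fun l => (smooth_pot h₁ l).continuous) ?_
    exact continuous_pi fun l => continuous_pi fun j => (smooth_pd (smooth_pot h₁ l)).continuous
  obtain ⟨A, hA⟩ := hS.exists_bound_of_continuousOn hP.continuousOn
  refine ⟨A + 2 * |K| + |K| * ‖θ‖, fun τ hτ x hx l j => ?_⟩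
  have hτ0 := (le_max_left _ _).trans hτ
  have hτ1 : 1 ≤ τ := (le_max_right _ _).trans hτ
  have hτp : 0 < τ := by linarith
  have hb : ∀ i ≤ 2, ‖iteratedFDeriv ℝ i (r τ) x‖ ≤ |K| / τ ^ 2 := fun i hi =>
    (hK τ hτ0 x (hSρ hx) i (by omega)).trans (div_le_div_of_nonneg_right (le_abs_self K) (sq_nonneg τ))
  have hn : ∀ a j l, _ := fun a j l => norm_component_le (hr τ hτ0) hb a j l
  have hsq : |K| / τ ^ 2 ≤ |K| / τ := by
    refine div_le_div_of_nonneg_left (abs_nonneg K) hτp ?_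
    nlinarith
  have hA1 : ‖pot Y₁ x l‖ ≤ A :=
    ((norm_le_pi_norm _ l).trans (norm_fst_le (P x))).trans (hA x hx)
  have hA2 : ‖pd j (fun y => pot Y₁ y l) x‖ ≤ A :=
    (((norm_le_pi_norm _ j).trans (norm_le_pi_norm (P x).2 l)).trans (norm_snd_le (P x))).trans (hA x hx)
  have hτn : ‖(τ : ℂ)‖ = τ := by simp [abs_of_pos hτp]
  have bound : ∀ (u v w : ℂ), ‖u‖ ≤ A → ‖v‖ ≤ 2 * (|K| / τ ^ 2) → ‖w‖ ≤ |K| / τ ^ 2 →
      ‖(τ : ℂ)⁻¹ * u + v + (τ : ℂ) * w * θ l‖ ≤ (A + 2 * |K| + |K| * ‖θ‖) / τ := by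
    intro u v w hu hv hw
    refine (norm_add₃_le).trans ?_
    rw [norm_mul, norm_inv, norm_mul, norm_mul, hτn]
    have e1 : τ⁻¹ * ‖u‖ ≤ A / τ := by
      rw [div_eq_inv_mul]; exact mul_le_mul_of_nonneg_left hu (inv_nonneg.2 hτp.le)
    have e2 : ‖v‖ ≤ 2 * |K| / τ := hv.trans (by rw [mul_div_assoc]; linarith)
    have e3 : τ * ‖w‖ * ‖θ l‖ ≤ |K| * ‖θ‖ / τ := by
      calc τ * ‖w‖ * ‖θ l‖ ≤ τ * (|K| / τ ^ 2) * ‖θ‖ := by
            gcongr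
            exact norm_le_pi_norm θ l
        _ = |K| * ‖θ‖ / τ := by field_simp
    rw [add_div, add_div]
    linarith
  have dg : DifferentiableAt ℝ (gsc (r τ)) x := (smooth_gsc (hr τ hτ0)).differentiable (by simp) x
  have dw : DifferentiableAt ℝ (fun y => wvec (r τ) y l) x :=
    (smooth_wvec (hr τ hτ0) l).differentiable (by simp) x
  have dp : DifferentiableAt ℝ (fun y => pot Y₁ y l) x :=
    (smooth_pot h₁ l).differentiable (by simp) x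
  have dr : DifferentiableAt ℝ (fun y => pot (r τ) y l) x :=
    (smooth_pot (hr τ hτ0) l).differentiable (by simp) x
  have e : (fun y => qAmp θ Y₀ Y₁ (r τ) (τ : ℂ) y l) = fun y => qLim θ Y₀ Y₁ y l
      + (((τ : ℂ)⁻¹ * pot Y₁ y l + pot (r τ) y l) + (τ : ℂ) * θ l * gsc (r τ) y) := by
    funext y; simp [qAmp, qLim]; ring
  constructor
  · rw [show qAmp θ Y₀ Y₁ (r τ) (τ : ℂ) x l - qLim θ Y₀ Y₁ x l
        = (τ : ℂ)⁻¹ * pot Y₁ x l + pot (r τ) x l + (τ : ℂ) * gsc (r τ) x * θ l by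
      rw [congrFun e x]; ring]
    refine bound _ _ _ hA1 ?_ (hn 3 j l).1
    rw [two_mul]
    exact (norm_add_le _ _).trans (add_le_add (hn l.castSucc j l).1 (hn 3 l l).2.1)
  · rw [show grad (qAmp θ Y₀ Y₁ (r τ) (τ : ℂ)) x l j - grad (qLim θ Y₀ Y₁) x l j
        = (τ : ℂ)⁻¹ * pd j (fun y => pot Y₁ y l) x + pd j (fun y => pot (r τ) y l) x
          + (τ : ℂ) * pd j (gsc (r τ)) x * θ l by
      simp only [grad]
      rw [e, pd_add ((smooth_qLim θ h₀ h₁ l).differentiable (by simp) x)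
          (((dp.const_mul _).fun_add dr).fun_add (dg.const_mul _)),
        pd_add ((dp.const_mul _).fun_add dr) (dg.const_mul _), pd_add (dp.const_mul _) dr,
        pd_const_mul _ dp, pd_const_mul _ dg]
      ring]
    refine bound _ _ _ hA2 ?_ (hn 3 j l).2.1
    rw [two_mul]
    simp only [pot]
    rw [pd_add dw ((smooth_pd (smooth_gsc (hr τ hτ0))).differentiable (by simp) x)]
    exact (norm_add_le _ _).trans (add_le_add (hn l.castSucc j l).2.1 (hn 3 j l).2.2)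

/-- The variables of the flux. -/
abbrev W : Type := C3 × (Fin 3 → Fin 3 → ℂ) × C3 × (Fin 3 → Fin 3 → ℂ) × ℂ

/-- The variables at finite `τ`. -/
def wAmp (q p : R3 → C3) (s : ℂ) (x : R3) : W := (q x, grad q x, p x, grad p x, s)

theorem continuous_grad {q : R3 → C3} (h : ∀ l, ContDiff ℝ ∞ fun x => q x l) : Continuous (grad q) :=
  continuous_pi fun l => continuous_pi fun _ => (smooth_pd (h l)).continuous

theorem continuous_wAmp {q p : R3 → C3} (hq : ∀ l, ContDiff ℝ ∞ fun x => q x l)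
    (hp : ∀ l, ContDiff ℝ ∞ fun x => p x l) (s : ℂ) : Continuous (wAmp q p s) :=
  (continuous_pi fun l => (hq l).continuous).prodMk ((continuous_grad hq).prodMk
    ((continuous_pi fun l => (hp l).continuous).prodMk ((continuous_grad hp).prodMk continuous_const)))

theorem wAmp_close {q q' p p' : R3 → C3} {x : R3} {τ M : ℝ} (hτ : 0 < τ) (hM : 0 ≤ M)
    (hq : ∀ l j, ‖q x l - q' x l‖ ≤ M / τ ∧ ‖grad q x l j - grad q' x l j‖ ≤ M / τ)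
    (hp : ∀ l j, ‖p x l - p' x l‖ ≤ M / τ ∧ ‖grad p x l j - grad p' x l j‖ ≤ M / τ) :
    ‖wAmp q p (τ : ℂ)⁻¹ x - wAmp q' p' 0 x‖ ≤ (M + 1) / τ := by
  have h0 : 0 ≤ M / τ := div_nonneg hM hτ.le
  have hle : M / τ ≤ (M + 1) / τ := div_le_div_of_nonneg_right (by linarith) hτ.le
  simp only [wAmp, Prod.mk_sub_mk, norm_prod_le_iff]
  refine ⟨?_, ?_, ?_, ?_, ?_⟩
  · exact ((pi_norm_le_iff_of_nonneg h0).2 fun l => (hq l l).1).trans hle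
  · exact ((pi_norm_le_iff_of_nonneg h0).2 fun l => (pi_norm_le_iff_of_nonneg h0).2 fun j =>
      (hq l j).2).trans hle
  · exact ((pi_norm_le_iff_of_nonneg h0).2 fun l => (hp l l).1).trans hle
  · exact ((pi_norm_le_iff_of_nonneg h0).2 fun l => (pi_norm_le_iff_of_nonneg h0).2 fun j =>
      (hp l j).2).trans hle
  · simp only [sub_zero, norm_inv, Complex.norm_real, Real.norm_eq_abs, abs_of_pos hτ]
    rw [inv_eq_one_div]
    exact div_le_div_of_nonneg_right (by linarith) hτ.le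

theorem cgrad_eq_zero_out {x : R3} (hx : x ∉ tsupport φ) : cgrad φ x = 0 := by
  funext j; simp [cgrad, pd_eq_zero_of_not_tsupport hx j]

theorem cgrad_eq_zero_in {r₀ : ℝ} (h1 : ∀ x ∈ closedBall (0 : R3) r₀, φ x = 1) {x : R3}
    (hx : ‖x‖ < r₀) : cgrad φ x = 0 := by
  funext j
  simp only [cgrad, Pi.zero_apply]
  rw [pd_congr (g := fun _ => (1 : ℝ)) ?_]
  · simp
  · filter_upwards [isOpen_ball.mem_nhds (mem_ball_zero_iff.2 hx)] with y hy using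
      h1 y (ball_subset_closedBall hy)

theorem continuous_cgrad (hφ : ContDiff ℝ ∞ φ) : Continuous (cgrad φ) :=
  continuous_pi fun _ => Complex.continuous_ofReal.comp (smooth_pd hφ).continuous

theorem ctr_zero (l₀ : ℂ) (G : Fin 3 → Fin 3 → ℂ) (V : C3) : ctr l₀ 0 G V = 0 := by simp [ctr]

theorem dens_out (l₀ : ℂ) {θ : C3} (τ : ℝ) (x : R3) {u v : R3 → C3} (U V : C3)
    (Gu Gv : Fin 3 → Fin 3 → ℂ) (hu : u x = cexpθ τ θ x • U) (hv : v x = cexpθ τ (-θ) x • V)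
    (hgu : grad u x = cexpθ τ θ x • Gu) (hgv : grad v x = cexpθ τ (-θ) x • Gv) :
    dens l₀ φ u v x = ctr l₀ (cgrad φ x) Gu V - ctr l₀ (cgrad φ x) Gv U := by
  simp only [dens, hu, hv, hgu, hgv, ctr_smul_left, ctr_smul_right]
  linear_combination (ctr l₀ (cgrad φ x) Gu V - ctr l₀ (cgrad φ x) Gv U) * cexpθ_mul_neg τ θ (x := x)

theorem transp_neg (C : Coef) (θ : C3) (Y : R3 → Fin 4 → ℂ) (x : R3) :
    transp C (-θ) Y x = -transp C θ Y x := by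
  funext a
  simp [transp, dD, Finset.sum_neg_distrib]
  ring

theorem transp_g (C : Coef) (θ : C3) {Y : R3 → Fin 4 → ℂ} (hY : ContDiff ℝ ∞ Y) (x : R3) :
    transp C θ Y x 3 = 2 * dD θ (gsc Y) x + (C.kap x : ℂ) * (θ ⬝ᵥ wvec Y x) := by
  simp [transp, dD_apply (hY.differentiable (by simp) x), ikA, Matrix.mulVec, dotProduct, wvec,
    Fin.sum_univ_three, Fin.sum_univ_four]
  simp only [dD, smul_eq_mul, show (fun y => Y y 3) = gsc Y from rfl]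
  ring

theorem lam0_eq {C₁ C₂ : Coef} {R : ℝ} (hE : EqOut C₁ C₂ R) : C₁.lam0 = C₂.lam0 := by
  have hn : ‖(EuclideanSpace.single 0 |R| : R3)‖ = |R| := by simp
  have h := hE.lam (EuclideanSpace.single 0 |R|) (by rw [hn]; exact le_abs_self R)
  rw [C₁.lam_out _ (by rw [hn]; exact hE.rad₁.trans (le_abs_self R)),
    C₂.lam_out _ (by rw [hn]; exact hE.rad₂.trans (le_abs_self R))] at h
  exact h

/-- The derivative of `g` where the coefficients are constant. -/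
theorem dg_const {C : Coef} {θ : C3} {Y : R3 → Fin 4 → ℂ} (hY : ContDiff ℝ ∞ Y) {x : R3}
    (hx : C.rad ≤ ‖x‖) (ht : transp C θ Y x = 0) :
    θ ⬝ᵥ cgr (gsc Y) x = -(((C.lam0 : ℂ) + 1) / ((C.lam0 : ℂ) + 2)) * (θ ⬝ᵥ wvec Y x) / 2 := by
  have h := transp_g C θ hY x
  rw [ht] at h
  have hk : (C.kap x : ℂ) = ((C.lam0 : ℂ) + 1) / ((C.lam0 : ℂ) + 2) := by
    simp [Coef.kap, C.lam_out x hx, C.mu_out x hx]
  have hd : dD θ (gsc Y) x = θ ⬝ᵥ cgr (gsc Y) x := by simp [dD, cgr, dotProduct]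
  rw [hk, hd] at h
  simp only [Pi.zero_apply] at h
  linear_combination (-1 / 2 : ℂ) * h

theorem null_dot_qLim (θ : C3) (hθ : θ ⬝ᵥ θ = 0) (c : ℂ) (Y₀ Y₁ : R3 → Fin 4 → ℂ) (x : R3) :
    θ ⬝ᵥ qLim (c • θ) Y₀ Y₁ x = θ ⬝ᵥ wvec Y₀ x + θ ⬝ᵥ cgr (gsc Y₀) x := by
  simp [qLim, pot, cgr, dotProduct, Fin.sum_univ_three] at hθ ⊢
  linear_combination (gsc Y₁ x * c) * hθ

/-- The order `τ²`. -/
theorem pairA (hC : CgoOut) {C₁ C₂ : Coef} {R : ℝ} (hE : EqOut C₁ C₂ R) (hI : IntId C₁ C₂ R)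
    {θ : C3} (hθ0 : θ ≠ 0) (hθ : ∑ i, θ i ^ 2 = 0) {ρ r₀ : ℝ} (hρ0 : 0 < ρ) (hr : R < r₀)
    (hR : R < ρ) (hφ : ContDiff ℝ ∞ φ) (hs : tsupport φ ⊆ ball 0 ρ)
    (h1 : ∀ x ∈ closedBall (0 : R3) r₀, φ x = 1) {Y₀ Z₀ : R3 → Fin 4 → ℂ}
    (hY : ContDiff ℝ ∞ Y₀) (hZ : ContDiff ℝ ∞ Z₀)
    (hYt : ∀ x ∈ ball 0 (ρ + 1), transp C₁ θ Y₀ x = 0)
    (hZt : ∀ x ∈ ball 0 (ρ + 1), transp C₂ θ Z₀ x = 0) :
    ∫ x, (θ ⬝ᵥ cgrad φ x)
      * (gsc Y₀ x * (θ ⬝ᵥ wvec Z₀ x) - gsc Z₀ x * (θ ⬝ᵥ wvec Y₀ x)) = 0 := by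
  obtain ⟨Y₁, r, K, τ₀, hY₁, hτ₀, hu⟩ := hC C₁ θ hθ0 hθ ρ hρ0 Y₀ hY hYt
  obtain ⟨Z₁, r', K', τ₀', hZ₁, hτ₀', hv⟩ := hC C₂ (-θ) (neg_ne_zero.2 hθ0) (by simpa using hθ) ρ
    hρ0 Z₀ hZ (fun x hx => by rw [transp_neg, hZt x hx, neg_zero])
  have hS := hasCompactSupport_of_ball hs
  obtain ⟨M, hM⟩ := q_close (θ := θ) hY hY₁ (fun τ h => (hu τ h).1) (fun τ h => (hu τ h).2.1) hS hs
  obtain ⟨M', hM'⟩ := q_close (θ := -θ) hZ hZ₁ (fun τ h => (hv τ h).1) (fun τ h => (hv τ h).2.1) hS hs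
  set τm := max (max τ₀ τ₀') 1 with hτm
  have hθd : θ ⬝ᵥ θ = 0 := by simpa [dotProduct, sq] using hθ
  let l₀ : ℂ := (C₁.lam0 : ℂ)
  let Φ : R3 × W → ℂ := fun q =>
    T2 l₀ (cgrad φ q.1) θ (gsc Y₀ q.1) (gsc Z₀ q.1) (cgr (gsc Y₀) q.1) (cgr (gsc Z₀) q.1) q.2.1
        q.2.2.2.1
      + q.2.2.2.2.2 * T1 l₀ (cgrad φ q.1) θ (gsc Y₀ q.1) (gsc Z₀ q.1) (cgr (gsc Y₀) q.1)
          (cgr (gsc Z₀) q.1) q.2.1 q.2.2.2.1 q.2.2.1 q.2.2.2.2.1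
      + q.2.2.2.2.2 ^ 2 * T0 l₀ (cgrad φ q.1) q.2.1 q.2.2.2.1 q.2.2.1 q.2.2.2.2.1
  have hΦc : Continuous Φ := by
    have hH := (continuous_cgrad hφ).comp (continuous_fst (X := R3) (Y := W))
    have ha := (smooth_gsc hY).continuous
    have hc := (smooth_gsc hZ).continuous
    have hda : Continuous (cgr (gsc Y₀)) := continuous_pi fun _ => (smooth_pd (smooth_gsc hY)).continuous
    have hdc : Continuous (cgr (gsc Z₀)) := continuous_pi fun _ => (smooth_pd (smooth_gsc hZ)).continuous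
    simp only [Φ, T2, T1, T0, G1, ctr, dotProduct, Fin.sum_univ_three]
    simp only [show ¬((0 : Fin 3) = 1) by decide, show ¬((0 : Fin 3) = 2) by decide,
      show ¬((1 : Fin 3) = 0) by decide, show ¬((1 : Fin 3) = 2) by decide,
      show ¬((2 : Fin 3) = 0) by decide, show ¬((2 : Fin 3) = 1) by decide, if_false, if_true]
    fun_prop
  have hΦ0 : ∀ x w, cgrad φ x = 0 → Φ (x, w) = 0 := fun x w h => by
    simp [Φ, T2, T1, T0, h, ctr_zero]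
  let q := fun τ : ℝ => qAmp θ Y₀ Y₁ (r τ) (τ : ℂ)
  let p := fun τ : ℝ => qAmp (-θ) Z₀ Z₁ (r' τ) (τ : ℂ)
  have heq : ∀ τ, τm ≤ τ → ∫ x, Φ (x, wAmp (q τ) (p τ) (τ : ℂ)⁻¹ x) = 0 := by
    intro τ hτ
    obtain ⟨hτ1, hτ2, hτ3⟩ : τ₀ ≤ τ ∧ τ₀' ≤ τ ∧ (1 : ℝ) ≤ τ := by
      simpa [hτm, and_assoc] using hτ
    have hτc : (τ : ℂ) ≠ 0 := Complex.ofReal_ne_zero.2 (by linarith)
    have hsu := smooth_sol C₁ θ hY hY₁ (hu τ hτ1).1 τ
    have hsv := smooth_sol C₂ (-θ) hZ hZ₁ (hv τ hτ2).1 τ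
    have hfl := flux_zero hE hI hr hR (contDiff_infty.1 hsu 2).contDiffOn
      (contDiff_infty.1 hsv 2).contDiffOn (hu τ hτ1).2.2 (hv τ hτ2).2.2 hφ hs h1
    have hpt : ∀ x, dens l₀ φ (sol C₁ θ Y₀ Y₁ (r τ) τ) (sol C₂ (-θ) Z₀ Z₁ (r' τ) τ) x
        = (τ : ℂ) ^ 2 * Φ (x, wAmp (q τ) (p τ) (τ : ℂ)⁻¹ x) := by
      intro x
      by_cases hH : cgrad φ x = 0
      · simp [dens, hH, ctr_zero, hΦ0 x _ hH]
      · have hx : r₀ ≤ ‖x‖ := not_lt.1 fun h => hH (cgrad_eq_zero_in h1 h)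
        have hne : τ ≠ 0 := by linarith
        rw [dens_out l₀ τ x _ _ _ _
          (sol_out C₁ θ hY hY₁ (hu τ hτ1).1 hne (by linarith [hE.rad₁]))
          (sol_out C₂ (-θ) hZ hZ₁ (hv τ hτ2).1 hne (by linarith [hE.rad₂]))
          (grad_sol_out C₁ θ hY hY₁ (hu τ hτ1).1 hne (by linarith [hE.rad₁]))
          (grad_sol_out C₂ (-θ) hZ hZ₁ (hv τ hτ2).1 hne (by linarith [hE.rad₂])),
          expand _ _ _ _ _ _ _ _ _ _ _ _ hθd]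
        simp only [Φ, wAmp, q, p]
        field_simp
    rw [show (C₁.lam0 : ℂ) = l₀ from rfl] at hfl
    simp only [sol] at hpt hfl
    simp only [hpt, integral_const_mul, mul_eq_zero] at hfl
    exact hfl.resolve_left (pow_ne_zero 2 hτc)
  have hlim : Tendsto (fun τ : ℝ => ∫ x, Φ (x, wAmp (q τ) (p τ) (τ : ℂ)⁻¹ x)) atTop
      (𝓝 (∫ x, Φ (x, wAmp (qLim θ Y₀ Y₁) (qLim (-θ) Z₀ Z₁) 0 x))) := by
    refine tendsto_integral_comp hS hΦc (fun x w hx => hΦ0 x w (cgrad_eq_zero_out hx))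
      (M := max |M| |M'| + 1) (τ₀ := τm)
      (continuous_wAmp (smooth_qLim θ hY hY₁) (smooth_qLim (-θ) hZ hZ₁) 0) ?_ ?_
    · intro τ hτ
      obtain ⟨hτ1, hτ2, -⟩ : τ₀ ≤ τ ∧ τ₀' ≤ τ ∧ (1 : ℝ) ≤ τ := by
        simpa [hτm, and_assoc] using hτ
      exact continuous_wAmp (smooth_qAmp θ hY hY₁ (hu τ hτ1).1 _)
        (smooth_qAmp (-θ) hZ hZ₁ (hv τ hτ2).1 _) _
    · intro τ hτ x hx
      obtain ⟨hτ1, hτ2, hτ3⟩ : τ₀ ≤ τ ∧ τ₀' ≤ τ ∧ (1 : ℝ) ≤ τ := by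
        simpa [hτm, and_assoc] using hτ
      have hp' : 0 < τ := by linarith
      refine wAmp_close hp' (le_max_of_le_left (abs_nonneg M)) (fun l j => ?_) (fun l j => ?_)
      · obtain ⟨e1, e2⟩ := hM τ (max_le hτ1 hτ3) x hx l j
        have hh := div_le_div_of_nonneg_right ((le_abs_self M).trans (le_max_left _ |M'|)) hp'.le
        exact ⟨e1.trans hh, e2.trans hh⟩
      · obtain ⟨e1, e2⟩ := hM' τ (max_le hτ2 hτ3) x hx l j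
        have hh := div_le_div_of_nonneg_right ((le_abs_self M').trans (le_max_right |M| _)) hp'.le
        exact ⟨e1.trans hh, e2.trans hh⟩
  have h0 : ∫ x, Φ (x, wAmp (qLim θ Y₀ Y₁) (qLim (-θ) Z₀ Z₁) 0 x) = 0 :=
    tendsto_nhds_unique hlim (tendsto_const_nhds.congr' (by
      filter_upwards [eventually_ge_atTop τm] with τ hτ using (heq τ hτ).symm))
  have hval : ∀ x, Φ (x, wAmp (qLim θ Y₀ Y₁) (qLim (-θ) Z₀ Z₁) 0 x) = 2 * ((θ ⬝ᵥ cgrad φ x)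
      * (gsc Y₀ x * (θ ⬝ᵥ wvec Z₀ x) - gsc Z₀ x * (θ ⬝ᵥ wvec Y₀ x))) := by
    intro x
    by_cases hH : cgrad φ x = 0
    · rw [hΦ0 x _ hH]; simp [hH]
    · have hx : r₀ ≤ ‖x‖ := not_lt.1 fun h => hH (cgrad_eq_zero_in h1 h)
      have hxs : x ∈ tsupport φ := by_contra fun h => hH (cgrad_eq_zero_out h)
      have hxb : x ∈ ball (0 : R3) (ρ + 1) := ball_subset_ball (by linarith) (hs hxs)
      have ea := dg_const (θ := θ) hY (by linarith [hE.rad₁]) (hYt x hxb)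
      have ec := dg_const (θ := θ) hZ (by linarith [hE.rad₂]) (hZt x hxb)
      rw [← lam0_eq hE] at ec
      have q1 := null_dot_qLim θ hθd 1 Y₀ Y₁ x
      have q2 := null_dot_qLim θ hθd (-1) Z₀ Z₁ x
      rw [one_smul] at q1
      rw [neg_one_smul] at q2
      have hl : (C₁.lam0 : ℂ) + 2 ≠ 0 := by
        have := C₁.lam_add_two_mu_pos x
        rw [C₁.lam_out x (by linarith [hE.rad₁]), C₁.mu_out x (by linarith [hE.rad₁])] at this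
        exact_mod_cast (by linarith : C₁.lam0 + 2 ≠ 0)
      simp only [Φ, wAmp, T2, q1, q2, ea, ec, l₀, ne_eq, OfNat.ofNat_ne_zero, not_false_eq_true,
        zero_pow, zero_mul, add_zero]
      field_simp
      ring
  simp only [hval, integral_const_mul, mul_eq_zero, OfNat.ofNat_ne_zero, false_or] at h0
  exact h0

theorem continuous_ctr_comp (l₀ : ℂ) {H : R3 → C3} {G : R3 → Fin 3 → Fin 3 → ℂ} {V : R3 → C3}
    (hH : Continuous H) (hG : Continuous G) (hV : Continuous V) :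
    Continuous fun x => ctr l₀ (H x) (G x) (V x) :=
  Continuous.comp (g := fun q : C3 × (Fin 3 → Fin 3 → ℂ) × C3 => ctr l₀ q.1 q.2.1 q.2.2)
    (f := fun x => (H x, G x, V x)) (continuous_ctr l₀) (hH.prodMk (hG.prodMk hV))

theorem integrable_dens (l₀ : ℂ) {ρ : ℝ} (hφ : ContDiff ℝ ∞ φ) (hs : tsupport φ ⊆ ball 0 ρ)
    {a b : R3 → C3} (ha : ContDiff ℝ ∞ a) (hb : ContDiff ℝ ∞ b) :
    Integrable (dens l₀ φ a b) := by
  have hga : Continuous (grad a) := continuous_grad fun l => contDiff_pi.1 ha l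
  have hgb : Continuous (grad b) := continuous_grad fun l => contDiff_pi.1 hb l
  refine Continuous.integrable_of_hasCompactSupport ?_ ?_
  · unfold dens
    exact (continuous_ctr_comp l₀ (continuous_cgrad hφ) hga hb.continuous).sub
      (continuous_ctr_comp l₀ (continuous_cgrad hφ) hgb ha.continuous)
  · refine HasCompactSupport.intro (hasCompactSupport_of_ball hs) fun x hx => ?_
    simp [dens, cgrad_eq_zero_out hx, ctr_zero]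

theorem ctr_sub_left (l₀ : ℂ) (H : C3) (G G' : Fin 3 → Fin 3 → ℂ) (V : C3) :
    ctr l₀ H (G - G') V = ctr l₀ H G V - ctr l₀ H G' V := by
  simp [ctr, Fin.sum_univ_three]
  ring

theorem ctr_sub_right (l₀ : ℂ) (H : C3) (G : Fin 3 → Fin 3 → ℂ) (V V' : C3) :
    ctr l₀ H G (V - V') = ctr l₀ H G V - ctr l₀ H G V' := by
  simp [ctr, Fin.sum_univ_three]
  ring

theorem G1_sub (θ q q' da : C3) : G1 θ q da - G1 θ q' da = G1 θ (q - q') 0 := by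
  funext l j; simp [G1]; ring

/-- Two amplitudes with equal potential, tested with a pure one. -/
theorem expand_diff (l₀ τ : ℂ) (H θ : C3) (a : ℂ) (da q q' p : C3)
    (dq dq' dp : Fin 3 → Fin 3 → ℂ) (hθ : θ ⬝ᵥ θ = 0) :
    (ctr l₀ H (ampG τ θ a da q dq) (ampU τ (-θ) 0 p)
        - ctr l₀ H (ampG τ (-θ) 0 0 p dp) (ampU τ θ a q))
      - (ctr l₀ H (ampG τ θ a da q' dq') (ampU τ (-θ) 0 p)
        - ctr l₀ H (ampG τ (-θ) 0 0 p dp) (ampU τ θ a q'))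
      = τ * T1 l₀ H θ 0 0 0 0 (q - q') p (dq - dq') dp + T0 l₀ H (q - q') p (dq - dq') dp := by
  rw [expand _ _ _ _ _ _ _ _ _ _ _ _ hθ, expand _ _ _ _ _ _ _ _ _ _ _ _ hθ]
  simp only [T2, T1, T0, ← G1_sub θ q q' da, ctr_sub_left, ctr_sub_right, zero_mul, mul_zero]
  ring

theorem grad_sub {q q' : R3 → C3} (h : ∀ l, ContDiff ℝ ∞ fun x => q x l)
    (h' : ∀ l, ContDiff ℝ ∞ fun x => q' x l) (x : R3) :
    grad (fun y => q y - q' y) x = grad q x - grad q' x := by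
  funext l j
  exact pd_sub ((h l).differentiable (by simp) x) ((h' l).differentiable (by simp) x)

/-- The flux between two solutions with equal potential and a pure one, divided by `τ`. -/
def phiV (l₀ : ℂ) (φ : R3 → ℝ) (θ : C3) (q : R3 × W) : ℂ :=
  T1 l₀ (cgrad φ q.1) θ 0 0 0 0 q.2.1 q.2.2.2.1 q.2.2.1 q.2.2.2.2.1
    + q.2.2.2.2.2 * T0 l₀ (cgrad φ q.1) q.2.1 q.2.2.2.1 q.2.2.1 q.2.2.2.2.1

theorem continuous_phiV (l₀ : ℂ) (θ : C3) (hφ : ContDiff ℝ ∞ φ) :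
    Continuous (phiV l₀ φ θ) := by
  have hH := (continuous_cgrad hφ).comp (continuous_fst (X := R3) (Y := W))
  unfold phiV
  simp only [T1, T0, G1, ctr, Fin.sum_univ_three]
  simp only [show ¬((0 : Fin 3) = 1) by decide, show ¬((0 : Fin 3) = 2) by decide,
    show ¬((1 : Fin 3) = 0) by decide, show ¬((1 : Fin 3) = 2) by decide,
    show ¬((2 : Fin 3) = 0) by decide, show ¬((2 : Fin 3) = 1) by decide, if_false, if_true]
  fun_prop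

theorem phiV_eq_zero (l₀ : ℂ) (θ : C3) (x : R3) (w : W) (h : cgrad φ x = 0) :
    phiV l₀ φ θ (x, w) = 0 := by
  simp [phiV, T1, T0, h, ctr_zero]

theorem cgr_eq_of_region {R₁ ρ : ℝ} {f g : R3 → ℂ}
    (hg : ∀ x ∈ ball (0 : R3) (ρ + 1), R₁ < ‖x‖ → f x = g x) {x : R3}
    (hxb : x ∈ ball (0 : R3) (ρ + 1)) (hx : R₁ < ‖x‖) : cgr f x = cgr g x := by
  funext j
  refine pd_congr ?_
  filter_upwards [isOpen_ball.mem_nhds hxb,
    (isOpen_lt continuous_const continuous_norm).mem_nhds hx] with y hy hy' using hg y hy hy'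

theorem mem_of_cgrad_ne {ρ r₀ : ℝ} (hs : tsupport φ ⊆ ball 0 ρ)
    (h1 : ∀ x ∈ closedBall (0 : R3) r₀, φ x = 1) {x : R3} (hH : cgrad φ x ≠ 0) :
    r₀ ≤ ‖x‖ ∧ x ∈ ball (0 : R3) (ρ + 1) :=
  ⟨not_lt.1 fun h => hH (cgrad_eq_zero_in h1 h),
    ball_subset_ball (by linarith) (hs (by_contra fun h => hH (cgrad_eq_zero_out h)))⟩

theorem flux_pure {C₁ C₂ : Coef} {R : ℝ} (hE : EqOut C₁ C₂ R) (hI : IntId C₁ C₂ R)
    {θ : C3} (hθd : θ ⬝ᵥ θ = 0) {ρ r₀ R₁ : ℝ} (hR₁ : R ≤ R₁) (hr : R₁ < r₀) (hR : R < ρ)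
    (hφ : ContDiff ℝ ∞ φ) (hs : tsupport φ ⊆ ball 0 ρ)
    (h1 : ∀ x ∈ closedBall (0 : R3) r₀, φ x = 1) {Y₀ W₀ Z₀ Y₁ W₁ Z₁ r r'' r' : R3 → Fin 4 → ℂ}
    (hY : ContDiff ℝ ∞ Y₀) (hW : ContDiff ℝ ∞ W₀) (hZ : ContDiff ℝ ∞ Z₀)
    (hY₁ : ContDiff ℝ ∞ Y₁) (hW₁ : ContDiff ℝ ∞ W₁) (hZ₁ : ContDiff ℝ ∞ Z₁)
    (sr : ContDiff ℝ ∞ r) (sr'' : ContDiff ℝ ∞ r'') (sr' : ContDiff ℝ ∞ r') {τ : ℝ} (hne : τ ≠ 0)
    (hus : ∀ x ∈ ball 0 ρ, lame C₁.lam C₁.mu (sol C₁ θ Y₀ Y₁ r τ) x = 0)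
    (hus' : ∀ x ∈ ball 0 ρ, lame C₂.lam C₂.mu (sol C₂ θ W₀ W₁ r'' τ) x = 0)
    (hvs : ∀ x ∈ ball 0 ρ, lame C₂.lam C₂.mu (sol C₂ (-θ) Z₀ Z₁ r' τ) x = 0)
    (hg : ∀ x ∈ ball (0 : R3) (ρ + 1), R₁ < ‖x‖ → gsc Y₀ x = gsc W₀ x) (hZg : ∀ x, gsc Z₀ x = 0) :
    ∫ x, phiV (C₁.lam0 : ℂ) φ θ (x, wAmp
      (fun y => qAmp θ Y₀ Y₁ r (τ : ℂ) y - qAmp θ W₀ W₁ r'' (τ : ℂ) y)
      (qAmp (-θ) Z₀ Z₁ r' (τ : ℂ)) (τ : ℂ)⁻¹ x) = 0 := by
  have hl0 := lam0_eq hE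
  let l₀ : ℂ := (C₁.lam0 : ℂ)
  have hcz : ∀ x, cgr (gsc Z₀) x = 0 := fun x => by
    funext j; simp [cgr, show gsc Z₀ = fun _ => 0 from funext hZg]
  have hτc : (τ : ℂ) ≠ 0 := Complex.ofReal_ne_zero.2 hne
  have hsu := smooth_sol C₁ θ hY hY₁ sr τ
  have hsu' := smooth_sol C₂ θ hW hW₁ sr'' τ
  have hsv := smooth_sol C₂ (-θ) hZ hZ₁ sr' τ
  have hE2 : EqOut C₂ C₂ R := ⟨hE.rad₂, hE.rad₂, fun _ _ => rfl, fun _ _ => rfl⟩
  have hf1 := flux_zero hE hI (hR₁.trans_lt hr) hR (contDiff_infty.1 hsu 2).contDiffOn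
    (contDiff_infty.1 hsv 2).contDiffOn hus hvs hφ hs h1
  have hf2 := flux_zero hE2 (intId_self C₂ R) (hR₁.trans_lt hr) hR
    (contDiff_infty.1 hsu' 2).contDiffOn (contDiff_infty.1 hsv 2).contDiffOn hus'
    hvs hφ hs h1
  rw [← hl0] at hf2
  set u := sol C₁ θ Y₀ Y₁ r τ with hu_def
  set u' := sol C₂ θ W₀ W₁ r'' τ with hu'_def
  set v := sol C₂ (-θ) Z₀ Z₁ r' τ with hv_def
  have hi : ∀ {a b : R3 → C3}, ContDiff ℝ ∞ a → ContDiff ℝ ∞ b →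
      Integrable (fun x => dens l₀ φ a b x) := fun ha hb =>
    integrable_dens l₀ hφ hs ha hb
  have hd : ∫ x, (dens l₀ φ u v x - dens l₀ φ u' v x) = 0 := by
    rw [integral_sub (hi hsu hsv) (hi hsu' hsv)]
    rw [show l₀ = (C₁.lam0 : ℂ) from rfl]
    simp only [hu_def, hu'_def, hv_def, sol] at hf1 hf2 ⊢
    rw [hf1, hf2, sub_zero]
  have hpt : ∀ x, dens l₀ φ u v x - dens l₀ φ u' v x
      = (τ : ℂ) * phiV l₀ φ θ (x, wAmp (fun y => qAmp θ Y₀ Y₁ r (τ : ℂ) y - qAmp θ W₀ W₁ r'' (τ : ℂ) y)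
        (qAmp (-θ) Z₀ Z₁ r' (τ : ℂ)) (τ : ℂ)⁻¹ x) := by
    intro x
    by_cases hH : cgrad φ x = 0
    · simp [dens, hH, ctr_zero, phiV_eq_zero l₀ θ x _ hH]
    · obtain ⟨hx, hxb⟩ := mem_of_cgrad_ne hs h1 hH
      rw [dens_out l₀ τ x _ _ _ _
          (sol_out C₁ θ hY hY₁ sr hne (by linarith [hE.rad₁]))
          (sol_out C₂ (-θ) hZ hZ₁ sr' hne (by linarith [hE.rad₂]))
          (grad_sol_out C₁ θ hY hY₁ sr hne (by linarith [hE.rad₁]))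
          (grad_sol_out C₂ (-θ) hZ hZ₁ sr' hne (by linarith [hE.rad₂])),
        dens_out l₀ τ x _ _ _ _
          (sol_out C₂ θ hW hW₁ sr'' hne (by linarith [hE.rad₂]))
          (sol_out C₂ (-θ) hZ hZ₁ sr' hne (by linarith [hE.rad₂]))
          (grad_sol_out C₂ θ hW hW₁ sr'' hne (by linarith [hE.rad₂]))
          (grad_sol_out C₂ (-θ) hZ hZ₁ sr' hne (by linarith [hE.rad₂])),
        ← hg x hxb (by linarith), ← cgr_eq_of_region hg hxb (by linarith), hZg x, hcz x, expand_diff _ _ _ _ _ _ _ _ _ _ _ _ hθd]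
      simp only [phiV, wAmp, grad_sub (smooth_qAmp θ hY hY₁ sr _)
        (smooth_qAmp θ hW hW₁ sr'' _)]
      field_simp
  simp only [hpt, integral_const_mul, mul_eq_zero] at hd
  exact hd.resolve_left hτc

theorem phiV_lim (l₀ : ℂ) {θ : C3} (hθd : θ ⬝ᵥ θ = 0) {ρ r₀ R₁ : ℝ} (hr : R₁ < r₀)
    (hs : tsupport φ ⊆ ball 0 ρ) (h1 : ∀ x ∈ closedBall (0 : R3) r₀, φ x = 1)
    {Y₀ W₀ Z₀ : R3 → Fin 4 → ℂ} (Y₁ W₁ Z₁ : R3 → Fin 4 → ℂ)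
    (hg : ∀ x ∈ ball (0 : R3) (ρ + 1), R₁ < ‖x‖ → gsc Y₀ x = gsc W₀ x)
    (hw : ∀ x ∈ ball (0 : R3) (ρ + 1), R₁ < ‖x‖ → θ ⬝ᵥ wvec Y₀ x = θ ⬝ᵥ wvec W₀ x)
    (hZg : ∀ x, gsc Z₀ x = 0) (hZw : ∀ x, θ ⬝ᵥ wvec Z₀ x = 0) (x : R3) :
    phiV l₀ φ θ (x, wAmp (fun y => qLim θ Y₀ Y₁ y - qLim θ W₀ W₁ y) (qLim (-θ) Z₀ Z₁) 0 x)
      = 2 * ((θ ⬝ᵥ cgrad φ x) * ((wvec Y₀ x - wvec W₀ x) ⬝ᵥ wvec Z₀ x)) := by
  have hcz : ∀ x, cgr (gsc Z₀) x = 0 := fun x => by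
    funext j; simp [cgr, show gsc Z₀ = fun _ => 0 from funext hZg]
  by_cases hH : cgrad φ x = 0
  · rw [phiV_eq_zero l₀ θ x _ hH]; simp [hH]
  · obtain ⟨hx, hxb⟩ := mem_of_cgrad_ne hs h1 hH
    have hc := cgr_eq_of_region hg hxb (show R₁ < ‖x‖ by linarith)
    have hqi : qLim θ Y₀ Y₁ x - qLim θ W₀ W₁ x = (wvec Y₀ x - wvec W₀ x) + (gsc Y₁ x - gsc W₁ x) • θ := by
      funext l
      have := congrFun hc l
      simp only [cgr] at this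
      simp [qLim, pot, this]
      ring
    have hpi : qLim (-θ) Z₀ Z₁ x = wvec Z₀ x + (-gsc Z₁ x) • θ := by
      funext l
      have := congrFun (hcz x) l
      simp only [cgr, Pi.zero_apply] at this
      simp [qLim, pot, this]
    have hd : θ ⬝ᵥ (wvec Y₀ x - wvec W₀ x) = 0 := by
      rw [dotProduct_sub, hw x hxb (by linarith), sub_self]
    have hq0 : θ ⬝ᵥ (qLim θ Y₀ Y₁ x - qLim θ W₀ W₁ x) = 0 := by
      rw [hqi, dotProduct_add, dotProduct_smul, hθd, hd]; simp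
    have hp0 : θ ⬝ᵥ qLim (-θ) Z₀ Z₁ x = 0 := by
      rw [hpi, dotProduct_add, dotProduct_smul, hθd, hZw]; simp
    simp only [phiV, wAmp, T1_pure _ _ _ _ _ _ _ hq0 hp0, zero_mul, add_zero]
    rw [hqi, hpi]
    simp only [add_dotProduct, dotProduct_add, smul_dotProduct, dotProduct_smul, hθd, hZw x,
      dotProduct_comm (wvec Y₀ x - wvec W₀ x) θ, hd]
    simp
    ring

/-- The order `τ`. -/
theorem pairV (hC : CgoOut) {C₁ C₂ : Coef} {R : ℝ} (hE : EqOut C₁ C₂ R) (hI : IntId C₁ C₂ R)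
    {θ : C3} (hθ0 : θ ≠ 0) (hθ : ∑ i, θ i ^ 2 = 0) {ρ r₀ R₁ : ℝ} (hρ0 : 0 < ρ) (hR₁ : R ≤ R₁)
    (hr : R₁ < r₀) (hR : R < ρ) (hφ : ContDiff ℝ ∞ φ) (hs : tsupport φ ⊆ ball 0 ρ)
    (h1 : ∀ x ∈ closedBall (0 : R3) r₀, φ x = 1) {Y₀ W₀ Z₀ : R3 → Fin 4 → ℂ}
    (hY : ContDiff ℝ ∞ Y₀) (hW : ContDiff ℝ ∞ W₀) (hZ : ContDiff ℝ ∞ Z₀)
    (hYt : ∀ x ∈ ball 0 (ρ + 1), transp C₁ θ Y₀ x = 0)
    (hWt : ∀ x ∈ ball 0 (ρ + 1), transp C₂ θ W₀ x = 0)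
    (hZt : ∀ x ∈ ball 0 (ρ + 1), transp C₂ θ Z₀ x = 0)
    (hg : ∀ x ∈ ball (0 : R3) (ρ + 1), R₁ < ‖x‖ → gsc Y₀ x = gsc W₀ x)
    (hw : ∀ x ∈ ball (0 : R3) (ρ + 1), R₁ < ‖x‖ → θ ⬝ᵥ wvec Y₀ x = θ ⬝ᵥ wvec W₀ x)
    (hZg : ∀ x, gsc Z₀ x = 0) (hZw : ∀ x, θ ⬝ᵥ wvec Z₀ x = 0) :
    ∫ x, (θ ⬝ᵥ cgrad φ x) * ((wvec Y₀ x - wvec W₀ x) ⬝ᵥ wvec Z₀ x) = 0 := by
  obtain ⟨Y₁, r, K, τ₀, hY₁, hτ₀, hu⟩ := hC C₁ θ hθ0 hθ ρ hρ0 Y₀ hY hYt
  obtain ⟨W₁, r'', K'', τ₀'', hW₁, hτ₀'', hw'⟩ := hC C₂ θ hθ0 hθ ρ hρ0 W₀ hW hWt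
  obtain ⟨Z₁, r', K', τ₀', hZ₁, hτ₀', hv⟩ := hC C₂ (-θ) (neg_ne_zero.2 hθ0) (by simpa using hθ) ρ
    hρ0 Z₀ hZ (fun x hx => by rw [transp_neg, hZt x hx, neg_zero])
  have hS := hasCompactSupport_of_ball hs
  obtain ⟨M, hM⟩ := q_close (θ := θ) hY hY₁ (fun τ h => (hu τ h).1) (fun τ h => (hu τ h).2.1) hS hs
  obtain ⟨M'', hM''⟩ := q_close (θ := θ) hW hW₁ (fun τ h => (hw' τ h).1) (fun τ h => (hw' τ h).2.1) hS hs
  obtain ⟨M', hM'⟩ := q_close (θ := -θ) hZ hZ₁ (fun τ h => (hv τ h).1) (fun τ h => (hv τ h).2.1) hS hs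
  set τm := max (max τ₀ τ₀'') (max τ₀' 1) with hτm
  have hθd : θ ⬝ᵥ θ = 0 := by simpa [dotProduct, sq] using hθ
  have hl0 := lam0_eq hE
  let l₀ : ℂ := (C₁.lam0 : ℂ)
  let q := fun (τ : ℝ) (x : R3) =>
    qAmp θ Y₀ Y₁ (r τ) (τ : ℂ) x - qAmp θ W₀ W₁ (r'' τ) (τ : ℂ) x
  let qi := fun (x : R3) => qLim θ Y₀ Y₁ x - qLim θ W₀ W₁ x
  let p := fun τ : ℝ => qAmp (-θ) Z₀ Z₁ (r' τ) (τ : ℂ)
  have heq : ∀ τ, τm ≤ τ → ∫ x, phiV l₀ φ θ (x, wAmp (q τ) (p τ) (τ : ℂ)⁻¹ x) = 0 := by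
    intro τ hτ
    obtain ⟨⟨hτ1, hτ1'⟩, hτ2, hτ3⟩ : (τ₀ ≤ τ ∧ τ₀'' ≤ τ) ∧ τ₀' ≤ τ ∧ (1 : ℝ) ≤ τ := by
      simpa [hτm] using hτ
    exact flux_pure hE hI hθd hR₁ hr hR hφ hs h1 hY hW hZ hY₁ hW₁ hZ₁ (hu τ hτ1).1 (hw' τ hτ1').1
      (hv τ hτ2).1 (by linarith) (hu τ hτ1).2.2 (hw' τ hτ1').2.2 (hv τ hτ2).2.2 hg hZg
  have hlim : Tendsto (fun τ : ℝ => ∫ x, phiV l₀ φ θ (x, wAmp (q τ) (p τ) (τ : ℂ)⁻¹ x)) atTop
      (𝓝 (∫ x, phiV l₀ φ θ (x, wAmp qi (qLim (-θ) Z₀ Z₁) 0 x))) := by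
    refine tendsto_integral_comp hS (continuous_phiV l₀ θ hφ) (fun x w hx => phiV_eq_zero l₀ θ x w (cgrad_eq_zero_out hx))
      (M := (|M| + |M''| + |M'|) + 1) (τ₀ := τm)
      (continuous_wAmp (fun l => (smooth_qLim θ hY hY₁ l).sub (smooth_qLim θ hW hW₁ l))
        (smooth_qLim (-θ) hZ hZ₁) 0) ?_ ?_
    · intro τ hτ
      obtain ⟨⟨hτ1, hτ1'⟩, hτ2, -⟩ : (τ₀ ≤ τ ∧ τ₀'' ≤ τ) ∧ τ₀' ≤ τ ∧ (1 : ℝ) ≤ τ := by
        simpa [hτm] using hτ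
      exact continuous_wAmp
        (fun l => (smooth_qAmp θ hY hY₁ (hu τ hτ1).1 _ l).sub (smooth_qAmp θ hW hW₁ (hw' τ hτ1').1 _ l))
        (smooth_qAmp (-θ) hZ hZ₁ (hv τ hτ2).1 _) _
    · intro τ hτ x hx
      obtain ⟨⟨hτ1, hτ1'⟩, hτ2, hτ3⟩ : (τ₀ ≤ τ ∧ τ₀'' ≤ τ) ∧ τ₀' ≤ τ ∧ (1 : ℝ) ≤ τ := by
        simpa [hτm] using hτ
      have hp' : 0 < τ := by linarith
      refine wAmp_close hp' (by positivity) (fun l j => ?_) (fun l j => ?_)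
      · obtain ⟨e1, e2⟩ := hM τ (max_le hτ1 hτ3) x hx l j
        obtain ⟨f1, f2⟩ := hM'' τ (max_le hτ1' hτ3) x hx l j
        have hh : M / τ + M'' / τ ≤ (|M| + |M''| + |M'|) / τ := by
          rw [← add_div]
          exact div_le_div_of_nonneg_right
            (by linarith [le_abs_self M, le_abs_self M'', abs_nonneg M']) hp'.le
        constructor
        · simp only [q, qi, Pi.sub_apply]
          rw [sub_sub_sub_comm]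
          exact ((norm_sub_le _ _).trans (add_le_add e1 f1)).trans hh
        · simp only [q, qi, grad_sub (smooth_qAmp θ hY hY₁ (hu τ hτ1).1 _)
            (smooth_qAmp θ hW hW₁ (hw' τ hτ1').1 _),
            grad_sub (smooth_qLim θ hY hY₁) (smooth_qLim θ hW hW₁), Pi.sub_apply]
          rw [sub_sub_sub_comm]
          exact ((norm_sub_le _ _).trans (add_le_add e2 f2)).trans hh
      · obtain ⟨e1, e2⟩ := hM' τ (max_le hτ2 hτ3) x hx l j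
        have hh : M' / τ ≤ (|M| + |M''| + |M'|) / τ := div_le_div_of_nonneg_right
          (by linarith [le_abs_self M', abs_nonneg M, abs_nonneg M'']) hp'.le
        exact ⟨e1.trans hh, e2.trans hh⟩
  have h0 : ∫ x, phiV l₀ φ θ (x, wAmp qi (qLim (-θ) Z₀ Z₁) 0 x) = 0 :=
    tendsto_nhds_unique hlim (tendsto_const_nhds.congr' (by
      filter_upwards [eventually_ge_atTop τm] with τ hτ using (heq τ hτ).symm))
  simp only [qi, phiV_lim l₀ hθd hr hs h1 Y₁ W₁ Z₁ hg hw hZg hZw, integral_const_mul, mul_eq_zero,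
    OfNat.ofNat_ne_zero, false_or] at h0
  exact h0

end Vale.Agent.P136.Orth
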