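import Vale.Agent.P136.Mod.OrthAlg
import Vale.Agent.P136.Mod.OrthPair

/-!
# The identity makes the closed transport systems orthogonal

The order `τ²` extends `(g, θ · w)` to the second system, the order `τ` then extends the
transverse component; a test function vanishing on the difference gives orthogonality.
-/

noncomputable section

namespace Vale.Agent.P136

open MeasureTheory Metric Filter Topology
open scoped BigOperators ContDiff Matrix

namespace Orth

/-- The right side of the equation for `w`. -/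
def gW (C : Coef) (θ : C3) (b s : ℂ) (x : R3) : C3 := fun l =>
  (Real.sqrt (C.mu x) : ℂ) * (∑ j, (C.hnu l j x : ℂ) * θ j) * b + (C.glm l x : ℂ) * s / 2

/-- `D²(1/μ)`. -/
def thH (C : Coef) (θ : C3) (x : R3) : ℂ := ∑ l, θ l * ∑ j, (C.hnu l j x : ℂ) * θ j

/-- `D (log μ)`. -/
def thG (C : Coef) (θ : C3) (x : R3) : ℂ := ∑ l, θ l * (C.glm l x : ℂ)

/-- The system of `(g, θ · w)`. -/
def st2 (C : Coef) (θ : C3) (x : R3) : Matrix (Fin 2) (Fin 2) ℂ :=
  Matrix.of ![![0, -((C.kap x : ℂ) / 2)], ![(Real.sqrt (C.mu x) : ℂ) * thH C θ x, thG C θ x / 2]]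

theorem dot_gW (C : Coef) (θ : C3) (b s : ℂ) (x : R3) :
    θ ⬝ᵥ gW C θ b s x = (Real.sqrt (C.mu x) : ℂ) * thH C θ x * b + thG C θ x / 2 * s := by
  simp [gW, thH, thG, dotProduct, Fin.sum_univ_three]
  ring

theorem smooth_ofReal {f : R3 → ℝ} (h : ContDiff ℝ ∞ f) : ContDiff ℝ ∞ fun x => (f x : ℂ) :=
  Complex.ofRealCLM.contDiff.comp h

theorem smooth_gW (C : Coef) (θ : C3) {b s : R3 → ℂ} (hb : ContDiff ℝ ∞ b) (hs : ContDiff ℝ ∞ s)
    (l : Fin 3) : ContDiff ℝ ∞ fun x => gW C θ (b x) (s x) x l :=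
  (((smooth_ofReal C.smooth_sqrt).mul
      (ContDiff.sum fun j _ => (smooth_ofReal (C.smooth_hnu l j)).mul contDiff_const)).mul hb).add
    (((smooth_ofReal (C.smooth_glm l)).mul hs).div_const 2)

theorem smooth_thH (C : Coef) (θ : C3) : ContDiff ℝ ∞ (thH C θ) :=
  ContDiff.sum fun l _ => contDiff_const.mul
    (ContDiff.sum fun j _ => (smooth_ofReal (C.smooth_hnu l j)).mul contDiff_const)

theorem smooth_thG (C : Coef) (θ : C3) : ContDiff ℝ ∞ (thG C θ) :=
  ContDiff.sum fun l _ => contDiff_const.mul (smooth_ofReal (C.smooth_glm l))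

theorem smooth_st2 (C : Coef) (θ : C3) (a b : Fin 2) : ContDiff ℝ ∞ fun x => st2 C θ x a b := by
  have hk : ContDiff ℝ ∞ fun x => -((C.kap x : ℂ) / 2) :=
    ((smooth_ofReal C.smooth_kap).div_const 2).neg
  have hH : ContDiff ℝ ∞ fun x => (Real.sqrt (C.mu x) : ℂ) * thH C θ x :=
    (smooth_ofReal C.smooth_sqrt).mul (smooth_thH C θ)
  fin_cases a <;> fin_cases b <;> simp [st2]
  · exact contDiff_const
  · exact hk
  · exact hH
  · exact (smooth_thG C θ).div_const 2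

theorem coef_eq_out {C₁ C₂ : Coef} {R : ℝ} (hE : EqOut C₁ C₂ R) {x : R3} (hx : R < ‖x‖) :
    C₁.kap x = C₂.kap x ∧ C₁.mu x = C₂.mu x ∧ (∀ l, C₁.glm l x = C₂.glm l x) ∧
      ∀ l j, C₁.hnu l j x = C₂.hnu l j x := by
  have hn : ∀ᶠ y in 𝓝 x, R < ‖y‖ := (isOpen_lt continuous_const continuous_norm).mem_nhds hx
  have hm : C₁.mu =ᶠ[𝓝 x] C₂.mu := hn.mono fun y hy => hE.mu y hy.le
  have hv : C₁.nu =ᶠ[𝓝 x] C₂.nu := hn.mono fun y hy => by simp [Coef.nu, hE.mu y hy.le]
  refine ⟨by simp [Coef.kap, hE.lam x hx.le, hE.mu x hx.le], hE.mu x hx.le, fun l => ?_, fun l j => ?_⟩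
  · simp [Coef.glm, pd_congr hm, hE.mu x hx.le]
  · exact pd_congr (hv.eventuallyEq_nhds.mono fun y hy => pd_congr hy)

/-- A field with given potentials. -/
def mkY (w : R3 → C3) (b : R3 → ℂ) : R3 → Fin 4 → ℂ := fun x => Fin.snoc (w x) (b x)

@[simp] theorem wvec_mkY (w : R3 → C3) (b : R3 → ℂ) : wvec (mkY w b) = w := by
  funext x l; simp [wvec, mkY]

@[simp] theorem gsc_mkY (w : R3 → C3) (b : R3 → ℂ) : gsc (mkY w b) = b := by
  funext x
  exact Fin.snoc_last (α := fun _ => ℂ) (b x) (w x)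

theorem smooth_mkY {w : R3 → C3} {b : R3 → ℂ} (hw : ∀ l, ContDiff ℝ ∞ fun x => w x l)
    (hb : ContDiff ℝ ∞ b) : ContDiff ℝ ∞ (mkY w b) :=
  contDiff_pi.2 fun a => by
    refine Fin.lastCases ?_ (fun l => ?_) a
    · simpa only [mkY, Fin.snoc_last] using hb
    · simpa only [mkY, Fin.snoc_castSucc] using hw l

theorem dD_comp_apply {ι : Type*} [Fintype ι] {θ : C3} {f : R3 → ι → ℂ} {x : R3}
    (hf : ContDiff ℝ ∞ f) (a : ι) : dD θ (fun y => f y a) x = dD θ f x a :=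
  (dD_apply (hf.differentiable (by simp) x) a).symm

theorem transp_w (C : Coef) (θ : C3) {Y : R3 → Fin 4 → ℂ} (hY : ContDiff ℝ ∞ Y) (x : R3) (l : Fin 3) :
    transp C θ Y x l.castSucc
      = 2 * (dD θ (fun y => wvec Y y l) x - gW C θ (gsc Y x) (θ ⬝ᵥ wvec Y x) x l) := by
  simp only [transp, Pi.add_apply, Pi.smul_apply, smul_eq_mul, Finset.sum_apply,
    dD_apply (hY.differentiable (by simp) x)]
  fin_cases l <;>
    simp [gW, gsc, wvec, ikA, Matrix.mulVec, dotProduct, Fin.sum_univ_three, Fin.sum_univ_four] <;>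
    ring

theorem transp_eq_zero (C : Coef) (θ : C3) {Y : R3 → Fin 4 → ℂ} (hY : ContDiff ℝ ∞ Y) {x : R3}
    (hw : ∀ l, dD θ (fun y => wvec Y y l) x = gW C θ (gsc Y x) (θ ⬝ᵥ wvec Y x) x l)
    (hg : dD θ (gsc Y) x = -((C.kap x : ℂ) * (θ ⬝ᵥ wvec Y x)) / 2) : transp C θ Y x = 0 := by
  funext a
  refine Fin.lastCases ?_ (fun l => ?_) a
  · rw [show Fin.last 3 = (3 : Fin 4) from rfl, transp_g C θ hY, hg, Pi.zero_apply]
    ring
  · rw [transp_w C θ hY, hw, sub_self, mul_zero, Pi.zero_apply]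

theorem dD_add {θ : C3} {f g : R3 → ℂ} {x : R3} (hf : DifferentiableAt ℝ f x)
    (hg : DifferentiableAt ℝ g x) :
    dD θ (fun y => f y + g y) x = dD θ f x + dD θ g x := by
  simp [dD, pd_add hf hg, mul_add, Finset.sum_add_distrib]

theorem dD_sub {θ : C3} {f g : R3 → ℂ} {x : R3} (hf : DifferentiableAt ℝ f x)
    (hg : DifferentiableAt ℝ g x) :
    dD θ (fun y => f y - g y) x = dD θ f x - dD θ g x := by
  simp [dD, pd_sub hf hg, mul_sub, Finset.sum_sub_distrib]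

theorem dD_const (θ : C3) (c : ℂ) (x : R3) : dD θ (fun _ => c) x = 0 := by simp [dD]

theorem dD_congr {E : Type*} [NormedAddCommGroup E] [NormedSpace ℂ E] {θ : C3} {f g : R3 → E}
    {x : R3} (h : f =ᶠ[𝓝 x] g) : dD θ f x = dD θ g x := by
  simp [dD, pd_congr h]

theorem dD_finsetSum {κ : Type*} (s : Finset κ) {θ : C3} {f : κ → R3 → ℂ} {x : R3}
    (hf : ∀ k ∈ s, DifferentiableAt ℝ (f k) x) :
    dD θ (fun y => ∑ k ∈ s, f k y) x = ∑ k ∈ s, dD θ (f k) x := by
  simp only [dD, smul_eq_mul, pd_sum s hf, Finset.mul_sum]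
  exact Finset.sum_comm

theorem smooth_dot {ι : Type*} [Fintype ι] {u v : R3 → ι → ℂ}
    (hu : ∀ a, ContDiff ℝ ∞ fun x => u x a) (hv : ∀ a, ContDiff ℝ ∞ fun x => v x a) :
    ContDiff ℝ ∞ fun x => u x ⬝ᵥ v x :=
  ContDiff.sum fun a _ => (hu a).mul (hv a)

theorem dD_dot {ι : Type*} [Fintype ι] {θ : C3} {u v : R3 → ι → ℂ} {x : R3}
    (hu : ∀ a, ContDiff ℝ ∞ fun x => u x a) (hv : ∀ a, ContDiff ℝ ∞ fun x => v x a) :
    dD θ (fun y => u y ⬝ᵥ v y) x
      = (fun a => dD θ (fun y => u y a) x) ⬝ᵥ v x + u x ⬝ᵥ fun a => dD θ (fun y => v y a) x := by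
  simp only [dotProduct]
  rw [dD_finsetSum _ fun a _ => ((hu a).mul (hv a)).differentiable (by simp) x]
  simp [dD_mul ((hu _).differentiable (by simp) x) ((hv _).differentiable (by simp) x),
    Finset.sum_add_distrib]

/-- A lift of a solution of the system of `(g, θ · w)`. -/
theorem exists_lift (hP : PlaneExistOut) (C : Coef) {θ m : C3} (hθ0 : θ ≠ 0)
    (hθ : ∑ i, θ i ^ 2 = 0) (hm : θ ⬝ᵥ m = 1) (P : ℝ) {b s : R3 → ℂ} (hb : ContDiff ℝ ∞ b)
    (hs : ContDiff ℝ ∞ s) (hbe : ∀ x ∈ ball 0 P, dD θ b x = -((C.kap x : ℂ) * s x) / 2)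
    (hse : ∀ x ∈ ball 0 P, dD θ s x = θ ⬝ᵥ gW C θ (b x) (s x) x) :
    ∃ Y : R3 → Fin 4 → ℂ, ContDiff ℝ ∞ Y ∧ gsc Y = b ∧ (∀ x, θ ⬝ᵥ wvec Y x = s x) ∧
      (∀ x ∈ ball 0 P, transp C θ Y x = 0) := by
  let f : R3 → C3 := fun x l => gW C θ (b x) (s x) x l - dD θ s x * m l
  have hf : ContDiff ℝ ∞ f := contDiff_pi.2 fun l =>
    (smooth_gW C θ hb hs l).sub ((smooth_dD θ hs).mul contDiff_const)
  obtain ⟨v, hv, hve⟩ := hP (Fin 3) (fun _ => 0) (fun _ _ => contDiff_const) θ hθ0 hθ P f hf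
  let w : R3 → C3 := fun x l => v x l + (s x - θ ⬝ᵥ v x) * m l
  have hv' : ∀ l, ContDiff ℝ ∞ fun x => v x l := contDiff_pi.1 hv
  have hθv : ContDiff ℝ ∞ fun x => θ ⬝ᵥ v x := smooth_dot (fun _ => contDiff_const) hv'
  have hw : ∀ l, ContDiff ℝ ∞ fun x => w x l := fun l =>
    (hv' l).add ((hs.sub hθv).mul contDiff_const)
  have hθw : ∀ x, θ ⬝ᵥ w x = s x := fun x => by
    have : w x = v x + (s x - θ ⬝ᵥ v x) • m := by funext l; simp [w]
    rw [this, dotProduct_add, dotProduct_smul, hm, smul_eq_mul]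
    ring
  refine ⟨mkY w b, smooth_mkY hw hb, gsc_mkY w b, by simpa using hθw, fun x hx => ?_⟩
  refine transp_eq_zero C θ (smooth_mkY hw hb) (fun l => ?_) ?_
  · simp only [wvec_mkY, gsc_mkY, hθw]
    have e : ∀ a, dD θ (fun y => v y a) x = f x a := fun a => by
      rw [dD_comp_apply hv, hve x hx]; simp
    simp only [w]
    rw [dD_add ((hv' l).differentiable (by simp) x)
        (((hs.sub hθv).mul contDiff_const).differentiable (by simp) x),
      dD_mul ((hs.sub hθv).differentiable (by simp) x) (differentiableAt_const _),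
      dD_sub (hs.differentiable (by simp) x) (hθv.differentiable (by simp) x),
      dD_dot (u := fun _ => θ) (fun _ => contDiff_const) hv', dD_const]
    simp only [dD_const, e]
    have hf0 : θ ⬝ᵥ (fun a => f x a) = 0 := by
      rw [show (fun a => f x a) = gW C θ (b x) (s x) x - dD θ s x • m by funext a; simp [f],
        dotProduct_sub, dotProduct_smul, hm, ← hse x hx]
      simp
    rw [hf0]
    simp [f, dotProduct]
  · simp only [gsc_mkY, wvec_mkY, hθw, hbe x hx]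

theorem stM_mulVec (C : Coef) (σ : Fin 2 → ℂ) (x : R3) (y : Fin 3 → ℂ) :
    stM C σ x *ᵥ y = Fin.cons (-((C.kap x : ℂ) * (σ 0 * y 2 - σ 1 * y 1)) / 2)
      (pauli (gW C (null σ) (y 0) (σ 0 * y 2 - σ 1 * y 1) x) σ) := by
  funext i
  fin_cases i <;>
    simp [stM, stApply, Matrix.mulVec, dotProduct, pauli, gW, Fin.sum_univ_three, Pi.single_apply] <;>
    ring

theorem dD_pauli {θ : C3} {w : R3 → C3} (σ : Fin 2 → ℂ) (hw : ∀ l, ContDiff ℝ ∞ fun x => w x l)
    (x : R3) (i : Fin 2) :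
    dD θ (fun y => pauli (w y) σ i) x = pauli (fun l => dD θ (fun y => w y l) x) σ i := by
  have hd := fun l => (hw l).differentiable (by simp) x
  fin_cases i <;> simp [pauli]
  · rw [dD_add ((hd 2).mul_const _) (((hd 0).fun_sub ((hd 1).const_mul _)).mul_const _),
      dD_mul (hd 2) (differentiableAt_const _),
      dD_mul ((hd 0).fun_sub ((hd 1).const_mul _)) (differentiableAt_const _),
      dD_sub (hd 0) ((hd 1).const_mul _), dD_mul (differentiableAt_const _) (hd 1)]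
    simp [dD_const]
  · rw [dD_sub (((hd 0).fun_add ((hd 1).const_mul _)).mul_const _) ((hd 2).mul_const _),
      dD_mul (hd 2) (differentiableAt_const _),
      dD_mul ((hd 0).fun_add ((hd 1).const_mul _)) (differentiableAt_const _),
      dD_add (hd 0) ((hd 1).const_mul _), dD_mul (differentiableAt_const _) (hd 1)]
    simp [dD_const]

theorem dot_cgrad {φ : R3 → ℝ} (hφ : ContDiff ℝ ∞ φ) (θ : C3) (x : R3) :
    θ ⬝ᵥ cgrad φ x = dD θ (fun y => (φ y : ℂ)) x := by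
  simp [dD, cgrad, dotProduct, pd_ofReal (hφ.differentiable (by simp) x)]

/-- From a vanishing flux to orthogonality. -/
theorem orth_of_flux {θ : C3} {φ : R3 → ℝ} {ρ r₀ : ℝ} (hφ : ContDiff ℝ ∞ φ)
    (hs : tsupport φ ⊆ ball 0 ρ) (h1 : ∀ x ∈ closedBall (0 : R3) r₀, φ x = 1) {h g : R3 → ℂ}
    (hh : ContDiff ℝ ∞ h) (hg : Continuous g) (hflux : ∫ x, (θ ⬝ᵥ cgrad φ x) * h x = 0)
    (hD : ∀ x ∈ ball 0 ρ, dD θ h x = g x) (hg0 : ∀ x, r₀ < ‖x‖ → g x = 0) : ∫ x, g x = 0 := by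
  have hφc : ContDiff ℝ ∞ fun y => (φ y : ℂ) := smooth_ofReal hφ
  have hP : ∫ x, dD θ (fun y => (φ y : ℂ) * h y) x = 0 :=
    integral_dD θ (contDiff_infty.1 (hφc.mul hh) 1)
      (HasCompactSupport.intro (hasCompactSupport_of_ball hs) fun x hx => by
        simp [image_eq_zero_of_notMem_tsupport hx])
  have he : ∀ x, dD θ (fun y => (φ y : ℂ) * h y) x = (θ ⬝ᵥ cgrad φ x) * h x + g x := by
    intro x
    rw [dD_mul (hφc.differentiable (by simp) x) (hh.differentiable (by simp) x), dot_cgrad hφ]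
    congr 1
    by_cases hx : x ∈ tsupport φ
    · rw [hD x (hs hx)]
      rcases le_or_gt ‖x‖ r₀ with h' | h'
      · rw [h1 x (mem_closedBall_zero_iff.2 h')]; simp
      · simp [hg0 x h']
    · rw [image_eq_zero_of_notMem_tsupport hx]
      have : r₀ < ‖x‖ := not_le.1 fun h' => hx (subset_tsupport φ (by
        simp [h1 x (mem_closedBall_zero_iff.2 h')]))
      simp [hg0 x this]
  have hi1 : Integrable fun x => (θ ⬝ᵥ cgrad φ x) * h x := by
    refine Continuous.integrable_of_hasCompactSupport ?_ ?_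
    · exact (continuous_finsetSum _ fun j _ =>
        continuous_const.mul ((continuous_apply j).comp (continuous_cgrad hφ))).mul hh.continuous
    · exact HasCompactSupport.intro (hasCompactSupport_of_ball hs) fun x hx => by
        simp [cgrad_eq_zero_out hx]
  have hi2 : Integrable g := hg.integrable_of_hasCompactSupport
    (HasCompactSupport.intro (isCompact_closedBall (0 : R3) r₀) fun x hx =>
      hg0 x (not_le.1 fun h' => hx (mem_closedBall_zero_iff.2 h')))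
  simp only [he] at hP
  rwa [integral_add hi1 hi2, hflux, zero_add] at hP

theorem exists_cutoff {r₀ ρ : ℝ} (h0 : 0 < r₀) (h : r₀ < ρ) : ∃ φ : R3 → ℝ,
    ContDiff ℝ ∞ φ ∧ tsupport φ ⊆ ball 0 ρ ∧ ∀ x ∈ closedBall (0 : R3) r₀, φ x = 1 := by
  let f : ContDiffBump (0 : R3) := ⟨r₀, (r₀ + ρ) / 2, h0, by linarith⟩
  refine ⟨f, f.contDiff, ?_, fun x hx => f.one_of_mem_closedBall hx⟩
  rw [f.tsupport_eq]
  exact closedBall_subset_ball (show (r₀ + ρ) / 2 < ρ by linarith)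

theorem dD_sqrt (C : Coef) (θ : C3) (x : R3) :
    dD θ (fun y => (Real.sqrt (C.mu y) : ℂ)) x = (Real.sqrt (C.mu x) : ℂ) * thG C θ x / 2 := by
  have hd : HasFDerivAt (fun y => Real.sqrt (C.mu y))
      ((1 / (2 * Real.sqrt (C.mu x))) • fderiv ℝ C.mu x) x :=
    ((C.smooth_mu.differentiable (by simp) x).hasFDerivAt).sqrt (C.mu_pos x).ne'
  have e : ∀ j, pd j (fun y => Real.sqrt (C.mu y)) x = Real.sqrt (C.mu x) * C.glm j x / 2 := by
    intro j
    simp only [pd, hd.fderiv, Coef.glm]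
    have h1 := (Real.sqrt_pos.2 (C.mu_pos x)).ne'
    simp
    field_simp
    rw [Real.sq_sqrt (C.mu_pos x).le, mul_div_cancel_left₀ _ (C.mu_pos x).ne']
  simp only [dD, smul_eq_mul, pd_ofReal hd.differentiableAt, e, thG, Finset.mul_sum,
    Finset.sum_div]
  refine Finset.sum_congr rfl fun j _ => ?_
  push_cast
  ring

/-- The pair of potentials. -/
def pair (b s : R3 → ℂ) (x : R3) : Fin 2 → ℂ := ![b x, s x]

theorem st2_mulVec (C : Coef) (θ : C3) (x : R3) (b s : ℂ) :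
    st2 C θ x *ᵥ ![b, s] = ![-((C.kap x : ℂ) * s) / 2, θ ⬝ᵥ gW C θ b s x] := by
  rw [dot_gW]
  funext i
  fin_cases i <;> simp [st2, Matrix.mulVec, dotProduct, Fin.sum_univ_two] <;> ring

theorem smooth_pauli {w : R3 → C3} (σ : Fin 2 → ℂ) (hw : ∀ l, ContDiff ℝ ∞ fun x => w x l)
    (i : Fin 2) : ContDiff ℝ ∞ fun x => pauli (w x) σ i := by
  fin_cases i <;> simp [pauli]
  · exact ((hw 2).mul contDiff_const).add (((hw 0).sub (contDiff_const.mul (hw 1))).mul contDiff_const)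
  · exact (((hw 0).add (contDiff_const.mul (hw 1))).mul contDiff_const).sub ((hw 2).mul contDiff_const)

theorem continuous_dot_mulVec {ι : Type*} [Fintype ι] {M : R3 → Matrix ι ι ℂ} {u v : R3 → ι → ℂ}
    (hM : ∀ a b, ContDiff ℝ ∞ fun x => M x a b) (hu : ∀ a, ContDiff ℝ ∞ fun x => u x a)
    (hv : ∀ a, ContDiff ℝ ∞ fun x => v x a) : ContDiff ℝ ∞ fun x => u x ⬝ᵥ (M x *ᵥ v x) :=
  smooth_dot hu fun a => ContDiff.sum fun b _ => (hM a b).mul (hv b)

/-- Extension of the pair of potentials. -/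
theorem extPair (hC : CgoOut) (hE : PlaneExistOut) (hX : PlaneExtOut) {C₁ C₂ : Coef} {R : ℝ}
    (hR : 0 < R) (hEq : EqOut C₁ C₂ R) (hI : IntId C₁ C₂ R) {θ m : C3} (hθ0 : θ ≠ 0)
    (hθ : ∑ i, θ i ^ 2 = 0) (hm : θ ⬝ᵥ m = 1) {b s : R3 → ℂ} (hb : ContDiff ℝ ∞ b)
    (hs : ContDiff ℝ ∞ s) {Y : R3 → Fin 4 → ℂ} (hY : ContDiff ℝ ∞ Y) (hYb : gsc Y = b)
    (hYs : ∀ x, θ ⬝ᵥ wvec Y x = s x) (hYt : ∀ x ∈ ball 0 (R + 7), transp C₁ θ Y x = 0)
    (hbe : ∀ x ∈ ball 0 (R + 7), dD θ b x = -((C₁.kap x : ℂ) * s x) / 2)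
    (hse : ∀ x ∈ ball 0 (R + 7), dD θ s x = θ ⬝ᵥ gW C₁ θ (b x) (s x) x) :
    ∃ b' s' : R3 → ℂ, ContDiff ℝ ∞ b' ∧ ContDiff ℝ ∞ s' ∧
      (∀ x, R + 3 < ‖x‖ → b' x = b x ∧ s' x = s x) ∧
      (∀ x ∈ ball 0 (R + 7), dD θ b' x = -((C₂.kap x : ℂ) * s' x) / 2) ∧
      ∀ x ∈ ball 0 (R + 7), dD θ s' x = θ ⬝ᵥ gW C₂ θ (b' x) (s' x) x := by
  have hv : ∀ a, ContDiff ℝ ∞ fun x => pair b s x a := Fin.forall_fin_two.2 ⟨hb, hs⟩
  have hdv : ∀ x ∈ ball 0 (R + 7),
      (fun a => dD θ (fun y => pair b s y a) x) = st2 C₁ θ x *ᵥ pair b s x := by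
    intro x hx
    rw [show pair b s x = ![b x, s x] from rfl, st2_mulVec]
    funext a
    revert a
    exact Fin.forall_fin_two.2 ⟨hbe x hx, hse x hx⟩
  let M : R3 → Matrix (Fin 2) (Fin 2) ℂ := fun x => st2 C₂ θ x - st2 C₁ θ x
  have hM : ∀ a c, ContDiff ℝ ∞ fun x => M x a c := fun a c =>
    (smooth_st2 C₂ θ a c).sub (smooth_st2 C₁ θ a c)
  let f : R3 → Fin 2 → ℂ := fun x => M x *ᵥ pair b s x
  have hf : ContDiff ℝ ∞ f := contDiff_pi.2 fun a =>
    show ContDiff ℝ ∞ fun x => ∑ c, M x a c * pair b s x c from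
      ContDiff.sum fun c _ => (hM a c).mul (hv c)
  have hf0 : ∀ x, R < ‖x‖ → f x = 0 := by
    intro x hx
    obtain ⟨h1, h2, h3, h4⟩ := coef_eq_out hEq hx
    have : M x = 0 := by
      ext i j
      fin_cases i <;> fin_cases j <;> simp [M, st2, thH, thG, h1, h2, h3, h4]
    simp [f, this]
  obtain ⟨d, hd, hd0, hde⟩ := hX (Fin 2) (st2 C₂ θ) (smooth_st2 C₂ θ) θ hθ0 hθ R f hR hf hf0 (by
    intro z hz hze
    have hz' : ∀ a, ContDiff ℝ ∞ fun x => z x a := contDiff_pi.1 hz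
    let c : R3 → ℂ := fun x => (Real.sqrt (C₂.mu x) : ℂ) * z x 1
    let t : R3 → ℂ := fun x => -((Real.sqrt (C₂.mu x) : ℂ) * z x 0)
    have hsq := smooth_ofReal C₂.smooth_sqrt
    have hc : ContDiff ℝ ∞ c := hsq.mul (hz' 1)
    have ht : ContDiff ℝ ∞ t := (hsq.mul (hz' 0)).neg
    have hzz : ∀ x ∈ ball 0 (R + 3),
        dD θ (fun y => z y 0) x = -((Real.sqrt (C₂.mu x) : ℂ) * thH C₂ θ x * z x 1) ∧
        dD θ (fun y => z y 1) x = (C₂.kap x : ℂ) / 2 * z x 0 - thG C₂ θ x / 2 * z x 1 := by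
      intro x hx
      have h := hze x hx
      rw [dD_comp_apply hz, dD_comp_apply hz, h]
      simp [st2, Matrix.mulVec, dotProduct, Fin.sum_univ_two]
      ring
    obtain ⟨Z, hZ, hZb, hZs, hZt⟩ := exists_lift hE C₂ hθ0 hθ hm (R + 3) hc ht
      (fun x hx => by
        simp only [c, t]
        rw [dD_mul (hsq.differentiable (by simp) x) ((hz' 1).differentiable (by simp) x), dD_sqrt,
          (hzz x hx).2]
        ring)
      (fun x hx => by
        rw [dot_gW]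
        simp only [c, t]
        rw [show (fun y => -((Real.sqrt (C₂.mu y) : ℂ) * z y 0))
            = fun y => (-1 : ℂ) * ((Real.sqrt (C₂.mu y) : ℂ) * z y 0) by funext y; ring,
          dD_mul (differentiableAt_const _) ((hsq.mul (hz' 0)).differentiable (by simp) x), dD_const,
          dD_mul (hsq.differentiable (by simp) x) ((hz' 0).differentiable (by simp) x), dD_sqrt,
          (hzz x hx).1]
        ring)
    obtain ⟨φ, hφ, hφs, hφ1⟩ := exists_cutoff (r₀ := R + 1 / 2) (ρ := R + 1) (by linarith) (by linarith)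
    have hA := pairA hC hEq hI hθ0 hθ (φ := φ) (ρ := R + 1) (r₀ := R + 1 / 2) (by linarith)
      (by linarith) (by linarith) hφ hφs hφ1 hY hZ
      (fun x hx => hYt x (ball_subset_ball (by linarith) hx))
      (fun x hx => hZt x (ball_subset_ball (by linarith) hx))
    have hflux : ∫ x, (θ ⬝ᵥ cgrad φ x) * -(z x ⬝ᵥ pair b s x) = 0 := by
      rw [← hA]
      refine integral_congr_ae (Eventually.of_forall fun x => ?_)
      dsimp only
      by_cases hH : cgrad φ x = 0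
      · simp [hH]
      · have hx := (mem_of_cgrad_ne hφs hφ1 hH).1
        rw [hYb, hYs, hZb, hZs]
        simp [c, t, pair, dotProduct, Fin.sum_univ_two, C₂.mu_out x (by linarith [hEq.rad₂])]
        left
        ring
    have hzv := smooth_dot hz' hv
    refine orth_of_flux (θ := θ) hφ hφs hφ1 hzv.neg (continuous_dot_mulVec hM hz' hv).continuous ?_ ?_ ?_
    · exact hflux
    · intro x hx
      rw [show (fun y => -(z y ⬝ᵥ pair b s y)) = fun y => (-1 : ℂ) * (z y ⬝ᵥ pair b s y) by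
          funext y; ring,
        dD_mul (differentiableAt_const _) (hzv.differentiable (by simp) x), dD_const, dD_dot hz' hv,
        hdv x (ball_subset_ball (by linarith) hx)]
      have e : (fun a => dD θ (fun y => z y a) x) = -((st2 C₂ θ x)ᵀ *ᵥ z x) := by
        funext a; rw [dD_comp_apply hz, hze x (ball_subset_ball (by linarith) hx)]
      rw [e, neg_dotProduct, Matrix.mulVec_transpose, ← Matrix.dotProduct_mulVec]
      simp only [f, M, Matrix.sub_mulVec, dotProduct_sub]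
      ring
    · intro x hx
      simp only [f] at hf0 ⊢
      rw [hf0 x (by linarith), dotProduct_zero])
  have hd' : ∀ a, ContDiff ℝ ∞ fun x => d x a := contDiff_pi.1 hd
  refine ⟨fun x => b x + d x 0, fun x => s x + d x 1, hb.add (hd' 0), hs.add (hd' 1),
    fun x hx => by simp [hd0 x hx], ?_, ?_⟩ <;> intro x hx
  · rw [dD_add (hb.differentiable (by simp) x) ((hd' 0).differentiable (by simp) x), hbe x hx,
      dD_comp_apply hd, hde x]
    simp [f, M, st2, pair, Matrix.mulVec, dotProduct, Fin.sum_univ_two]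
    ring
  · rw [dD_add (hs.differentiable (by simp) x) ((hd' 1).differentiable (by simp) x), hse x hx,
      dD_comp_apply hd, hde x, dot_gW, dot_gW]
    simp [f, M, st2, pair, Matrix.mulVec, dotProduct, Fin.sum_univ_two]
    ring

/-- The flux test of the transverse component. -/
theorem transTest (hC : CgoOut) {C₁ C₂ : Coef} {R : ℝ} (hR : 0 < R) (hEq : EqOut C₁ C₂ R)
    (hI : IntId C₁ C₂ R) {θ n : C3} (hθ0 : θ ≠ 0) (hθ : ∑ i, θ i ^ 2 = 0) (hn : θ ⬝ᵥ n = 0)
    {Y W : R3 → Fin 4 → ℂ} (hY : ContDiff ℝ ∞ Y) (hW : ContDiff ℝ ∞ W)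
    (hYt : ∀ x ∈ ball 0 (R + 7), transp C₁ θ Y x = 0)
    (hWt : ∀ x ∈ ball 0 (R + 7), transp C₂ θ W x = 0)
    (hbs : ∀ x, R + 3 < ‖x‖ → gsc Y x = gsc W x ∧ θ ⬝ᵥ wvec Y x = θ ⬝ᵥ wvec W x) {F : R3 → C3}
    (hfs : ContDiff ℝ ∞ fun x => n ⬝ᵥ F x) (hF0 : ∀ x, R + 3 < ‖x‖ → F x = 0)
    (hgn : ContDiff ℝ ∞ fun x => n ⬝ᵥ (wvec Y x - wvec W x))
    (hDgn : ∀ x ∈ ball 0 (R + 7), dD θ (fun y => n ⬝ᵥ (wvec Y y - wvec W y)) x = n ⬝ᵥ F x)
    (z : R3 → Fin 1 → ℂ) (hz : ContDiff ℝ ∞ z)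
    (hze : ∀ x ∈ ball 0 (R + 3 + 3), dD θ z x = -((0 : Matrix (Fin 1) (Fin 1) ℂ)ᵀ *ᵥ z x)) :
    ∫ x, z x ⬝ᵥ (fun _ : Fin 1 => n ⬝ᵥ F x) = 0 := by
  have hh : ContDiff ℝ ∞ fun x => z x 0 := contDiff_pi.1 hz 0
  have hhe : ∀ x ∈ ball 0 (R + 3 + 3), dD θ (fun y => z y 0) x = 0 := fun x hx => by
    rw [dD_comp_apply hz, hze x hx]; simp
  let w : R3 → C3 := fun x l => z x 0 * n l
  have hw : ∀ l, ContDiff ℝ ∞ fun x => w x l := fun l => hh.mul contDiff_const
  have hθw : ∀ x, θ ⬝ᵥ w x = 0 := fun x => by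
    rw [show w x = z x 0 • n by funext l; simp [w], dotProduct_smul, hn, smul_zero]
  have hZ := smooth_mkY (b := fun _ => (0 : ℂ)) hw contDiff_const
  have hZt : ∀ x ∈ ball 0 (R + 6), transp C₂ θ (mkY w fun _ => 0) x = 0 := fun x hx => by
    refine transp_eq_zero C₂ θ hZ (fun l => ?_) (by simp [dD_const, hθw])
    simp only [wvec_mkY, gsc_mkY, hθw, w]
    rw [dD_mul (hh.differentiable (by simp) x) (differentiableAt_const _), dD_const,
      hhe x (ball_subset_ball (by linarith) hx)]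
    simp [gW]
  obtain ⟨φ, hφ, hφs, hφ1⟩ :=
    exists_cutoff (r₀ := R + 7 / 2) (ρ := R + 5) (by linarith) (by linarith)
  have hV := pairV hC hEq hI hθ0 hθ (φ := φ) (ρ := R + 5) (r₀ := R + 7 / 2) (R₁ := R + 3)
    (by linarith) (by linarith) (by linarith) (by linarith) hφ hφs hφ1 hY hW hZ
    (fun x hx => hYt x (ball_subset_ball (by linarith) hx))
    (fun x hx => hWt x (ball_subset_ball (by linarith) hx))
    (fun x hx => hZt x (ball_subset_ball (by linarith) hx))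
    (fun x _ hx => (hbs x hx).1) (fun x _ hx => (hbs x hx).2) (by simp) (by simpa using hθw)
  have hflux : ∫ x, (θ ⬝ᵥ cgrad φ x) * ((n ⬝ᵥ (wvec Y x - wvec W x)) * z x 0) = 0 := by
    rw [← hV]
    refine integral_congr_ae (Eventually.of_forall fun x => ?_)
    simp [w, dotProduct, Fin.sum_univ_three]
    left
    ring
  have := orth_of_flux (g := fun x => (n ⬝ᵥ F x) * z x 0) hφ hφs hφ1 (hgn.mul hh)
    (hfs.mul hh).continuous hflux (fun x hx => ?_) (fun x hx => by simp [hF0 x (by linarith)])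
  · rw [← this]
    refine integral_congr_ae (Eventually.of_forall fun x => ?_)
    simp [dotProduct]
    ring
  · rw [dD_mul (hgn.differentiable (by simp) x) (hh.differentiable (by simp) x),
      hDgn x (ball_subset_ball (by linarith) hx), hhe x (ball_subset_ball (by linarith) hx)]
    simp

/-- Extension of the transverse component. -/
theorem extTrans (hC : CgoOut) (hX : PlaneExtOut) {C₁ C₂ : Coef} {R : ℝ}
    (hR : 0 < R) (hEq : EqOut C₁ C₂ R) (hI : IntId C₁ C₂ R) {θ n : C3} (hθ0 : θ ≠ 0)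
    (hθ : ∑ i, θ i ^ 2 = 0) (hn : θ ⬝ᵥ n = 0) {Y W : R3 → Fin 4 → ℂ} (hY : ContDiff ℝ ∞ Y)
    (hW : ContDiff ℝ ∞ W) (hYt : ∀ x ∈ ball 0 (R + 7), transp C₁ θ Y x = 0)
    (hWt : ∀ x ∈ ball 0 (R + 7), transp C₂ θ W x = 0)
    (hbs : ∀ x, R + 3 < ‖x‖ → gsc Y x = gsc W x ∧ θ ⬝ᵥ wvec Y x = θ ⬝ᵥ wvec W x) :
    ∃ u : R3 → ℂ, ContDiff ℝ ∞ u ∧ (∀ x ∈ ball 0 (R + 7), dD θ u x = 0) ∧
      ∀ x, R + 6 < ‖x‖ → u x = n ⬝ᵥ (wvec Y x - wvec W x) := by
  let F : R3 → C3 := fun x =>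
    gW C₁ θ (gsc Y x) (θ ⬝ᵥ wvec Y x) x - gW C₂ θ (gsc W x) (θ ⬝ᵥ wvec W x) x
  have hY' : ∀ l, ContDiff ℝ ∞ fun x => wvec Y x l := smooth_wvec hY
  have hW' : ∀ l, ContDiff ℝ ∞ fun x => wvec W x l := smooth_wvec hW
  have hsY : ContDiff ℝ ∞ fun x => θ ⬝ᵥ wvec Y x :=
    smooth_dot (u := fun _ => θ) (fun _ => contDiff_const) hY'
  have hsW : ContDiff ℝ ∞ fun x => θ ⬝ᵥ wvec W x :=
    smooth_dot (u := fun _ => θ) (fun _ => contDiff_const) hW'
  have hF : ∀ l, ContDiff ℝ ∞ fun x => F x l := fun l => by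
    simp only [F, Pi.sub_apply]
    exact (smooth_gW C₁ θ (smooth_gsc hY) hsY l).sub (smooth_gW C₂ θ (smooth_gsc hW) hsW l)
  have hF0 : ∀ x, R + 3 < ‖x‖ → F x = 0 := by
    intro x hx
    obtain ⟨h1, h2, h3, h4⟩ := coef_eq_out hEq (show R < ‖x‖ by linarith)
    simp only [F, (hbs x hx).1, (hbs x hx).2]
    funext l
    simp [gW, h2, h3, h4]
  let gn : R3 → ℂ := fun x => n ⬝ᵥ (wvec Y x - wvec W x)
  have hgn : ContDiff ℝ ∞ gn :=
    smooth_dot (u := fun _ => n) (v := fun x => wvec Y x - wvec W x) (fun _ => contDiff_const)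
      fun l => by simpa only [Pi.sub_apply] using (hY' l).sub (hW' l)
  have hDgn : ∀ x ∈ ball 0 (R + 7), dD θ gn x = n ⬝ᵥ F x := by
    intro x hx
    simp only [gn]
    rw [dD_dot (u := fun _ => n) (v := fun x => wvec Y x - wvec W x) (fun _ => contDiff_const)
      (fun l => by simpa only [Pi.sub_apply] using (hY' l).sub (hW' l))]
    simp only [dD_const]
    have e : ∀ l, dD θ (fun y => (wvec Y y - wvec W y) l) x = F x l := by
      intro l
      have a := transp_w C₁ θ hY x l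
      have b := transp_w C₂ θ hW x l
      rw [hYt x hx] at a
      rw [hWt x hx] at b
      simp only [Pi.zero_apply] at a b
      simp only [Pi.sub_apply, F]
      rw [dD_sub ((hY' l).differentiable (by simp) x) ((hW' l).differentiable (by simp) x)]
      linear_combination (-1 / 2 : ℂ) * a + (1 / 2 : ℂ) * b
    simp only [e]
    simp [dotProduct]
  let f : R3 → Fin 1 → ℂ := fun x _ => n ⬝ᵥ F x
  have hfs : ContDiff ℝ ∞ fun x => n ⬝ᵥ F x := smooth_dot (u := fun _ => n) (fun _ => contDiff_const) hF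
  obtain ⟨q, hq, hq0, hqe⟩ := hX (Fin 1) (fun _ => 0) (fun _ _ => contDiff_const) θ hθ0 hθ (R + 3) f
    (by linarith) (contDiff_pi.2 fun _ => hfs) (fun x hx => by funext a; simp [f, hF0 x hx]) (by
    exact transTest hC hR hEq hI hθ0 hθ hn hY hW hYt hWt hbs hfs hF0 hgn hDgn)
  have hq' : ContDiff ℝ ∞ fun x => q x 0 := contDiff_pi.1 hq 0
  refine ⟨fun x => gn x - q x 0, hgn.sub hq', fun x hx => ?_,
    fun x hx => by simp [gn, hq0 x (by linarith)]⟩
  rw [dD_sub (hgn.differentiable (by simp) x) (hq'.differentiable (by simp) x), hDgn x hx,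
    dD_comp_apply hq, hqe x]
  simp [f]

end Orth

open Orth in
/-- (E) the identity gives orthogonality of the closed transport systems. -/
theorem orth (hC : CgoOut) (hE : PlaneExistOut) (hX : PlaneExtOut) : OrthOut := by
  intro C₁ C₂ R hR hEq hI σ hσ y z hy hz hye hze
  set θ := null σ with hθdef
  have hθ0 : θ ≠ 0 := null_ne hσ
  have hθ : ∑ i, θ i ^ 2 = 0 := null_sq σ
  have hy' : ∀ a, ContDiff ℝ ∞ fun x => y x a := contDiff_pi.1 hy
  let b : R3 → ℂ := fun x => y x 0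
  let s : R3 → ℂ := fun x => σ 0 * y x 2 - σ 1 * y x 1
  have hb : ContDiff ℝ ∞ b := hy' 0
  have hs : ContDiff ℝ ∞ s := (contDiff_const.mul (hy' 2)).sub (contDiff_const.mul (hy' 1))
  have hycomp : ∀ x ∈ ball 0 (R + 7), ∀ a, dD θ (fun y' => y y' a) x = (stM C₁ σ x *ᵥ y x) a :=
    fun x hx a => by rw [dD_comp_apply hy, hye x hx]
  have hbe : ∀ x ∈ ball 0 (R + 7), dD θ b x = -((C₁.kap x : ℂ) * s x) / 2 := fun x hx => by
    rw [hycomp x hx, stM_mulVec]; rfl
  have hse : ∀ x ∈ ball 0 (R + 7), dD θ s x = θ ⬝ᵥ gW C₁ θ (b x) (s x) x := fun x hx => by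
    simp only [s]
    rw [dD_sub ((contDiff_const.mul (hy' 2)).differentiable (by simp) x)
        ((contDiff_const.mul (hy' 1)).differentiable (by simp) x),
      dD_mul (differentiableAt_const _) ((hy' 2).differentiable (by simp) x),
      dD_mul (differentiableAt_const _) ((hy' 1).differentiable (by simp) x), hycomp x hx,
      hycomp x hx, stM_mulVec, ← eps_pauli]
    rw [show ∀ (c : ℂ) (v : Fin 2 → ℂ), (Fin.cons c v : Fin 3 → ℂ) 2 = v 1 from fun _ _ => rfl,
      show ∀ (c : ℂ) (v : Fin 2 → ℂ), (Fin.cons c v : Fin 3 → ℂ) 1 = v 0 from fun _ _ => rfl]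
    simp [dD_const, b, hθdef]
  obtain ⟨Y, hY, hYb, hYs, hYt⟩ :=
    exists_lift hE C₁ hθ0 hθ (null_dot_mvec hσ) (R + 7) hb hs hbe hse
  obtain ⟨b', s', hb', hs', hout, hbe', hse'⟩ :=
    extPair hC hE hX hR hEq hI hθ0 hθ (null_dot_mvec hσ) hb hs hY hYb hYs hYt hbe hse
  obtain ⟨W, hW, hWb, hWs, hWt⟩ :=
    exists_lift hE C₂ hθ0 hθ (null_dot_mvec hσ) (R + 7) hb' hs' hbe' hse'
  obtain ⟨u, hu, hue, hu0⟩ := extTrans hC hX hR hEq hI hθ0 hθ (null_dot_nvec hσ) hY hW hYt hWt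
    fun x hx => ⟨by rw [hYb, hWb, (hout x hx).1], by rw [hYs, hWs, (hout x hx).2]⟩
  let e : R3 → C3 := fun x l => wvec W x l + u x * nvec σ l - wvec Y x l
  have he : ∀ l, ContDiff ℝ ∞ fun x => e x l := fun l =>
    ((smooth_wvec hW l).add (hu.mul contDiff_const)).sub (smooth_wvec hY l)
  let d : R3 → Fin 3 → ℂ := fun x => Fin.cons (b' x - b x) (pauli (e x) σ)
  have hd : ∀ a, ContDiff ℝ ∞ fun x => d x a := fun a => by
    refine Fin.cases ?_ (fun i => ?_) a
    · simpa [d] using hb'.sub hb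
    · simpa [d] using smooth_pauli σ he i
  have hθe : ∀ x, θ ⬝ᵥ e x = s' x - s x := fun x => by
    rw [show e x = wvec W x + u x • nvec σ - wvec Y x by funext l; simp [e], dotProduct_sub,
      dotProduct_add, dotProduct_smul, hθdef, null_dot_nvec hσ, ← hθdef, hWs, hYs]
    simp
  have hd0 : ∀ x, R + 6 < ‖x‖ → d x = 0 := by
    intro x hx
    obtain ⟨h1, h2⟩ := hout x (by linarith)
    have hper := pauli_of_perp hσ (d := e x) (by rw [← hθdef, hθe x, h2, sub_self])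
    have : nvec σ ⬝ᵥ e x = 0 := by
      rw [show e x = wvec W x + u x • nvec σ - wvec Y x by funext l; simp [e], dotProduct_sub,
        dotProduct_add, dotProduct_smul, nvec_dot_nvec hσ, hu0 x hx, dotProduct_sub]
      simp
    rw [this, zero_smul] at hper
    funext a
    refine Fin.cases ?_ (fun i => ?_) a
    · simp [d, h1]
    · simp [d, hper]
  have hde : ∀ x ∈ ball 0 (R + 7), (fun a => dD θ (fun y' => d y' a) x)
      = stM C₂ σ x *ᵥ d x + (stM C₂ σ x - stM C₁ σ x) *ᵥ y x := by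
    intro x hx
    have hel : (fun l => dD θ (fun y' => e y' l) x)
        = gW C₂ θ (b' x) (s' x) x - gW C₁ θ (b x) (s x) x := by
      funext l
      have a := transp_w C₁ θ hY x l
      have c := transp_w C₂ θ hW x l
      rw [hYt x hx] at a
      rw [hWt x hx] at c
      simp only [Pi.zero_apply, hYb, hWb, hYs, hWs] at a c
      simp only [e, Pi.sub_apply]
      rw [dD_sub (((smooth_wvec hW l).add (hu.mul contDiff_const)).differentiable (by simp) x)
          ((smooth_wvec hY l).differentiable (by simp) x),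
        dD_add ((smooth_wvec hW l).differentiable (by simp) x)
          ((hu.mul contDiff_const).differentiable (by simp) x),
        dD_mul (hu.differentiable (by simp) x) (differentiableAt_const _), dD_const, hue x hx]
      linear_combination (-1 / 2 : ℂ) * c + (1 / 2 : ℂ) * a
    have hsum : stM C₂ σ x *ᵥ d x + (stM C₂ σ x - stM C₁ σ x) *ᵥ y x
        = stM C₂ σ x *ᵥ (y x + d x) - stM C₁ σ x *ᵥ y x := by
      rw [Matrix.mulVec_add, Matrix.sub_mulVec]; abel
    rw [hsum, stM_mulVec, stM_mulVec]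
    have hb2 : (y x + d x) 0 = b' x := by simp [d, b]
    have hs2 : σ 0 * (y x + d x) 2 - σ 1 * (y x + d x) 1 = s' x := by
      have h := hθe x
      rw [hθdef, ← eps_pauli] at h
      have e2 : d x 2 = pauli (e x) σ 1 := rfl
      have e1 : d x 1 = pauli (e x) σ 0 := rfl
      simp only [Pi.add_apply, e1, e2]
      simp only [s] at h
      linear_combination h
    rw [hb2, hs2]
    funext a
    refine Fin.cases ?_ (fun i => ?_) a
    · simp only [d, Fin.cons_zero, Pi.sub_apply]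
      rw [dD_sub (hb'.differentiable (by simp) x) (hb.differentiable (by simp) x), hbe x hx,
        hbe' x hx]
    · simp only [d, Fin.cons_succ, Pi.sub_apply]
      rw [dD_pauli σ he, hel, pauli_sub]
      simp [b, s, hθdef]
  have hz' : ∀ a, ContDiff ℝ ∞ fun x => z x a := contDiff_pi.1 hz
  have hds : HasCompactSupport fun x => z x ⬝ᵥ d x :=
    HasCompactSupport.intro (isCompact_closedBall (0 : R3) (R + 6)) fun x hx => by
      simp [hd0 x (not_le.1 fun h => hx (mem_closedBall_zero_iff.2 h))]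
  have hzd := smooth_dot hz' hd
  rw [← integral_dD θ (contDiff_infty.1 hzd 1) hds]
  refine integral_congr_ae (Eventually.of_forall fun x => ?_)
  dsimp only
  by_cases hx : x ∈ ball (0 : R3) (R + 7)
  · have e1 : (fun a => dD θ (fun y' => z y' a) x) = -((stM C₂ σ x)ᵀ *ᵥ z x) := by
      funext a; rw [dD_comp_apply hz, hze x hx]
    rw [dD_dot hz' hd, hde x hx, e1, neg_dotProduct, Matrix.mulVec_transpose,
      ← Matrix.dotProduct_mulVec, dotProduct_add]
    ring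
  · have hx' : R + 7 ≤ ‖x‖ := by simpa using hx
    obtain ⟨h1, h2, h3, h4⟩ := coef_eq_out hEq (show R < ‖x‖ by linarith)
    have hM0 : stM C₂ σ x = stM C₁ σ x := by
      funext i j; simp [stM, stApply, h1, h2, h3, h4]
    have hev : (fun y' => z y' ⬝ᵥ d y') =ᶠ[𝓝 x] fun _ => 0 := by
      filter_upwards [(isOpen_lt continuous_const continuous_norm).mem_nhds
        (show R + 6 < ‖x‖ by linarith)] with y' hy'
      simp [hd0 y' hy']
    rw [dD_congr hev, dD_const, hM0, sub_self, Matrix.zero_mulVec, dotProduct_zero]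

end Vale.Agent.P136
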