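import Vale.Agent.P136.Mod.PlaneBoundBasic

/-!
The weighted bound for first order systems on the planes of a null vector (interface `PlaneBoundOut`).
-/

noncomputable section

namespace Vale.Agent.P136.PlaneB

open MeasureTheory Metric Function
open scoped Matrix

theorem zero_out {E : Type*} [NormedAddCommGroup E] [NormedSpace ℝ E] {v : R3 → E} {R : ℝ}
    (hv : ∀ x, R < ‖x‖ → v x = 0) (x : R3) (hx : R < ‖x‖) : fderiv ℝ v x = 0 := by
  have h : v =ᶠ[nhds x] fun _ => 0 := by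
    filter_upwards [(isOpen_lt continuous_const continuous_norm).mem_nhds hx] with y hy
    exact hv y hy
  rw [h.fderiv_eq, fderiv_fun_const]; rfl

theorem compact_of_out {E : Type*} [NormedAddCommGroup E] {v : R3 → E} {R : ℝ}
    (hv : ∀ x, R < ‖x‖ → v x = 0) : HasCompactSupport v :=
  HasCompactSupport.intro (isCompact_closedBall (0 : R3) R) fun x hx =>
    hv x (by simpa [mem_closedBall, dist_zero_right] using hx)

theorem dD_apply {ι : Type} [Fintype ι] (θ : C3) {v : R3 → ι → ℂ} {x : R3}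
    (hv : DifferentiableAt ℝ v x) (k : ι) : dD θ v x k = dD θ (fun y => v y k) x := by
  have h := (hasFDerivAt_pi'.1 hv.hasFDerivAt) k
  simp only [dD, Finset.sum_apply, Pi.smul_apply, pd, h.fderiv,
    ContinuousLinearMap.comp_apply, ContinuousLinearMap.proj_apply]

theorem norm_sq_le_sum {ι : Type} [Fintype ι] (f : ι → ℂ) : ‖f‖ ^ 2 ≤ ∑ k, ‖f k‖ ^ 2 := by
  rcases isEmpty_or_nonempty ι with h | h
  · simp [Subsingleton.elim f 0]
  · obtain ⟨k, -, hk⟩ := Finset.exists_max_image Finset.univ (fun k => ‖f k‖) Finset.univ_nonempty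
    have h1 : ‖f‖ ≤ ‖f k‖ :=
      (pi_norm_le_iff_of_nonneg (norm_nonneg _)).2 fun j => hk j (Finset.mem_univ j)
    exact (pow_le_pow_left₀ (norm_nonneg _) h1 2).trans
      (Finset.single_le_sum (f := fun k => ‖f k‖ ^ 2) (fun j _ => sq_nonneg _) (Finset.mem_univ k))

theorem bound_of_components {ι : Type} [Fintype ι] {θ : C3} (hθ : ∑ i, θ i ^ 2 = 0)
    (M : R3 → Matrix ι ι ℂ) (hM : ∀ a b, Continuous fun x => M x a b) {R Cm m W : ℝ}
    (hC : ∀ x, ‖x‖ ≤ R → ∀ a, ∑ b, ‖M x a b‖ ≤ Cm) (hm : 0 ≤ m)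
    (hmN : (Fintype.card ι : ℝ) * Cm ^ 2 + 1 ≤ m * (∑ i, ‖θ i‖ ^ 2) ^ 2)
    (hW : ∀ x : R3, ‖x‖ ≤ R → ‖ell θ x‖ ^ 2 ≤ W)
    {v : R3 → ι → ℂ} (hv : ContDiff ℝ 1 v) (hvo : ∀ x, R < ‖x‖ → v x = 0) :
    ∫ x, ‖v x‖ ^ 2
      ≤ (Fintype.card ι : ℝ) * Real.exp (2 * m * W) * ∫ x, ‖dD θ v x - M x *ᵥ v x‖ ^ 2 := by
  set E : R3 → ℝ := fun x => Real.exp (2 * m * ‖ell θ x‖ ^ 2) with hE
  set F : R3 → ι → ℂ := fun x => dD θ v x - M x *ᵥ v x with hF
  set n : ℝ := (Fintype.card ι : ℝ) with hn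
  have hd : ∀ x, DifferentiableAt ℝ v x := fun x => (hv.differentiable one_ne_zero) x
  have hEc : Continuous E :=
    Real.continuous_exp.comp (continuous_const.mul ((ell θ).continuous.norm.pow 2))
  have hvs : HasCompactSupport v := compact_of_out hvo
  have hcomp : ∀ k, ContDiff ℝ 1 fun x => v x k := fun k => contDiff_pi.1 hv k
  have hDc : Continuous fun x => dD θ v x := by
    simp only [dD]
    exact continuous_finsetSum _ fun i _ => Continuous.const_smul
      ((hv.continuous_fderiv one_ne_zero).clm_apply continuous_const) (θ i)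
  have hMv : Continuous fun x => M x *ᵥ v x :=
    (continuous_matrix fun a b => hM a b).matrix_mulVec hv.continuous
  have hFc : Continuous F := hDc.sub hMv
  have hDz : ∀ x, R < ‖x‖ → dD θ v x = 0 := fun x hx => by
    simp [dD, pd, zero_out hvo x hx]
  have hFz : ∀ x, R < ‖x‖ → F x = 0 := fun x hx => by
    simp [hF, hDz x hx, hvo x hx]
  have iv : Integrable fun x => E x * ‖v x‖ ^ 2 :=
    (hEc.mul (hv.continuous.norm.pow 2)).integrable_of_hasCompactSupport
      (compact_of_out (R := R) fun x hx => by simp [hvo x hx])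
  have iF : Integrable fun x => E x * ‖F x‖ ^ 2 :=
    (hEc.mul (hFc.norm.pow 2)).integrable_of_hasCompactSupport
      (compact_of_out (R := R) fun x hx => by simp [hFz x hx])
  have ivk : ∀ k, Integrable fun x => E x * ‖v x k‖ ^ 2 := fun k =>
    (hEc.mul ((hcomp k).continuous.norm.pow 2)).integrable_of_hasCompactSupport
      (compact_of_out (R := R) fun x hx => by simp [hvo x hx])
  set A : ℝ := ∫ x, E x * ‖v x‖ ^ 2 with hA
  set B : ℝ := ∫ x, E x * ‖F x‖ ^ 2 with hB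
  have hk : ∀ k, 2 * m * (∑ i, ‖θ i‖ ^ 2) ^ 2 * ∫ x, E x * ‖v x k‖ ^ 2
      ≤ 2 * B + 2 * Cm ^ 2 * A := by
    intro k
    refine (scalar_bound hθ m (hcomp k) (compact_of_out (R := R) fun x hx => by simp [hvo x hx])).trans ?_
    have hi : Integrable fun x => E x * ‖dD θ (fun y => v y k) x‖ ^ 2 := by
      simp only [← dD_apply θ (hd _) k]
      exact (hEc.mul (((continuous_apply k).comp hDc).norm.pow 2)).integrable_of_hasCompactSupport
        (compact_of_out (R := R) fun x hx => by simp [hDz x hx])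
    calc ∫ x, E x * ‖dD θ (fun y => v y k) x‖ ^ 2
        ≤ ∫ x, (2 * (E x * ‖F x‖ ^ 2) + 2 * Cm ^ 2 * (E x * ‖v x‖ ^ 2)) := by
          refine integral_mono hi ((iF.const_mul 2).add (iv.const_mul _)) fun x => ?_
          show E x * ‖dD θ (fun y => v y k) x‖ ^ 2
            ≤ 2 * (E x * ‖F x‖ ^ 2) + 2 * Cm ^ 2 * (E x * ‖v x‖ ^ 2)
          rw [← dD_apply θ (hd x) k]
          by_cases hx : R < ‖x‖
          · simp [hDz x hx, hFz x hx, hvo x hx]
          · push Not at hx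
            have h1 : dD θ v x k = F x k + (M x *ᵥ v x) k := by simp [hF]
            have h2 : ‖(M x *ᵥ v x) k‖ ≤ Cm * ‖v x‖ := by
              simp only [Matrix.mulVec, dotProduct]
              refine (norm_sum_le _ _).trans ?_
              refine le_trans (Finset.sum_le_sum fun b _ => ?_)
                ((Finset.sum_mul _ _ _).ge.trans
                  (mul_le_mul_of_nonneg_right (hC x hx k) (norm_nonneg _)))
              rw [norm_mul]
              exact mul_le_mul_of_nonneg_left (norm_le_pi_norm _ b) (norm_nonneg _)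
            have h3 : ‖dD θ v x k‖ ≤ ‖F x‖ + Cm * ‖v x‖ := by
              rw [h1]; exact (norm_add_le _ _).trans (add_le_add (norm_le_pi_norm _ k) h2)
            have h4 : ‖dD θ v x k‖ ^ 2 ≤ 2 * ‖F x‖ ^ 2 + 2 * Cm ^ 2 * ‖v x‖ ^ 2 := by
              nlinarith [norm_nonneg (dD θ v x k), sq_nonneg (‖F x‖ - Cm * ‖v x‖)]
            calc E x * ‖dD θ v x k‖ ^ 2 ≤ E x * (2 * ‖F x‖ ^ 2 + 2 * Cm ^ 2 * ‖v x‖ ^ 2) :=
                  mul_le_mul_of_nonneg_left h4 (Real.exp_pos _).le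
              _ = _ := by ring
      _ = 2 * B + 2 * Cm ^ 2 * A := by
          rw [integral_add (iF.const_mul 2) (iv.const_mul _), integral_const_mul,
            integral_const_mul]
  have hsum : A ≤ ∑ k, ∫ x, E x * ‖v x k‖ ^ 2 := by
    rw [← integral_finsetSum _ fun k _ => ivk k]
    refine integral_mono iv (integrable_finsetSum _ fun k _ => ivk k) fun x => ?_
    show E x * ‖v x‖ ^ 2 ≤ ∑ k, E x * ‖v x k‖ ^ 2
    rw [← Finset.mul_sum]
    exact mul_le_mul_of_nonneg_left (norm_sq_le_sum (v x)) (Real.exp_pos _).le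
  have hA0 : 0 ≤ A := integral_nonneg fun x => mul_nonneg (Real.exp_pos _).le (sq_nonneg _)
  have hAB : A ≤ n * B := by
    have h1 : 2 * (m * (∑ i, ‖θ i‖ ^ 2) ^ 2) * A ≤ n * (2 * B + 2 * Cm ^ 2 * A) := by
      calc 2 * (m * (∑ i, ‖θ i‖ ^ 2) ^ 2) * A
          ≤ 2 * (m * (∑ i, ‖θ i‖ ^ 2) ^ 2) * ∑ k, ∫ x, E x * ‖v x k‖ ^ 2 :=
            mul_le_mul_of_nonneg_left hsum (by positivity)
        _ ≤ ∑ _k : ι, (2 * B + 2 * Cm ^ 2 * A) := by
            rw [Finset.mul_sum]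
            refine Finset.sum_le_sum fun k _ => ?_
            have := hk k
            linarith
        _ = _ := by simp [hn]; ring
    nlinarith [mul_le_mul_of_nonneg_right hmN hA0]
  have hL : ∫ x, ‖v x‖ ^ 2 ≤ A := by
    refine integral_mono ((hv.continuous.norm.pow 2).integrable_of_hasCompactSupport
      (compact_of_out (R := R) fun x hx => by simp [hvo x hx])) iv fun x => ?_
    exact le_mul_of_one_le_left (sq_nonneg _) (Real.one_le_exp (by positivity))
  have hU : B ≤ Real.exp (2 * m * W) * ∫ x, ‖F x‖ ^ 2 := by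
    rw [← integral_const_mul]
    refine integral_mono iF (Integrable.const_mul ?_ _) fun x => ?_
    · exact (hFc.norm.pow 2).integrable_of_hasCompactSupport
        (compact_of_out (R := R) fun x hx => by simp [hFz x hx])
    · show E x * ‖F x‖ ^ 2 ≤ Real.exp (2 * m * W) * ‖F x‖ ^ 2
      by_cases hx : R < ‖x‖
      · simp [hFz x hx]
      · push Not at hx
        refine mul_le_mul_of_nonneg_right (Real.exp_le_exp.2 ?_) (sq_nonneg _)
        exact mul_le_mul_of_nonneg_left (hW x hx) (by positivity)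
  calc ∫ x, ‖v x‖ ^ 2 ≤ n * B := hL.trans hAB
    _ ≤ n * (Real.exp (2 * m * W) * ∫ x, ‖F x‖ ^ 2) :=
        mul_le_mul_of_nonneg_left hU (Nat.cast_nonneg _)
    _ = _ := by rw [hn]; ring

end PlaneB

open MeasureTheory Metric PlaneB in
/-- (D4) -/
theorem planeBound : PlaneBoundOut := by
  intro ι _ P _ S hS θ M hθc hθ hMc R
  rcases S.eq_empty_or_nonempty with rfl | hne
  · exact ⟨0, fun s hs => absurd hs (Set.notMem_empty s)⟩
  have hθi : ∀ i, ContinuousOn (fun s => θ s i) S := fun i =>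
    (continuous_apply i).comp_continuousOn hθc
  have hNc : ContinuousOn (fun s => ∑ i, ‖θ s i‖ ^ 2) S :=
    continuousOn_finsetSum _ fun i _ => ((hθi i).norm).pow 2
  obtain ⟨s₀, hs₀, hmin⟩ := hS.exists_isMinOn hne hNc
  obtain ⟨s₁, hs₁, hmax⟩ := hS.exists_isMaxOn hne hNc
  set N₀ : ℝ := ∑ i, ‖θ s₀ i‖ ^ 2
  have hN₀ : 0 < N₀ := by
    obtain ⟨i, hi⟩ := Function.ne_iff.1 (hθ s₀ hs₀).1
    exact Finset.sum_pos' (fun j _ => sq_nonneg _) ⟨i, Finset.mem_univ i,
      by have : 0 < ‖θ s₀ i‖ := norm_pos_iff.2 hi; positivity⟩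
  have hMs : ContinuousOn (fun q : P × R3 => ∑ a, ∑ b, ‖M q.1 q.2 a b‖)
      (S ×ˢ closedBall (0 : R3) R) :=
    continuousOn_finsetSum _ fun a _ => continuousOn_finsetSum _ fun b _ =>
      ((hMc a b).mono (Set.prod_mono le_rfl (Set.subset_univ _))).norm
  obtain ⟨Cm, hCm⟩ := (hS.prod (isCompact_closedBall (0 : R3) R)).bddAbove_image hMs
  set m : ℝ := ((Fintype.card ι : ℝ) * Cm ^ 2 + 1) / N₀ ^ 2
  set W : ℝ := (∑ i, ‖θ s₁ i‖ ^ 2) * R ^ 2 * 3
  refine ⟨(Fintype.card ι : ℝ) * Real.exp (2 * m * W), fun s hs v hv hvo => ?_⟩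
  refine bound_of_components (hθ s hs).2 (M s) (fun a b => ?_) (Cm := Cm) ?_ (by positivity) ?_ ?_
    hv hvo
  · exact (hMc a b).comp_continuous (Continuous.prodMk_right s) fun x => ⟨hs, Set.mem_univ _⟩
  · intro x hx a
    refine le_trans ?_ (hCm ⟨(s, x), ⟨hs, by simpa using hx⟩, rfl⟩)
    exact Finset.single_le_sum (f := fun a => ∑ b, ‖M s x a b‖)
      (fun a _ => Finset.sum_nonneg fun b _ => norm_nonneg _) (Finset.mem_univ a)
  · have h1 : N₀ ^ 2 ≤ (∑ i, ‖θ s i‖ ^ 2) ^ 2 :=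
      pow_le_pow_left₀ hN₀.le (hmin hs) 2
    calc (Fintype.card ι : ℝ) * Cm ^ 2 + 1 = m * N₀ ^ 2 := by
          simp only [m]; field_simp
      _ ≤ _ := mul_le_mul_of_nonneg_left h1 (by positivity)
  · intro x hx
    have h1 : ‖ell (θ s) x‖ ≤ (∑ i, ‖θ s i‖) * R := by
      rw [ell_apply, Finset.sum_mul]
      refine (norm_sum_le _ _).trans (Finset.sum_le_sum fun i _ => ?_)
      rw [norm_mul, Complex.norm_real]
      exact mul_le_mul_of_nonneg_left ((PiLp.norm_apply_le x i).trans hx) (norm_nonneg _)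
    have h2 : (∑ i, ‖θ s i‖) ^ 2 ≤ 3 * ∑ i, ‖θ s i‖ ^ 2 := by
      have := sq_sum_le_card_mul_sum_sq (s := Finset.univ) (f := fun i => ‖θ s i‖)
      simpa using this
    have h3 : (∑ i, ‖θ s i‖ ^ 2) ≤ ∑ i, ‖θ s₁ i‖ ^ 2 := hmax hs
    calc ‖ell (θ s) x‖ ^ 2 ≤ ((∑ i, ‖θ s i‖) * R) ^ 2 := pow_le_pow_left₀ (norm_nonneg _) h1 2
      _ = (∑ i, ‖θ s i‖) ^ 2 * R ^ 2 := by ring
      _ ≤ (3 * ∑ i, ‖θ s₁ i‖ ^ 2) * R ^ 2 :=
          mul_le_mul_of_nonneg_right (h2.trans (by linarith)) (sq_nonneg R)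
      _ = W := by simp only [W]; ring

end Vale.Agent.P136
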