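import Vale.Agent.P136.Mod.PlaneExistCore

/-!
# Systems on the planes of a null vector: existence and compact solutions

Both follow from the a priori bound for compactly supported functions through the variational
problem of `PlaneExistCore`. The support of a compact solution is shrunk with the exponentials
annihilated by `dD θ`.
-/

noncomputable section

namespace Vale.Agent.P136

namespace PlaneExist

open MeasureTheory Metric Function Set Filter
open scoped ContDiff Topology RealInnerProductSpace Matrix ComplexConjugate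

variable {ι : Type} [Fintype ι]

/-- The value space. -/
abbrev CV (ι : Type) [Fintype ι] := EuclideanSpace ℂ ι

/-- Forgetting the Euclidean norm. -/
def eF : CV ι ≃L[ℝ] (ι → ℂ) := PiLp.continuousLinearEquiv 2 ℝ fun _ : ι => ℂ

theorem eF_apply (v : CV ι) (i : ι) : eF v i = v i := rfl

theorem inner_eq_re (x y : CV ι) : ⟪x, y⟫ = (∑ i, conj (x i) * y i).re := by
  simp [PiLp.inner_apply, Complex.inner, Complex.re_sum, mul_comm]

theorem norm_eF_le (v : CV ι) : ‖eF v‖ ≤ ‖v‖ :=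
  (pi_norm_le_iff_of_nonneg (norm_nonneg v)).2 fun i => PiLp.norm_apply_le v i

theorem normSq_le (v : CV ι) : ‖v‖ ^ 2 ≤ (Fintype.card ι : ℝ) * ‖eF v‖ ^ 2 := by
  rw [EuclideanSpace.norm_sq_eq]
  calc ∑ i, ‖v i‖ ^ 2 ≤ ∑ _i : ι, ‖eF v‖ ^ 2 :=
        Finset.sum_le_sum fun i _ => pow_le_pow_left₀ (norm_nonneg _) (norm_le_pi_norm (eF v) i) 2
    _ = _ := by simp

/-- Multiplication by a complex number. -/
def sm (a : ℂ) : CV ι →L[ℝ] CV ι :=
  (a • ContinuousLinearMap.id ℂ (CV ι)).restrictScalars ℝ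

theorem eF_sm (a : ℂ) (v : CV ι) : eF (sm a v) = a • eF v := rfl

theorem inner_sm (a : ℂ) (x y : CV ι) : ⟪sm a x, y⟫ = ⟪x, sm (conj a) y⟫ := by
  simp only [inner_eq_re, sm]
  congr 1
  refine Finset.sum_congr rfl fun i _ => ?_
  simp
  ring

/-- Multiplication by a matrix. -/
def mat (N : Matrix ι ι ℂ) : CV ι →L[ℝ] CV ι :=
  LinearMap.toContinuousLinearMap
    { toFun := fun v => eF.symm (N *ᵥ eF v)
      map_add' := fun u v => by simp [Matrix.mulVec_add]
      map_smul' := fun c v => by simp [Matrix.mulVec_smul] }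

theorem eF_mat (N : Matrix ι ι ℂ) (v : CV ι) : eF (mat N v) = N *ᵥ eF v := by
  simp [mat]

theorem inner_mat (N : Matrix ι ι ℂ) (x y : CV ι) : ⟪mat N x, y⟫ = ⟪x, mat Nᴴ y⟫ := by
  simp only [inner_eq_re]
  congr 1
  simp only [← eF_apply, eF_mat, Matrix.mulVec, dotProduct, map_sum, Finset.sum_mul,
    Finset.mul_sum, Matrix.conjTranspose_apply, map_mul, Complex.star_def]
  rw [Finset.sum_comm]
  exact Finset.sum_congr rfl fun i _ => Finset.sum_congr rfl fun j _ => by ring

theorem contDiff_mat {N : R3 → Matrix ι ι ℂ} (hN : ∀ a b, ContDiff ℝ ∞ fun x => N x a b) :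
    ContDiff ℝ ∞ fun x => mat (N x) := by
  refine contDiff_clm_apply_iff.2 fun v => ?_
  rw [← eF.comp_contDiff_iff]
  refine contDiff_pi.2 fun i => ?_
  simp only [comp_apply, eF_mat, Matrix.mulVec, dotProduct]
  exact ContDiff.sum fun j _ => (hN i j).mul contDiff_const

/-- A cutoff: one on the ball of radius `|a| + 1`, zero outside radius `|a| + 2`. -/
def bump (a : ℝ) : ContDiffBump (0 : R3) :=
  ⟨|a| + 1, |a| + 2, by positivity, by linarith⟩

/-- The cutoff as a function. -/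
def cut (a : ℝ) : R3 → ℝ := bump a

theorem cut_one {a : ℝ} {x : R3} (h : ‖x‖ ≤ |a| + 1) : cut a x = 1 :=
  (bump a).one_of_mem_closedBall (mem_closedBall_zero_iff.2 h)

theorem cut_zero {a : ℝ} {x : R3} (h : |a| + 2 ≤ ‖x‖) : cut a x = 0 :=
  (bump a).zero_of_le_dist (by simpa [bump] using h)

theorem isTest_cut (a : ℝ) : IsTest (cut a) := ⟨(bump a).contDiff, (bump a).hasCompactSupport⟩

theorem cut_nonneg (a : ℝ) (x : R3) : 0 ≤ cut a x := (bump a).nonneg

theorem cut_le_one (a : ℝ) (x : R3) : cut a x ≤ 1 := (bump a).le_one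

theorem pd_eF {φ : R3 → CV ι} {x : R3} (hφ : DifferentiableAt ℝ φ x) (i : Fin 3) :
    pd i (fun y => eF (φ y)) x = eF (pd i φ x) := by
  have h : HasFDerivAt (fun y => eF (φ y))
      ((eF (ι := ι) : CV ι →L[ℝ] (ι → ℂ)).comp (fderiv ℝ φ x)) x :=
    (eF (ι := ι) : CV ι →L[ℝ] (ι → ℂ)).hasFDerivAt.comp x hφ.hasFDerivAt
  simp [pd, h.fderiv]

/-- The data for `dD θ` plus a cut off matrix. -/
def mkDat (θ : C3) (N : R3 → Matrix ι ι ℂ) (hN : ∀ a b, ContDiff ℝ ∞ fun x => N x a b) (b a K : ℝ) :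
    Dat (CV ι) where
  c i := sm (θ i)
  c' i := sm (conj (θ i))
  adj_c i := inner_sm (θ i)
  A x := cut b x • mat (N x)
  A' x := cut b x • mat (N x)ᴴ
  adj_A z x y := by
    simp only [smul_apply, real_inner_smul_left, real_inner_smul_right, inner_mat]
  hA := ⟨(isTest_cut b).1.smul (contDiff_mat hN), (isTest_cut b).2.smul_right⟩
  hA' := ⟨(isTest_cut b).1.smul (contDiff_mat fun p q =>
    Complex.conjCLE.contDiff.comp (hN q p)), (isTest_cut b).2.smul_right⟩
  ζ := cut a
  hζ := isTest_cut a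
  K := K

theorem eF_L {θ : C3} {N : R3 → Matrix ι ι ℂ} {hN : ∀ a b, ContDiff ℝ ∞ fun x => N x a b}
    {b a K : ℝ} {φ : R3 → CV ι} {x : R3} (hφ : DifferentiableAt ℝ φ x) :
    eF ((mkDat θ N hN b a K).L φ x)
      = dD θ (fun y => eF (φ y)) x + cut b x • (N x *ᵥ eF (φ x)) := by
  simp [Dat.L, mkDat, cD, dD, map_sum, eF_sm, eF_mat, pd_eF hφ]

theorem eF_Lt {θ : C3} {N : R3 → Matrix ι ι ℂ} {hN : ∀ a b, ContDiff ℝ ∞ fun x => N x a b}
    {b a K : ℝ} {φ : R3 → CV ι} {x : R3} (hφ : DifferentiableAt ℝ φ x) :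
    eF ((mkDat θ N hN b a K).Lt φ x)
      = -dD (fun i => conj (θ i)) (fun y => eF (φ y)) x + cut b x • ((N x)ᴴ *ᵥ eF (φ x)) := by
  simp [Dat.Lt, mkDat, cD, dD, map_sum, eF_sm, eF_mat, pd_eF hφ]

theorem dD_smul {θ : C3} {g : R3 → ℂ} {v : R3 → ι → ℂ} {x : R3} (hg : DifferentiableAt ℝ g x)
    (hv : DifferentiableAt ℝ v x) :
    dD θ (fun y => g y • v y) x = g x • dD θ v x + dD θ g x • v x := by
  simp only [dD, pd, fderiv_fun_smul hg hv, add_apply, smul_apply,
    ContinuousLinearMap.smulRight_apply, smul_add, Finset.sum_add_distrib, Finset.smul_sum,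
    Finset.sum_smul, smul_eq_mul, smul_smul, mul_comm]

theorem bound_exists (h : PlaneBoundOut) {θ : C3} (hθ : θ ≠ 0) (hn : ∑ i, θ i ^ 2 = 0)
    (N : R3 → Matrix ι ι ℂ) (hN : ∀ a b, ContDiff ℝ ∞ fun x => N x a b) (b a : ℝ) :
    ∃ K, (mkDat θ N hN b a K).Bound := by
  set e : R3 → ℝ := cut (|a| + 1) with he
  have het : IsTest e := isTest_cut _
  obtain ⟨K, hK⟩ := h ι Unit univ isCompact_univ (fun _ => θ)
    (fun _ x => -(cut b x • N x)) continuousOn_const (fun _ _ => ⟨hθ, hn⟩)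
    (fun p q => ((((isTest_cut b).continuous.smul (hN p q).continuous).neg).comp
      continuous_snd).continuousOn) (|a| + 3)
  obtain ⟨G, hG⟩ : ∃ G : ℝ, ∀ x, ‖dD θ (fun y => (e y : ℂ)) x‖ ≤ G := by
    have hc : IsTest fun y => (e y : ℂ) :=
      ⟨Complex.ofRealCLM.contDiff.comp het.1, het.2.comp_left Complex.ofReal_zero⟩
    have : IsTest (∑ i, fun x => θ i • pd i (fun y => (e y : ℂ)) x) := IsTest.sum _ fun i =>
      ⟨(hc.pd i).1.const_smul (θ i), (hc.pd i).2.smul_left (f := fun _ => θ i)⟩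
    obtain ⟨G, hG⟩ := this.2.exists_bound_of_continuous this.continuous
    exact ⟨G, fun x => by simpa [dD, Finset.sum_apply] using hG x⟩
  set n : ℝ := (Fintype.card ι : ℝ) with hnd
  set K' := max K 0 with hK'
  refine ⟨4 * n * K' + (4 * n * K' * G ^ 2 + 2), fun φ hφ => ?_⟩
  set D := mkDat θ N hN b a (4 * n * K' + (4 * n * K' * G ^ 2 + 2)) with hD
  have hd : ∀ x, DifferentiableAt ℝ φ x := hφ.differentiable
  set v : R3 → ι → ℂ := fun x => e x • eF (φ x) with hv
  have hzero : ∀ x, e x ≠ 1 → cut a x = 0 := fun x hx => cut_zero <| le_of_not_gt fun h' =>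
    hx (cut_one (by rw [abs_of_nonneg (by positivity : 0 ≤ |a| + 1)]; linarith))
  have hde : ∀ x, dD θ (fun y => (e y : ℂ)) x ≠ 0 → cut a x = 0 := fun x hx =>
    cut_zero <| le_of_not_gt fun h' => hx <| by
      have hev : (fun y => (e y : ℂ)) =ᶠ[𝓝 x] fun _ => (1 : ℂ) := by
        filter_upwards [(isOpen_lt continuous_norm continuous_const).mem_nhds
          (show ‖x‖ < |a| + 2 from h')] with y hy
        have hy' : ‖y‖ < |a| + 2 := hy
        rw [he, cut_one (by rw [abs_of_nonneg (by positivity : 0 ≤ |a| + 1)]; linarith)]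
        simp
      simp [dD, pd, hev.fderiv_eq]
  have hvd : ContDiff ℝ 1 v :=
    ((het.1.smul ((eF (ι := ι)).contDiff.comp hφ.1))).of_le (by exact_mod_cast le_top)
  have key := hK () (mem_univ _) v hvd fun x hx => by
    simp only [hv, he]
    rw [cut_zero (by rw [abs_of_nonneg (by positivity : 0 ≤ |a| + 1)]; linarith), zero_smul]
  have hLv : ∀ x, dD θ v x - -(cut b x • N x) *ᵥ v x
      = e x • eF (D.L φ x) + dD θ (fun y => (e y : ℂ)) x • eF (φ x) := by
    intro x
    have hsm : v = fun y => (e y : ℂ) • eF (φ y) := by funext y; simp [hv]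
    have hg : DifferentiableAt ℝ (fun y => (e y : ℂ)) x :=
      Complex.ofRealCLM.differentiableAt.comp x (het.differentiable x)
    have hw : DifferentiableAt ℝ (fun y => eF (φ y)) x :=
      (eF (ι := ι)).differentiableAt.comp x (hd x)
    rw [hD, eF_L (hd x), hsm, dD_smul hg hw]
    simp only [Matrix.neg_mulVec, Matrix.smul_mulVec, Matrix.mulVec_smul,
      Complex.coe_smul, smul_add, smul_neg, sub_neg_eq_add]
    abel
  have hχ : IsTest fun x => (1 - D.ζ x) • φ x :=
    ⟨(contDiff_const.sub D.hζ.1).smul hφ.1, hφ.2.smul_left (f := fun x => 1 - D.ζ x)⟩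
  have hL : IsTest (D.L φ) := hφ.cD.add
    ⟨D.hA.1.clm_apply hφ.1, hφ.2.mono fun x hx h => hx (by simp [h])⟩
  have isq : ∀ {g : R3 → CV ι}, IsTest g → Integrable fun x => ‖g x‖ ^ 2 := fun hg =>
    ((hg.memLp (p := 2)).norm).integrable_sq
  have ivv : Integrable fun x => ‖v x‖ ^ 2 :=
    ((hvd.continuous.memLp_of_hasCompactSupport (p := 2) het.2.smul_right).norm).integrable_sq
  have p1 : ∀ x, ‖φ x‖ ^ 2 ≤ 2 * n * ‖v x‖ ^ 2 + 2 * ‖(1 - D.ζ x) • φ x‖ ^ 2 := by
    intro x
    have h1 : ‖φ x‖ ^ 2 ≤ 2 * ‖e x • φ x‖ ^ 2 + 2 * ‖(1 - e x) • φ x‖ ^ 2 := by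
      have := norm_add_le (e x • φ x) ((1 - e x) • φ x)
      rw [← add_smul, add_sub_cancel, one_smul] at this
      nlinarith [mul_self_le_mul_self (norm_nonneg _) this,
        sq_nonneg (‖e x • φ x‖ - ‖(1 - e x) • φ x‖)]
    have h2 : ‖e x • φ x‖ ^ 2 ≤ n * ‖v x‖ ^ 2 := by
      have := normSq_le (e x • φ x)
      rwa [map_smul] at this
    have h3 : ‖(1 - e x) • φ x‖ ^ 2 ≤ ‖(1 - D.ζ x) • φ x‖ ^ 2 := by
      by_cases hx : e x = 1
      · simp [hx]
      · change _ ≤ ‖(1 - cut a x) • φ x‖ ^ 2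
        rw [hzero x hx, sub_zero, one_smul, norm_smul, mul_pow, Real.norm_eq_abs, sq_abs]
        exact mul_le_of_le_one_left (by positivity)
          (by nlinarith [cut_nonneg (|a| + 1) x, cut_le_one (|a| + 1) x])
    nlinarith
  have p2 : ∀ x, ‖dD θ v x - -(cut b x • N x) *ᵥ v x‖ ^ 2
      ≤ 2 * ‖D.L φ x‖ ^ 2 + 2 * G ^ 2 * ‖(1 - D.ζ x) • φ x‖ ^ 2 := by
    intro x
    rw [hLv]
    have a1 : ‖e x • eF (D.L φ x)‖ ≤ ‖D.L φ x‖ := by
      rw [norm_smul, Real.norm_of_nonneg (cut_nonneg _ _)]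
      exact (mul_le_of_le_one_left (norm_nonneg _) (cut_le_one _ _)).trans (norm_eF_le _)
    have a2 : ‖dD θ (fun y => (e y : ℂ)) x • eF (φ x)‖ ≤ G * ‖(1 - D.ζ x) • φ x‖ := by
      by_cases hx : dD θ (fun y => (e y : ℂ)) x = 0
      · rw [hx, zero_smul, norm_zero]
        exact mul_nonneg ((norm_nonneg _).trans (hG x)) (norm_nonneg _)
      · change _ ≤ G * ‖(1 - cut a x) • φ x‖
        rw [hde x hx, sub_zero, one_smul, norm_smul]
        exact mul_le_mul (hG x) (norm_eF_le _) (norm_nonneg _) ((norm_nonneg _).trans (hG x))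
    have := (norm_add_le _ _).trans (add_le_add a1 a2)
    nlinarith [mul_self_le_mul_self (norm_nonneg _) this,
      sq_nonneg (‖D.L φ x‖ - G * ‖(1 - D.ζ x) • φ x‖)]
  have q1 : ∫ x, ‖φ x‖ ^ 2 ≤ 2 * n * (∫ x, ‖v x‖ ^ 2) + 2 * ∫ x, ‖(1 - D.ζ x) • φ x‖ ^ 2 := by
    rw [← integral_const_mul, ← integral_const_mul,
      ← integral_add (ivv.const_mul _) ((isq hχ).const_mul _)]
    exact integral_mono (isq hφ) ((ivv.const_mul _).add ((isq hχ).const_mul _)) p1
  have q2 : ∫ x, ‖dD θ v x - -(cut b x • N x) *ᵥ v x‖ ^ 2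
      ≤ 2 * (∫ x, ‖D.L φ x‖ ^ 2) + 2 * G ^ 2 * ∫ x, ‖(1 - D.ζ x) • φ x‖ ^ 2 := by
    rw [← integral_const_mul, ← integral_const_mul,
      ← integral_add ((isq hL).const_mul _) ((isq hχ).const_mul _)]
    exact integral_mono_of_nonneg (ae_of_all _ fun x => sq_nonneg _)
      (((isq hL).const_mul _).add ((isq hχ).const_mul _)) (ae_of_all _ p2)
  have q0 : 0 ≤ ∫ x, ‖dD θ v x - -(cut b x • N x) *ᵥ v x‖ ^ 2 :=
    integral_nonneg fun x => sq_nonneg _
  have q3 := key.trans (mul_le_mul_of_nonneg_right (le_max_left K 0) q0)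
  have hL0 : 0 ≤ ∫ x, ‖D.L φ x‖ ^ 2 := integral_nonneg fun x => sq_nonneg _
  have hC0 : 0 ≤ ∫ x, ‖(1 - D.ζ x) • φ x‖ ^ 2 := integral_nonneg fun x => sq_nonneg _
  have q4 := mul_le_mul_of_nonneg_left (q3.trans (mul_le_mul_of_nonneg_left q2
    (le_max_right K 0))) (by positivity : 0 ≤ 2 * n)
  have z1 : 0 ≤ (4 * n * K' * G ^ 2 + 2) * ∫ x, ‖D.L φ x‖ ^ 2 := by positivity
  have z2 : 0 ≤ 4 * n * K' * ∫ x, ‖(1 - D.ζ x) • φ x‖ ^ 2 := by positivity
  change _ ≤ (4 * n * K' + (4 * n * K' * G ^ 2 + 2)) * _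
  nlinarith

end PlaneExist

open PlaneExist MeasureTheory Metric Filter Topology
open scoped ContDiff Matrix ComplexConjugate RealInnerProductSpace

/-- (D1) from the a priori bound. -/
theorem planeExist (h : PlaneBoundOut) : PlaneExistOut := by
  intro ι _ M hM θ hθ hn R f hf
  set θc : C3 := fun i => conj (θ i) with hθc
  have h1 : θc ≠ 0 := fun h0 => hθ <| funext fun i => by simpa [hθc] using congrFun h0 i
  have h2 : ∑ i, θc i ^ 2 = 0 := by simp [hθc, ← map_pow, ← map_sum, hn]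
  have hMH : ∀ a b, ContDiff ℝ ∞ fun x => (M x)ᴴ a b := fun a b =>
    Complex.conjCLE.contDiff.comp (hM b a)
  obtain ⟨K, hK⟩ := bound_exists h h1 h2 (fun x => (M x)ᴴ) hMH R R
  set D := mkDat θc (fun x => (M x)ᴴ) hMH R R K with hD
  have hf0 : IsTest fun x => -(cut R x • eF.symm (f x)) :=
    IsTest.neg ⟨(isTest_cut R).1.smul ((eF (ι := ι)).symm.contDiff.comp hf),
      (isTest_cut R).2.smul_right⟩
  obtain ⟨w, hw, -, -, heq, -⟩ := core D hK hf0 (isTest_zero (E := CV ι))
  have hr : ContDiff ℝ ∞ fun y => D.L w y :=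
    (contDiff_cD hw).add (D.hA.1.clm_apply hw)
  refine ⟨fun y => eF (D.L w y), (eF (ι := ι)).contDiff.comp hr, fun x hx => ?_⟩
  rw [mem_ball_zero_iff] at hx
  have hc : cut R x = 1 := cut_one (by linarith [le_abs_self R])
  have e := congrArg eF (heq x)
  have hζ : D.ζ x = 1 := hc
  simp only [Pi.zero_apply, sub_zero, map_add, map_neg, map_smul, hζ, sub_self,
    zero_pow two_ne_zero, zero_smul, add_zero, hc, one_smul,
    ContinuousLinearEquiv.apply_symm_apply] at e
  rw [hD, eF_Lt (hr.differentiable (by simp) x)] at e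
  simp only [hc, one_smul, Matrix.conjTranspose_conjTranspose, hθc, Complex.conj_conj] at e
  have e' : M x *ᵥ eF (D.L w x) + f x = dD θ (fun y => eF (D.L w y)) x := by
    rw [← sub_eq_zero, ← sub_eq_zero.2 e, hD]; abel
  exact e'.symm

theorem PlaneExist.exists_freq {θ : C3} (hθ : θ ≠ 0) (hn : ∑ i, θ i ^ 2 = 0) (e : R3) :
    ∃ a : C3, ∑ i, θ i * a i = 0 ∧ ∀ i, (a i).re = e i := by
  have h1 := congrArg Complex.re hn
  have h2 := congrArg Complex.im hn
  simp only [Fin.sum_univ_three, sq, Complex.add_re, Complex.add_im, Complex.mul_re,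
    Complex.mul_im, Complex.zero_re, Complex.zero_im] at h1 h2
  set P := (θ 0).re ^ 2 + (θ 1).re ^ 2 + (θ 2).re ^ 2 with hP
  have hP0 : P ≠ 0 := by
    intro h0
    apply hθ
    funext i
    have e0 := sq_nonneg (θ 0).re; have e1 := sq_nonneg (θ 1).re
    have e2 := sq_nonneg (θ 2).re; have f0 := sq_nonneg (θ 0).im
    have f1 := sq_nonneg (θ 1).im; have f2 := sq_nonneg (θ 2).im
    have g : (θ i).re ^ 2 ≤ 0 ∧ (θ i).im ^ 2 ≤ 0 := by
      fin_cases i <;> constructor <;> simp only [Fin.zero_eta, Fin.mk_one, Fin.reduceFinMk] <;>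
        nlinarith
    exact Complex.ext (pow_eq_zero_iff two_ne_zero |>.1 (le_antisymm g.1 (sq_nonneg _)))
      (pow_eq_zero_iff two_ne_zero |>.1 (le_antisymm g.2 (sq_nonneg _)))
  set A := (θ 0).re * e 0 + (θ 1).re * e 1 + (θ 2).re * e 2 with hA
  set B := (θ 0).im * e 0 + (θ 1).im * e 1 + (θ 2).im * e 2 with hB
  refine ⟨fun i => ⟨e i, (A * (θ i).im - B * (θ i).re) / P⟩, ?_, fun i => rfl⟩
  simp only [Fin.sum_univ_three]
  apply Complex.ext <;>
    simp only [Complex.add_re, Complex.add_im, Complex.mul_re, Complex.mul_im, Complex.zero_re,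
      Complex.zero_im] <;> field_simp <;> rw [hP, hA, hB]
  · linear_combination ((θ 0).re * e 0 + (θ 1).re * e 1 + (θ 2).re * e 2) * h1
      + ((θ 0).im * e 0 + (θ 1).im * e 1 + (θ 2).im * e 2) / 2 * h2
  · linear_combination ((θ 0).re * e 0 + (θ 1).re * e 1 + (θ 2).re * e 2) / 2 * h2

/-- Exponentials killed by `dD θ` push the support of a compact solution into the support ball
of the forcing term. -/
theorem PlaneExist.support_shrink (h : PlaneBoundOut) {ι : Type} [Fintype ι]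
    {M : R3 → Matrix ι ι ℂ} (hM : ∀ a b, ContDiff ℝ ∞ fun x => M x a b) {θ : C3} (hθ : θ ≠ 0)
    (hn : ∑ i, θ i ^ 2 = 0) {R : ℝ} {f v : R3 → ι → ℂ} (hR : 0 < R) (hf : ContDiff ℝ ∞ f)
    (hfs : ∀ x, R < ‖x‖ → f x = 0) (hvs : ContDiff ℝ ∞ v) (hv5 : ∀ x, R + 5 < ‖x‖ → v x = 0)
    (hveq : ∀ x, dD θ v x = M x *ᵥ v x + f x) {x₀ : R3} (hx₀R : R < ‖x₀‖) : v x₀ = 0 := by
  by_contra hne
  obtain ⟨K₂, hK₂⟩ := h ι Unit Set.univ isCompact_univ (fun _ => θ) (fun _ => M) continuousOn_const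
    (fun _ _ => ⟨hθ, hn⟩)
    (fun p q => ((hM p q).continuous.comp continuous_snd).continuousOn) (R + 5)
  set e : R3 := ‖x₀‖⁻¹ • x₀ with he
  have henorm : ‖e‖ = 1 := norm_smul_inv_norm (norm_pos_iff.1 (hR.trans hx₀R))
  obtain ⟨a, ha, hae⟩ := PlaneExist.exists_freq hθ hn e
  have hest : ∀ τ : ℝ, ∫ x, Real.exp (2 * τ * ⟪e, x⟫) * ‖v x‖ ^ 2
      ≤ K₂ * ∫ x, Real.exp (2 * τ * ⟪e, x⟫) * ‖f x‖ ^ 2 := by
    intro τ
    set G : R3 → ℂ := fun x => cexpθ τ a x with hG
    have hd : ∀ x, HasFDerivAt G (G x • ((τ : ℂ) • ∑ i, a i •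
        (Complex.ofRealCLM.comp (crd i)))) x := by
      intro x
      have hl : HasFDerivAt (fun y : R3 => (τ : ℂ) * ∑ i, a i * (y i : ℂ))
          ((τ : ℂ) • ∑ i, a i • (Complex.ofRealCLM.comp (crd i))) x := by
        refine HasFDerivAt.const_mul (HasFDerivAt.fun_sum fun i _ => ?_) _
        have := (Complex.ofRealCLM.comp (crd i)).hasFDerivAt (x := x)
        simpa [crd_apply] using this.const_mul (a i)
      exact hl.cexp
    have hGs : ContDiff ℝ ∞ G := by
      refine Complex.contDiff_exp.comp (contDiff_const.mul (ContDiff.sum fun i _ => ?_))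
      exact contDiff_const.mul (Complex.ofRealCLM.contDiff.comp (by fun_prop))
    have hDG : ∀ x, dD θ G x = 0 := by
      intro x
      simp only [dD, pd, (hd x).fderiv]
      have : ∀ i, (G x • ((τ : ℂ) • ∑ j, a j • (Complex.ofRealCLM.comp (crd j))))
          (EuclideanSpace.single i 1) = G x * (τ * a i) := fun i => by
        simp [crd_apply, Pi.single_apply, apply_ite Complex.ofReal]
      simp only [this, smul_eq_mul]
      calc ∑ i, θ i * (G x * (τ * a i)) = G x * τ * ∑ i, θ i * a i := by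
            rw [Finset.mul_sum]; exact Finset.sum_congr rfl fun i _ => by ring
        _ = 0 := by rw [ha, mul_zero]
    have hGn : ∀ x, ‖G x‖ ^ 2 = Real.exp (2 * τ * ⟪e, x⟫) := by
      intro x
      simp only [hG, cexpθ, Complex.norm_exp, Complex.re_ofReal_mul, Complex.re_sum,
        Complex.mul_re, Complex.ofReal_re, Complex.ofReal_im, mul_zero, sub_zero, hae,
        PiLp.inner_apply, RCLike.inner_apply, conj_trivial, zero_mul]
      rw [← Real.exp_nat_mul]
      congr 1
      simp only [Finset.mul_sum]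
      exact Finset.sum_congr rfl fun i _ => by push_cast; ring
    have := hK₂ () (Set.mem_univ _) (fun y => G y • v y)
      ((hGs.smul hvs).of_le (by exact_mod_cast le_top)) fun x hx => by simp [hv5 x hx]
    refine le_of_eq_of_le ?_ (this.trans (le_of_eq ?_))
    · refine integral_congr_ae (ae_of_all _ fun x => ?_)
      simp [norm_smul, mul_pow, hGn]
    · congr 1
      refine integral_congr_ae (ae_of_all _ fun x => ?_)
      simp only
      rw [dD_smul (hd x).differentiableAt (hvs.differentiable (by simp) x), hDG, hveq,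
        Matrix.mulVec_smul, zero_smul, add_zero, smul_add, add_sub_cancel_left, norm_smul, mul_pow,
        hGn]
  -- let the frequency tend to infinity
  have hex : ⟪e, x₀⟫ = ‖x₀‖ := by
    rw [he, real_inner_smul_left, real_inner_self_eq_norm_sq, sq, ← mul_assoc,
      inv_mul_cancel₀ (hR.trans hx₀R).ne', one_mul]
  set s := (R + ‖x₀‖) / 2 with hs
  set c := ‖v x₀‖ / 2 with hc
  have hc0 : 0 < c := by rw [hc]; positivity
  obtain ⟨δ, hδ, hball⟩ := Metric.eventually_nhds_iff_ball.1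
    ((((continuous_const.inner continuous_id).tendsto x₀).eventually_const_lt
      (show s < ⟪e, id x₀⟫ by simp only [id, hex, hs]; linarith)).and
    (((hvs.continuous.norm).tendsto x₀).eventually_const_lt (show c < ‖v x₀‖ by linarith)))
  set V := volume.real (ball x₀ δ) with hV
  have hV0 : 0 < V := ENNReal.toReal_pos (measure_ball_pos volume x₀ hδ).ne'
    measure_ball_lt_top.ne
  have hvs2 : Integrable fun x => ‖f x‖ ^ 2 :=
    ((hf.continuous.norm.pow 2)).integrable_of_hasCompactSupport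
      (HasCompactSupport.intro (isCompact_closedBall (0 : R3) R) fun x hx => by
        simp [hfs x (by simpa using hx)])
  have hgrow : ∀ τ : ℝ, 0 ≤ τ →
      Real.exp (2 * τ * (s - R)) * (c ^ 2 * V) ≤ max K₂ 0 * ∫ x, ‖f x‖ ^ 2 := by
    intro τ hτ
    have iv : Integrable fun x => Real.exp (2 * τ * ⟪e, x⟫) * ‖v x‖ ^ 2 :=
      ((Real.continuous_exp.comp (continuous_const.mul (continuous_const.inner continuous_id))).mul
        (hvs.continuous.norm.pow 2)).integrable_of_hasCompactSupport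
        (HasCompactSupport.intro (isCompact_closedBall (0 : R3) (R + 5)) fun x hx => by
          simp [hv5 x (lt_of_not_ge (by simpa using hx))])
    have l1 : Real.exp (2 * τ * s) * (c ^ 2 * V)
        ≤ ∫ x, Real.exp (2 * τ * ⟪e, x⟫) * ‖v x‖ ^ 2 := by
      calc Real.exp (2 * τ * s) * (c ^ 2 * V)
            = ∫ _ in ball x₀ δ, Real.exp (2 * τ * s) * c ^ 2 := by
              rw [setIntegral_const, smul_eq_mul, hV]; ring
        _ ≤ ∫ x in ball x₀ δ, Real.exp (2 * τ * ⟪e, x⟫) * ‖v x‖ ^ 2 := by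
              refine setIntegral_mono_on (integrableOn_const measure_ball_lt_top.ne)
                iv.integrableOn measurableSet_ball fun x hx => ?_
              obtain ⟨b1, b2⟩ := hball x hx
              simp only [id] at b1
              gcongr
        _ ≤ _ := setIntegral_le_integral iv (ae_of_all _ fun x => by positivity)
    have l2 : ∫ x, Real.exp (2 * τ * ⟪e, x⟫) * ‖f x‖ ^ 2
        ≤ Real.exp (2 * τ * R) * ∫ x, ‖f x‖ ^ 2 := by
      rw [← integral_const_mul]
      refine integral_mono_of_nonneg (ae_of_all _ fun x => by positivity) (hvs2.const_mul _)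
        (ae_of_all _ fun x => ?_)
      by_cases hx : ‖x‖ ≤ R
      · refine mul_le_mul_of_nonneg_right (Real.exp_le_exp.2 ?_) (sq_nonneg _)
        refine mul_le_mul_of_nonneg_left ?_ (by linarith)
        calc ⟪e, x⟫ ≤ ‖e‖ * ‖x‖ := real_inner_le_norm _ _
          _ ≤ R := by rw [henorm, one_mul]; exact hx
      · simp [hfs x (lt_of_not_ge hx)]
    have l3 : 0 ≤ ∫ x, Real.exp (2 * τ * ⟪e, x⟫) * ‖f x‖ ^ 2 :=
      integral_nonneg fun x => by positivity
    have l4 := l1.trans ((hest τ).trans ((mul_le_mul_of_nonneg_right (le_max_left K₂ 0) l3).trans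
      (mul_le_mul_of_nonneg_left l2 (le_max_right K₂ 0))))
    have he2 : Real.exp (2 * τ * s) = Real.exp (2 * τ * R) * Real.exp (2 * τ * (s - R)) := by
      rw [← Real.exp_add]; ring_nf
    rw [he2] at l4
    refine le_of_mul_le_mul_left (le_of_eq_of_le ?_ (l4.trans (le_of_eq ?_)))
      (Real.exp_pos (2 * τ * R)) <;> ring
  have hsR : 0 < s - R := by rw [hs]; linarith
  have hlim : Tendsto (fun τ : ℝ => Real.exp (2 * τ * (s - R)) * (c ^ 2 * V)) atTop atTop :=
    (Real.tendsto_exp_atTop.comp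
      ((tendsto_id.const_mul_atTop two_pos).atTop_mul_const hsR)).atTop_mul_const (by positivity)
  obtain ⟨τ, h1, h2⟩ := ((hlim.eventually_gt_atTop (max K₂ 0 * ∫ x, ‖f x‖ ^ 2)).and
    (eventually_ge_atTop (0 : ℝ))).exists
  exact absurd (hgrow τ h2) (not_le.2 h1)


/-- (D3) from the a priori bound. -/
theorem planeExt (h : PlaneBoundOut) : PlaneExtOut := by
  intro ι _ M hM θ hθ hn R f hR hf hfs horth
  have hMn : ∀ a b, ContDiff ℝ ∞ fun x => (-M x) a b := fun a b => (hM a b).neg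
  obtain ⟨K, hK⟩ := bound_exists h hθ hn (fun x => -M x) hMn (R + 6) (R + 3)
  set D := mkDat θ (fun x => -M x) hMn (R + 6) (R + 3) K with hD
  set f₁ : R3 → CV ι := fun x => eF.symm (f x) with hf₁
  have hf1 : IsTest f₁ := ⟨(eF (ι := ι)).symm.contDiff.comp hf,
    HasCompactSupport.intro (isCompact_closedBall (0 : R3) R) fun x hx => by
      simp [hf₁, hfs x (by simpa using hx)]⟩
  obtain ⟨w, hw, hw2, hL2, heq, hen⟩ := core D hK (isTest_zero (E := CV ι)) hf1
  have hLs : ContDiff ℝ ∞ (D.L w) := (contDiff_cD hw).add (D.hA.1.clm_apply hw)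
  have hrs : ContDiff ℝ ∞ fun y => D.L w y - f₁ y := hLs.sub hf1.1
  set r : R3 → CV ι := fun y => D.L w y - f₁ y with hr
  set z : R3 → ι → ℂ := fun x i => conj (r x i) with hz
  have hzc : ∀ x, z x = fun i => conj (eF (r x) i) := fun x => rfl
  have hzs : ContDiff ℝ ∞ z := contDiff_pi.2 fun i =>
    Complex.conjCLE.contDiff.comp (contDiff_pi.1 ((eF (ι := ι)).contDiff.comp hrs) i)
  have hzeq : ∀ x ∈ ball (0 : R3) (R + 3), dD θ z x = -((M x)ᵀ *ᵥ z x) := by
    intro x hx
    rw [mem_ball_zero_iff] at hx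
    have c1 : cut (R + 6) x = 1 := cut_one (by linarith [le_abs_self (R + 6)])
    have hζ : D.ζ x = 1 := cut_one (by linarith [le_abs_self (R + 3)])
    have e := congrArg eF (heq x)
    simp only [hζ, sub_self, zero_pow two_ne_zero, zero_smul, add_zero, Pi.zero_apply,
      map_zero] at e
    rw [hD, eF_Lt (hrs.differentiable (by simp) x)] at e
    simp only [c1, one_smul, Matrix.conjTranspose_neg, Matrix.neg_mulVec] at e
    funext i
    have ei := congrArg conj (congrFun e i)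
    have hpd : ∀ j, pd j z x i = conj (pd j (fun y => eF (r y)) x i) := by
      intro j
      have hd : DifferentiableAt ℝ (fun y => eF (r y)) x :=
        ((eF (ι := ι)).contDiff.comp hrs).differentiable (by simp) x
      have h1 : HasFDerivAt z (ContinuousLinearMap.pi fun k =>
          (Complex.conjCLE : ℂ →L[ℝ] ℂ).comp ((ContinuousLinearMap.proj k).comp
            (fderiv ℝ (fun y => eF (r y)) x))) x :=
        hasFDerivAt_pi.2 fun k => (Complex.conjCLE : ℂ →L[ℝ] ℂ).hasFDerivAt.comp x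
          ((hasFDerivAt_pi'.1 hd.hasFDerivAt) k)
      simp [pd, h1.fderiv]
    simp only [dD, Finset.sum_apply, Pi.smul_apply, Pi.neg_apply, Pi.add_apply, Pi.zero_apply,
      map_add, map_neg, map_sum, map_zero, smul_eq_mul, map_mul, Complex.conj_conj, ← hpd,
      Matrix.mulVec, dotProduct, Matrix.conjTranspose_apply, Complex.star_def] at ei
    simp only [dD, Finset.sum_apply, Pi.smul_apply, Pi.neg_apply, smul_eq_mul, Matrix.mulVec,
      dotProduct, Matrix.transpose_apply, hzc x]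
    linear_combination -ei
  have hzf : ∫ x, ⟪r x, f₁ x⟫ = 0 := by
    have hi : Integrable fun x => z x ⬝ᵥ f x := by
      refine (continuous_finsetSum _ fun i _ =>
        (continuous_pi_iff.1 hzs.continuous i).mul (continuous_pi_iff.1 hf.continuous i)
        ).integrable_of_hasCompactSupport ?_
      exact HasCompactSupport.intro (isCompact_closedBall (0 : R3) R) fun x hx => by
        simp [dotProduct, hfs x (by simpa using hx)]
    have h0 := congrArg Complex.re (horth z hzs hzeq)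
    rw [← Complex.reCLM_apply, ← Complex.reCLM.integral_comp_comm hi] at h0
    simpa [inner_eq_re, hz, dotProduct, hf₁, ← eF_apply] using h0
  have iL : Integrable fun x => ‖D.L w x‖ ^ 2 := hL2.norm.integrable_sq
  have iC : Integrable fun x => ‖(1 - D.ζ x) • w x‖ ^ 2 := by
    refine (hw2.norm.integrable_sq).mono'
      ((((continuous_const.sub D.hζ.continuous).smul hw.continuous).norm).pow 2
        ).aestronglyMeasurable (ae_of_all _ fun x => ?_)
    rw [Real.norm_of_nonneg (sq_nonneg _), norm_smul, mul_pow, Real.norm_eq_abs, sq_abs]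
    refine mul_le_of_le_one_left (sq_nonneg _) ?_
    change (1 - cut (R + 3) x) ^ 2 ≤ 1
    nlinarith [cut_nonneg (R + 3) x, cut_le_one (R + 3) x]
  have iI : Integrable fun x => ⟪f₁ x, D.L w x⟫ := by
    simpa only [real_inner_comm] using integrable_inner_test hLs.continuous hf1
  have if1 : Integrable fun x => ‖f₁ x‖ ^ 2 := (hf1.memLp (p := 2)).norm.integrable_sq
  have hrr : ∀ x, ‖r x‖ ^ 2 = ‖D.L w x‖ ^ 2 - 2 * ⟪f₁ x, D.L w x⟫ + ‖f₁ x‖ ^ 2 := fun x => by
    rw [hr, norm_sub_sq_real, real_inner_comm]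
  have hrf : ∀ x, ⟪r x, f₁ x⟫ = ⟪f₁ x, D.L w x⟫ - ‖f₁ x‖ ^ 2 := fun x => by
    rw [hr, inner_sub_left, real_inner_self_eq_norm_sq, real_inner_comm]
  simp only [hrf] at hzf
  rw [integral_sub iI if1] at hzf
  simp only [Pi.zero_apply, inner_zero_left, integral_zero, zero_add] at hen
  have ir : Integrable fun x => ‖r x‖ ^ 2 := by
    simp only [hrr]; exact (iL.sub (iI.const_mul 2)).add if1
  have hsum : (∫ x, ‖r x‖ ^ 2) + ∫ x, ‖(1 - D.ζ x) • w x‖ ^ 2 = 0 := by
    simp only [hrr]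
    rw [integral_add (f := fun x => ‖D.L w x‖ ^ 2 - 2 * ⟪f₁ x, D.L w x⟫)
        (iL.sub (iI.const_mul 2)) if1,
      integral_sub iL (iI.const_mul 2), integral_const_mul]
    linarith
  have hn1 : 0 ≤ ∫ x, ‖r x‖ ^ 2 := integral_nonneg fun x => sq_nonneg _
  have hn2 : 0 ≤ ∫ x, ‖(1 - D.ζ x) • w x‖ ^ 2 := integral_nonneg fun x => sq_nonneg _
  have zero_of : ∀ {g : R3 → CV ι}, Continuous g → Integrable (fun x => ‖g x‖ ^ 2) →
      ∫ x, ‖g x‖ ^ 2 = 0 → ∀ x, g x = 0 := by
    intro g hg hi h0 x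
    have := (integral_eq_zero_iff_of_nonneg (fun x => sq_nonneg _) hi).1 h0
    have := congrFun (((hg.norm.pow 2)).ae_eq_iff_eq volume continuous_zero |>.1 this) x
    simpa using this
  have hr0 := zero_of hrs.continuous ir (by linarith)
  have hw0 := zero_of (g := fun x => (1 - D.ζ x) • w x)
    ((continuous_const.sub D.hζ.continuous).smul hw.continuous) iC (by linarith)
  set v : R3 → ι → ℂ := fun y => eF (w y) with hv
  have hvs : ContDiff ℝ ∞ v := (eF (ι := ι)).contDiff.comp hw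
  have hv5 : ∀ x, R + 5 ≤ ‖x‖ → v x = 0 := fun x hx => by
    have hζ : D.ζ x = 0 := cut_zero (by rw [abs_of_pos (by linarith : 0 < R + 3)]; linarith)
    have := hw0 x
    rw [hζ, sub_zero, one_smul] at this
    simp [hv, this]
  have hveq : ∀ x, dD θ v x = M x *ᵥ v x + f x := by
    intro x
    have e := congrArg eF (sub_eq_zero.1 (hr0 x))
    rw [hD, eF_L (hw.differentiable (by simp) x)] at e
    simp only [hf₁, ContinuousLinearEquiv.apply_symm_apply, Matrix.neg_mulVec, smul_neg] at e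
    have : cut (R + 6) x • (M x *ᵥ v x) = M x *ᵥ v x := by
      by_cases hx : ‖x‖ ≤ R + 7
      · rw [cut_one (by linarith [le_abs_self (R + 6)]), one_smul]
      · simp [hv5 x (by linarith)]
    rw [← this, ← sub_eq_zero, ← sub_eq_zero.2 e]
    simp only [hv]
    abel
  exact ⟨v, hvs, fun x₀ hx₀ => PlaneExist.support_shrink h hM hθ hn hR hf hfs hvs
    (fun x hx => hv5 x hx.le) hveq (by linarith), hveq⟩

end Vale.Agent.P136
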