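import Vale.Agent.P136.Spec

/-!
# Plane systems: solutions with a prescribed value

Coordinates `y = a A + b B + s η` with `θ = A + i B` and `η = A × B`; then `l = a + i b` and `s` are
killed by `D = θ.∇`. With the forcing operator only:
* on the system with matrix `s M(s P y)` the functions `c + s e` are fundamental solutions; fixing a
  small `s = τ` and rescaling gives a solution `Φ` on the thin cylinder for `M(P y)`;
* `ρ Φ + s e₁ + l e₂` then solves the system exactly, because `M(y) - M(P y) = s N(y)` and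
  `D ρ = l h` for a cutoff `ρ` of `l`.
-/

noncomputable section

namespace Vale.Agent.P136

open MeasureTheory Metric Filter
open scoped BigOperators Matrix ContDiff Topology

namespace PlaneValue

variable {E : Type*} [NormedAddCommGroup E] [NormedSpace ℂ E]

/-- The real part of the direction. -/
def reV (θ : C3) : R3 := WithLp.toLp 2 fun i => (θ i).re

/-- The imaginary part of the direction. -/
def imV (θ : C3) : R3 := WithLp.toLp 2 fun i => (θ i).im

/-- The normal of the plane. -/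
def nV (θ : C3) : R3 :=
  WithLp.toLp 2 ![(θ 1).re * (θ 2).im - (θ 2).re * (θ 1).im,
    (θ 2).re * (θ 0).im - (θ 0).re * (θ 2).im,
    (θ 0).re * (θ 1).im - (θ 1).re * (θ 0).im]

/-- The squared length of the real part. -/
def sq (θ : C3) : ℝ := ∑ i, (θ i).re ^ 2

/-- Pairing with a fixed vector, divided by a number. -/
def coord (v : R3) (n : ℝ) : R3 →L[ℝ] ℝ := n⁻¹ • innerSL ℝ v

lemma coord_apply (v : R3) (n : ℝ) (y : R3) : coord v n y = n⁻¹ * ∑ i, v i * y i := by
  simp [coord, PiLp.inner_apply, mul_comm]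

lemma re_im {θ : C3} (h : ∑ i, θ i ^ 2 = 0) :
    (∑ i, (θ i).im ^ 2 = sq θ) ∧ ∑ i, (θ i).re * (θ i).im = 0 := by
  have h1 := congrArg Complex.re h
  have h2 := congrArg Complex.im h
  simp [Fin.sum_univ_three, pow_two, Complex.mul_re, Complex.mul_im] at h1 h2
  simp only [sq, Fin.sum_univ_three]
  constructor <;> linarith

lemma sq_pos {θ : C3} (h0 : θ ≠ 0) (h : ∑ i, θ i ^ 2 = 0) : 0 < sq θ := by
  refine lt_of_le_of_ne (Finset.sum_nonneg fun i _ => sq_nonneg _) fun e => h0 (funext fun i => ?_)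
  have e1 := (Finset.sum_eq_zero_iff_of_nonneg fun j _ => sq_nonneg (θ j).re).1 e.symm i
    (Finset.mem_univ i)
  have e2 := (Finset.sum_eq_zero_iff_of_nonneg fun j _ => sq_nonneg (θ j).im).1
    ((re_im h).1.trans e.symm) i (Finset.mem_univ i)
  exact Complex.ext (by simpa using e1) (by simpa using e2)

/-- The coordinates of a vector. -/
structure Frame (θ : C3) (a b s : R3 →L[ℝ] ℝ) : Prop where
  aA : a (reV θ) = 1
  aB : a (imV θ) = 0
  aN : a (nV θ) = 0
  bA : b (reV θ) = 0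
  bB : b (imV θ) = 1
  bN : b (nV θ) = 0
  sA : s (reV θ) = 0
  sB : s (imV θ) = 0
  sN : s (nV θ) = 1
  decomp : ∀ y, y = a y • reV θ + b y • imV θ + s y • nV θ

lemma exists_frame {θ : C3} (h0 : θ ≠ 0) (h : ∑ i, θ i ^ 2 = 0) :
    ∃ a b s, Frame θ a b s := by
  have hn := sq_pos h0 h
  obtain ⟨hB, hAB⟩ := re_im h
  set n := sq θ with hndef
  have hA : ∑ i, (θ i).re ^ 2 = n := rfl
  simp only [Fin.sum_univ_three] at hA hB hAB
  refine ⟨coord (reV θ) n, coord (imV θ) n, coord (nV θ) (n ^ 2), ?_⟩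
  constructor
  all_goals try intro y
  all_goals try simp only [coord_apply, Fin.sum_univ_three]
  case decomp =>
    ext k
    simp only [PiLp.add_apply, PiLp.smul_apply, smul_eq_mul]
    field_simp
    fin_cases k <;> simp [reV, imV, nV]
    · linear_combination -(y 0 * (((θ 0).im ^ 2 + (θ 1).im ^ 2 + (θ 2).im ^ 2) * hA + n * hB
          - ((θ 0).re * (θ 0).im + (θ 1).re * (θ 1).im + (θ 2).re * (θ 2).im) * hAB)
        + ((θ 0).re * y 0 + (θ 1).re * y 1 + (θ 2).re * y 2) * ((θ 0).im * hAB - (θ 0).re * hB)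
        + ((θ 0).im * y 0 + (θ 1).im * y 1 + (θ 2).im * y 2) * ((θ 0).re * hAB - (θ 0).im * hA))
    · linear_combination -(y 1 * (((θ 0).im ^ 2 + (θ 1).im ^ 2 + (θ 2).im ^ 2) * hA + n * hB
          - ((θ 0).re * (θ 0).im + (θ 1).re * (θ 1).im + (θ 2).re * (θ 2).im) * hAB)
        + ((θ 0).re * y 0 + (θ 1).re * y 1 + (θ 2).re * y 2) * ((θ 1).im * hAB - (θ 1).re * hB)
        + ((θ 0).im * y 0 + (θ 1).im * y 1 + (θ 2).im * y 2) * ((θ 1).re * hAB - (θ 1).im * hA))
    · linear_combination -(y 2 * (((θ 0).im ^ 2 + (θ 1).im ^ 2 + (θ 2).im ^ 2) * hA + n * hB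
          - ((θ 0).re * (θ 0).im + (θ 1).re * (θ 1).im + (θ 2).re * (θ 2).im) * hAB)
        + ((θ 0).re * y 0 + (θ 1).re * y 1 + (θ 2).re * y 2) * ((θ 2).im * hAB - (θ 2).re * hB)
        + ((θ 0).im * y 0 + (θ 1).im * y 1 + (θ 2).im * y 2) * ((θ 2).re * hAB - (θ 2).im * hA))
  all_goals simp [reV, imV, nV, hn.ne']
  all_goals field_simp
  all_goals first
    | linear_combination hA | linear_combination hB | linear_combination hAB
    | linear_combination ((θ 0).im ^ 2 + (θ 1).im ^ 2 + (θ 2).im ^ 2) * hA + n * hB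
        - ((θ 0).re * (θ 0).im + (θ 1).re * (θ 1).im + (θ 2).re * (θ 2).im) * hAB
    | ring

lemma dD_eq (θ : C3) (f : R3 → E) (x : R3) :
    dD θ f x = fderiv ℝ f x (reV θ) + Complex.I • fderiv ℝ f x (imV θ) := by
  have e : ∀ v : R3, v = ∑ i, v i • EuclideanSpace.single i (1 : ℝ) := fun v => by
    ext k
    simp [Fin.sum_univ_three]
    fin_cases k <;> simp
  conv_rhs => rw [e (reV θ), e (imV θ)]
  simp only [map_sum, map_smul, Finset.smul_sum, ← Finset.sum_add_distrib, dD, pd]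
  refine Finset.sum_congr rfl fun i _ => ?_
  conv_lhs => rw [← Complex.re_add_im (θ i), mul_comm, add_smul, mul_smul,
    Complex.coe_smul, Complex.coe_smul]
  rfl

lemma dD_add {θ : C3} {f g : R3 → E} {x : R3} (hf : DifferentiableAt ℝ f x)
    (hg : DifferentiableAt ℝ g x) : dD θ (fun y => f y + g y) x = dD θ f x + dD θ g x := by
  simp only [dD_eq, fderiv_fun_add hf hg, _root_.add_apply, smul_add]
  abel

lemma dD_sum {ι : Type*} [Fintype ι] {θ : C3} {f : ι → R3 → E} {x : R3}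
    (hf : ∀ i, DifferentiableAt ℝ (f i) x) :
    dD θ (fun y => ∑ i, f i y) x = ∑ i, dD θ (f i) x := by
  simp only [dD_eq, fderiv_fun_sum fun i _ => hf i, _root_.sum_apply, Finset.smul_sum,
    Finset.sum_add_distrib]

lemma dD_const (θ : C3) (c : E) (x : R3) : dD θ (fun _ => c) x = 0 := by simp [dD_eq]

lemma dD_smul {θ : C3} {g : R3 → ℂ} {v : R3 → E} {x : R3} (hg : DifferentiableAt ℝ g x)
    (hv : DifferentiableAt ℝ v x) :
    dD θ (fun y => g y • v y) x = g x • dD θ v x + dD θ g x • v x := by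
  simp only [dD_eq, fderiv_fun_smul hg hv, _root_.add_apply, _root_.smul_apply,
    ContinuousLinearMap.smulRight_apply, smul_add, add_smul, smul_smul, smul_eq_mul]
  rw [mul_comm Complex.I (g x)]
  abel

/-- Pulling back by an affine map which scales the plane. -/
lemma dD_comp_affine {θ : C3} {f : R3 → E} (L : R3 →L[ℝ] R3) (p x : R3) (r : ℝ)
    (hA : L (reV θ) = r • reV θ) (hB : L (imV θ) = r • imV θ)
    (hf : DifferentiableAt ℝ f (L x + p)) :
    dD θ (fun y => f (L y + p)) x = r • dD θ f (L x + p) := by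
  have h := (hf.hasFDerivAt.comp x (L.hasFDerivAt.add_const p)).fderiv
  simp only [Function.comp_def] at h
  simp only [dD_eq, h, ContinuousLinearMap.comp_apply, hA, hB, map_smul, smul_add,
    smul_comm r Complex.I]

lemma contDiff_dD {θ : C3} {f : R3 → E} (hf : ContDiff ℝ ∞ f) : ContDiff ℝ ∞ (dD θ f) := by
  unfold dD pd
  exact ContDiff.sum fun i _ =>
    ((hf.fderiv_right (m := ∞) le_rfl).clm_apply contDiff_const).const_smul (θ i)

/-- Integrals depending on a parameter. -/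
lemma hasFDerivAt_param {F : Type*} [NormedAddCommGroup F] [NormedSpace ℝ F] {b : R3 → ℝ → F}
    (hb : ContDiff ℝ ∞ fun p : R3 × ℝ => b p.1 p.2) (x₀ : R3) :
    HasFDerivAt (fun x => ∫ t in Set.Icc (0 : ℝ) 1, b x t)
      (∫ t in Set.Icc (0 : ℝ) 1, fderiv ℝ (fun x => b x t) x₀) x₀ := by
  have hd : ∀ x t, fderiv ℝ (fun x => b x t) x
      = (fderiv ℝ (fun p : R3 × ℝ => b p.1 p.2) (x, t)).comp
        (ContinuousLinearMap.inl ℝ R3 ℝ) := fun x t =>
    (HasFDerivAt.comp x (g := fun p : R3 × ℝ => b p.1 p.2) (f := fun x => (x, t))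
      (hb.differentiable (by simp) (x, t)).hasFDerivAt (hasFDerivAt_prodMk_left x t)).fderiv
  have hcD : Continuous fun p : R3 × ℝ => fderiv ℝ (fun x => b x p.2) p.1 := by
    simp only [hd]
    exact ((hb.fderiv_right (m := ∞) le_rfl).clm_comp contDiff_const).continuous
  have hcb : ∀ x, Continuous fun t => b x t := fun x =>
    hb.continuous.comp (continuous_const.prodMk continuous_id)
  obtain ⟨Cb, hCb⟩ := ((isCompact_closedBall x₀ 1).prod
    (isCompact_Icc (a := (0 : ℝ)) (b := 1))).exists_bound_of_continuousOn hcD.continuousOn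
  refine hasFDerivAt_integral_of_dominated_of_fderiv_le
    (μ := volume.restrict (Set.Icc (0 : ℝ) 1)) (F := b)
    (F' := fun x t => fderiv ℝ (fun x => b x t) x) (bound := fun _ => Cb)
    (closedBall_mem_nhds x₀ one_pos)
    (.of_forall fun x => (hcb x).aestronglyMeasurable)
    ((hcb x₀).integrableOn_Icc)
    (hcD.comp (continuous_const.prodMk continuous_id)).aestronglyMeasurable
    (ae_restrict_of_forall_mem measurableSet_Icc fun t ht x hx => hCb (x, t) ⟨hx, ht⟩)
    (integrable_const _)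
    (.of_forall fun t x _ => ((hb.comp (contDiff_id.prodMk contDiff_const)).differentiable
      (by simp) x).hasFDerivAt)

lemma contDiff_param_nat (n : ℕ) :
    ∀ {F : Type} [NormedAddCommGroup F] [NormedSpace ℝ F] {b : R3 → ℝ → F},
      (ContDiff ℝ ∞ fun p : R3 × ℝ => b p.1 p.2) →
      ContDiff ℝ n fun x => ∫ t in Set.Icc (0 : ℝ) 1, b x t := by
  induction n with
  | zero =>
    intro F _ _ b hb
    exact contDiff_zero.2
      (continuous_iff_continuousAt.2 fun x => (hasFDerivAt_param hb x).continuousAt)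
  | succ n ih =>
    intro F _ _ b hb
    push_cast
    rw [contDiff_succ_iff_fderiv, funext fun x => (hasFDerivAt_param hb x).fderiv]
    refine ⟨fun x => (hasFDerivAt_param hb x).differentiableAt, by simp, ih ?_⟩
    have hd : ∀ p : R3 × ℝ, fderiv ℝ (fun x => b x p.2) p.1
        = (fderiv ℝ (fun p : R3 × ℝ => b p.1 p.2) p).comp (ContinuousLinearMap.inl ℝ R3 ℝ) :=
      fun p => (HasFDerivAt.comp p.1 (g := fun q : R3 × ℝ => b q.1 q.2)
        (f := fun x => (x, p.2)) (hb.differentiable (by simp) p).hasFDerivAt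
        (hasFDerivAt_prodMk_left p.1 p.2)).fderiv
    simp only [hd]
    exact (hb.fderiv_right (m := ∞) le_rfl).clm_comp contDiff_const

/-- A smooth function is its value on the plane plus `s` times a smooth function. -/
lemma exists_quotient {m : R3 → ℂ} (hm : ContDiff ℝ ∞ m) (P : R3 →L[ℝ] R3) (s : R3 →L[ℝ] ℝ)
    (η : R3) (hdec : ∀ y, y = P y + s y • η) :
    ∃ N : R3 → ℂ, ContDiff ℝ ∞ N ∧ ∀ y, m y = m (P y) + (s y : ℂ) * N y := by
  set b : R3 → ℝ → ℂ := fun y t => fderiv ℝ m (P y + (t * s y) • η) η with hb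
  have hbs : ContDiff ℝ ∞ fun p : R3 × ℝ => b p.1 p.2 :=
    ((hm.fderiv_right (m := ∞) le_rfl).comp ((P.contDiff.comp contDiff_fst).add
      ((contDiff_snd.mul (s.contDiff.comp contDiff_fst)).smul contDiff_const))).clm_apply
      contDiff_const
  refine ⟨fun y => ∫ t in Set.Icc (0 : ℝ) 1, b y t,
    contDiff_infty.2 fun n => contDiff_param_nat n hbs, fun y => ?_⟩
  have hbc : Continuous fun t => b y t :=
    hbs.continuous.comp (continuous_const.prodMk continuous_id)
  have h : ∫ t in (0 : ℝ)..1, s y • b y t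
      = m (P y + (1 * s y) • η) - m (P y + (0 * s y) • η) := by
    refine intervalIntegral.integral_eq_sub_of_hasDerivAt
      (f := fun t => m (P y + (t * s y) • η)) (fun t _ => ?_)
      ((hbc.const_smul (s y)).intervalIntegrable _ _)
    have h1 : HasDerivAt (fun t : ℝ => P y + (t * s y) • η) (s y • η) t := by
      simpa using (((hasDerivAt_id t).mul_const (s y)).smul_const η).const_add (P y)
    have h2 := ((hm.differentiable (by simp)) _).hasFDerivAt.comp_hasDerivAt t h1
    rw [map_smul] at h2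
    exact h2
  rw [intervalIntegral.integral_smul, one_mul, zero_mul, zero_smul, add_zero, ← hdec y,
    intervalIntegral.integral_of_le zero_le_one, ← integral_Icc_eq_integral_Ioc,
    Complex.real_smul] at h
  rw [h]
  ring

lemma contDiff_mulVec {ι : Type*} [Fintype ι] {M : R3 → Matrix ι ι ℂ} {v : R3 → ι → ℂ}
    (hM : ∀ a b, ContDiff ℝ ∞ fun x => M x a b) (hv : ContDiff ℝ ∞ v) :
    ContDiff ℝ ∞ fun x => M x *ᵥ v x :=
  contDiff_pi.2 fun a => ContDiff.sum fun b _ => (hM a b).mul (contDiff_pi.1 hv b)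

/-- An exact solution on a thin cylinder around the line, for the matrix frozen on the plane. -/
lemma exists_plane {ι : Type} [Fintype ι] (hE : PlaneExistOut) {θ : C3} (h0 : θ ≠ 0)
    (hθ : ∑ i, θ i ^ 2 = 0) {a b s : R3 →L[ℝ] ℝ} (hF : Frame θ a b s)
    {M : R3 → Matrix ι ι ℂ} (hM : ∀ i j, ContDiff ℝ ∞ fun x => M x i j)
    (P : R3 →L[ℝ] R3) (hP : P = a.smulRight (reV θ) + b.smulRight (imV θ)) (c : ι → ℂ) :
    ∃ (Φ : R3 → ι → ℂ) (ε : ℝ), 0 < ε ∧ ContDiff ℝ ∞ Φ ∧ Φ 0 = c ∧
      ∀ y, ‖P y‖ < ε → dD θ Φ y = M (P y) *ᵥ Φ y := by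
  classical
  have hPA : P (reV θ) = reV θ := by simp [hP, hF.aA, hF.bA]
  have hPB : P (imV θ) = imV θ := by simp [hP, hF.aB, hF.bB]
  have hPN : P (nV θ) = 0 := by simp [hP, hF.aN, hF.bN]
  have hsP : ∀ y, s (P y) = 0 := fun y => by simp [hP, hF.sA, hF.sB]
  have hPP : ∀ y, P (P y) = P y := fun y => by
    conv_lhs => rw [show P y = a y • reV θ + b y • imV θ by simp [hP]]
    simp [map_add, map_smul, hPA, hPB]
    simp [hP]
  set S : R3 → ℂ := fun y => (s y : ℂ) with hS
  have hSs : ContDiff ℝ ∞ S := Complex.ofRealCLM.contDiff.comp s.contDiff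
  have hSd : ∀ y, dD θ S y = 0 := fun y => by
    have : fderiv ℝ S y = Complex.ofRealCLM.comp s :=
      (Complex.ofRealCLM.comp s).fderiv
    simp [dD_eq, this, hF.sA, hF.sB]
  set M₁ : R3 → Matrix ι ι ℂ := fun y => S y • M (s y • P y) with hM₁
  have hMc : ∀ i j, ContDiff ℝ ∞ fun y => M (s y • P y) i j := fun i j =>
    (hM i j).comp (s.contDiff.smul P.contDiff)
  have hM₁s : ∀ i j, ContDiff ℝ ∞ fun y => M₁ y i j := fun i j => hSs.mul (hMc i j)
  choose e he he' using fun j : ι => hE ι M₁ hM₁s θ h0 hθ 1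
    (fun y => M (s y • P y) *ᵥ Pi.single j 1) (contDiff_mulVec hMc contDiff_const)
  set V : ℝ → Matrix ι ι ℂ := fun t => 1 + Matrix.of fun i j => (t : ℂ) * e j (t • nV θ) i with hV
  have hVc : Continuous V := continuous_const.add (continuous_pi fun i => continuous_pi fun j =>
    Complex.continuous_ofReal.mul ((continuous_apply i).comp
      ((he j).continuous.comp (continuous_id.smul continuous_const))))
  have hev : ∀ᶠ t : ℝ in 𝓝 0, (V t).det ≠ 0 ∧ |t| * ‖nV θ‖ < 1 / 2 := by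
    refine ((hVc.matrix_det.continuousAt.eventually_ne ?_)).and
      ((continuous_abs.mul continuous_const).continuousAt.eventually_lt continuousAt_const ?_)
    · have : V 0 = 1 := by ext i j; simp [hV]
      simp [this]
    · simp
  obtain ⟨τ, ⟨hdet, hτN⟩, hτ0⟩ :=
    ((hev.filter_mono nhdsWithin_le_nhds).and (self_mem_nhdsWithin (s := Set.Ioi (0 : ℝ)))).exists
  have hτ : 0 < τ := hτ0
  set c' := (V τ)⁻¹ *ᵥ c with hc'
  have hVc' : V τ *ᵥ c' = c := by
    rw [hc', Matrix.mulVec_mulVec, Matrix.mul_nonsing_inv _ (Ne.isUnit hdet), Matrix.one_mulVec]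
  set G : R3 → ι → ℂ := fun y => ∑ j, c' j • e j y with hG
  have hGs : ContDiff ℝ ∞ G := ContDiff.sum fun j _ => (he j).const_smul (c' j)
  have hGd : ∀ y ∈ ball (0 : R3) 1,
      dD θ G y = M₁ y *ᵥ G y + M (s y • P y) *ᵥ c' := by
    intro y hy
    have h1 : ∀ j, dD θ (fun w => c' j • e j w) y
        = c' j • (M₁ y *ᵥ e j y + M (s y • P y) *ᵥ Pi.single j 1) := fun j => by
      rw [dD_smul (differentiableAt_const _) ((he j).differentiable (by simp) y),
        dD_const, zero_smul, add_zero, he' j y hy]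
    rw [hG, dD_sum (f := fun j w => c' j • e j w) fun j => ((he j).differentiable (by simp) y).const_smul (c' j),
      Finset.sum_congr rfl fun j _ => h1 j]
    simp only [smul_add, Finset.sum_add_distrib, ← Matrix.mulVec_smul, ← Matrix.mulVec_sum]
    congr 2
    funext i
    simp [Finset.sum_apply, Pi.single_apply]
  set W : R3 → ι → ℂ := fun y => c' + S y • G y with hW
  have hWs : ContDiff ℝ ∞ W := contDiff_const.add (hSs.smul hGs)
  have hWd : ∀ y ∈ ball (0 : R3) 1, dD θ W y = M₁ y *ᵥ W y := fun y hy => by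
    have hd : DifferentiableAt ℝ (fun w => S w • G w) y :=
      (hSs.smul hGs).differentiable (by simp) y
    rw [hW, dD_add (differentiableAt_const _) hd,
      dD_const, dD_smul (hSs.differentiable (by simp) y) (hGs.differentiable (by simp) y), hSd,
      zero_smul, add_zero, zero_add, hGd y hy]
    simp only [hM₁, Matrix.mulVec_add, Matrix.mulVec_smul, Matrix.smul_mulVec, smul_add]
    abel
  refine ⟨fun y => W ((τ⁻¹ • P) y + τ • nV θ), τ / 2, by positivity,
    hWs.comp ((τ⁻¹ • P).contDiff.add contDiff_const), ?_, fun y hy => ?_⟩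
  · simp only [map_zero, zero_add, hW, hS, map_smul, hF.sN, smul_eq_mul, mul_one]
    rw [← hVc']
    funext i
    simp [hV, hG, Finset.sum_apply, Finset.mul_sum, Matrix.mulVec, dotProduct, Matrix.one_apply,
      add_mul, Finset.sum_add_distrib]
    exact Finset.sum_congr rfl fun j _ => by ring
  set w := (τ⁻¹ • P) y + τ • nV θ with hw
  have hsw : s w = τ := by simp [hw, hsP, hF.sN]
  have hPw : s w • P w = P y := by
    rw [hsw]
    simp [hw, hPP, hPN, smul_smul, hτ.ne']
  have hwb : w ∈ ball (0 : R3) 1 := by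
    rw [mem_ball_zero_iff]
    refine (norm_add_le _ _).trans_lt ?_
    rw [_root_.smul_apply, norm_smul, norm_smul, Real.norm_eq_abs, Real.norm_eq_abs]
    have : |τ⁻¹| * ‖P y‖ < 1 / 2 := by
      rw [abs_inv, abs_of_pos hτ, inv_mul_lt_iff₀ hτ]
      linarith
    linarith
  rw [dD_comp_affine (τ⁻¹ • P) (τ • nV θ) y τ⁻¹ (by simp [hPA]) (by simp [hPB])
    (hWs.differentiable (by simp) _), hWd w hwb]
  simp only [hM₁, hPw, hS, Matrix.smul_mulVec]
  rw [hsw]
  rw [Complex.coe_smul, smul_smul, inv_mul_cancel₀ hτ.ne', one_smul]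

/-- Solutions with prescribed value at the origin. -/
lemma exists_value {ι : Type} [Fintype ι] (hE : PlaneExistOut) {θ : C3} (h0 : θ ≠ 0)
    (hθ : ∑ i, θ i ^ 2 = 0) {M : R3 → Matrix ι ι ℂ} (hM : ∀ i j, ContDiff ℝ ∞ fun x => M x i j)
    (R : ℝ) (c : ι → ℂ) :
    ∃ v : R3 → ι → ℂ, ContDiff ℝ ∞ v ∧ v 0 = c ∧
      ∀ y ∈ ball 0 R, dD θ v y = M y *ᵥ v y := by
  classical
  obtain ⟨a, b, s, hF⟩ := exists_frame h0 hθ
  set P : R3 →L[ℝ] R3 := a.smulRight (reV θ) + b.smulRight (imV θ) with hP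
  obtain ⟨Φ, ε, hε, hΦ, hΦ0, hΦd⟩ := exists_plane hE h0 hθ hF hM P hP c
  have hdec : ∀ y, y = P y + s y • nV θ := fun y => by
    conv_lhs => rw [hF.decomp y]
    simp [hP]
  choose N hN hN' using fun i j => exists_quotient (hM i j) P s (nV θ) hdec
  set Nm : R3 → Matrix ι ι ℂ := fun y => Matrix.of fun i j => N i j y with hNm
  have hMd : ∀ y, M y = M (P y) + (s y : ℂ) • Nm y := fun y => by
    ext i j
    simpa [hNm] using hN' i j y
  -- the two killed functions
  set S : R3 → ℂ := fun y => (s y : ℂ) with hS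
  have hSs : ContDiff ℝ ∞ S := Complex.ofRealCLM.contDiff.comp s.contDiff
  have hSd : ∀ y, dD θ S y = 0 := fun y => by
    have : fderiv ℝ S y = Complex.ofRealCLM.comp s :=
      (Complex.ofRealCLM.comp s).fderiv
    simp [dD_eq, this, hF.sA, hF.sB]
  set lc : R3 →L[ℝ] ℂ := a.smulRight (1 : ℂ) + b.smulRight Complex.I with hlc
  have hlcd : ∀ y, dD θ lc y = 0 := fun y => by
    rw [dD_eq, lc.fderiv]
    simp [hlc, hF.aA, hF.aB, hF.bA, hF.bB]
  -- the cutoff
  set K := ‖reV θ‖ + ‖imV θ‖ + 1 with hK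
  have hK0 : 0 < K := by positivity
  set δ := ε / (4 * K) with hδ
  have hδ0 : 0 < δ := by positivity
  have hsmall : ∀ y, ‖lc y‖ ≤ 2 * δ → ‖P y‖ < ε := by
    intro y hy
    have ha : |a y| ≤ 2 * δ := le_trans
      (by simpa [hlc] using Complex.abs_re_le_norm (lc y)) hy
    have hb : |b y| ≤ 2 * δ := le_trans
      (by simpa [hlc] using Complex.abs_im_le_norm (lc y)) hy
    have e : δ * (4 * K) = ε := div_mul_cancel₀ ε (by positivity)
    calc ‖P y‖ ≤ |a y| * ‖reV θ‖ + |b y| * ‖imV θ‖ := by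
          refine (norm_add_le _ _).trans (le_of_eq ?_)
          simp [norm_smul]
      _ ≤ 2 * δ * ‖reV θ‖ + 2 * δ * ‖imV θ‖ := by gcongr
      _ < ε := by nlinarith [norm_nonneg (reV θ), norm_nonneg (imV θ)]
  set β : ContDiffBump (0 : ℂ) := ⟨δ, 2 * δ, hδ0, by linarith⟩ with hβ
  set ρ : R3 → ℂ := fun y => ((β (lc y) : ℝ) : ℂ) with hρ
  have hρs : ContDiff ℝ ∞ ρ := Complex.ofRealCLM.contDiff.comp (β.contDiff.comp lc.contDiff)
  have hρd : ∀ y, lc y = 0 → ∀ᶠ w in 𝓝 y, dD θ ρ w = 0 := by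
    intro y hy
    have : ∀ᶠ w in 𝓝 y, lc w ∈ ball (0 : ℂ) δ :=
      lc.continuous.continuousAt.eventually_mem (isOpen_ball.mem_nhds (by simpa [hy] using hδ0))
    filter_upwards [this.eventually_nhds] with w hw
    have e : ρ =ᶠ[𝓝 w] fun _ => (1 : ℂ) := hw.mono fun z hz => by
      simp [hρ, β.one_of_mem_closedBall (ball_subset_closedBall hz)]
    rw [dD_eq, e.fderiv_eq]
    simp
  set g : R3 → ℂ := fun y => dD θ ρ y / lc y with hg
  have hgs : ContDiff ℝ ∞ g := contDiff_iff_contDiffAt.2 fun y => by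
    by_cases hy : lc y = 0
    · exact (contDiffAt_const (c := (0 : ℂ))).congr_of_eventuallyEq
        ((hρd y hy).mono fun w hw => by simp [hg, hw])
    · simp only [hg, div_eq_mul_inv]
      exact (contDiff_dD hρs).contDiffAt.mul (lc.contDiff.contDiffAt.inv hy)
  have hgl : ∀ y, lc y * g y = dD θ ρ y := fun y => by
    by_cases hy : lc y = 0
    · rw [hy, zero_mul, (hρd y hy).self_of_nhds]
    · simp only [hg]; field_simp
  -- the two corrections
  obtain ⟨e₁, he₁, he₁'⟩ := hE ι M hM θ h0 hθ R (fun y => Nm y *ᵥ (ρ y • Φ y))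
    (contDiff_mulVec hN (hρs.smul hΦ))
  obtain ⟨e₂, he₂, he₂'⟩ := hE ι M hM θ h0 hθ R (fun y => -(g y • Φ y)) (hgs.smul hΦ).neg
  have hls : ContDiff ℝ ∞ (lc : R3 → ℂ) := lc.contDiff
  refine ⟨fun y => ρ y • Φ y + S y • e₁ y + lc y • e₂ y,
    ((hρs.smul hΦ).add (hSs.smul he₁)).add (hls.smul he₂), ?_, fun y hy => ?_⟩
  · have : β (0 : ℂ) = 1 := β.one_of_mem_closedBall (mem_closedBall_self hδ0.le)
    simp [hρ, hS, this, hΦ0]
  have d : ∀ {F : R3 → ι → ℂ}, ContDiff ℝ ∞ F → DifferentiableAt ℝ F y :=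
    fun h => h.differentiable (by simp) y
  have dc : ∀ {F : R3 → ℂ}, ContDiff ℝ ∞ F → DifferentiableAt ℝ F y :=
    fun h => h.differentiable (by simp) y
  have d1 : DifferentiableAt ℝ (fun w => ρ w • Φ w) y := d (hρs.smul hΦ)
  have d2 : DifferentiableAt ℝ (fun w => S w • e₁ w) y := d (hSs.smul he₁)
  have d3 : DifferentiableAt ℝ (fun w => lc w • e₂ w) y := d (hls.smul he₂)
  have d12 : DifferentiableAt ℝ (fun w => ρ w • Φ w + S w • e₁ w) y := d1.add d2
  rw [dD_add d12 d3, dD_add d1 d2, dD_smul (dc hρs) (d hΦ),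
    dD_smul (dc hSs) (d he₁), dD_smul (dc hls) (d he₂), hSd, hlcd, he₁' y hy, he₂' y hy,
    ← hgl y]
  have hρΦ : ρ y • dD θ Φ y = ρ y • (M (P y) *ᵥ Φ y) := by
    by_cases h : ‖lc y‖ ≤ 2 * δ
    · rw [hΦd y (hsmall y h)]
    · have : β (lc y) = 0 := β.zero_of_le_dist (by
        rw [dist_zero_right]; exact (not_le.1 h).le)
      simp [hρ, this]
  have hMΦ : M y *ᵥ Φ y = M (P y) *ᵥ Φ y + S y • (Nm y *ᵥ Φ y) := by
    conv_lhs => rw [hMd y]
    rw [Matrix.add_mulVec, Matrix.smul_mulVec]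
  rw [hρΦ]
  simp only [Matrix.mulVec_add, Matrix.mulVec_smul, hMΦ, smul_add, zero_smul, add_zero, smul_neg,
    smul_smul, mul_comm (S y) (ρ y)]
  abel

end PlaneValue

open PlaneValue in
/-- (D2) solutions with a prescribed value. -/
theorem planeValue (hE : PlaneExistOut) : PlaneValueOut := by
  intro ι _ M hM θ h0 hθ R x₀ c
  obtain ⟨v, hv, hv0, hv'⟩ := exists_value hE h0 hθ (M := fun y => M (y + x₀))
    (fun i j => (hM i j).comp (contDiff_id.add contDiff_const)) (R + ‖x₀‖) c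
  refine ⟨fun x => v (x - x₀), hv.comp (contDiff_id.sub contDiff_const), by simp [hv0],
    fun x hx => ?_⟩
  have hx' : x - x₀ ∈ ball (0 : R3) (R + ‖x₀‖) := by
    rw [mem_ball_zero_iff] at hx ⊢
    exact (norm_sub_le _ _).trans_lt (by linarith)
  have h := hv' _ hx'
  simp only [sub_add_cancel] at h
  rw [← h]
  simp [dD_eq, fderiv_comp_sub]

end Vale.Agent.P136
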