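import Vale.Agent.P136.Mod.RigidCalc

/-!
# (F2): a polynomial gauge forces equal coefficients

Comparing the entries of `D X = M₂ X - X M₁` gives `P = 1`, the ratio `κ₂/κ₁ = √(μ₂/μ₁)`, the
matrix `K` from `e = ∇ log (μ₂/μ₁)`, and a closed overdetermined linear system for `e`.
-/

noncomputable section

namespace Vale.Agent.P136.Rig

open Set Metric
open scoped ContDiff Matrix BigOperators

lemma dD_const (θ : C3) (c : ℂ) (x : R3) : dD θ (fun _ => c) x = 0 := by
  simp [dD, pd_const]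

lemma dD_ofReal {f : R3 → ℝ} {x : R3} (hf : DifferentiableAt ℝ f x) (θ : C3) :
    dD θ (fun y => (f y : ℂ)) x = ∑ j, θ j * ((pd j f x : ℝ) : ℂ) := by
  simp [dD, pd_ofReal hf]

lemma eq_zero_of_null {w : C3}
    (h : ∀ σ : Fin 2 → ℂ, σ ≠ 0 → ∑ j, null σ j * w j = 0) (j : Fin 3) : w j = 0 := by
  have h1 := h ![1, 0] (by simp [funext_iff, Fin.forall_fin_two])
  have h2 := h ![0, 1] (by simp [funext_iff, Fin.forall_fin_two])
  have h3 := h ![1, 1] (by simp [funext_iff, Fin.forall_fin_two])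
  simp [null, Fin.sum_univ_three] at h1 h2 h3
  have e1 : w 1 = 0 := by
    linear_combination (-Complex.I / 2) * h1 + (-Complex.I / 2) * h2 + w 1 * Complex.I_sq
  have e0 : w 0 = 0 := by linear_combination h1 - Complex.I * e1
  have e2 : w 2 = 0 := by linear_combination (-1 / 2 : ℂ) * h3 + Complex.I * e1
  fin_cases j <;> assumption

/-- Only scalar matrices send every null vector to itself. -/
lemma scalar_of_pauli {T : Fin 3 → Fin 3 → ℝ}
    (h : ∀ σ : Fin 2 → ℂ, σ ≠ 0 → ∀ k,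
      pauli (fun i => ∑ j, (T i j : ℂ) * null σ j) σ k = 0) :
    (∀ i j, i ≠ j → T i j = 0) ∧ ∀ i, T i i = T 0 0 := by
  have a0 := h ![1, 0] (by simp [funext_iff, Fin.forall_fin_two]) 0
  have a1 := h ![1, 0] (by simp [funext_iff, Fin.forall_fin_two]) 1
  have b0 := h ![0, 1] (by simp [funext_iff, Fin.forall_fin_two]) 0
  have c0 := h ![1, 1] (by simp [funext_iff, Fin.forall_fin_two]) 0
  have c1 := h ![1, 1] (by simp [funext_iff, Fin.forall_fin_two]) 1
  simp [pauli, null, Fin.sum_univ_three, Complex.ext_iff] at a0 a1 b0 c0 c1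
  refine ⟨fun i j hij => ?_, fun i => ?_⟩
  · fin_cases i <;> fin_cases j <;> first | exact absurd rfl hij |
      (simp; linarith [a0.1, a0.2, b0.2, c0.1, c0.2, c1.1, c1.2, a1])
  · fin_cases i <;> simp <;> linarith

/-- Derivative of the Pauli matrix of a real field. -/
lemma dD_pauli {q : Fin 3 → R3 → ℝ} (hq : ∀ i, ContDiff ℝ ∞ (q i)) (θ : C3) (σ : Fin 2 → ℂ)
    (k : Fin 2) (x : R3) :
    dD θ (fun y => pauli (fun i => (q i y : ℂ)) σ k) x
      = pauli (fun i => ∑ j, θ j * ((pd j (q i) x : ℝ) : ℂ)) σ k := by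
  have key : ∀ (c₀ c₁ c₂ : ℂ) (j : Fin 3),
      pd j (fun y => c₀ * (q 0 y : ℂ) + c₁ * (q 1 y : ℂ) + c₂ * (q 2 y : ℂ)) x
        = c₀ * ((pd j (q 0) x : ℝ) : ℂ) + c₁ * ((pd j (q 1) x : ℝ) : ℂ)
          + c₂ * ((pd j (q 2) x : ℝ) : ℂ) := by
    intro c₀ c₁ c₂ j
    have hc : ∀ i, HasFDerivAt (fun y => (q i y : ℂ))
        (Complex.ofRealCLM.comp (fderiv ℝ (q i) x)) x := fun i =>
      Complex.ofRealCLM.hasFDerivAt.comp x (diffAt (hq i) x).hasFDerivAt
    have hs := (((hc 0).const_mul c₀).add ((hc 1).const_mul c₁)).add ((hc 2).const_mul c₂)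
    have hs' : HasFDerivAt
        (fun y => c₀ * (q 0 y : ℂ) + c₁ * (q 1 y : ℂ) + c₂ * (q 2 y : ℂ)) _ x := hs
    simp [pd, hs'.fderiv]
  fin_cases k
  · have e : (fun y => pauli (fun i => (q i y : ℂ)) σ 0) = fun y =>
        σ 1 * (q 0 y : ℂ) + (-(Complex.I * σ 1)) * (q 1 y : ℂ) + σ 0 * (q 2 y : ℂ) := by
      funext y; simp [pauli]; ring
    simp only [Fin.zero_eta, dD, e, key]
    simp [pauli, Fin.sum_univ_three]
    ring
  · have e : (fun y => pauli (fun i => (q i y : ℂ)) σ 1) = fun y =>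
        σ 0 * (q 0 y : ℂ) + (Complex.I * σ 0) * (q 1 y : ℂ) + (-σ 1) * (q 2 y : ℂ) := by
      funext y; simp [pauli]; ring
    simp only [Fin.mk_one, dD, e, key]
    simp [pauli, Fin.sum_univ_three]
    ring

/-! ## Coefficients -/

section Coef

variable (C : Coef)

lemma lam_add_mu_pos (x : R3) : 0 < C.lam x + C.mu x := by
  linarith [C.mu_pos x, C.bulk_pos x]

lemma lam_two_mu_pos (x : R3) : 0 < C.lam x + 2 * C.mu x := by
  linarith [C.mu_pos x, lam_add_mu_pos C x]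

lemma kap_pos (x : R3) : 0 < C.kap x :=
  div_pos (mul_pos (Real.sqrt_pos.2 (C.mu_pos x)) (lam_add_mu_pos C x)) (lam_two_mu_pos C x)

lemma kap_lt (x : R3) : C.kap x < Real.sqrt (C.mu x) := by
  rw [Coef.kap, div_lt_iff₀ (lam_two_mu_pos C x)]
  exact mul_lt_mul_of_pos_left (by linarith [C.mu_pos x]) (Real.sqrt_pos.2 (C.mu_pos x))

lemma sqrt_mu_smooth : ContDiff ℝ ∞ fun x => Real.sqrt (C.mu x) :=
  C.smooth_mu.sqrt fun x => (C.mu_pos x).ne'

lemma kap_smooth : ContDiff ℝ ∞ C.kap :=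
  ((sqrt_mu_smooth C).mul (C.smooth_lam.add C.smooth_mu)).div
    (C.smooth_lam.add (contDiff_const.mul C.smooth_mu)) fun x => (lam_two_mu_pos C x).ne'

lemma glm_smooth (i : Fin 3) : ContDiff ℝ ∞ (C.glm i) :=
  (contDiff_pd C.smooth_mu i).div C.smooth_mu fun x => (C.mu_pos x).ne'

lemma pd_glm_comm (i j : Fin 3) (x : R3) : pd i (C.glm j) x = pd j (C.glm i) x := by
  have h : ∀ a b : Fin 3, pd a (C.glm b) x
      = pd a (pd b C.mu) x / C.mu x - pd b C.mu x * pd a C.mu x / C.mu x ^ 2 := fun a b =>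
    pd_div (diffAt (contDiff_pd C.smooth_mu b) x) (diffAt C.smooth_mu x) (C.mu_pos x).ne' a
  rw [h, h, pd_comm C.smooth_mu i j x]
  ring

lemma hnu_eq (i j : Fin 3) (x : R3) :
    C.hnu i j x = (C.glm i x * C.glm j x - pd j (C.glm i) x) / C.mu x := by
  have h0 := fun y => (C.mu_pos y).ne'
  have e : pd j C.nu = fun y => -(C.glm j y / C.mu y) := funext fun y => by
    have := pd_inv (diffAt C.smooth_mu y) (h0 y) j
    simp only [Coef.glm]
    rw [show C.nu = fun z => (C.mu z)⁻¹ from rfl, this]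
    field_simp
  have hm : pd i C.mu x = C.glm i x * C.mu x := by
    rw [Coef.glm, div_mul_cancel₀ _ (h0 x)]
  have hneg : pd i (fun y => -(C.glm j y / C.mu y)) x
      = -(pd i (fun y => C.glm j y / C.mu y) x) := by
    simp [pd, fderiv_fun_neg]
  rw [Coef.hnu, e, hneg, pd_div (diffAt (glm_smooth C j) x) (diffAt C.smooth_mu x) (h0 x),
    pd_glm_comm C i j x, hm]
  field_simp
  ring

lemma stM_row0 (σ : Fin 2 → ℂ) (x : R3) :
    stM C σ x 0 0 = 0 ∧ stM C σ x 0 1 = (C.kap x : ℂ) * σ 1 / 2 ∧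
      stM C σ x 0 2 = -((C.kap x : ℂ) * σ 0) / 2 := by
  refine ⟨?_, ?_, ?_⟩ <;> simp [stM, stApply]

lemma stM_row (σ : Fin 2 → ℂ) (x : R3) (k : Fin 2) :
    stM C σ x k.succ 0 = (Real.sqrt (C.mu x) : ℂ)
        * pauli (fun i => ∑ j, (C.hnu i j x : ℂ) * null σ j) σ k ∧
      stM C σ x k.succ 1 = pauli (fun i => (C.glm i x : ℂ)) σ k * (-σ 1) / 2 ∧
      stM C σ x k.succ 2 = pauli (fun i => (C.glm i x : ℂ)) σ k * σ 0 / 2 := by
  refine ⟨?_, ?_, ?_⟩ <;> fin_cases k <;> simp [stM, stApply, pauli] <;> ring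

end Coef

/-! ## The gauge equation -/

/-- The gauge, written out. -/
def gaugeMat (a : R3 → ℂ) (K P : R3 → Matrix (Fin 2) (Fin 2) ℂ) (σ : Fin 2 → ℂ) (x : R3) :
    Matrix (Fin 3) (Fin 3) ℂ :=
  !![a x, 0, 0; (K x *ᵥ σ) 0, P x 0 0, P x 0 1; (K x *ᵥ σ) 1, P x 1 0, P x 1 1]

lemma gaugeMat_eq (a : R3 → ℂ) (K P : R3 → Matrix (Fin 2) (Fin 2) ℂ) (σ : Fin 2 → ℂ) (x : R3) :
    (Matrix.of fun i j =>
      Fin.cases (Fin.cases (a x) (fun _ => 0) j)
        (fun i' => Fin.cases ((K x *ᵥ σ) i') (fun j' => P x i' j') j) i)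
      = gaugeMat a K P σ x := by
  refine Matrix.ext fun i j => ?_
  fin_cases i <;> fin_cases j <;> rfl

variable {C₁ C₂ : Coef} {R : ℝ} {a : R3 → ℂ} {K P : R3 → Matrix (Fin 2) (Fin 2) ℂ}

lemma gauge_out (h : PolyGauge C₁ C₂ R a K P) {x : R3} (hx : R + 7 < ‖x‖) :
    a x = 1 ∧ P x 0 0 = 1 := by
  have h' := h.out ![1, 0] (by simp [funext_iff, Fin.forall_fin_two]) x hx
  simp only [gaugeMat_eq] at h'
  refine ⟨?_, ?_⟩
  · simpa [gaugeMat] using congrFun (congrFun h' 0) 0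
  · simpa [gaugeMat] using congrFun (congrFun h' 1) 1

lemma gauge_diff (h : PolyGauge C₁ C₂ R a K P) : Differentiable ℝ fun y => P y 0 0 :=
  (h.smooth ![1, 0] (by simp [funext_iff, Fin.forall_fin_two]) 1 1).differentiable (by decide)

lemma gauge_eqn (h : PolyGauge C₁ C₂ R a K P) {σ : Fin 2 → ℂ} (hσ : σ ≠ 0) (x : R3)
    (i j : Fin 3) :
    dD (null σ) (fun y => gaugeMat a K P σ y i j) x
      = ∑ k, stM C₂ σ x i k * gaugeMat a K P σ x k j
        - ∑ k, gaugeMat a K P σ x i k * stM C₁ σ x k j := by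
  have h' := h.eqn σ hσ x i j
  simp only [gaugeMat_eq, Matrix.sub_apply, Matrix.mul_apply] at h'
  exact h'

lemma gauge_scalar (h : PolyGauge C₁ C₂ R a K P) (x : R3) :
    P x 0 1 = 0 ∧ P x 1 0 = 0 ∧ P x 1 1 = P x 0 0 ∧
      (C₂.kap x : ℂ) * P x 0 0 = (C₁.kap x : ℂ) * a x := by
  have hk : (C₂.kap x : ℂ) ≠ 0 := by exact_mod_cast (kap_pos C₂ x).ne'
  have e1 : (![1, 0] : Fin 2 → ℂ) ≠ 0 := by simp [funext_iff, Fin.forall_fin_two]
  have e2 : (![0, 1] : Fin 2 → ℂ) ≠ 0 := by simp [funext_iff, Fin.forall_fin_two]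
  have r11 := gauge_eqn h e1 x 0 1
  have r12 := gauge_eqn h e1 x 0 2
  have r21 := gauge_eqn h e2 x 0 1
  have r22 := gauge_eqn h e2 x 0 2
  simp [gaugeMat, Fin.sum_univ_three, dD_const, stM_row0] at r11 r12 r21 r22
  have p10 : P x 1 0 = 0 := r11.resolve_left (kap_pos C₂ x).ne'
  have p01 : P x 0 1 = 0 := r22.resolve_left (kap_pos C₂ x).ne'
  have p11 : (C₂.kap x : ℂ) * P x 1 1 = (C₁.kap x : ℂ) * a x := by
    linear_combination (2 : ℂ) * r12
  have p00 : (C₂.kap x : ℂ) * P x 0 0 = (C₁.kap x : ℂ) * a x := by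
    linear_combination (-2 : ℂ) * r21
  exact ⟨p01, p10,
    mul_left_cancel₀ hk (p11.trans p00.symm), p00⟩

lemma gauge_phiphi (h : PolyGauge C₁ C₂ R a K P) {σ : Fin 2 → ℂ} (hσ : σ ≠ 0) (x : R3) :
    dD (null σ) (fun y => P y 0 0) x = 0 ∧ ∀ k,
      (C₁.kap x : ℂ) * (K x *ᵥ σ) k
        + P x 0 0 * pauli (fun i => ((C₂.glm i x - C₁.glm i x : ℝ) : ℂ)) σ k = 0 := by
  have hs := gauge_scalar h
  have r11 := gauge_eqn h hσ x 1 1
  have r12 := gauge_eqn h hσ x 1 2
  have r21 := gauge_eqn h hσ x 2 1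
  have r22 := gauge_eqn h hσ x 2 2
  have one : (1 : Fin 3) = (0 : Fin 2).succ := rfl
  have two : (2 : Fin 3) = (1 : Fin 2).succ := rfl
  have z01 : (fun y => P y 0 1) = fun _ => 0 := funext fun y => (hs y).1
  have z10 : (fun y => P y 1 0) = fun _ => 0 := funext fun y => (hs y).2.1
  have z11 : (fun y => P y 1 1) = fun y => P y 0 0 := funext fun y => (hs y).2.2.1
  obtain ⟨q01, q10, q11, -⟩ := hs x
  obtain ⟨-, a1, a2⟩ := stM_row0 C₁ σ x
  obtain ⟨-, b1, b2⟩ := stM_row0 C₂ σ x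
  obtain ⟨-, c1, c2⟩ := stM_row C₁ σ x 0
  obtain ⟨-, d1, d2⟩ := stM_row C₁ σ x 1
  obtain ⟨-, f1, f2⟩ := stM_row C₂ σ x 0
  obtain ⟨-, g1, g2⟩ := stM_row C₂ σ x 1
  rw [← one] at c1 c2 f1 f2
  rw [← two] at d1 d2 g1 g2
  simp [gaugeMat, Fin.sum_univ_three, dD_const, a1, a2, c1, c2, d1, d2, f1, f2, g1, g2, q01, q10,
    q11, z01, z10, z11] at r11 r12 r21 r22
  simp [pauli] at r11 r12 r21 r22
  have hD0 : σ 0 * dD (null σ) (fun y => P y 0 0) x = 0 := by
    linear_combination σ 0 * r11 + σ 1 * r12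
  have hD1 : σ 1 * dD (null σ) (fun y => P y 0 0) x = 0 := by
    linear_combination σ 1 * r22 + σ 0 * r21
  have hne : σ 0 ≠ 0 ∨ σ 1 ≠ 0 := by
    by_contra hc
    simp only [ne_eq, not_or, not_not] at hc
    exact hσ (funext fun i => by fin_cases i <;> simp [hc.1, hc.2])
  have hD : dD (null σ) (fun y => P y 0 0) x = 0 := hne.elim
    (fun h0 => (mul_eq_zero.1 hD0).resolve_left h0)
    fun h1 => (mul_eq_zero.1 hD1).resolve_left h1
  refine ⟨hD, fun k => ?_⟩
  rw [hD] at r11 r22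
  fin_cases k <;> simp [pauli] <;> rcases hne with h0 | h1
  · refine mul_left_cancel₀ h0 ?_
    linear_combination (-2 : ℂ) * r12
  · refine mul_left_cancel₀ h1 ?_
    linear_combination (2 : ℂ) * r11
  · refine mul_left_cancel₀ h0 ?_
    linear_combination (-2 : ℂ) * r22
  · refine mul_left_cancel₀ h1 ?_
    linear_combination (2 : ℂ) * r21

end Vale.Agent.P136.Rig

namespace Vale.Agent.P136

open Rig
open scoped ContDiff Matrix BigOperators

theorem rigid : RigidOut := by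
  intro C₁ C₂ R _ hEq a K P h
  set e : Fin 3 → R3 → ℝ := fun i x => C₂.glm i x - C₁.glm i x with he
  set b : R3 → ℝ := fun x => C₂.kap x / C₁.kap x with hb
  set q : Fin 3 → R3 → ℝ := fun i x => -(e i x) / C₁.kap x with hq
  have k1 := fun x => (kap_pos C₁ x).ne'
  have k1c : ∀ x, (C₁.kap x : ℂ) ≠ 0 := fun x => by exact_mod_cast k1 x
  have es : ∀ i, ContDiff ℝ ∞ (e i) := fun i => (glm_smooth C₂ i).sub (glm_smooth C₁ i)
  have bs : ContDiff ℝ ∞ b := (kap_smooth C₂).div (kap_smooth C₁) k1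
  have qs : ∀ i, ContDiff ℝ ∞ (q i) := fun i => (es i).neg.div (kap_smooth C₁) k1
  obtain ⟨x₀, hx₀⟩ := exists_far (|R| + 7)
  have hx7 : R + 7 < ‖x₀‖ := by linarith [le_abs_self R]
  -- `P = 1`, `a = κ₂/κ₁`, `K σ = pauli q σ`
  have hP : ∀ x, P x 0 0 = 1 := by
    intro x
    rw [← (gauge_out h hx7).2]
    refine eq_const_of_pd (gauge_diff h) (fun i y => ?_) x x₀
    refine eq_zero_of_null (w := fun i => pd i (fun z => P z 0 0) y) (fun σ hσ => ?_) i
    simpa [dD] using (gauge_phiphi h hσ y).1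
  have ha : ∀ x, a x = (b x : ℂ) := by
    intro x
    have := (gauge_scalar h x).2.2.2
    rw [hP x, mul_one] at this
    simp only [hb, Complex.ofReal_div]
    rw [this, mul_div_cancel_left₀ _ (k1c x)]
  have hK : ∀ σ : Fin 2 → ℂ, σ ≠ 0 → ∀ x k,
      (K x *ᵥ σ) k = pauli (fun i => (q i x : ℂ)) σ k := by
    intro σ hσ x k
    have := (gauge_phiphi h hσ x).2 k
    rw [hP x, one_mul] at this
    refine mul_left_cancel₀ (k1c x) ?_
    rw [eq_neg_of_add_eq_zero_left this]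
    have hk := k1c x
    fin_cases k <;> simp [pauli, hq, he] <;> field_simp <;> ring
  -- the `bb` entry
  have hbd : ∀ x j, pd j b x = b x * e j x / 2 := by
    intro x j
    have hw : ((pd j b x + C₂.kap x * q j x / 2 : ℝ) : ℂ) = 0 := by
      refine eq_zero_of_null (w := fun j => ((pd j b x + C₂.kap x * q j x / 2 : ℝ) : ℂ))
        (fun σ hσ => ?_) j
      have r := gauge_eqn h hσ x 0 0
      obtain ⟨a0, a1, a2⟩ := stM_row0 C₁ σ x
      obtain ⟨b0, b1, b2⟩ := stM_row0 C₂ σ x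
      have hfun : (fun y => a y) = fun y => (b y : ℂ) := funext ha
      simp [gaugeMat, Fin.sum_univ_three, a0, b0, b1, b2, hK σ hσ x, hfun,
        dD_ofReal (diffAt bs x)] at r
      simp [Fin.sum_univ_three, pauli, null] at r ⊢
      linear_combination r
    have hw' : pd j b x + C₂.kap x * q j x / 2 = 0 := by exact_mod_cast hw
    simp only [hq, hb] at hw' ⊢
    have := k1 x
    field_simp at hw' ⊢
    linarith
  -- `κ₂/κ₁ = √(μ₂/μ₁)`
  have hmd : ∀ (C : Coef) i x, pd i C.mu x = C.glm i x * C.mu x := fun C i x => by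
    rw [Coef.glm, div_mul_cancel₀ _ (C.mu_pos x).ne']
  have hbmu : ∀ x, b x * b x * C₁.mu x = C₂.mu x := by
    intro x
    have hnum := (bs.mul bs).mul C₁.smooth_mu
    have h2 := fun y => (C₂.mu_pos y).ne'
    have hc := eq_const_of_pd (f := fun y => b y * b y * C₁.mu y / C₂.mu y)
      ((hnum.div C₂.smooth_mu h2).differentiable (by decide)) (fun i y => by
        have m1 := hmd C₁ i y
        have m2 := hmd C₂ i y
        rw [pd_div (diffAt hnum y) (diffAt C₂.smooth_mu y) (h2 y),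
          pd_mul (diffAt (bs.mul bs) y) (diffAt C₁.smooth_mu y),
          pd_mul (diffAt bs y) (diffAt bs y), hbd, m1, m2]
        simp only [he]
        have := h2 y
        field_simp
        ring) x x₀
    have hb0 : b x₀ = 1 := by
      have := (gauge_out h hx7).1
      rw [ha] at this
      exact_mod_cast this
    have hm0 : C₁.mu x₀ = C₂.mu x₀ := hEq.mu x₀ (by linarith)
    simp only [hb0, hm0, one_mul, div_self (h2 x₀)] at hc
    exact (div_eq_one_iff_eq (h2 x)).1 hc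
  have hbsqrt : ∀ x, b x * Real.sqrt (C₂.mu x) = C₂.mu x / Real.sqrt (C₁.mu x) := by
    intro x
    have hbp : 0 < b x := div_pos (kap_pos C₂ x) (kap_pos C₁ x)
    have h1 := Real.sqrt_pos.2 (C₁.mu_pos x)
    have h2 : Real.sqrt (C₂.mu x) = b x * Real.sqrt (C₁.mu x) := by
      rw [← hbmu x, Real.sqrt_mul (mul_self_nonneg _), Real.sqrt_mul_self hbp.le]
    rw [h2, eq_div_iff h1.ne']
    nlinarith [Real.mul_self_sqrt (C₁.mu_pos x).le, hbmu x]
  -- the `φb` entries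
  set T : R3 → Fin 3 → Fin 3 → ℝ := fun x i j =>
    b x * Real.sqrt (C₂.mu x) * C₂.hnu i j x + C₂.glm i x * q j x / 2
      - Real.sqrt (C₁.mu x) * C₁.hnu i j x - pd j (q i) x with hT
  have hTs : ∀ x, (∀ i j, i ≠ j → T x i j = 0) ∧ ∀ i, T x i i = T x 0 0 := by
    intro x
    refine scalar_of_pauli fun σ hσ k => ?_
    have r := gauge_eqn h hσ x k.succ 0
    obtain ⟨u0, -, -⟩ := stM_row0 C₁ σ x
    obtain ⟨c0, -, -⟩ := stM_row C₁ σ x k
    obtain ⟨d0, d1, d2⟩ := stM_row C₂ σ x k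
    obtain ⟨p01, p10, p11, -⟩ := gauge_scalar h x
    have hfun : ∀ k, (fun y => (K y *ᵥ σ) k) = fun y => pauli (fun i => (q i y : ℂ)) σ k :=
      fun k => funext fun y => hK σ hσ y k
    have hD : dD (null σ) (fun y => gaugeMat a K P σ y k.succ 0) x
        = pauli (fun i => ∑ j, null σ j * ((pd j (q i) x : ℝ) : ℂ)) σ k := by
      rw [show (fun y => gaugeMat a K P σ y k.succ 0) = fun y => (K y *ᵥ σ) k from
        funext fun y => by fin_cases k <;> rfl, hfun, dD_pauli qs]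
    rw [hD] at r
    fin_cases k
    all_goals
      simp [gaugeMat, Fin.sum_univ_three, hK σ hσ x, ha, hP, p01, p10, p11] at r c0 d0 d1 d2
      simp [u0, c0, d0, d1, d2] at r
      simp [pauli, null, Fin.sum_univ_three, hT] at r ⊢
      linear_combination -r
  -- the closed system for `e`
  set c : R3 → ℝ := fun x => (C₁.kap x)⁻¹ - (Real.sqrt (C₁.mu x))⁻¹ with hc
  have c0 : ∀ x, c x ≠ 0 := fun x =>
    (sub_pos.2 ((inv_lt_inv₀ (Real.sqrt_pos.2 (C₁.mu_pos x)) (kap_pos C₁ x)).2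
      (kap_lt C₁ x))).ne'
  have sne : ∀ x, Real.sqrt (C₁.mu x) ≠ 0 := fun x => (Real.sqrt_pos.2 (C₁.mu_pos x)).ne'
  have cs : ContDiff ℝ ∞ c := ((kap_smooth C₁).inv k1).sub ((sqrt_mu_smooth C₁).inv sne)
  set P' : Fin 3 → R3 → ℝ := fun j x => (-C₂.glm j x / Real.sqrt (C₁.mu x)
    + pd j C₁.kap x / C₁.kap x ^ 2) / c x with hP'
  set Q' : Fin 3 → R3 → ℝ := fun i x =>
    (-C₁.glm i x / Real.sqrt (C₁.mu x) + C₂.glm i x / (2 * C₁.kap x)) / c x with hQ'
  have Ps : ∀ j, ContDiff ℝ ∞ (P' j) := fun j =>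
    ((((glm_smooth C₂ j).neg.div (sqrt_mu_smooth C₁) sne).add
      ((contDiff_pd (kap_smooth C₁) j).div ((kap_smooth C₁).pow 2)
        fun x => pow_ne_zero 2 (k1 x)))).div cs c0
  have Qs : ∀ i, ContDiff ℝ ∞ (Q' i) := fun i =>
    (((glm_smooth C₁ i).neg.div (sqrt_mu_smooth C₁) sne).add
      ((glm_smooth C₂ i).div (contDiff_const.mul (kap_smooth C₁))
        fun x => mul_ne_zero two_ne_zero (k1 x))).div cs c0
  have hTe : ∀ x i j, T x i j / c x
      = pd j (e i) x - (e i x * P' j x + Q' i x * e j x) := by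
    intro x i j
    have hA : b x * Real.sqrt (C₂.mu x) * C₂.hnu i j x
        = (C₂.glm i x * C₂.glm j x - pd j (C₂.glm i) x) / Real.sqrt (C₁.mu x) := by
      rw [hbsqrt, hnu_eq]
      have := (C₂.mu_pos x).ne'
      have := sne x
      field_simp
    have hB : Real.sqrt (C₁.mu x) * C₁.hnu i j x
        = (C₁.glm i x * C₁.glm j x - pd j (C₁.glm i) x) / Real.sqrt (C₁.mu x) := by
      rw [hnu_eq, mul_div_assoc', div_eq_div_iff (C₁.mu_pos x).ne' (sne x)]
      have hmm := Real.mul_self_sqrt (C₁.mu_pos x).le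
      linear_combination (C₁.glm i x * C₁.glm j x - pd j (C₁.glm i) x) * hmm
    have hqd : pd j (q i) x
        = -(pd j (e i) x) / C₁.kap x + e i x * pd j C₁.kap x / C₁.kap x ^ 2 := by
      simp only [hq]
      rw [pd_div (diffAt (es i).neg x) (diffAt (kap_smooth C₁) x) (k1 x)]
      have : pd j (fun y => -(e i y)) x = -(pd j (e i) x) := by simp [pd, fderiv_fun_neg]
      rw [this]
      ring
    have hed : pd j (e i) x = pd j (C₂.glm i) x - pd j (C₁.glm i) x :=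
      pd_sub (diffAt (glm_smooth C₂ i) x) (diffAt (glm_smooth C₁ i) x) j
    simp only [hT]
    rw [hA, hB, hqd, hed]
    simp only [hq, hP', hQ', he]
    have := c0 x
    field_simp
    simp only [hc]
    have := k1 x
    have := sne x
    field_simp
    ring
  have he0 : ∀ i, e i =ᶠ[nhds x₀] fun _ => 0 := by
    intro i
    have hopen : IsOpen {y : R3 | R < ‖y‖} := isOpen_lt continuous_const continuous_norm
    filter_upwards [hopen.mem_nhds (show R < ‖x₀‖ by linarith)] with y hy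
    have hev : C₁.mu =ᶠ[nhds y] C₂.mu := by
      filter_upwards [hopen.mem_nhds hy] with z hz
      exact hEq.mu z (le_of_lt hz)
    simp [he, Coef.glm, pd_of_eventuallyEq hev, hEq.mu y (le_of_lt hy)]
  have hzero : ∀ i x, e i x = 0 := fun i x => overdetermined es Ps Qs
    (fun i j hij x => by
      have h1 := hTe x i j
      rw [(hTs x).1 i j hij, zero_div] at h1
      linarith)
    (fun i x => by rw [← hTe, ← hTe, (hTs x).2 i]) he0 i x
  -- conclusion
  intro x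
  have hb1 : b x = 1 := by
    have hc := eq_const_of_pd (bs.differentiable (by decide))
      (fun i y => by rw [hbd, hzero]; ring) x x₀
    have hb0 : b x₀ = 1 := by
      have := (gauge_out h hx7).1
      rw [ha] at this
      exact_mod_cast this
    rw [hc, hb0]
  have hmu : C₁.mu x = C₂.mu x := by rw [← hbmu x, hb1]; ring
  refine ⟨?_, hmu⟩
  have hk : C₂.kap x = C₁.kap x := (div_eq_one_iff_eq (k1 x)).1 hb1
  simp only [Coef.kap, ← hmu] at hk
  have h1 := lam_two_mu_pos C₁ x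
  have h2 := lam_two_mu_pos C₂ x
  rw [← hmu] at h2
  rw [div_eq_div_iff h2.ne' h1.ne'] at hk
  have hs : 0 < Real.sqrt (C₁.mu x) * C₁.mu x :=
    mul_pos (Real.sqrt_pos.2 (C₁.mu_pos x)) (C₁.mu_pos x)
  refine mul_left_cancel₀ hs.ne' ?_
  linarith

end Vale.Agent.P136
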