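import Vale.Agent.P136.Mod.BootFourier

/-!
# Interior regularity of the conjugated system

Testing the weak equation on `g exp (2πi⟨x,ξ⟩)` expresses `‖ξ‖²` times a localised coefficient by
coefficients of other test functions, which gives one power of decay per step, at the cost of one
power of `τ`.
-/

noncomputable section

namespace Vale.Agent.P136.Reg

open MeasureTheory Metric Complex
open scoped ContDiff RealInnerProductSpace BigOperators Matrix

variable {ι : Type} [Fintype ι]

lemma pd_const_mul {f : R3 → ℂ} (hf : ContDiff ℝ ∞ f) (c : ℂ) (i : Fin 3) (x : R3) :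
    pd i (fun y => c * f y) x = c * pd i f x := by
  simp [pd, fderiv_const_mul (hf.differentiable (by simp) x)]

lemma pd_add {f g : R3 → ℂ} (hf : ContDiff ℝ ∞ f) (hg : ContDiff ℝ ∞ g) (i : Fin 3) (x : R3) :
    pd i (fun y => f y + g y) x = pd i f x + pd i g x := by
  simp [pd, fderiv_fun_add (hf.differentiable (by simp) x) (hg.differentiable (by simp) x)]

lemma pd_sum {κ : Type*} (t : Finset κ) {f : κ → R3 → ℂ} (hf : ∀ k, ContDiff ℝ ∞ (f k))
    (i : Fin 3) (x : R3) : pd i (fun y => ∑ k ∈ t, f k y) x = ∑ k ∈ t, pd i (f k) x := by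
  simp [pd, fderiv_fun_sum fun k _ => (hf k).differentiable (by simp) x]

lemma pd_apply {F : R3 → ι → ℂ} {x : R3} (hF : DifferentiableAt ℝ F x) (i : Fin 3) (b : ι) :
    pd i F x b = pd i (fun y => F y b) x := by
  simp only [pd]
  rw [fderiv_pi (fun b => differentiableAt_pi.1 hF b)]
  rfl

lemma pd_pi {F : ι → R3 → ℂ} (hF : ∀ b, ContDiff ℝ ∞ (F b)) (i : Fin 3) :
    pd i (fun y b => F b y) = fun x b => pd i (F b) x := by
  funext x b
  exact pd_apply ((contDiff_pi.2 hF).differentiable (by simp) x) i b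

variable (A : Fin 3 → R3 → Matrix ι ι ℂ) (B : R3 → Matrix ι ι ℂ) (θ : C3)

/-- The diagonal symbol. -/
def dlt (a b : ι) : ℂ := by classical exact if a = b then 1 else 0

/-- Zero order test function without `τ`. -/
def tg0 (a b : ι) (g : R3 → ℂ) (x : R3) : ℂ :=
  dlt a b * ∑ i, pd i (pd i g) x + ∑ i, (-1) * pd i (fun y => A i y a b * g y) x + B x a b * g x

/-- First order test function without `τ`. -/
def tg1 (a b : ι) (i : Fin 3) (g : R3 → ℂ) (x : R3) : ℂ :=
  dlt a b * (2 * cc * pd i g x) + -cc * (A i x a b * g x)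

/-- Zero order test function with `τ`. -/
def tg2 (a b : ι) (g : R3 → ℂ) (x : R3) : ℂ :=
  ∑ i, θ i * (A i x a b * g x) + (-2 * dlt a b) * ∑ i, θ i * pd i g x

/-- First order test function with `τ`. -/
def tg3 (a b : ι) (i : Fin 3) (g : R3 → ℂ) (x : R3) : ℂ :=
  -2 * cc * dlt a b * θ i * g x

variable {A B}

lemma sysConjT_single [DecidableEq ι] (hA : ∀ i a b, ContDiff ℝ ∞ fun x => A i x a b) (τ : ℝ)
    {h : R3 → ℂ} (hh : ContDiff ℝ ∞ h) (a b : ι) (x : R3) :
    sysConjT A B τ θ (fun y => Pi.single a (h y)) x b =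
      tg0 A B a b h x + (τ : ℂ) * tg2 A θ a b h x := by
  have e : (fun y => (Pi.single a (h y) : ι → ℂ)) = fun y c => dlt a c * h y := by
    funext y c
    by_cases hc : a = c
    · subst hc; simp [dlt]
    · simp [dlt, hc, Ne.symm hc]
  have h1 : ∀ i, pd i (fun y c => dlt a c * h y) = fun y c => dlt a c * pd i h y := fun i => by
    rw [pd_pi (fun c => contDiff_const.mul hh) i]
    funext y c
    exact pd_const_mul hh _ i y
  have h2 : ∀ i, pd i (pd i (fun y c => dlt a c * h y)) = fun y c => dlt a c * pd i (pd i h) y := by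
    intro i
    rw [h1, pd_pi (fun c => contDiff_const.mul (contDiff_pd hh i)) i]
    funext y c
    exact pd_const_mul (contDiff_pd hh i) _ i y
  have h3 : ∀ (M : Matrix ι ι ℂ) (y : R3),
      Mᵀ *ᵥ (fun c => dlt a c * h y) = fun c => M a c * h y := by
    intro M y
    funext c
    simp [Matrix.mulVec, dotProduct, dlt]
  have h4 : ∀ i, pd i (fun y c => A i y a c * h y) = fun y c => pd i (fun z => A i z a c * h z) y :=
    fun i => pd_pi (fun c => (hA i a c).mul hh) i
  rw [e]
  simp only [sysConjT, dD, h2, h3, h4]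
  simp only [h1, Pi.add_apply, Pi.sub_apply, Pi.smul_apply, smul_eq_mul, Fin.sum_univ_three, tg0,
    tg2]
  ring

omit [Fintype ι] in
lemma tg0_test (hA : ∀ i a b, ContDiff ℝ ∞ fun x => A i x a b)
    (hB : ∀ a b, ContDiff ℝ ∞ fun x => B x a b) {O : Set R3} {g : R3 → ℂ} (hg : Test O g)
    (a b : ι) : Test O (tg0 A B a b g) :=
  (((Test.sum _ fun i => (hg.pd i).pd i).const_mul _).add
    (Test.sum _ fun i => ((hg.mul_left (hA i a b)).pd i).const_mul _)).add (hg.mul_left (hB a b))

omit [Fintype ι] in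
lemma tg1_test (hA : ∀ i a b, ContDiff ℝ ∞ fun x => A i x a b) {O : Set R3} {g : R3 → ℂ}
    (hg : Test O g) (a b : ι) (i : Fin 3) : Test O (tg1 A a b i g) :=
  (((hg.pd i).const_mul _).const_mul _).add ((hg.mul_left (hA i a b)).const_mul _)

omit [Fintype ι] in
lemma tg2_test (hA : ∀ i a b, ContDiff ℝ ∞ fun x => A i x a b) {O : Set R3} {g : R3 → ℂ}
    (hg : Test O g) (a b : ι) : Test O (tg2 A θ a b g) :=
  (Test.sum _ fun i => (hg.mul_left (hA i a b)).const_mul _).add
    ((Test.sum _ fun i => (hg.pd i).const_mul _).const_mul _)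

omit [Fintype ι] in
lemma tg3_test {O : Set R3} {g : R3 → ℂ} (hg : Test O g) (a b : ι) (i : Fin 3) :
    Test O (tg3 θ a b i g) :=
  hg.const_mul _

lemma pd_pd_mul_ee {g : R3 → ℂ} (hg : ContDiff ℝ ∞ g) (i : Fin 3) (ξ x : R3) :
    pd i (pd i fun y => g y * ee ξ y) x =
      (pd i (pd i g) x + 2 * cc * (ξ i : ℂ) * pd i g x + (cc * (ξ i : ℂ)) ^ 2 * g x) * ee ξ x := by
  rw [pd_mul_ee hg, pd_mul_ee ((contDiff_pd hg i).add (contDiff_const.mul hg))]
  simp only [pd_add (contDiff_pd hg i) (contDiff_const.mul hg), pd_const_mul hg]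
  ring

lemma sum_sq_coord (ξ : R3) : ∑ i, (ξ i : ℂ) ^ 2 = ((‖ξ‖ ^ 2 : ℝ) : ℂ) := by
  rw [EuclideanSpace.norm_sq_eq]
  push_cast
  exact Finset.sum_congr rfl fun i _ => by
    rw [Real.norm_eq_abs, ← Complex.ofReal_pow, ← Complex.ofReal_pow, sq_abs]

omit [Fintype ι] in
lemma test_fun_ee (hA : ∀ i a b, ContDiff ℝ ∞ fun x => A i x a b) (τ : ℝ) {g : R3 → ℂ}
    (hg : ContDiff ℝ ∞ g) (a b : ι) (ξ x : R3) :
    tg0 A B a b (fun y => g y * ee ξ y) x + (τ : ℂ) * tg2 A θ a b (fun y => g y * ee ξ y) x =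
      (dlt a b * (cc ^ 2 * ((‖ξ‖ ^ 2 : ℝ) : ℂ) * g x) + tg0 A B a b g x
        + (τ : ℂ) * tg2 A θ a b g x
        + ∑ i, (ξ i : ℂ) * (tg1 A a b i g x + (τ : ℂ) * tg3 θ a b i g x)) * ee ξ x := by
  have hm : ∀ i, (fun y => A i y a b * (g y * ee ξ y)) = fun y => A i y a b * g y * ee ξ y :=
    fun i => funext fun y => (mul_assoc _ _ _).symm
  have hp : ∀ i, pd i (fun y => A i y a b * (g y * ee ξ y)) x =
      (pd i (fun y => A i y a b * g y) x + cc * (ξ i : ℂ) * (A i x a b * g x)) * ee ξ x := by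
    intro i
    rw [hm, pd_mul_ee ((hA i a b).mul hg)]
  have hpp : ∀ i, pd i (pd i fun y => g y * ee ξ y) x = _ := fun i => pd_pd_mul_ee hg i ξ x
  rw [← sum_sq_coord]
  simp only [tg0, tg1, tg2, tg3]
  simp only [hpp, hp]
  simp only [pd_mul_ee hg, Fin.sum_univ_three]
  ring

/-- Testing the weak equation on a localised character. -/
lemma fint_identity [DecidableEq ι] (hA : ∀ i a b, ContDiff ℝ ∞ fun x => A i x a b)
    (hB : ∀ a b, ContDiff ℝ ∞ fun x => B x a b) {τ R : ℝ} {r f : R3 → ι → ℂ}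
    (hr : MemLp r 2 volume) (hw : WeakSol A B τ θ R r f) {g : R3 → ℂ} (hg : Test (ball 0 R) g)
    (a : ι) (ξ : R3) :
    cc ^ 2 * ((‖ξ‖ ^ 2 : ℝ) : ℂ) * fint (fun x => r x a) g ξ =
      (∫ x, f x a * g x * ee ξ x) - ∑ b, (fint (fun x => r x b) (tg0 A B a b g) ξ
        + (τ : ℂ) * fint (fun x => r x b) (tg2 A θ a b g) ξ
        + ∑ i, (ξ i : ℂ) * (fint (fun x => r x b) (tg1 A a b i g) ξ
          + (τ : ℂ) * fint (fun x => r x b) (tg3 θ a b i g) ξ)) := by
  have hρ : ∀ b, MemLp (fun x => r x b) 2 volume := fun b =>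
    (ContinuousLinearMap.proj (R := ℝ) (φ := fun _ : ι => ℂ) b).comp_memLp' hr
  have hh : ContDiff ℝ ∞ fun x => g x * ee ξ x := hg.smooth.mul (contDiff_ee ξ)
  have hsupp : tsupport (fun x => (Pi.single a (g x * ee ξ x) : ι → ℂ)) ⊆ ball 0 R := by
    refine subset_trans (closure_mono fun x hx => ?_) hg.supp
    simp only [Function.mem_support, ne_eq] at hx ⊢
    intro h0
    exact hx (by simp [h0])
  have hφ : ContDiff ℝ ∞ fun x => (Pi.single a (g x * ee ξ x) : ι → ℂ) := by
    refine contDiff_pi.2 fun c => ?_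
    by_cases hc : c = a
    · subst hc; simpa using! hh
    · simpa [hc] using! contDiff_const
  have key := hw _ hφ hsupp
  have hI : ∀ b {u : R3 → ℂ}, Test (ball 0 R) u →
      Integrable (fun x => r x b * (u x * ee ξ x)) := fun b u hu => integrable_fint hu (hρ b) ξ
  have hz : ∀ b, Test (ball 0 R) fun x => dlt a b * (cc ^ 2 * ((‖ξ‖ ^ 2 : ℝ) : ℂ) * g x) :=
    fun b => (hg.const_mul _).const_mul _
  simp only [dotProduct, sysConjT_single θ hA τ hh, test_fun_ee θ hA τ hg.smooth] at key
  simp only [add_mul, Finset.sum_mul, mul_add, Finset.mul_sum] at key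
  have hterm : ∀ b, ∫ x, (r x b * (dlt a b * (cc ^ 2 * ((‖ξ‖ ^ 2 : ℝ) : ℂ) * g x) * ee ξ x)
      + r x b * (tg0 A B a b g x * ee ξ x) + r x b * ((τ : ℂ) * tg2 A θ a b g x * ee ξ x)
      + ∑ i, (r x b * ((ξ i : ℂ) * tg1 A a b i g x * ee ξ x)
        + r x b * ((ξ i : ℂ) * ((τ : ℂ) * tg3 θ a b i g x) * ee ξ x))) =
      dlt a b * (cc ^ 2 * ((‖ξ‖ ^ 2 : ℝ) : ℂ) * fint (fun x => r x b) g ξ)
        + fint (fun x => r x b) (tg0 A B a b g) ξ
        + (τ : ℂ) * fint (fun x => r x b) (tg2 A θ a b g) ξ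
        + ∑ i, ((ξ i : ℂ) * fint (fun x => r x b) (tg1 A a b i g) ξ
          + (ξ i : ℂ) * ((τ : ℂ) * fint (fun x => r x b) (tg3 θ a b i g) ξ)) := by
    intro b
    have h0 := hI b (hz b)
    have h1 := hI b (tg0_test hA hB hg a b)
    have h2 := hI b ((tg2_test θ hA hg a b).const_mul (τ : ℂ))
    have h3 : ∀ i, Integrable fun x => r x b * ((ξ i : ℂ) * tg1 A a b i g x * ee ξ x) :=
      fun i => hI b ((tg1_test hA hg a b i).const_mul _)
    have h4 : ∀ i, Integrable fun x =>
        r x b * ((ξ i : ℂ) * ((τ : ℂ) * tg3 θ a b i g x) * ee ξ x) :=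
      fun i => hI b (((tg3_test θ hg a b i).const_mul _).const_mul _)
    rw [integral_add, integral_add, integral_add, integral_finsetSum]
    · simp only [fint, fun i => integral_add (h3 i) (h4 i), ← integral_const_mul]
      congr 1
      · congr 1
        · congr 1
          congr 1; funext x; ring
        · congr 1; funext x; ring
      · refine Finset.sum_congr rfl fun i _ => ?_
        congr 1 <;> (congr 1; funext x; ring)
    all_goals first
      | exact h0
      | exact h1
      | exact h2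
      | exact h0.add h1
      | exact (h0.add h1).add h2
      | exact fun i _ => (h3 i).add (h4 i)
      | exact integrable_finsetSum _ fun i _ => (h3 i).add (h4 i)
  rw [integral_finsetSum] at key
  · simp only [hterm] at key
    have hrhs : ∀ x, ∑ b, f x b * (Pi.single a (g x * ee ξ x) : ι → ℂ) b =
        f x a * g x * ee ξ x := fun x => by
      simp [Pi.single_apply, mul_assoc]
    simp only [hrhs] at key
    rw [← key, ← Finset.sum_sub_distrib]
    simp only [mul_add]
    rw [Finset.sum_eq_single a]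
    · simp [dlt]
    · intro b _ hb
      simp [dlt, Ne.symm hb]
    · simp
  · intro b _
    refine (((hI b (hz b)).add (hI b (tg0_test hA hB hg a b))).add
      (hI b ((tg2_test θ hA hg a b).const_mul (τ : ℂ)))).add (integrable_finsetSum _ fun i _ => ?_)
    exact (hI b ((tg1_test hA hg a b i).const_mul _)).add
      (hI b (((tg3_test θ hg a b i).const_mul _).const_mul _))

variable (A B) in
/-- The hypotheses on the data at `τ`, with `f` controlled up to order `s`. -/
structure BootData (R : ℝ) (τ S : ℝ) (f r : R3 → ι → ℂ) (s : ℕ) : Prop where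
  tau : 1 ≤ τ
  smooth : ContDiff ℝ ∞ f
  memLp : MemLp r 2 volume
  weak : WeakSol A B τ θ R r f
  mass : eLpNorm r 2 volume ≤ ENNReal.ofReal S
  bound : ∀ x ∈ closedBall (0 : R3) R, ∀ i ≤ s, ‖iteratedFDeriv ℝ i f x‖ ≤ S
  nonneg : 0 ≤ S

lemma BootData.mono {R τ S : ℝ} {f r : R3 → ι → ℂ} {s t : ℕ} (h : BootData A B θ R τ S f r t)
    (hst : s ≤ t) : BootData A B θ R τ S f r s :=
  { h with bound := fun x hx i hi => h.bound x hx i (hi.trans hst) }

/-- Products of `f` with a test function have decreasing coefficients. -/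
lemma forcing_decay {R : ℝ} {g : R3 → ℂ} (hg : Test (ball 0 R) g) (s : ℕ) : ∃ C, 0 ≤ C ∧
    ∀ f : R3 → ι → ℂ, ContDiff ℝ ∞ f → ∀ S, 0 ≤ S →
      (∀ x ∈ closedBall (0 : R3) R, ∀ i ≤ s, ‖iteratedFDeriv ℝ i f x‖ ≤ S) →
      ∀ a ξ, (1 + ‖ξ‖) ^ s * ‖∫ x, f x a * g x * ee ξ x‖ ≤ C * S := by
  obtain ⟨C, hC, hd⟩ := smooth_decay (isCompact_closedBall (0 : R3) R) s
  have hG : ∀ n : ℕ, ∃ G, 0 ≤ G ∧ ∀ x, ‖iteratedFDeriv ℝ n g x‖ ≤ G := by
    intro n
    obtain ⟨G, hG⟩ := (hg.smooth.continuous_iteratedFDeriv (m := n)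
      (WithTop.coe_le_coe.mpr le_top)).bounded_above_of_compact_support (hg.cpt.iteratedFDeriv n)
    exact ⟨G, (norm_nonneg _).trans (hG 0), hG⟩
  choose G hG0 hG using hG
  let T : ℝ := ∑ n ∈ Finset.range (s + 1), ∑ i ∈ Finset.range (n + 1), (n.choose i : ℝ) * G (n - i)
  have hT : 0 ≤ T := Finset.sum_nonneg fun n _ => Finset.sum_nonneg fun i _ =>
    mul_nonneg (Nat.cast_nonneg _) (hG0 _)
  refine ⟨C * T, mul_nonneg hC hT, fun f hf S hS hb a ξ => ?_⟩
  have hfa : ContDiff ℝ ∞ fun x => f x a := contDiff_pi.1 hf a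
  rw [mul_assoc C T S]
  refine hd _ (hfa.mul hg.smooth) (tsupport_mul_subset_right.trans
    (hg.supp.trans ball_subset_closedBall)) _ (mul_nonneg hT hS) (fun x n hn => ?_) ξ
  by_cases hx : x ∈ tsupport g
  · refine (norm_iteratedFDeriv_mul_le hfa hg.smooth x (WithTop.coe_le_coe.mpr le_top)).trans ?_
    refine le_trans ?_ (mul_le_mul_of_nonneg_right
      (Finset.single_le_sum (f := fun n => ∑ i ∈ Finset.range (n + 1),
        (n.choose i : ℝ) * G (n - i)) (fun k _ => Finset.sum_nonneg fun i _ =>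
          mul_nonneg (Nat.cast_nonneg _) (hG0 _)) (Finset.mem_range.2 (Nat.lt_succ_of_le hn))) hS)
    rw [Finset.sum_mul]
    refine Finset.sum_le_sum fun i hi => ?_
    rw [mul_right_comm ((n.choose i : ℝ)) (G (n - i)) S]
    have hi' : i ≤ s := (Finset.mem_range_succ_iff.1 hi).trans hn
    have hfi : ‖iteratedFDeriv ℝ i (fun x => f x a) x‖ ≤ S := by
      refine le_trans ?_ (hb x (ball_subset_closedBall (hg.supp hx)) i hi')
      refine ((ContinuousLinearMap.proj (R := ℝ) (φ := fun _ : ι => ℂ) a).norm_iteratedFDeriv_comp_left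
        (n := i) hf.contDiffAt (WithTop.coe_le_coe.mpr le_top)).trans ?_
      refine mul_le_of_le_one_left (norm_nonneg _) ?_
      refine ContinuousLinearMap.opNorm_le_bound _ zero_le_one fun v => ?_
      simpa using norm_le_pi_norm v a
    gcongr
    exact hG _ x
  · have : x ∉ tsupport fun y => f y a * g y := fun h => hx (tsupport_mul_subset_right h)
    rw [image_eq_zero_of_notMem_tsupport
      (fun h => this (tsupport_iteratedFDeriv_subset n h)), norm_zero]
    positivity

/-- Localised coefficients decay to every order, with one power of `τ` for each. -/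
lemma coef_decay (hA : ∀ i a b, ContDiff ℝ ∞ fun x => A i x a b)
    (hB : ∀ a b, ContDiff ℝ ∞ fun x => B x a b) (R : ℝ) : ∀ (s : ℕ) (g : R3 → ℂ),
    Test (ball 0 R) g → ∃ C, 0 ≤ C ∧ ∀ τ S f r, BootData A B θ R τ S f r s →
      ∀ a ξ, (1 + ‖ξ‖) ^ s * ‖fint (fun x => r x a) g ξ‖ ≤ C * τ ^ s * S := by
  classical
  intro s
  induction s with
  | zero =>
    intro g hg
    obtain ⟨C, hC, hb⟩ := norm_fint_le hg
    refine ⟨C, hC, fun τ S f r h a ξ => ?_⟩
    have hle : eLpNorm (fun x => r x a) 2 volume ≤ ENNReal.ofReal S :=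
      (eLpNorm_mono fun x => norm_le_pi_norm (r x) a).trans h.mass
    simpa using hb (fun x => r x a) ((ContinuousLinearMap.proj (R := ℝ) (φ := fun _ : ι => ℂ) a).comp_memLp'
      h.memLp) S h.nonneg hle ξ
  | succ s ih =>
    intro g hg
    obtain ⟨Cf, hCf, hf⟩ := forcing_decay (ι := ι) hg s
    choose C0 hC0 h0 using fun a b => ih _ (tg0_test hA hB hg a b)
    choose C2 hC2 h2 using fun a b => ih _ (tg2_test θ hA hg a b)
    choose C1 hC1 h1 using fun a b i => ih _ (tg1_test hA hg a b i)
    choose C3 hC3 h3 using fun (a b : ι) (i : Fin 3) => ih _ (tg3_test θ hg a b i)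
    obtain ⟨Cg, hCg, hgd⟩ := ih g hg
    let T : ι → ι → ℝ := fun a b => C0 a b + C2 a b + ∑ i, (C1 a b i + C3 a b i)
    have hT : ∀ a b, 0 ≤ T a b := fun a b => add_nonneg (add_nonneg (hC0 a b) (hC2 a b))
      (Finset.sum_nonneg fun i _ => add_nonneg (hC1 a b i) (hC3 a b i))
    refine ⟨2 * (Cg + Cf + ∑ a, ∑ b, T a b), by
      have := Finset.sum_nonneg fun a (_ : a ∈ Finset.univ) =>
        Finset.sum_nonneg fun b (_ : b ∈ Finset.univ) => hT a b
      positivity, fun τ S f r h a ξ => ?_⟩
    have h' := h.mono θ (Nat.le_succ s)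
    have hτ : 0 ≤ τ := zero_le_one.trans h.tau
    have hS := h.nonneg
    set N := (1 + ‖ξ‖) ^ s with hN
    have hN0 : 0 ≤ N := by positivity
    set X := ‖fint (fun x => r x a) g ξ‖ with hX
    set P := τ ^ s * S with hP
    have hP0 : 0 ≤ P := by positivity
    have hgX : N * X ≤ Cg * P := by
      simpa [hP, mul_assoc] using hgd τ S f r h' a ξ
    have hsum : 0 ≤ Cf + ∑ a, ∑ b, T a b :=
      add_nonneg hCf (Finset.sum_nonneg fun a _ => Finset.sum_nonneg fun b _ => hT a b)
    have hmain : N * (‖ξ‖ * X) ≤ (Cg + Cf + ∑ a, ∑ b, T a b) * (τ * P) := by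
      rcases le_or_gt ‖ξ‖ 1 with hξ | hξ
      · calc N * (‖ξ‖ * X) ≤ N * (1 * X) := by gcongr
          _ ≤ Cg * P := by rw [one_mul]; exact hgX
          _ ≤ (Cg + Cf + ∑ a, ∑ b, T a b) * (τ * P) :=
            mul_le_mul (by linarith) (le_mul_of_one_le_left hP0 h.tau) hP0 (by linarith)
      · have hid := congrArg (fun z => N * ‖z‖) (fint_identity θ hA hB h.memLp h.weak hg a ξ)
        simp only [norm_mul, norm_pow, Complex.norm_real, Real.norm_eq_abs, Complex.norm_two,
          Complex.norm_I, mul_one, abs_of_pos Real.pi_pos,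
          abs_norm] at hid
        have hb : ∀ b, N * ‖fint (fun x => r x b) (tg0 A B a b g) ξ
            + (τ : ℂ) * fint (fun x => r x b) (tg2 A θ a b g) ξ
            + ∑ i, (ξ i : ℂ) * (fint (fun x => r x b) (tg1 A a b i g) ξ
              + (τ : ℂ) * fint (fun x => r x b) (tg3 θ a b i g) ξ)‖ ≤ ‖ξ‖ * (T a b * (τ * P)) := by
          intro b
          have e0 := h0 a b τ S f r h' b ξ
          have e2 := h2 a b τ S f r h' b ξ
          have e1 := fun i => h1 a b i τ S f r h' b ξ
          have e3 := fun i => h3 a b i τ S f r h' b ξ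
          rw [← hN, mul_assoc] at e0 e2
          simp only [← hN, mul_assoc (C1 _ _ _), mul_assoc (C3 _ _ _)] at e1 e3
          have d0 : N * ‖fint (fun x => r x b) (tg0 A B a b g) ξ‖ ≤ C0 a b * (τ * P) :=
            e0.trans (mul_le_mul_of_nonneg_left (le_mul_of_one_le_left hP0 h.tau) (hC0 a b))
          have d2 : N * ‖(τ : ℂ) * fint (fun x => r x b) (tg2 A θ a b g) ξ‖ ≤
              C2 a b * (τ * P) := by
            rw [norm_mul, Complex.norm_real, Real.norm_of_nonneg hτ]
            calc N * (τ * ‖fint (fun x => r x b) (tg2 A θ a b g) ξ‖)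
                = τ * (N * ‖fint (fun x => r x b) (tg2 A θ a b g) ξ‖) := by ring
              _ ≤ τ * (C2 a b * P) := by gcongr
              _ = _ := by ring
          have d1 : ∀ i, N * ‖(ξ i : ℂ) * (fint (fun x => r x b) (tg1 A a b i g) ξ
              + (τ : ℂ) * fint (fun x => r x b) (tg3 θ a b i g) ξ)‖ ≤
              ‖ξ‖ * ((C1 a b i + C3 a b i) * (τ * P)) := by
            intro i
            rw [norm_mul, Complex.norm_real, Real.norm_eq_abs, mul_left_comm]
            refine mul_le_mul (abs_coord_le ξ i) ?_ (by positivity) (norm_nonneg _)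
            refine (mul_le_mul_of_nonneg_left (norm_add_le _ _) hN0).trans ?_
            rw [mul_add, add_mul, norm_mul, Complex.norm_real, Real.norm_of_nonneg hτ]
            refine add_le_add ((e1 i).trans
              (mul_le_mul_of_nonneg_left (le_mul_of_one_le_left hP0 h.tau) (hC1 a b i))) ?_
            calc N * (τ * ‖fint (fun x => r x b) (tg3 θ a b i g) ξ‖)
                = τ * (N * ‖fint (fun x => r x b) (tg3 θ a b i g) ξ‖) := by ring
              _ ≤ τ * (C3 a b i * P) := mul_le_mul_of_nonneg_left (e3 i) hτ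
              _ = _ := by ring
          have hQ : 0 ≤ τ * P := by positivity
          calc _ ≤ N * (‖fint (fun x => r x b) (tg0 A B a b g) ξ‖
                + ‖(τ : ℂ) * fint (fun x => r x b) (tg2 A θ a b g) ξ‖
                + ∑ i, ‖(ξ i : ℂ) * (fint (fun x => r x b) (tg1 A a b i g) ξ
                  + (τ : ℂ) * fint (fun x => r x b) (tg3 θ a b i g) ξ)‖) := by
                gcongr
                exact (norm_add_le _ _).trans
                  (add_le_add (norm_add_le _ _) (norm_sum_le _ _))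
            _ ≤ C0 a b * (τ * P) + C2 a b * (τ * P) +
                ∑ i, ‖ξ‖ * ((C1 a b i + C3 a b i) * (τ * P)) := by
                rw [mul_add, mul_add, Finset.mul_sum]
                exact add_le_add (add_le_add d0 d2) (Finset.sum_le_sum fun i _ => d1 i)
            _ ≤ ‖ξ‖ * (C0 a b * (τ * P)) + ‖ξ‖ * (C2 a b * (τ * P)) +
                ∑ i, ‖ξ‖ * ((C1 a b i + C3 a b i) * (τ * P)) := by
                exact add_le_add (add_le_add
                  (le_mul_of_one_le_left (mul_nonneg (hC0 a b) hQ) hξ.le)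
                  (le_mul_of_one_le_left (mul_nonneg (hC2 a b) hQ) hξ.le)) le_rfl
            _ = _ := by simp only [T, add_mul, mul_add, Finset.sum_mul, Finset.mul_sum]
        have hF : N * ‖∫ x, f x a * g x * ee ξ x‖ ≤ ‖ξ‖ * (Cf * (τ * P)) := by
          refine (hf f h.smooth S hS (fun x hx i hi => h'.bound x hx i hi) a ξ).trans ?_
          have : S ≤ τ * P := (le_mul_of_one_le_left hS (one_le_pow₀ h.tau)).trans
            (le_mul_of_one_le_left hP0 h.tau)
          calc Cf * S ≤ Cf * (τ * P) := by gcongr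
            _ ≤ _ := le_mul_of_one_le_left (mul_nonneg hCf (by positivity)) hξ.le
        have hrhs : N * ((2 * Real.pi) ^ 2 * ‖ξ‖ ^ 2 * X) ≤
            ‖ξ‖ * ((Cf + ∑ a, ∑ b, T a b) * (τ * P)) := by
          rw [hid]
          refine (mul_le_mul_of_nonneg_left (norm_sub_le _ _) hN0).trans ?_
          rw [mul_add, add_mul, mul_add]
          refine add_le_add hF ?_
          refine (mul_le_mul_of_nonneg_left (norm_sum_le _ _) hN0).trans ?_
          rw [Finset.mul_sum]
          refine (Finset.sum_le_sum fun b _ => hb b).trans ?_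
          rw [← Finset.mul_sum, ← Finset.sum_mul]
          refine mul_le_mul_of_nonneg_left (mul_le_mul_of_nonneg_right ?_ (by positivity))
            (norm_nonneg _)
          exact Finset.single_le_sum (f := fun a => ∑ b, T a b)
            (fun a _ => Finset.sum_nonneg fun b _ => hT a b) (Finset.mem_univ a)
        have hpos : 0 < ‖ξ‖ := one_pos.trans hξ
        refine le_of_mul_le_mul_left ?_ hpos
        have h1' : ‖ξ‖ * (N * (‖ξ‖ * X)) ≤ N * ((2 * Real.pi) ^ 2 * ‖ξ‖ ^ 2 * X) := by
          have hp : (1 : ℝ) ≤ (2 * Real.pi) ^ 2 := one_le_pow₀ (by linarith [Real.pi_gt_three])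
          calc ‖ξ‖ * (N * (‖ξ‖ * X)) = 1 * (‖ξ‖ * (N * (‖ξ‖ * X))) := (one_mul _).symm
            _ ≤ (2 * Real.pi) ^ 2 * (‖ξ‖ * (N * (‖ξ‖ * X))) :=
              mul_le_mul_of_nonneg_right hp (by positivity)
            _ = _ := by ring
        refine h1'.trans (hrhs.trans ?_)
        gcongr
        linarith
    calc (1 + ‖ξ‖) ^ (s + 1) * X = N * X + N * (‖ξ‖ * X) := by rw [hN]; ring
      _ ≤ Cg * P + (Cg + Cf + ∑ a, ∑ b, T a b) * (τ * P) := add_le_add hgX hmain
      _ ≤ (Cg + Cf + ∑ a, ∑ b, T a b) * (τ * P) + (Cg + Cf + ∑ a, ∑ b, T a b) * (τ * P) :=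
          add_le_add (mul_le_mul (by linarith) (le_mul_of_one_le_left hP0 h.tau) hP0
            (by linarith)) le_rfl
      _ = _ := by rw [hP]; ring

lemma contDiff_sysConj (hA : ∀ i a b, ContDiff ℝ ∞ fun x => A i x a b)
    (hB : ∀ a b, ContDiff ℝ ∞ fun x => B x a b) (τ : ℝ) {v : R3 → ι → ℂ} (hv : ContDiff ℝ ∞ v)
    (a : ι) : ContDiff ℝ ∞ fun x => sysConj A B τ θ v x a := by
  have hv' := contDiff_pi.1 hv
  have e : ∀ i, pd i v = fun x b => pd i (fun y => v y b) x := pd_pi hv'
  have e2 : ∀ i, pd i (pd i v) = fun x b => pd i (pd i fun y => v y b) x := fun i => by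
    rw [e]; exact pd_pi (fun b => contDiff_pd (hv' b) i) i
  simp only [sysConj, sysOp, dD, e2]
  simp only [e, Pi.add_apply, Finset.sum_apply, Pi.smul_apply, smul_eq_mul, Matrix.mulVec,
    dotProduct]
  have h1 : ∀ (i : Fin 3) (b : ι), ContDiff ℝ ∞ (pd i fun y => v y b) :=
    fun i b => contDiff_pd (hv' b) i
  have h2 : ∀ i : Fin 3, ContDiff ℝ ∞ (pd i (pd i fun y => v y a)) :=
    fun i => contDiff_pd (h1 i a) i
  fun_prop

lemma ibp {u h : R3 → ℂ} (hu : ContDiff ℝ ∞ u) (hh : ContDiff ℝ ∞ h) (hc : HasCompactSupport h)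
    (i : Fin 3) : ∫ x, u x * pd i h x = -∫ x, pd i u x * h x := by
  have := integral_pd_eq_zero ((hu.mul hh).of_le (by simp)) hc.mul_left i
  simp only [fun x => pd_mul (hu.differentiable (by simp) x) (hh.differentiable (by simp) x) i]
    at this
  rw [integral_add] at this
  · linear_combination this
  · exact ((contDiff_pd hu i).continuous.mul hh.continuous).integrable_of_hasCompactSupport
      hc.mul_left
  · exact (hu.continuous.mul (contDiff_pd hh i).continuous).integrable_of_hasCompactSupport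
      (hc.fderiv_apply ℝ _).mul_left

/-- A smooth weak solution solves the system. -/
lemma transpose_eq [DecidableEq ι] (hA : ∀ i a b, ContDiff ℝ ∞ fun x => A i x a b)
    (hB : ∀ a b, ContDiff ℝ ∞ fun x => B x a b) (τ : ℝ) {v : R3 → ι → ℂ} (hv : ContDiff ℝ ∞ v)
    {O : Set R3} {h : R3 → ℂ} (hh : Test O h) (a : ι) :
    ∑ b, ∫ x, v x b * (tg0 A B a b h x + (τ : ℂ) * tg2 A θ a b h x) =
      ∫ x, sysConj A B τ θ v x a * h x := by
  have hv' := contDiff_pi.1 hv
  have e : ∀ i, pd i v = fun x b => pd i (fun y => v y b) x := pd_pi hv'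
  have e2 : ∀ i, pd i (pd i v) = fun x b => pd i (pd i fun y => v y b) x := fun i => by
    rw [e]; exact pd_pi (fun b => contDiff_pd (hv' b) i) i
  have hI : ∀ {u k : R3 → ℂ}, ContDiff ℝ ∞ u → Test O k → Integrable fun x => u x * k x :=
    fun hu hk => (hu.continuous.mul hk.smooth.continuous).integrable_of_hasCompactSupport
      hk.cpt.mul_left
  have hterm : ∀ b, ∫ x, v x b * (tg0 A B a b h x + (τ : ℂ) * tg2 A θ a b h x) =
      ∫ x, (dlt a b * ∑ i, pd i (pd i fun y => v y b) x
        + ∑ i, A i x a b * pd i (fun y => v y b) x + B x a b * v x b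
        + (τ : ℂ) * (2 * dlt a b * ∑ i, θ i * pd i (fun y => v y b) x
          + ∑ i, θ i * (A i x a b * v x b))) * h x := by
    intro b
    set u : R3 → ℂ := fun y => v y b with hu'
    have hu : ContDiff ℝ ∞ u := hv' b
    have c1 : ∀ i, ∫ x, u x * pd i (pd i h) x = ∫ x, pd i (pd i u) x * h x := fun i => by
      rw [ibp hu (contDiff_pd hh.smooth i) (hh.cpt.fderiv_apply ℝ _),
        ibp (contDiff_pd hu i) hh.smooth hh.cpt, neg_neg]
    have c2 : ∀ i, ∫ x, u x * pd i (fun y => A i y a b * h y) x =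
        -∫ x, pd i u x * (A i x a b * h x) :=
      fun i => ibp hu (hh.mul_left (hA i a b)).smooth (hh.mul_left (hA i a b)).cpt i
    have c3 : ∀ i, ∫ x, u x * pd i h x = -∫ x, pd i u x * h x := fun i =>
      ibp hu hh.smooth hh.cpt i
    have a1 := fun i => (hI hu ((hh.pd i).pd i)).const_mul (dlt a b)
    have a2 := fun i => (hI hu ((hh.mul_left (hA i a b)).pd i)).const_mul (-1 : ℂ)
    have a3 := hI hu (hh.mul_left (hB a b))
    have a4 := fun i => (hI hu (hh.mul_left (hA i a b))).const_mul ((τ : ℂ) * θ i)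
    have a5 := fun i => (hI hu (hh.pd i)).const_mul ((τ : ℂ) * (-2 * dlt a b) * θ i)
    have L : ∫ x, v x b * (tg0 A B a b h x + (τ : ℂ) * tg2 A θ a b h x) =
        (∑ i, (dlt a b * ∫ x, u x * pd i (pd i h) x))
          + (∑ i, (-1 : ℂ) * ∫ x, u x * pd i (fun y => A i y a b * h y) x)
          + (∫ x, u x * (B x a b * h x))
          + (∑ i, (τ : ℂ) * θ i * ∫ x, u x * (A i x a b * h x))
          + ∑ i, (τ : ℂ) * (-2 * dlt a b) * θ i * ∫ x, u x * pd i h x := by
      have p1 := integrable_finsetSum Finset.univ fun i _ => a1 i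
      have p2 := integrable_finsetSum Finset.univ fun i _ => a2 i
      have p4 := integrable_finsetSum Finset.univ fun i _ => a4 i
      have p5 := integrable_finsetSum Finset.univ fun i _ => a5 i
      simp only [← integral_const_mul]
      rw [← integral_finsetSum _ fun i _ => a1 i, ← integral_finsetSum _ fun i _ => a2 i,
        ← integral_finsetSum _ fun i _ => a4 i, ← integral_finsetSum _ fun i _ => a5 i,
        ← integral_add p1 p2, ← integral_add (p1.fun_add p2) a3,
        ← integral_add ((p1.fun_add p2).fun_add a3) p4,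
        ← integral_add (((p1.fun_add p2).fun_add a3).fun_add p4) p5]
      congr 1
      funext x
      simp only [hu', tg0, tg2, Fin.sum_univ_three]
      ring
    rw [L]
    simp only [c1, c2, c3]
    have b1 := fun i => (hI (contDiff_pd (contDiff_pd hu i) i) hh).const_mul (dlt a b)
    have b2 := fun i => hI (contDiff_pd hu i) (hh.mul_left (hA i a b))
    have b5 := fun i => (hI (contDiff_pd hu i) hh).const_mul ((τ : ℂ) * (2 * dlt a b) * θ i)
    have q1 := integrable_finsetSum Finset.univ fun i _ => b1 i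
    have q2 := integrable_finsetSum Finset.univ fun i _ => b2 i
    have q4 := integrable_finsetSum Finset.univ fun i _ => a4 i
    have q5 := integrable_finsetSum Finset.univ fun i _ => b5 i
    have e5 : ∀ (i : Fin 3) (J : ℂ),
        (τ : ℂ) * (-2 * dlt a b) * θ i * -J = (τ : ℂ) * (2 * dlt a b) * θ i * J := fun i J => by
      ring
    simp only [e5]
    simp only [neg_mul, one_mul, neg_neg, ← integral_const_mul]
    rw [← integral_finsetSum _ fun i _ => b1 i, ← integral_finsetSum _ fun i _ => b2 i,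
      ← integral_finsetSum _ fun i _ => a4 i, ← integral_finsetSum _ fun i _ => b5 i,
      ← integral_add q1 q2, ← integral_add (q1.fun_add q2) a3,
      ← integral_add ((q1.fun_add q2).fun_add a3) q4,
      ← integral_add (((q1.fun_add q2).fun_add a3).fun_add q4) q5]
    congr 1
    funext x
    simp only [hu', Fin.sum_univ_three]
    ring
  simp only [hterm]
  rw [← integral_finsetSum]
  · congr 1
    funext x
    simp only [sysConj, sysOp, dD, e2]
    simp only [e, Pi.add_apply, Finset.sum_apply, Pi.smul_apply,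
      smul_eq_mul, Matrix.mulVec, dotProduct, ← Finset.sum_mul, Finset.sum_add_distrib,
      ← Finset.mul_sum, dlt, ite_mul, one_mul, zero_mul, mul_ite, mul_one, mul_zero,
      Finset.sum_ite_eq, Finset.mem_univ, if_true]
    rw [Finset.sum_comm (f := fun b i => A i x a b * pd i (fun y => v y b) x),
      Finset.sum_comm (f := fun b i => θ i * (A i x a b * v x b))]
    simp only [Finset.mul_sum]
  · intro b _
    refine hI ?_ hh
    have h1 : ∀ i : Fin 3, ContDiff ℝ ∞ (pd i fun y => v y b) := fun i => contDiff_pd (hv' b) i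
    have h2 : ∀ i : Fin 3, ContDiff ℝ ∞ (pd i (pd i fun y => v y b)) :=
      fun i => contDiff_pd (h1 i) i
    fun_prop

end Vale.Agent.P136.Reg

namespace Vale.Agent.P136

open MeasureTheory Metric Complex Reg
open scoped ContDiff RealInnerProductSpace BigOperators Matrix

/-- (C1b) interior regularity. -/
theorem boot : BootOut := by
  intro ι _ A B hA hB θ R R' j hR hRR'
  classical
  let bp : ContDiffBump (0 : R3) := ⟨(R + R') / 2, (R + 3 * R') / 4, by linarith, by linarith⟩
  let χ : R3 → ℂ := fun x => ((bp x : ℝ) : ℂ)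
  have hχ : Test (ball 0 R') χ := by
    refine ⟨Complex.ofRealCLM.contDiff.comp bp.contDiff, ?_,
      bp.hasCompactSupport.comp_left (g := Complex.ofReal) Complex.ofReal_zero⟩
    refine (tsupport_comp_subset (g := Complex.ofReal) Complex.ofReal_zero (bp : R3 → ℝ)).trans ?_
    rw [bp.tsupport_eq]
    exact closedBall_subset_ball (show (R + 3 * R') / 4 < R' by linarith)
  have hχ1 : ∀ x ∈ ball (0 : R3) R, χ x = 1 := fun x hx => by
    have : bp x = 1 := bp.one_of_mem_closedBall (ball_subset_closedBall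
      (ball_subset_ball (show R ≤ (R + R') / 2 by linarith) hx))
    simp [χ, this]
  obtain ⟨Cs, hCs, hsm⟩ := exists_smooth hχ j
  choose Cd hCd hdec using fun s => coef_decay θ hA hB R' s χ hχ
  refine ⟨(Fintype.card ι : ℝ) * (Cs * Cd (j + 4)), j + 4, j + 4,
    fun τ hτ f r hf hr hw S hS hfb hS0 => ?_⟩
  have hbound : ∀ s : ℕ, ∃ S', BootData A B θ R' τ S' f r s ∧ S ≤ S' := by
    intro s
    have : ∀ i : ℕ, ∃ T, ∀ x ∈ closedBall (0 : R3) R', ‖iteratedFDeriv ℝ i f x‖ ≤ T := fun i =>
      (isCompact_closedBall _ _).exists_bound_of_continuousOn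
        (hf.continuous_iteratedFDeriv (m := i) (WithTop.coe_le_coe.mpr le_top)).continuousOn
    choose T hT using this
    have hsum : 0 ≤ ∑ i ∈ Finset.range (s + 1), |T i| := Finset.sum_nonneg fun i _ => abs_nonneg _
    refine ⟨S + ∑ i ∈ Finset.range (s + 1), |T i|, ⟨hτ, hf, hr, hw,
      hS.trans (ENNReal.ofReal_le_ofReal (by linarith)), fun x hx i hi => ?_, by linarith⟩,
      by linarith⟩
    have := Finset.single_le_sum (f := fun i => |T i|) (fun i _ => abs_nonneg _)
      (Finset.mem_range_succ_iff.2 hi)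
    linarith [hT i x hx, le_abs_self (T i)]
  have hcomp : ∀ a, ∃ ρ' : R3 → ℂ, ContDiff ℝ ∞ ρ' ∧
      (∀ φ : R3 → ℂ, ContDiff ℝ ∞ φ → HasCompactSupport φ →
        ∫ x, ρ' x * φ x = ∫ x, r x a * (χ x * φ x)) ∧
      ∀ x, ∀ i ≤ j, ‖iteratedFDeriv ℝ i ρ' x‖ ≤ Cs * (Cd (j + 4) * τ ^ (j + 4) * S) := by
    intro a
    obtain ⟨ρ', h1, h2, h3⟩ := hsm (fun x => r x a)
      ((ContinuousLinearMap.proj (R := ℝ) (φ := fun _ : ι => ℂ) a).comp_memLp' hr) (fun s => by
        obtain ⟨S', hd, -⟩ := hbound s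
        exact ⟨_, hdec s τ S' f r hd a⟩)
    exact ⟨ρ', h1, h2, h3 _ (hdec (j + 4) τ S f r ⟨hτ, hf, hr, hw, hS, hfb, hS0⟩ a)⟩
  choose ρ hρs hρi hρb using hcomp
  refine ⟨fun x a => ρ a x, contDiff_pi.2 hρs, fun x hx => ?_, fun x _ i hi => ?_⟩
  · funext a
    have hres : ContDiff ℝ ∞ fun x => sysConj A B τ θ (fun x a => ρ a x) x a - f x a :=
      (contDiff_sysConj θ hA hB τ (contDiff_pi.2 hρs) a).sub (contDiff_pi.1 hf a)
    have hzero : ∀ g : R3 → ℝ, ContDiff ℝ ∞ g → HasCompactSupport g → tsupport g ⊆ ball 0 R →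
        ∫ x, g x • (sysConj A B τ θ (fun x a => ρ a x) x a - f x a) = 0 := by
      intro g hg hgc hgs
      have hG : Test (ball 0 R) fun x => (g x : ℂ) :=
        ⟨Complex.ofRealCLM.contDiff.comp hg,
          (tsupport_comp_subset (g := Complex.ofReal) Complex.ofReal_zero g).trans hgs,
          hgc.comp_left (g := Complex.ofReal) Complex.ofReal_zero⟩
      have ht : ∀ b, Test (ball 0 R) fun x =>
          tg0 A B a b (fun x => (g x : ℂ)) x + (τ : ℂ) * tg2 A θ a b (fun x => (g x : ℂ)) x :=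
        fun b => (tg0_test hA hB hG a b).add ((tg2_test θ hA hG a b).const_mul _)
      have hφ : ContDiff ℝ ∞ fun x => (Pi.single a (g x : ℂ) : ι → ℂ) := by
        refine contDiff_pi.2 fun c => ?_
        by_cases hc : c = a
        · subst hc; simpa using! hG.smooth
        · simpa [hc] using! contDiff_const
      have hsupp : tsupport (fun x => (Pi.single a (g x : ℂ) : ι → ℂ)) ⊆ ball 0 R' := by
        refine subset_trans (subset_trans (closure_mono fun x hx => ?_) hgs)
          (ball_subset_ball hRR'.le)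
        simp only [Function.mem_support, ne_eq] at hx ⊢
        intro h0
        exact hx (by simp [h0])
      have key := hw _ hφ hsupp
      simp only [dotProduct, sysConjT_single θ hA τ hG.smooth] at key
      rw [integral_finsetSum] at key
      · have e1 : ∀ b, ∫ x, r x b *
            (tg0 A B a b (fun x => (g x : ℂ)) x + (τ : ℂ) * tg2 A θ a b (fun x => (g x : ℂ)) x) =
            ∫ x, ρ b x *
            (tg0 A B a b (fun x => (g x : ℂ)) x + (τ : ℂ) * tg2 A θ a b (fun x => (g x : ℂ)) x) := by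
          intro b
          rw [hρi b _ (ht b).smooth (ht b).cpt]
          congr 1
          funext x
          by_cases hx : x ∈ ball (0 : R3) R
          · rw [hχ1 x hx, one_mul]
          · rw [image_eq_zero_of_notMem_tsupport (fun h => hx ((ht b).supp h))]
            simp
        simp only [e1] at key
        rw [transpose_eq θ hA hB τ (contDiff_pi.2 hρs) hG a] at key
        simp only [Pi.single_apply, mul_ite, mul_zero, Finset.sum_ite_eq', Finset.mem_univ,
          if_true] at key
        have i1 : Integrable fun x => sysConj A B τ θ (fun x a => ρ a x) x a * (g x : ℂ) :=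
          ((contDiff_sysConj θ hA hB τ (contDiff_pi.2 hρs) a).continuous.mul
            hG.smooth.continuous).integrable_of_hasCompactSupport hG.cpt.mul_left
        have i2 : Integrable fun x => f x a * (g x : ℂ) :=
          ((contDiff_pi.1 hf a).continuous.mul
            hG.smooth.continuous).integrable_of_hasCompactSupport hG.cpt.mul_left
        calc ∫ x, g x • (sysConj A B τ θ (fun x a => ρ a x) x a - f x a)
            = ∫ x, (sysConj A B τ θ (fun x a => ρ a x) x a * (g x : ℂ) - f x a * (g x : ℂ)) := by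
              congr 1; funext x; rw [Complex.real_smul]; ring
          _ = 0 := by rw [integral_sub i1 i2, key, sub_self]
      · intro b _
        have : MemLp (fun x => tg0 A B a b (fun x => (g x : ℂ)) x
            + (τ : ℂ) * tg2 A θ a b (fun x => (g x : ℂ)) x) 2 volume :=
          (ht b).smooth.continuous.memLp_of_hasCompactSupport (ht b).cpt
        exact ((ContinuousLinearMap.proj (R := ℝ) (φ := fun _ : ι => ℂ) b).comp_memLp'
          hr).integrable_mul (q := 2) this
    have hae := isOpen_ball.ae_eq_zero_of_integral_contDiff_smul_eq_zero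
      (hres.continuous.locallyIntegrable.locallyIntegrableOn _) hzero
    have := Measure.eqOn_open_of_ae_eq (μ := volume) (g := 0)
      ((ae_restrict_iff' measurableSet_ball).2 hae) isOpen_ball hres.continuous.continuousOn
      continuousOn_const hx
    exact sub_eq_zero.1 this
  · have e : (fun x a => ρ a x) =
        fun x => ∑ a, ((ContinuousLinearMap.single ℝ (fun _ : ι => ℂ) a) ∘ ρ a) x := by
      funext x b
      simp [Pi.single_apply]
    rw [e, iteratedFDeriv_sum (fun a _ => (ContinuousLinearMap.contDiff _).comp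
      ((hρs a).of_le (WithTop.coe_le_coe.mpr le_top)))]
    rw [Finset.sum_apply]
    refine (norm_sum_le _ _).trans ?_
    calc ∑ a, ‖iteratedFDeriv ℝ i ((ContinuousLinearMap.single ℝ (fun _ : ι => ℂ) a) ∘ ρ a) x‖
        ≤ ∑ _a : ι, Cs * (Cd (j + 4) * τ ^ (j + 4) * S) := by
          refine Finset.sum_le_sum fun a _ => ?_
          refine ((ContinuousLinearMap.single ℝ (fun _ : ι => ℂ) a).norm_iteratedFDeriv_comp_left
            (n := i) (hρs a).contDiffAt (WithTop.coe_le_coe.mpr le_top)).trans ?_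
          refine le_trans (mul_le_of_le_one_left (norm_nonneg _) ?_) (hρb a x i hi)
          refine ContinuousLinearMap.opNorm_le_bound _ zero_le_one fun c => ?_
          rw [one_mul]
          exact (pi_norm_le_iff_of_nonneg (norm_nonneg c)).2 fun b => by
            simp only [ContinuousLinearMap.single_apply, Pi.single_apply]
            split_ifs <;> simp
      _ = _ := by
          rw [Finset.sum_const, Finset.card_univ, nsmul_eq_mul]
          ring

/-- (C1) from the Carleman estimate and interior regularity. -/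
theorem solve (h1 : WeakSolveOut) (h2 : BootOut) : SolveOut := by
  intro ι _ A B hA hB θ hθ hn R j hR
  obtain ⟨K, τ₀, p, hτ₀, hK⟩ := h1 ι A B hA hB θ hθ hn (R + 1) (by linarith)
  obtain ⟨K', m, p', hK'⟩ := h2 ι A B hA hB θ R (R + 1) j hR (by linarith)
  refine ⟨|K'| * (|K| + 1), max τ₀ 1, m, p' + p, lt_max_of_lt_left hτ₀,
    fun τ hτ f hf S hS => ?_⟩
  have hτ1 : 1 ≤ τ := (le_max_right _ _).trans hτ
  have hS0 : 0 ≤ S := (norm_nonneg _).trans (hS 0 (by simp; linarith) 0 (Nat.zero_le m))
  obtain ⟨r, hr, hw, hrn⟩ := hK τ ((le_max_left _ _).trans hτ) f hf S fun x hx => by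
    simpa using hS x hx 0 (Nat.zero_le m)
  have hP : 1 ≤ τ ^ p := one_le_pow₀ hτ1
  set S' := (|K| + 1) * τ ^ p * S with hS'
  have hmass : eLpNorm r 2 volume ≤ ENNReal.ofReal S' :=
    hrn.trans (ENNReal.ofReal_le_ofReal (by
      rw [hS']; gcongr; linarith [le_abs_self K]))
  have hle : S ≤ S' := le_mul_of_one_le_left hS0
    (one_le_mul_of_one_le_of_one_le (by linarith [abs_nonneg K]) hP)
  obtain ⟨r', h1', h2', h3'⟩ := hK' τ hτ1 f r hf hr hw S' hmass
    (fun x hx i hi => (hS x hx i hi).trans hle) (hS0.trans hle)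
  refine ⟨r', h1', h2', fun x hx i hi => (h3' x hx i hi).trans ?_⟩
  calc K' * τ ^ p' * S' ≤ |K'| * τ ^ p' * S' := by
        gcongr
        exact le_abs_self K'
    _ = _ := by rw [hS', pow_add]; ring

end Vale.Agent.P136
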