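import Vale.Agent.P136.Spec

/-!
# Fourier coefficients of localised functions

`fint ρ g ξ = ∫ ρ g exp (2πi⟨x,ξ⟩)` for a square integrable `ρ` and a test function `g`, decay for
smooth integrands, and reconstruction of a smooth function from rapidly decreasing coefficients.
-/

noncomputable section

namespace Vale.Agent.P136.Reg

open MeasureTheory Metric Complex
open scoped ContDiff RealInnerProductSpace FourierTransform

/-- `2πi`. -/
abbrev cc : ℂ := 2 * (Real.pi : ℂ) * I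

/-- The character of frequency `ξ`. -/
def ee (ξ x : R3) : ℂ := Complex.exp (cc * ((⟪x, ξ⟫ : ℝ) : ℂ))

/-- A localised Fourier coefficient. -/
def fint (ρ g : R3 → ℂ) (ξ : R3) : ℂ := ∫ x, ρ x * (g x * ee ξ x)

lemma contDiff_ee (ξ : R3) : ContDiff ℝ ∞ (ee ξ) := by
  unfold ee
  exact (contDiff_const.mul (Complex.ofRealCLM.contDiff.comp
    (contDiff_id.inner ℝ contDiff_const))).cexp

lemma norm_ee (ξ x : R3) : ‖ee ξ x‖ = 1 := by
  simp [ee, Complex.norm_exp]

lemma norm_cc : ‖cc‖ = 2 * Real.pi := by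
  simp [cc, abs_of_pos Real.pi_pos]

lemma pd_mul {f g : R3 → ℂ} {x : R3} (hf : DifferentiableAt ℝ f x) (hg : DifferentiableAt ℝ g x)
    (i : Fin 3) : pd i (fun y => f y * g y) x = pd i f x * g x + f x * pd i g x := by
  simp only [pd, fderiv_fun_mul hf hg, add_apply, smul_apply, smul_eq_mul]
  ring

lemma pd_ee (ξ x : R3) (i : Fin 3) : pd i (ee ξ) x = cc * (ξ i : ℂ) * ee ξ x := by
  have h1 : HasFDerivAt (fun y : R3 => ((⟪y, ξ⟫ : ℝ) : ℂ))
      (Complex.ofRealCLM.comp ((innerSL ℝ ξ))) x := by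
    have := Complex.ofRealCLM.hasFDerivAt.comp x ((innerSL ℝ ξ).hasFDerivAt (x := x))
    simpa [Function.comp_def, real_inner_comm] using! this
  have h2 := (h1.const_mul cc).cexp
  rw [pd, ee]
  unfold ee
  rw [h2.fderiv]
  simp [EuclideanSpace.inner_single_right, mul_comm, mul_assoc]

lemma contDiff_pd {f : R3 → ℂ} (hf : ContDiff ℝ ∞ f) (i : Fin 3) : ContDiff ℝ ∞ (pd i f) := by
  unfold pd
  exact (ContDiff.fderiv_right hf (m := ∞) (by norm_cast)).clm_apply contDiff_const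

lemma tsupport_pd {f : R3 → ℂ} (i : Fin 3) : tsupport (pd i f) ⊆ tsupport f :=
  tsupport_fderiv_apply_subset ℝ _

lemma pd_mul_ee {g : R3 → ℂ} (hg : ContDiff ℝ ∞ g) (i : Fin 3) (ξ : R3) :
    pd i (fun x => g x * ee ξ x) = fun x => (pd i g x + cc * (ξ i : ℂ) * g x) * ee ξ x := by
  funext x
  rw [pd_mul (hg.differentiable (by simp) _) ((contDiff_ee ξ).differentiable (by simp) _), pd_ee]
  ring

lemma integral_pd_eq_zero {h : R3 → ℂ} (hh : ContDiff ℝ 1 h) (hc : HasCompactSupport h)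
    (i : Fin 3) : ∫ x, pd i h x = 0 := by
  have hd : Differentiable ℝ h := hh.differentiable (by simp)
  have hcont : Continuous (pd i h) :=
    ((hh.continuous_fderiv (by simp)).clm_apply continuous_const)
  have hint : Integrable (pd i h) :=
    hcont.integrable_of_hasCompactSupport (hc.fderiv_apply ℝ _)
  have := integral_mul_fderiv_eq_neg_fderiv_mul_of_integrable (𝕜 := ℂ) (f := fun _ : R3 => (1 : ℂ))
    (g := h) (v := EuclideanSpace.single i (1 : ℝ)) (μ := volume)
    (by simp) (by simpa using! hint)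
    (by simpa using hd.continuous.integrable_of_hasCompactSupport hc)
    (fun x _ => differentiableAt_const _) (fun x _ => hd x)
  simpa [pd] using this

lemma norm_le_sum_coord (ξ : R3) : ‖ξ‖ ≤ ∑ i, |ξ i| := by
  conv_lhs => rw [← (EuclideanSpace.basisFun (Fin 3) ℝ).sum_repr ξ]
  refine (norm_sum_le _ _).trans (Finset.sum_le_sum fun i _ => ?_)
  simp [norm_smul]

lemma abs_coord_le (ξ : R3) (i : Fin 3) : |ξ i| ≤ ‖ξ‖ := by
  simpa using PiLp.norm_apply_le ξ i

lemma norm_iteratedFDeriv_pd_le {f : R3 → ℂ} (hf : ContDiff ℝ ∞ f) (i : Fin 3) (n : ℕ) (x : R3) :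
    ‖iteratedFDeriv ℝ n (pd i f) x‖ ≤ ‖iteratedFDeriv ℝ (n + 1) f x‖ := by
  have h1 : ContDiff ℝ ∞ (fderiv ℝ f) := ContDiff.fderiv_right hf (m := ∞) (by norm_cast)
  have := ContinuousLinearMap.norm_iteratedFDeriv_comp_left
    (ContinuousLinearMap.apply ℝ ℂ (EuclideanSpace.single i (1 : ℝ))) (f := fderiv ℝ f)
    (n := n) (x := x) h1.contDiffAt (WithTop.coe_le_coe.mpr le_top)
  refine (show ‖iteratedFDeriv ℝ n (pd i f) x‖ ≤ _ from this).trans ?_
  rw [norm_iteratedFDeriv_fderiv]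
  refine mul_le_of_le_one_left (norm_nonneg _) ?_
  refine ContinuousLinearMap.opNorm_le_bound _ zero_le_one fun L => ?_
  simpa using L.le_opNorm (EuclideanSpace.single i (1 : ℝ))

/-- Smooth integrands have decreasing coefficients. -/
lemma smooth_decay {Q : Set R3} (hQ : IsCompact Q) : ∀ s : ℕ, ∃ C, 0 ≤ C ∧
    ∀ h : R3 → ℂ, ContDiff ℝ ∞ h → tsupport h ⊆ Q → ∀ T, 0 ≤ T →
      (∀ x, ∀ i ≤ s, ‖iteratedFDeriv ℝ i h x‖ ≤ T) →
      ∀ ξ, (1 + ‖ξ‖) ^ s * ‖∫ x, h x * ee ξ x‖ ≤ C * T := by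
  intro s
  induction s with
  | zero =>
    refine ⟨(volume Q).toReal, ENNReal.toReal_nonneg, fun h hh hs T hT hb ξ => ?_⟩
    rw [pow_zero, one_mul, ← setIntegral_eq_integral_of_forall_compl_eq_zero (s := Q)]
    · refine (norm_setIntegral_le_of_norm_le_const hQ.measure_lt_top fun x _ => ?_).trans
        (le_of_eq (mul_comm _ _))
      rw [norm_mul, norm_ee, mul_one]
      simpa using hb x 0 le_rfl
    · intro x hx
      rw [image_eq_zero_of_notMem_tsupport (fun hx' => hx (hs hx')), zero_mul]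
  | succ s ih =>
    obtain ⟨C, hC, hd⟩ := ih
    refine ⟨4 * C, by positivity, fun h hh hs T hT hb ξ => ?_⟩
    have h0 := hd h hh hs T hT (fun x i hi => hb x i (hi.trans (Nat.le_succ s))) ξ
    have h1 : ∀ j : Fin 3,
        (1 + ‖ξ‖) ^ s * (|ξ j| * ‖∫ x, h x * ee ξ x‖) ≤ C * T := by
      intro j
      have hcs : HasCompactSupport h := hQ.of_isClosed_subset (isClosed_tsupport _) hs
      have hz : ∫ x, pd j (fun y => h y * ee ξ y) x = 0 :=
        integral_pd_eq_zero (hh.mul (contDiff_ee ξ) |>.of_le (by simp)) hcs.mul_right j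
      rw [pd_mul_ee hh] at hz
      have hi1 : Integrable fun x => pd j h x * ee ξ x :=
        ((contDiff_pd hh j).continuous.mul (contDiff_ee ξ).continuous)
          |>.integrable_of_hasCompactSupport
            (HasCompactSupport.mul_right (f := pd j h) (hcs.fderiv_apply ℝ _))
      have hi2 : Integrable fun x => h x * ee ξ x :=
        (hh.continuous.mul (contDiff_ee ξ).continuous).integrable_of_hasCompactSupport hcs.mul_right
      simp only [add_mul, mul_assoc (cc * (ξ j : ℂ))] at hz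
      rw [integral_add hi1 (hi2.const_mul _), integral_const_mul] at hz
      have hd' := hd (pd j h) (contDiff_pd hh j) ((tsupport_pd j).trans hs) T hT
        (fun x i hi => (norm_iteratedFDeriv_pd_le hh j i x).trans (hb x _ (by omega))) ξ
      refine le_trans ?_ hd'
      rw [eq_neg_of_add_eq_zero_left hz, norm_neg, norm_mul, norm_mul, norm_cc,
        Complex.norm_real, Real.norm_eq_abs]
      gcongr
      nlinarith [abs_nonneg (ξ j), Real.pi_gt_three]
    have hN := norm_le_sum_coord ξ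
    rw [Fin.sum_univ_three] at hN
    have := h1 0; have := h1 1; have := h1 2
    calc (1 + ‖ξ‖) ^ (s + 1) * ‖∫ x, h x * ee ξ x‖
        = (1 + ‖ξ‖) ^ s * ((1 + ‖ξ‖) * ‖∫ x, h x * ee ξ x‖) := by ring
      _ ≤ (1 + ‖ξ‖) ^ s * ((1 + (|ξ 0| + |ξ 1| + |ξ 2|)) * ‖∫ x, h x * ee ξ x‖) := by gcongr
      _ ≤ 4 * C * T := by linarith

/-- A test function on a set. -/
structure Test (O : Set R3) (g : R3 → ℂ) : Prop where
  smooth : ContDiff ℝ ∞ g
  supp : tsupport g ⊆ O
  cpt : HasCompactSupport g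

namespace Test

variable {O : Set R3} {g h : R3 → ℂ}

lemma mul_left (hg : Test O g) (hh : ContDiff ℝ ∞ h) : Test O fun x => h x * g x :=
  ⟨hh.mul hg.smooth, (tsupport_mul_subset_right).trans hg.supp, hg.cpt.mul_left⟩

lemma const_mul (hg : Test O g) (c : ℂ) : Test O fun x => c * g x := hg.mul_left contDiff_const

lemma pd (hg : Test O g) (i : Fin 3) : Test O (P136.pd i g) :=
  ⟨contDiff_pd hg.smooth i, (tsupport_pd i).trans hg.supp, hg.cpt.fderiv_apply ℝ _⟩

lemma add (hg : Test O g) (hh : Test O h) : Test O fun x => g x + h x :=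
  ⟨hg.smooth.add hh.smooth, (tsupport_add g h).trans (Set.union_subset hg.supp hh.supp),
    hg.cpt.add hh.cpt⟩

lemma zero : Test O fun _ => (0 : ℂ) :=
  ⟨contDiff_const, by simp [tsupport], HasCompactSupport.zero⟩

lemma sum {κ : Type*} (t : Finset κ) {g : κ → R3 → ℂ} (hg : ∀ k, Test O (g k)) :
    Test O fun x => ∑ k ∈ t, g k x := by
  classical
  induction t using Finset.induction with
  | empty => simpa using! (zero (O := O))
  | insert a t ha ih => simpa [Finset.sum_insert ha] using! (hg a).add ih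

end Test

/-- The coefficients are bounded by the mass. -/
lemma norm_fint_le {O : Set R3} {g : R3 → ℂ} (hg : Test O g) : ∃ C, 0 ≤ C ∧
    ∀ ρ : R3 → ℂ, MemLp ρ 2 volume → ∀ S, 0 ≤ S → eLpNorm ρ 2 volume ≤ ENNReal.ofReal S →
      ∀ ξ, ‖fint ρ g ξ‖ ≤ C * S := by
  have hgL : MemLp g 2 volume := hg.smooth.continuous.memLp_of_hasCompactSupport hg.cpt
  refine ⟨(eLpNorm g 2 volume).toReal, ENNReal.toReal_nonneg, fun ρ hρ S hS hle ξ => ?_⟩
  have hH : eLpNorm (fun x => g x * ρ x) 1 volume ≤ eLpNorm g 2 volume * eLpNorm ρ 2 volume := by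
    simpa [Pi.smul_def', smul_eq_mul] using! eLpNorm_smul_le_mul_eLpNorm
      (p := 2) (q := 2) (r := 1) hρ.1 hgL.1
  have heq : eLpNorm (fun x => ρ x * (g x * ee ξ x)) 1 volume =
      eLpNorm (fun x => g x * ρ x) 1 volume := by
    refine eLpNorm_congr_norm_ae (.of_forall fun x => ?_)
    simp [norm_ee, mul_comm]
  have hfin : eLpNorm g 2 volume * ENNReal.ofReal S ≠ ⊤ :=
    (ENNReal.mul_lt_top hgL.2 ENNReal.ofReal_lt_top).ne
  have h1 : ‖fint ρ g ξ‖ₑ ≤ eLpNorm g 2 volume * ENNReal.ofReal S := by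
    refine (enorm_integral_le_lintegral_enorm _).trans ?_
    rw [← eLpNorm_one_eq_lintegral_enorm]
    exact heq.le.trans (hH.trans (by gcongr))
  have h2 := ENNReal.toReal_mono hfin h1
  rwa [toReal_enorm, ENNReal.toReal_mul, ENNReal.toReal_ofReal hS] at h2

lemma integrable_fint {O : Set R3} {g ρ : R3 → ℂ} (hg : Test O g) (hρ : MemLp ρ 2 volume)
    (ξ : R3) : Integrable fun x => ρ x * (g x * ee ξ x) := by
  have : MemLp (fun x => g x * ee ξ x) 2 volume :=
    (hg.smooth.continuous.mul (contDiff_ee ξ).continuous).memLp_of_hasCompactSupport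
      hg.cpt.mul_right
  exact hρ.integrable_mul (q := 2) this

lemma fourierChar_neg_inner (x ξ : R3) : (𝐞 (-(⟪x, ξ⟫ : ℝ)) : ℂ) = ee (-ξ) x := by
  simp only [Real.fourierChar_apply, ee, inner_neg_right]
  congr 1
  push_cast
  ring

lemma fourier_eq (f : R3 → ℂ) (ξ : R3) : 𝓕 f ξ = ∫ x, f x * ee (-ξ) x := by
  rw [Real.fourier_eq]
  congr 1
  funext x
  rw [Circle.smul_def, smul_eq_mul, fourierChar_neg_inner, mul_comm]

lemma integral_fourier_mul {f g : R3 → ℂ} (hf : Integrable f) (hg : Integrable g) :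
    ∫ ξ, 𝓕 f ξ * g ξ = ∫ x, f x * 𝓕 g x := by
  have := VectorFourier.integral_fourierIntegral_smul_eq_flip (L := innerₗ R3)
    Real.continuous_fourierChar continuous_inner hf hg
  simp only [smul_eq_mul, flip_innerₗ] at this
  exact this

lemma fint_eq_fourier (ρ g : R3 → ℂ) (ξ : R3) :
    fint ρ g ξ = 𝓕 (fun x => ρ x * g x) (-ξ) := by
  rw [fourier_eq, neg_neg, fint]
  congr 1
  funext x
  ring

/-- A rapidly decreasing transform gives a smooth representative. -/
lemma exists_smooth {O : Set R3} {χ : R3 → ℂ} (hχ : Test O χ) (j : ℕ) : ∃ C, 0 ≤ C ∧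
    ∀ ρ : R3 → ℂ, MemLp ρ 2 volume →
      (∀ s : ℕ, ∃ D, ∀ ξ, (1 + ‖ξ‖) ^ s * ‖fint ρ χ ξ‖ ≤ D) →
      ∃ ρ' : R3 → ℂ, ContDiff ℝ ∞ ρ' ∧
        (∀ φ : R3 → ℂ, ContDiff ℝ ∞ φ → HasCompactSupport φ →
          ∫ x, ρ' x * φ x = ∫ x, ρ x * (χ x * φ x)) ∧
        ∀ D, (∀ ξ, (1 + ‖ξ‖) ^ (j + 4) * ‖fint ρ χ ξ‖ ≤ D) →
          ∀ x, ∀ i ≤ j, ‖iteratedFDeriv ℝ i ρ' x‖ ≤ C * D := by
  let w : R3 → ℝ := fun ξ => (1 + ‖ξ‖) ^ (-(4 : ℝ))
  have hw : Integrable w := integrable_one_add_norm (by simp [finrank_euclideanSpace]; norm_num)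
  have hdom : ∀ (F : R3 → ℂ) (n : ℕ) (D : ℝ), (∀ ξ, (1 + ‖ξ‖) ^ (n + 4) * ‖F ξ‖ ≤ D) →
      ∀ ξ, ‖ξ‖ ^ n * ‖F ξ‖ ≤ D * w ξ := by
    intro F n D hD ξ
    have hp : (0 : ℝ) < 1 + ‖ξ‖ := by positivity
    simp only [w, Real.rpow_neg hp.le, show ((4 : ℝ)) = ((4 : ℕ) : ℝ) by norm_num,
      Real.rpow_natCast, ← div_eq_mul_inv]
    rw [le_div_iff₀ (by positivity)]
    refine le_trans ?_ (hD ξ)
    rw [pow_add, mul_right_comm]
    gcongr
    linarith
  refine ⟨(2 * Real.pi + 1) ^ j * ∫ ξ, w ξ, mul_nonneg (by positivity)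
    (integral_nonneg fun ξ => Real.rpow_nonneg (by positivity) _), fun ρ hρ hdec => ?_⟩
  have hf : Integrable fun x => ρ x * χ x :=
    hρ.integrable_mul (q := 2) (hχ.smooth.continuous.memLp_of_hasCompactSupport hχ.cpt)
  have hcont : Continuous (fint ρ χ) := by
    have h1 : Continuous (𝓕 fun x => ρ x * χ x) := VectorFourier.fourierIntegral_continuous
      Real.continuous_fourierChar continuous_inner hf
    have h2 : fint ρ χ = fun ξ => 𝓕 (fun x => ρ x * χ x) (-ξ) :=
      funext (fint_eq_fourier ρ χ)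
    rw [h2]
    exact h1.comp continuous_neg
  have hmom : ∀ n : ℕ, Integrable fun ξ => ‖ξ‖ ^ n * ‖fint ρ χ ξ‖ := by
    intro n
    obtain ⟨D, hD⟩ := hdec (n + 4)
    refine (hw.const_mul D).mono' (by fun_prop) (.of_forall fun ξ => ?_)
    rw [Real.norm_eq_abs, abs_of_nonneg (by positivity)]
    exact hdom _ n D hD ξ
  have hFi : Integrable (fint ρ χ) := by
    refine (hmom 0).mono' hcont.aestronglyMeasurable (.of_forall fun ξ => ?_)
    simp
  refine ⟨𝓕 (fint ρ χ), Real.contDiff_fourier fun n _ => hmom n, fun φ hφ hφc => ?_,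
    fun D hD x i hi => ?_⟩
  · have hφi : Integrable φ := hφ.continuous.integrable_of_hasCompactSupport hφc
    let Φ : SchwartzMap R3 ℂ := hφc.toSchwartzMap hφ
    have hΦ : ⇑Φ = φ := rfl
    have hFφ : Integrable (𝓕 φ) := by
      rw [← hΦ, ← SchwartzMap.fourier_coe]
      exact (𝓕 Φ).integrable
    rw [integral_fourier_mul hFi hφi]
    simp only [fint_eq_fourier]
    rw [← integral_neg_eq_self]
    simp only [neg_neg]
    rw [integral_fourier_mul hf (by simpa using hFφ.comp_neg)]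
    congr 1
    funext y
    rw [show 𝓕 (fun ξ => 𝓕 φ (-ξ)) y = φ y by
      rw [show (fun ξ => 𝓕 φ (-ξ)) = 𝓕⁻ φ from funext fun ξ =>
        (Real.fourierInv_eq_fourier_neg φ ξ).symm]
      exact hφi.fourier_fourierInv_eq hFφ hφ.continuous.continuousAt]
    ring
  · rw [Real.iteratedFDeriv_fourier (N := ⊤) (fun n _ => hmom n) hcont.aestronglyMeasurable le_top]
    refine le_trans (VectorFourier.norm_fourierIntegral_le_integral_norm _ _ _ _ _) ?_
    rw [← integral_const_mul, ← integral_mul_const]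
    refine integral_mono_of_nonneg (.of_forall fun ξ => norm_nonneg _)
      ((hw.const_mul _).mul_const _) (.of_forall fun ξ => ?_)
    refine (VectorFourier.norm_fourierPowSMulRight_le _ _ _ _).trans ?_
    have hD' : ∀ η, (1 + ‖η‖) ^ (i + 4) * ‖fint ρ χ η‖ ≤ D := fun η =>
      le_trans (by gcongr; linarith [norm_nonneg η]) (hD η)
    have hL : ‖innerSL ℝ (E := R3)‖ ≤ 1 := norm_innerSL_le ℝ
    calc (2 * Real.pi * ‖innerSL ℝ (E := R3)‖) ^ i * ‖ξ‖ ^ i * ‖fint ρ χ ξ‖
        = (2 * Real.pi * ‖innerSL ℝ (E := R3)‖) ^ i * (‖ξ‖ ^ i * ‖fint ρ χ ξ‖) := by ring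
      _ ≤ (2 * Real.pi + 1) ^ j * (D * w ξ) := by
        refine mul_le_mul ?_ (hdom _ i D hD' ξ) (by positivity) (by positivity)
        refine (pow_le_pow_left₀ (by positivity) ?_ i).trans
          (pow_le_pow_right₀ (by linarith [Real.pi_pos]) hi)
        nlinarith [Real.pi_pos]
      _ = _ := by ring

end Vale.Agent.P136.Reg
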