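import Vale.Agent.P136.Spec

/-!
# Calculus of `pd` and `dD`, smoothness of the coefficient functions
-/

noncomputable section

namespace Vale.Agent.P136

open MeasureTheory Metric
open scoped BigOperators ContDiff

section

variable {E : Type*} [NormedAddCommGroup E] [NormedSpace ℝ E] {i : Fin 3} {x : R3}

theorem pd_add {f g : R3 → E} (hf : DifferentiableAt ℝ f x) (hg : DifferentiableAt ℝ g x) :
    pd i (fun y => f y + g y) x = pd i f x + pd i g x := by
  simp [pd, fderiv_fun_add hf hg]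

theorem pd_sub {f g : R3 → E} (hf : DifferentiableAt ℝ f x) (hg : DifferentiableAt ℝ g x) :
    pd i (fun y => f y - g y) x = pd i f x - pd i g x := by
  simp [pd, fderiv_fun_sub hf hg]

@[simp] theorem pd_const (c : E) : pd i (fun _ => c) x = 0 := by simp [pd]

theorem pd_congr {f g : R3 → E} (h : f =ᶠ[nhds x] g) : pd i f x = pd i g x := by
  simp [pd, h.fderiv_eq]

theorem pd_sum {κ : Type*} (s : Finset κ) {f : κ → R3 → E}
    (hf : ∀ k ∈ s, DifferentiableAt ℝ (f k) x) :
    pd i (fun y => ∑ k ∈ s, f k y) x = ∑ k ∈ s, pd i (f k) x := by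
  simp [pd, fderiv_fun_sum hf]

theorem pd_apply {ι : Type*} [Fintype ι] {f : R3 → ι → E} (hf : DifferentiableAt ℝ f x) (a : ι) :
    pd i f x a = pd i (fun y => f y a) x := by
  have h := (ContinuousLinearMap.proj a : (ι → E) →L[ℝ] E).hasFDerivAt.comp x hf.hasFDerivAt
  exact (congrArg (fun L : R3 →L[ℝ] E => L (EuclideanSpace.single i 1)) h.fderiv).symm

theorem contDiff_pd {n : ℕ∞} {f : R3 → E} (hf : ContDiff ℝ (n + 1 : ℕ∞) f) :
    ContDiff ℝ n (pd i f) :=
  (hf.fderiv_right (m := n) (by exact_mod_cast le_rfl)).clm_apply contDiff_const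

theorem smooth_pd {f : R3 → E} (hf : ContDiff ℝ ∞ f) : ContDiff ℝ ∞ (pd i f) :=
  (hf.fderiv_right (m := ∞) (by simp)).clm_apply contDiff_const

/-- A derivative of a compactly supported function integrates to zero. -/
theorem integral_pd [CompleteSpace E] (i : Fin 3) {f : R3 → E} (hf : ContDiff ℝ 1 f)
    (hs : HasCompactSupport f) : ∫ y, pd i f y = 0 := by
  have hd : Continuous fun y => fderiv ℝ f y (EuclideanSpace.single i 1) :=
    (hf.continuous_fderiv one_ne_zero).clm_apply continuous_const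
  have h := integral_smul_fderiv_eq_neg_fderiv_smul_of_integrable (μ := (volume : Measure R3))
    (f := fun _ : R3 => (1 : ℝ)) (g := f) (v := EuclideanSpace.single i 1)
  simp only [one_smul, fderiv_const_apply, zero_apply, zero_smul,
    integral_zero, neg_zero] at h
  exact h (integrable_zero _ _ _) (hd.integrable_of_hasCompactSupport (hs.fderiv_apply ℝ _))
    (hf.continuous.integrable_of_hasCompactSupport hs) (fun _ _ => differentiableAt_const _)
    (fun y _ => hf.differentiable one_ne_zero y)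

end

section Complex

variable {i : Fin 3} {x : R3}

theorem pd_mul {f g : R3 → ℂ} (hf : DifferentiableAt ℝ f x) (hg : DifferentiableAt ℝ g x) :
    pd i (fun y => f y * g y) x = pd i f x * g x + f x * pd i g x := by
  simp [pd, fderiv_fun_mul hf hg, mul_comm (g x)]
  ring

theorem pd_const_mul {f : R3 → ℂ} (c : ℂ) (hf : DifferentiableAt ℝ f x) :
    pd i (fun y => c * f y) x = c * pd i f x := by
  simp [pd, fderiv_const_mul hf c]

theorem pd_smul {ι : Type*} [Fintype ι] {f : R3 → ℂ} {g : R3 → ι → ℂ} (hf : DifferentiableAt ℝ f x)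
    (hg : DifferentiableAt ℝ g x) :
    pd i (fun y => f y • g y) x = pd i f x • g x + f x • pd i g x := by
  simp [pd, fderiv_fun_smul hf hg]
  abel

theorem pd_ofReal {f : R3 → ℝ} (hf : DifferentiableAt ℝ f x) :
    pd i (fun y => (f y : ℂ)) x = ((pd i f x : ℝ) : ℂ) := by
  have h := Complex.ofRealCLM.hasFDerivAt.comp x hf.hasFDerivAt
  exact congrArg (fun L : R3 →L[ℝ] ℂ => L (EuclideanSpace.single i 1)) h.fderiv

theorem hasFDerivAt_phase (θ : C3) (x : R3) :
    HasFDerivAt (fun y : R3 => ∑ j, θ j * (y j : ℂ))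
      (∑ j, θ j • Complex.ofRealCLM.comp (EuclideanSpace.proj j : R3 →L[ℝ] ℝ)) x := by
  refine HasFDerivAt.fun_sum fun j _ => ?_
  exact (Complex.ofRealCLM.comp (EuclideanSpace.proj j : R3 →L[ℝ] ℝ)).hasFDerivAt.const_mul (θ j)

theorem contDiff_cexpθ (τ : ℝ) (θ : C3) : ContDiff ℝ ∞ (cexpθ τ θ) := by
  unfold cexpθ
  exact Complex.contDiff_exp.comp (contDiff_const.mul (ContDiff.sum fun j _ =>
    contDiff_const.mul (Complex.ofRealCLM.contDiff.comp (EuclideanSpace.proj j : R3 →L[ℝ] ℝ).contDiff)))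

theorem pd_cexpθ (τ : ℝ) (θ : C3) :
    pd i (cexpθ τ θ) x = (τ : ℂ) * θ i * cexpθ τ θ x := by
  have h := ((hasFDerivAt_phase θ x).const_mul (τ : ℂ)).cexp
  rw [show pd i (cexpθ τ θ) x = _ from
    congrArg (fun L : R3 →L[ℝ] ℂ => L (EuclideanSpace.single i 1)) h.fderiv]
  simp [cexpθ, PiLp.single_apply, Finset.sum_ite_eq', apply_ite]
  ring

theorem cexpθ_mul_neg (τ : ℝ) (θ : C3) : cexpθ τ θ x * cexpθ τ (-θ) x = 1 := by
  simp [cexpθ, ← Complex.exp_add]

theorem dD_apply {ι : Type*} [Fintype ι] {θ : C3} {f : R3 → ι → ℂ} (hf : DifferentiableAt ℝ f x)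
    (a : ι) : dD θ f x a = dD θ (fun y => f y a) x := by
  simp [dD, pd_apply hf a]

theorem dD_mul {θ : C3} {f g : R3 → ℂ} (hf : DifferentiableAt ℝ f x) (hg : DifferentiableAt ℝ g x) :
    dD θ (fun y => f y * g y) x = dD θ f x * g x + f x * dD θ g x := by
  simp only [dD, smul_eq_mul, pd_mul hf hg, Finset.mul_sum, Finset.sum_mul, ← Finset.sum_add_distrib]
  exact Finset.sum_congr rfl fun j _ => by ring

theorem smooth_dD {E : Type*} [NormedAddCommGroup E] [NormedSpace ℂ E] (θ : C3) {f : R3 → E}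
    (hf : ContDiff ℝ ∞ f) : ContDiff ℝ ∞ (dD θ f) :=
  ContDiff.sum fun j _ => (smooth_pd hf).const_smul (θ j)

/-- A derivative along a complex vector of a compactly supported function integrates to zero. -/
theorem integral_dD (θ : C3) {f : R3 → ℂ} (hf : ContDiff ℝ 1 f) (hs : HasCompactSupport f) :
    ∫ y, dD θ f y = 0 := by
  simp only [dD, smul_eq_mul]
  rw [integral_finsetSum _ fun j _ => ?_]
  · simp [integral_const_mul, integral_pd _ hf hs]
  · exact ((((hf.continuous_fderiv one_ne_zero).clm_apply continuous_const).integrable_of_hasCompactSupport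
      (hs.fderiv_apply ℝ _))).const_mul (θ j)

end Complex

namespace Coef

variable (C : Coef)

theorem lam_add_mu_pos (x : R3) : 0 < C.lam x + C.mu x := by
  linarith [C.mu_pos x, C.bulk_pos x]

theorem lam_add_two_mu_pos (x : R3) : 0 < C.lam x + 2 * C.mu x := by
  linarith [C.mu_pos x, C.lam_add_mu_pos x]

theorem smooth_sqrt : ContDiff ℝ ∞ fun x => Real.sqrt (C.mu x) :=
  C.smooth_mu.sqrt fun x => (C.mu_pos x).ne'

theorem smooth_nu : ContDiff ℝ ∞ C.nu := C.smooth_mu.inv fun x => (C.mu_pos x).ne'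

theorem smooth_kap : ContDiff ℝ ∞ C.kap :=
  (C.smooth_sqrt.mul (C.smooth_lam.add C.smooth_mu)).div
    (C.smooth_lam.add (contDiff_const.mul C.smooth_mu)) fun x => (C.lam_add_two_mu_pos x).ne'

theorem smooth_beta : ContDiff ℝ ∞ C.beta :=
  (C.smooth_lam.add (contDiff_const.mul C.smooth_mu)).div C.smooth_mu fun x => (C.mu_pos x).ne'

theorem smooth_glm (i : Fin 3) : ContDiff ℝ ∞ (C.glm i) :=
  (smooth_pd C.smooth_mu).div C.smooth_mu fun x => (C.mu_pos x).ne'

theorem smooth_hnu (i j : Fin 3) : ContDiff ℝ ∞ (C.hnu i j) := smooth_pd (smooth_pd C.smooth_nu)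

theorem kap_pos (x : R3) : 0 < C.kap x :=
  div_pos (mul_pos (Real.sqrt_pos.mpr (C.mu_pos x)) (C.lam_add_mu_pos x)) (C.lam_add_two_mu_pos x)

end Coef

end Vale.Agent.P136
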