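import Vale.Agent.P136.Mod.CarlemanReal

/-!
# Carleman estimate for the transposed conjugated system

The weight `exp (M t ^ 2 / 2)` and the phase `exp (-i τ b x)` turn the conjugated Laplacian into the
operator `carP`, with real coefficients; the first order terms are absorbed by `M`.
-/

noncomputable section

namespace Vale.Agent.P136.Carleman

open MeasureTheory Metric Complex
open scoped BigOperators ContDiff Matrix

/-- A null vector in real coordinates: `θ = N e + i b`. -/
structure Frame (θ : C3) where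
  N : ℝ
  e : R3
  b : R3
  N_pos : 0 < N
  unit : ∑ i, e i ^ 2 = 1
  norm_b : ∑ i, b i ^ 2 = N ^ 2
  orth : ∑ i, e i * b i = 0
  eq : ∀ i, θ i = (N * e i : ℝ) + (b i : ℝ) * I

lemma exists_frame {θ : C3} (hθ : θ ≠ 0) (hnull : ∑ i, θ i ^ 2 = 0) : Nonempty (Frame θ) := by
  have hre := congrArg Complex.re hnull
  have him := congrArg Complex.im hnull
  simp only [Complex.re_sum, Complex.im_sum, pow_two, Complex.mul_re, Complex.mul_im,
    Finset.sum_sub_distrib, Finset.sum_add_distrib, Complex.zero_re, Complex.zero_im] at hre him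
  set s := ∑ i, (θ i).re * (θ i).re with hs
  have hpos : 0 < s := by
    refine lt_of_le_of_ne (Finset.sum_nonneg fun i _ => mul_self_nonneg _) fun h0 => hθ ?_
    have h1 := (Finset.sum_eq_zero_iff_of_nonneg
      (fun i (_ : i ∈ Finset.univ) => mul_self_nonneg (θ i).re)).1 h0.symm
    have h2 := (Finset.sum_eq_zero_iff_of_nonneg
      (fun i (_ : i ∈ Finset.univ) => mul_self_nonneg (θ i).im)).1 (by linarith)
    funext i
    exact Complex.ext (mul_self_eq_zero.1 (h1 i (Finset.mem_univ _)))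
      (mul_self_eq_zero.1 (h2 i (Finset.mem_univ _)))
  have hne : Real.sqrt s ≠ 0 := (Real.sqrt_pos.2 hpos).ne'
  refine ⟨⟨Real.sqrt s, WithLp.toLp 2 fun i => (θ i).re / Real.sqrt s,
    WithLp.toLp 2 fun i => (θ i).im, Real.sqrt_pos.2 hpos, ?_, ?_, ?_, fun i => ?_⟩⟩
  · simp only [div_pow, ← Finset.sum_div, Real.sq_sqrt hpos.le]
    rw [show ∑ i, (θ i).re ^ 2 = s by simp only [hs, pow_two], div_self hpos.ne']
  · simp only [Real.sq_sqrt hpos.le, pow_two ((θ _).im)]
    linarith
  · simp only [div_mul_eq_mul_div, ← Finset.sum_div]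
    have h2 : ∑ i, (θ i).im * (θ i).re = ∑ i, (θ i).re * (θ i).im :=
      Finset.sum_congr rfl fun i _ => mul_comm _ _
    rw [h2] at him
    rw [show ∑ i, (θ i).re * (θ i).im = 0 by linarith, zero_div]
  · simp [mul_div_cancel₀ _ hne]

variable {θ : C3} (F : Frame θ) (M τ : ℝ)

/-- Minus the logarithm of the weight. -/
def logW (y : R3) : ℂ := (M : ℂ) / 2 * (tc F.e y : ℂ) ^ 2 - (τ : ℂ) * (tc F.b y : ℂ) * I

/-- The weight. -/
def wgt (y : R3) : ℂ := exp (logW F M τ y)

/-- The logarithmic derivative of the inverse weight. -/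
def dlog (i : Fin 3) (y : R3) : ℂ := -((M : ℂ) * (tc F.e y : ℂ) * F.e i) + (τ : ℂ) * F.b i * I

/-- The conjugated Laplacian. -/
def lapT (θ : C3) (τ : ℝ) (φ : R3 → ℂ) (x : R3) : ℂ :=
  ∑ i, pd i (pd i φ) x - (τ : ℂ) * (2 * dD θ φ x)

lemma cd_tcC (e : R3) : ContDiff ℝ ∞ fun y => (tc e y : ℂ) :=
  Complex.ofRealCLM.contDiff.comp (cd_tc e)

lemma cd_wgt : ContDiff ℝ ∞ (wgt F M τ) := by
  have := cd_tcC F.e
  have := cd_tcC F.b
  unfold wgt logW
  exact Complex.contDiff_exp.comp (by fun_prop)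

lemma pd_cexp {f : R3 → ℂ} {i : Fin 3} {x : R3} (hf : DifferentiableAt ℝ f x) :
    pd i (fun y => exp (f y)) x = exp (f x) * pd i f x := by
  unfold pd
  rw [hf.hasFDerivAt.cexp.fderiv]
  simp

lemma pd_tcC (e : R3) (i : Fin 3) (x : R3) : pd i (fun y => (tc e y : ℂ)) x = e i := by
  rw [pd_ofReal (cd_diff (cd_tc e) x), pd_tc]

lemma pd_wgt (i : Fin 3) (x : R3) : pd i (wgt F M τ) x = -(dlog F M τ i x * wgt F M τ x) := by
  have d1 := cd_diff (cd_tcC F.e)
  have d2 := cd_diff (cd_tcC F.b)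
  have hl : pd i (logW F M τ) x = -dlog F M τ i x := by
    have h : logW F M τ = fun y => (M : ℂ) / 2 * ((tc F.e y : ℂ) * (tc F.e y : ℂ))
        + (-(τ : ℂ) * I) * (tc F.b y : ℂ) := by
      funext y; simp only [logW]; ring
    rw [h, pd_add (((d1 x).fun_mul (d1 x)).const_mul _) ((d2 x).const_mul _),
      pd_const_mul _ ((d1 x).fun_mul (d1 x)), pd_const_mul _ (d2 x), P136.pd_mul (d1 x) (d1 x), pd_tcC, pd_tcC, dlog]
    ring
  have hd : DifferentiableAt ℝ (logW F M τ) x := by unfold logW; fun_prop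
  rw [show wgt F M τ = fun y => exp (logW F M τ y) from rfl, pd_cexp hd, hl]
  ring

lemma pd_dlog (i : Fin 3) (x : R3) : pd i (dlog F M τ i) x = -((M : ℂ) * F.e i * F.e i) := by
  have d1 := cd_diff (cd_tcC F.e)
  have h : dlog F M τ i = fun y => (-((M : ℂ) * F.e i)) * (tc F.e y : ℂ) + (τ : ℂ) * F.b i * I := by
    funext y; simp only [dlog]; ring
  rw [h, pd_add ((d1 x).const_mul _) (differentiableAt_const _), pd_const_mul _ (d1 x), pd_tcC, pd_const]
  ring

variable {φ : R3 → ℂ} (hφ : ContDiff ℝ ∞ φ)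

/-- The weighted function. -/
def wfun (φ : R3 → ℂ) (y : R3) : ℂ := φ y * wgt F M τ y

include hφ in
lemma cd_wfun : ContDiff ℝ ∞ (wfun F M τ φ) := hφ.mul (cd_wgt F M τ)

lemma tsupport_wfun : tsupport (wfun F M τ φ) ⊆ tsupport φ := tsupport_mul_subset_left

include hφ in
lemma pd_wfun (i : Fin 3) (x : R3) :
    pd i (wfun F M τ φ) x = wgt F M τ x * (pd i φ x - dlog F M τ i x * φ x) := by
  unfold wfun
  rw [P136.pd_mul (cd_diff hφ x) (cd_diff (cd_wgt F M τ) x), pd_wgt]
  ring

include hφ in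
lemma pd2_wfun (i : Fin 3) (x : R3) :
    pd i (pd i (wfun F M τ φ)) x = wgt F M τ x * (pd i (pd i φ) x - 2 * dlog F M τ i x * pd i φ x
      + (dlog F M τ i x ^ 2 + (M : ℂ) * F.e i * F.e i) * φ x) := by
  have d1 := cd_diff hφ
  have d2 : Differentiable ℝ (pd i φ) := cd_diff (smooth_pd hφ)
  have d3 := cd_diff (cd_wgt F M τ)
  have d4 : Differentiable ℝ (dlog F M τ i) := by
    have := cd_diff (cd_tcC F.e)
    unfold dlog; fun_prop
  rw [show pd i (wfun F M τ φ) = fun y => wgt F M τ y * (pd i φ y - dlog F M τ i y * φ y) from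
    funext fun y => pd_wfun F M τ hφ i y, P136.pd_mul (d3 x) (by fun_prop), pd_wgt,
    P136.pd_sub (d2 x) (by fun_prop), P136.pd_mul (d4 x) (d1 x), pd_dlog]
  ring

include hφ in
/-- The weight turns the conjugated Laplacian into an operator with real coefficients. -/
lemma wgt_lapT (x : R3) :
    wgt F M τ x * lapT θ τ φ x = ∑ i, pd i (pd i (wfun F M τ φ)) x
      - 2 * ((τ * F.N + M * tc F.e x : ℝ) : ℂ) * ∑ i, (F.e i : ℂ) * pd i (wfun F M τ φ) x
      + (((τ * F.N + M * tc F.e x) ^ 2 - M : ℝ) : ℂ) * wfun F M τ φ x := by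
  have hu : ∑ i, (F.e i : ℂ) ^ 2 = 1 := by exact_mod_cast F.unit
  have hb : ∑ i, (F.b i : ℂ) ^ 2 = (F.N : ℂ) ^ 2 := by exact_mod_cast F.norm_b
  have ho : ∑ i, (F.e i : ℂ) * F.b i = 0 := by exact_mod_cast F.orth
  simp only [Fin.sum_univ_three] at hu hb ho
  simp only [pd2_wfun F M τ hφ, pd_wfun F M τ hφ, lapT, dD, smul_eq_mul, Fin.sum_univ_three, F.eq,
    dlog, wfun, Complex.ofReal_mul, Complex.ofReal_add, Complex.ofReal_pow, Complex.ofReal_sub]
  set g := wgt F M τ x
  set tt : ℂ := (tc F.e x : ℂ)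
  linear_combination (-(g * φ x) * ((M : ℂ) + (M : ℂ) ^ 2 * tt ^ 2
      - 2 * ((τ : ℂ) * F.N + (M : ℂ) * tt) * (M : ℂ) * tt)) * hu
    + (g * φ x * (τ : ℂ) ^ 2) * hb
    + (g * φ x * (τ : ℂ) * I * (2 * (M : ℂ) * tt - 2 * ((τ : ℂ) * F.N + (M : ℂ) * tt))) * ho
    - (g * φ x * (τ : ℂ) ^ 2 * ((F.b 0 : ℂ) ^ 2 + (F.b 1 : ℂ) ^ 2 + (F.b 2 : ℂ) ^ 2))
      * Complex.I_sq

variable {R : ℝ}

lemma one_le_norm_wgt (hM : 0 ≤ M) (x : R3) : 1 ≤ ‖wgt F M τ x‖ := by
  rw [wgt, Complex.norm_exp]
  refine Real.one_le_exp ?_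
  simp [logW, ← Complex.ofReal_pow]
  positivity

lemma norm_wgt_sq_le (hM : 0 ≤ M) {x : R3} (hx : ‖x‖ ≤ R) :
    ‖wgt F M τ x‖ ^ 2 ≤ Real.exp (M * R ^ 2) := by
  rw [wgt, Complex.norm_exp, ← Real.exp_nat_mul]
  refine Real.exp_le_exp.2 ?_
  have h1 : tc F.e x ^ 2 ≤ R ^ 2 :=
    sq_le_sq.2 (((abs_tc_le F.unit x).trans hx).trans (le_abs_self R))
  have h2 := mul_le_mul_of_nonneg_left h1 hM
  simp [logW, ← Complex.ofReal_pow]
  linarith

lemma norm_dlog_le (hM : 0 ≤ M) (hτ : 0 ≤ τ) (i : Fin 3) {x : R3} (hx : ‖x‖ ≤ R) :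
    ‖dlog F M τ i x‖ ≤ M * R + τ * F.N := by
  have he : |F.e i| ≤ 1 := by
    rw [← sq_le_one_iff_abs_le_one, ← F.unit]
    exact Finset.single_le_sum (fun j _ => sq_nonneg (F.e j)) (Finset.mem_univ i)
  have hb : |F.b i| ≤ F.N := abs_le_of_sq_le_sq
    (F.norm_b ▸ Finset.single_le_sum (fun j _ => sq_nonneg (F.b j)) (Finset.mem_univ i))
    F.N_pos.le
  refine (norm_add_le _ _).trans ?_
  simp only [norm_neg, norm_mul, Complex.norm_real, Complex.norm_I, mul_one, Real.norm_eq_abs,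
    abs_of_nonneg hM, abs_of_nonneg hτ, mul_assoc]
  gcongr
  calc |tc F.e x| * |F.e i| ≤ R * 1 :=
        mul_le_mul ((abs_tc_le F.unit x).trans hx) he (abs_nonneg _) ((norm_nonneg x).trans hx)
    _ = R := mul_one R

/-- The left hand side of the estimate. -/
def energyW (φ : R3 → ℂ) (x : R3) : ℝ :=
  M * ∑ i, ‖pd i (wfun F M τ φ) x‖ ^ 2
    + M * (τ * F.N) ^ 2 / 2 * ‖wfun F M τ φ x‖ ^ 2

lemma pd_re {f : R3 → ℂ} (hf : Differentiable ℝ f) (i : Fin 3) (x : R3) :
    pd i (fun y => (f y).re) x = (pd i f x).re :=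
  congrArg (fun L : R3 →L[ℝ] ℝ => L (EuclideanSpace.single i 1))
    (Complex.reCLM.hasFDerivAt.comp x (hf x).hasFDerivAt).fderiv

lemma pd_im {f : R3 → ℂ} (hf : Differentiable ℝ f) (i : Fin 3) (x : R3) :
    pd i (fun y => (f y).im) x = (pd i f x).im :=
  congrArg (fun L : R3 →L[ℝ] ℝ => L (EuclideanSpace.single i 1))
    (Complex.imCLM.hasFDerivAt.comp x (hf x).hasFDerivAt).fderiv

include hφ in
lemma cont_lapT : Continuous (lapT θ τ φ) := by
  have := fun i => (smooth_pd (i := i) (smooth_pd (i := i) hφ)).continuous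
  have := (smooth_dD θ hφ).continuous
  unfold lapT
  fun_prop

lemma lapT_out {x : R3} (h : x ∉ tsupport φ) : lapT θ τ φ x = 0 := by
  simp [lapT, dD, pd_zero_out h,
    fun i => pd_zero_out (f := pd i φ) (fun h' => h (tsupport_pd φ i h')) i]

lemma integrable_of_out {f : R3 → ℝ} (hc : Continuous f) {K : Set R3} (hK : IsCompact K)
    (ho : ∀ x ∉ K, f x = 0) : Integrable f :=
  hc.integrable_of_hasCompactSupport
    (HasCompactSupport.of_support_subset_isCompact hK fun x hx => by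
      by_contra h
      exact hx (ho x h))

include hφ in
lemma cont_energyW : Continuous (energyW F M τ φ) := by
  have := fun i => (smooth_pd (i := i) (cd_wfun F M τ hφ)).continuous
  have := (cd_wfun F M τ hφ).continuous
  unfold energyW
  fun_prop

lemma energyW_out {x : R3} (h : x ∉ tsupport φ) : energyW F M τ φ x = 0 := by
  have h1 : x ∉ tsupport (wfun F M τ φ) := fun h' => h (tsupport_wfun F M τ h')
  simp [energyW, pd_zero_out h1, image_eq_zero_of_notMem_tsupport h1]

include hφ in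
/-- The scalar estimate. -/
theorem scalar_carleman (hM : 0 ≤ M) (hMT : M ≤ (τ * F.N) ^ 2) (hT : 2 * M * R ≤ τ * F.N)
    (hs : tsupport φ ⊆ closedBall 0 R) :
    ∫ x, energyW F M τ φ x ≤ ∫ x, ‖wgt F M τ x * lapT θ τ φ x‖ ^ 2 := by
  have hv := cd_wfun F M τ hφ
  set v := wfun F M τ φ with hvdef
  have hd := cd_diff hv
  have hsv : tsupport v ⊆ closedBall 0 R := (tsupport_wfun F M τ).trans hs
  have hK := isCompact_closedBall (0 : R3) R
  have sre : tsupport (fun y => (v y).re) ⊆ closedBall 0 R :=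
    (tsupport_comp_subset Complex.zero_re v).trans hsv
  have sim : tsupport (fun y => (v y).im) ⊆ closedBall 0 R :=
    (tsupport_comp_subset Complex.zero_im v).trans hsv
  have cre : ContDiff ℝ ∞ (fun y => (v y).re) := Complex.reCLM.contDiff.comp hv
  have cim : ContDiff ℝ ∞ (fun y => (v y).im) := Complex.imCLM.contDiff.comp hv
  have p1 : ∀ i, pd i (fun y => (v y).re) = fun y => (pd i v y).re := fun i =>
    funext (pd_re hd i)
  have p2 : ∀ i, pd i (fun y => (v y).im) = fun y => (pd i v y).im := fun i =>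
    funext (pd_im hd i)
  have q1 : ∀ i x, pd i (fun y => (pd i v y).re) x = (pd i (pd i v) x).re := fun i x =>
    pd_re (cd_diff (smooth_pd hv)) i x
  have q2 : ∀ i x, pd i (fun y => (pd i v y).im) x = (pd i (pd i v) x).im := fun i x =>
    pd_im (cd_diff (smooth_pd hv)) i x
  have hP : ∀ x, carP F.e M (τ * F.N) (fun y => (v y).re) x ^ 2
      + carP F.e M (τ * F.N) (fun y => (v y).im) x ^ 2 = ‖wgt F M τ x * lapT θ τ φ x‖ ^ 2 := by
    intro x
    rw [Complex.sq_norm, Complex.normSq_apply, wgt_lapT F M τ hφ, ← hvdef]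
    simp [carP, de, p1, p2, q1, q2, Fin.sum_univ_three, pow_two]
  have hE : ∀ x, M * gsq (fun y => (v y).re) x + M * (τ * F.N) ^ 2 / 2 * (v x).re ^ 2
      + (M * gsq (fun y => (v y).im) x + M * (τ * F.N) ^ 2 / 2 * (v x).im ^ 2)
      = energyW F M τ φ x := by
    intro x
    simp only [energyW, ← hvdef, gsq, p1, p2, Complex.sq_norm, Complex.normSq_apply,
      Fin.sum_univ_three]
    ring
  have cont1 : ∀ u : R3 → ℝ, ContDiff ℝ ∞ u →
      Continuous fun x => M * gsq u x + M * (τ * F.N) ^ 2 / 2 * u x ^ 2 := fun u hu => by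
    have := fun i => (smooth_pd (i := i) hu).continuous
    have := hu.continuous
    unfold gsq; fun_prop
  have cont2 : ∀ u : R3 → ℝ, ContDiff ℝ ∞ u →
      Continuous fun x => carP F.e M (τ * F.N) u x ^ 2 := fun u hu => by
    have := fun i => (smooth_pd (i := i) hu).continuous
    have := fun i => (smooth_pd (i := i) (smooth_pd (i := i) hu)).continuous
    have := hu.continuous
    have := (cd_tc F.e).continuous
    unfold carP de; fun_prop
  have out : ∀ u : R3 → ℝ, tsupport u ⊆ closedBall 0 R → ∀ x ∉ closedBall (0 : R3) R,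
      u x = 0 ∧ (∀ i, pd i u x = 0) ∧ ∀ i, pd i (pd i u) x = 0 := fun u hu x hx =>
    ⟨image_eq_zero_of_notMem_tsupport fun h => hx (hu h),
      fun i => pd_zero_out (fun h => hx (hu h)) i,
      fun i => pd_zero_out (fun h => hx (hu (tsupport_pd u i h))) i⟩
  have i1 : ∀ u : R3 → ℝ, ContDiff ℝ ∞ u → tsupport u ⊆ closedBall 0 R →
      Integrable fun x => M * gsq u x + M * (τ * F.N) ^ 2 / 2 * u x ^ 2 := fun u hu hus =>
    integrable_of_out (cont1 u hu) hK fun x hx => by simp [gsq, (out u hus x hx).1, (out u hus x hx).2.1]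
  have i2 : ∀ u : R3 → ℝ, ContDiff ℝ ∞ u → tsupport u ⊆ closedBall 0 R →
      Integrable fun x => carP F.e M (τ * F.N) u x ^ 2 := fun u hu hus =>
    integrable_of_out (cont2 u hu) hK fun x hx => by
      simp [carP, de, (out u hus x hx).1, (out u hus x hx).2.1, (out u hus x hx).2.2]
  simp only [← hE, ← hP]
  rw [integral_add (i1 _ cre sre) (i1 _ cim sim), integral_add (i2 _ cre sre) (i2 _ cim sim)]
  exact add_le_add (real_carleman F.unit hM hMT hT cre sre)
    (real_carleman F.unit hM hMT hT cim sim)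

section system

variable {ι : Type} [Fintype ι] (A : Fin 3 → R3 → Matrix ι ι ℂ) (B : R3 → Matrix ι ι ℂ)

/-- The lower order terms. -/
def pertT (θ : C3) (τ : ℝ) (φ : R3 → ι → ℂ) (x : R3) (a : ι) : ℂ :=
  ∑ c, (-(∑ i, (pd i (fun y => A i y c a) x * φ x c + A i x c a * pd i (fun y => φ y c) x))
    + (B x c a + (τ : ℂ) * ∑ i, θ i * A i x c a) * φ x c)

lemma sysConjT_apply (hA : ∀ i a b, ContDiff ℝ ∞ fun x => A i x a b) {φ : R3 → ι → ℂ}
    (hφ : ContDiff ℝ ∞ φ) (θ : C3) (τ : ℝ) (x : R3) (a : ι) :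
    sysConjT A B τ θ φ x a = lapT θ τ (fun y => φ y a) x + pertT A B θ τ φ x a := by
  have hc : ∀ c, ContDiff ℝ ∞ fun y => φ y c := contDiff_pi.1 hφ
  have h1 : ∀ i, pd i φ = fun y a => pd i (fun z => φ z a) y := fun i =>
    funext fun y => funext fun a => pd_apply (cd_diff hφ y) a
  have h2 : ∀ i, pd i (pd i φ) x a = pd i (pd i fun z => φ z a) x := fun i => by
    rw [pd_apply (cd_diff (smooth_pd hφ) x) a]
    congr 1
    exact funext fun y => pd_apply (cd_diff hφ y) a
  have h3 : ∀ i, pd i (fun y => (A i y)ᵀ *ᵥ φ y) x a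
      = ∑ c, (pd i (fun y => A i y c a) x * φ x c + A i x c a * pd i (fun y => φ y c) x) := by
    intro i
    have hd : ContDiff ℝ ∞ fun y => (A i y)ᵀ *ᵥ φ y := contDiff_pi.2 fun a' => by
      simp only [Matrix.mulVec, dotProduct, Matrix.transpose_apply]
      exact ContDiff.sum fun c _ => (hA i c a').mul (hc c)
    rw [pd_apply (cd_diff hd x) a]
    simp only [Matrix.mulVec, dotProduct, Matrix.transpose_apply]
    rw [pd_sum _ fun c _ => ((hA i c a).mul (hc c)).differentiable (by simp) x]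
    exact Finset.sum_congr rfl fun c _ =>
      P136.pd_mul (cd_diff (hA i c a) x) (cd_diff (hc c) x)
  simp only [sysConjT, Pi.add_apply, Pi.sub_apply, Finset.sum_apply, Pi.smul_apply, smul_eq_mul,
    h2, h3, dD_apply (cd_diff hφ x), Matrix.mulVec, dotProduct, Matrix.transpose_apply, lapT, pertT]
  simp only [Fin.sum_univ_three, Finset.sum_add_distrib, Finset.mul_sum, Finset.sum_neg_distrib,
    add_mul, mul_add, mul_sub]
  simp only [mul_assoc, mul_left_comm]
  abel

lemma sq_sum_le_card {κ : Type*} [Fintype κ] (f : κ → ℝ) :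
    (∑ k, f k) ^ 2 ≤ Fintype.card κ * ∑ k, f k ^ 2 := by
  simpa using sq_sum_le_card_mul_sum_sq (s := Finset.univ) (f := f)

include F in
/-- **The system estimate.** -/
theorem sys_carleman (hA : ∀ i a b, ContDiff ℝ ∞ fun x => A i x a b)
    (hB : ∀ a b, ContDiff ℝ ∞ fun x => B x a b) :
    ∃ K τ₀ : ℝ, 0 ≤ K ∧ 0 < τ₀ ∧ ∀ τ : ℝ, τ₀ ≤ τ → ∀ φ : R3 → ι → ℂ, ContDiff ℝ ∞ φ →
      tsupport φ ⊆ closedBall 0 R → Continuous (sysConjT A B τ θ φ) ∧
      (∀ x ∉ tsupport φ, sysConjT A B τ θ φ x = 0) ∧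
      ∫ x, ∑ a, ‖φ x a‖ ^ 2 ≤ K * ∫ x, ∑ a, ‖sysConjT A B τ θ φ x a‖ ^ 2 := by
  have hK := isCompact_closedBall (0 : R3) R
  obtain ⟨C₀, hC₀⟩ : ∃ C, ∀ x ∈ closedBall (0 : R3) R, ∀ i c a,
      ‖A i x c a‖ ≤ C ∧ ‖pd i (fun y => A i y c a) x‖ ≤ C ∧ ‖B x c a‖ ≤ C := by
    have hcont : Continuous fun x => ∑ i, ∑ c, ∑ a,
        (‖A i x c a‖ + ‖pd i (fun y => A i y c a) x‖ + ‖B x c a‖) := by
      have := fun i c a => (hA i c a).continuous
      have := fun i c a => (smooth_pd (i := i) (hA i c a)).continuous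
      have := fun c a => (hB c a).continuous
      fun_prop
    obtain ⟨C, hC⟩ := (hK.image hcont).bddAbove
    refine ⟨C, fun x hx i c a => ?_⟩
    have h := hC ⟨x, hx, rfl⟩
    have h0 : ‖A i x c a‖ + ‖pd i (fun y => A i y c a) x‖ + ‖B x c a‖ ≤ C := by
      refine le_trans ?_ h
      exact le_trans (le_trans (Finset.single_le_sum (f := fun a =>
          ‖A i x c a‖ + ‖pd i (fun y => A i y c a) x‖ + ‖B x c a‖)
          (fun _ _ => by positivity) (Finset.mem_univ a))
        (Finset.single_le_sum (f := fun c => ∑ a,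
          (‖A i x c a‖ + ‖pd i (fun y => A i y c a) x‖ + ‖B x c a‖))
          (fun _ _ => by positivity) (Finset.mem_univ c)))
        (Finset.single_le_sum (f := fun i => ∑ c, ∑ a,
          (‖A i x c a‖ + ‖pd i (fun y => A i y c a) x‖ + ‖B x c a‖))
          (fun _ _ => by positivity) (Finset.mem_univ i))
    have := norm_nonneg (A i x c a)
    have := norm_nonneg (pd i (fun y => A i y c a) x)
    have := norm_nonneg (B x c a)
    exact ⟨by linarith, by linarith, by linarith⟩
  set C := max C₀ 0 with hCdef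
  -- the constants
  set Θ : ℝ := ∑ i, ‖θ i‖
  set D : ℝ := (3 * (2 * F.N) + 4 + Θ) / F.N with hDdef
  have hD0 : 0 ≤ D := by
    have : 0 ≤ Θ := Finset.sum_nonneg fun i _ => norm_nonneg _
    have := F.N_pos
    positivity
  set n : ℝ := (Fintype.card ι : ℝ)
  set C₁ : ℝ := n * (C ^ 2 * n * 4 * (1 + D ^ 2)) with hC₁def
  have hC₁ : 0 ≤ C₁ := by positivity
  set M : ℝ := 4 * C₁ + 2 with hMdef
  have hM : 0 ≤ M := by positivity
  refine ⟨2 * Real.exp (M * R ^ 2) / F.N ^ 2,
    max 1 (max (2 * M * R / F.N) (Real.sqrt M / F.N)), by positivity,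
    lt_of_lt_of_le one_pos (le_max_left _ _), fun τ hτ φ hφ hs => ?_⟩
  have hN := F.N_pos
  have hτ1 : 1 ≤ τ := le_trans (le_max_left _ _) hτ
  have hT : 2 * M * R ≤ τ * F.N :=
    (div_le_iff₀ hN).1 (le_trans (le_trans (le_max_left _ _) (le_max_right _ _)) hτ)
  have hMT : M ≤ (τ * F.N) ^ 2 := by
    have h := (div_le_iff₀ hN).1 (le_trans (le_trans (le_max_right _ _) (le_max_right _ _)) hτ)
    calc M = Real.sqrt M ^ 2 := (Real.sq_sqrt hM).symm
      _ ≤ _ := pow_le_pow_left₀ (Real.sqrt_nonneg M) h 2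
  have hc : ∀ c, ContDiff ℝ ∞ fun y => φ y c := contDiff_pi.1 hφ
  have hsc : ∀ c, tsupport (fun y => φ y c) ⊆ tsupport φ := fun c =>
    tsupport_comp_subset (g := fun z : ι → ℂ => z c) rfl φ
  have hS : ∀ a, (fun x => sysConjT A B τ θ φ x a)
      = fun x => lapT θ τ (fun y => φ y a) x + pertT A B θ τ φ x a := fun a =>
    funext fun x => sysConjT_apply A B hA hφ θ τ x a
  have hcS : ∀ a, Continuous fun x => sysConjT A B τ θ φ x a := fun a => by
    rw [hS a]
    have := cont_lapT (θ := θ) τ (hc a)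
    have := fun i c a => (hA i c a).continuous
    have := fun i c a => (smooth_pd (i := i) (hA i c a)).continuous
    have := fun c a => (hB c a).continuous
    have := fun i c => (smooth_pd (i := i) (hc c)).continuous
    have := fun c => (hc c).continuous
    unfold pertT
    fun_prop
  have hout : ∀ x ∉ tsupport φ, sysConjT A B τ θ φ x = 0 := fun x hx => funext fun a => by
    have h0 : ∀ c, φ x c = 0 := fun c => by simp [image_eq_zero_of_notMem_tsupport hx]
    have h1 : ∀ i c, pd i (fun y => φ y c) x = 0 := fun i c =>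
      pd_zero_out (fun h => hx (hsc c h)) i
    rw [congrFun (hS a) x, lapT_out τ fun h => hx (hsc a h)]
    simp [pertT, h0, h1]
  refine ⟨continuous_pi hcS, hout, ?_⟩
  -- the pointwise inequality
  set W : R3 → ℝ := fun x => ∑ a, energyW F M τ (fun y => φ y a) x
  set L : R3 → ℝ := fun x => ∑ a, ‖wgt F M τ x * lapT θ τ (fun y => φ y a) x‖ ^ 2
  set G : R3 → ℝ := fun x => (τ * F.N) ^ 2 * ∑ a, ‖φ x a‖ ^ 2
  set H : R3 → ℝ := fun x => 2 * Real.exp (M * R ^ 2) * ∑ a, ‖sysConjT A B τ θ φ x a‖ ^ 2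
  have hpt : ∀ x, G x + L x ≤ H x + W x := by
    intro x
    by_cases hx : x ∈ tsupport φ
    swap
    · have h0 : ∀ c, φ x c = 0 := fun c => by simp [image_eq_zero_of_notMem_tsupport hx]
      simp [G, L, H, W, h0, hout x hx, energyW_out F M τ fun h => hx (hsc _ h),
        lapT_out τ fun h => hx (hsc _ h)]
    have hxR : ‖x‖ ≤ R := mem_closedBall_zero_iff.1 (hs hx)
    set g := wgt F M τ x
    set T := τ * F.N
    have hT0 : 0 ≤ T := by positivity
    set u : ι → ℝ := fun c => ‖wfun F M τ (fun y => φ y c) x‖ with hu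
    set du : ι → Fin 3 → ℝ := fun c i => ‖pd i (wfun F M τ (fun y => φ y c)) x‖ with hdu
    have hb1 : ∀ c, ‖g‖ * ‖φ x c‖ = u c := fun c => by simp [hu, g, wfun, mul_comm]
    have hb2 : ∀ c i, ‖g‖ * ‖pd i (fun y => φ y c) x‖ ≤ du c i + (M * R + T) * u c := fun c i => by
      have h : g * pd i (fun y => φ y c) x = pd i (wfun F M τ (fun y => φ y c)) x
          + dlog F M τ i x * wfun F M τ (fun y => φ y c) x := by
        rw [pd_wfun F M τ (hc c)]; simp only [g, wfun]; ring
      rw [← norm_mul, h]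
      refine (norm_add_le _ _).trans ?_
      rw [norm_mul]
      exact add_le_add le_rfl (mul_le_mul_of_nonneg_right
        (norm_dlog_le F M τ hM (by linarith) i hxR) (norm_nonneg _))
    have hpert : ∀ a, ‖g * pertT A B θ τ φ x a‖ ≤ C * ∑ c, ((∑ i, du c i) + D * T * u c) := by
      intro a
      rw [pertT, Finset.mul_sum, Finset.mul_sum]
      refine (norm_sum_le _ _).trans (Finset.sum_le_sum fun c _ => ?_)
      have hCA : ∀ i, ‖A i x c a‖ ≤ C := fun i =>
        (hC₀ x (hs hx) i c a).1.trans (le_max_left _ _)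
      have hCd : ∀ i, ‖pd i (fun y => A i y c a) x‖ ≤ C := fun i =>
        (hC₀ x (hs hx) i c a).2.1.trans (le_max_left _ _)
      have hCB : ‖B x c a‖ ≤ C := (hC₀ x (hs hx) 0 c a).2.2.trans (le_max_left _ _)
      have hC0 : 0 ≤ C := le_max_right _ _
      have e1 : ‖B x c a + (τ : ℂ) * ∑ i, θ i * A i x c a‖ ≤ C + τ * (Θ * C) := by
        refine (norm_add_le _ _).trans (add_le_add hCB ?_)
        rw [norm_mul, Complex.norm_real, Real.norm_of_nonneg (by linarith : (0:ℝ) ≤ τ)]
        refine mul_le_mul_of_nonneg_left ?_ (by linarith)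
        rw [Finset.sum_mul]
        refine (norm_sum_le _ _).trans (Finset.sum_le_sum fun i _ => ?_)
        rw [norm_mul]
        exact mul_le_mul_of_nonneg_left (hCA i) (norm_nonneg _)
      calc ‖g * _‖ ≤ ‖g‖ * ((∑ i, (C * ‖φ x c‖ + C * ‖pd i (fun y => φ y c) x‖))
            + (C + τ * (Θ * C)) * ‖φ x c‖) := by
            rw [norm_mul]
            refine mul_le_mul_of_nonneg_left ((norm_add_le _ _).trans (add_le_add ?_ ?_))
              (norm_nonneg _)
            · rw [norm_neg]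
              refine (norm_sum_le _ _).trans (Finset.sum_le_sum fun i _ =>
                (norm_add_le _ _).trans ?_)
              rw [norm_mul, norm_mul]
              gcongr
              · exact hCd i
              · exact hCA i
            · rw [norm_mul]
              exact mul_le_mul_of_nonneg_right e1 (norm_nonneg _)
        _ = C * ((∑ i, (‖g‖ * ‖φ x c‖ + ‖g‖ * ‖pd i (fun y => φ y c) x‖))
            + (1 + τ * Θ) * (‖g‖ * ‖φ x c‖)) := by
            simp only [Fin.sum_univ_three]; ring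
        _ ≤ C * ((∑ i, (u c + (du c i + (M * R + T) * u c))) + (1 + τ * Θ) * u c) := by
            simp only [hb1]
            gcongr with i
            exact hb2 c i
        _ ≤ C * ((∑ i, du c i) + D * T * u c) := by
            refine mul_le_mul_of_nonneg_left ?_ hC0
            have e2 : 3 * (M * R + T) + 4 + τ * Θ ≤ D * T := by
              rw [hDdef, show (3 * (2 * F.N) + 4 + Θ) / F.N * T
                = 3 * (2 * T) + 4 * τ + τ * Θ by simp only [T]; field_simp]
              have : 0 ≤ T := hT0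
              linarith
            have e3 := mul_le_mul_of_nonneg_right e2 (norm_nonneg _ : 0 ≤ u c)
            simp only [Fin.sum_univ_three]
            linarith
    have hsq : ∑ a, ‖g * pertT A B θ τ φ x a‖ ^ 2
        ≤ C₁ * ∑ c, ((∑ i, du c i ^ 2) + T ^ 2 * u c ^ 2) := by
      refine (Finset.sum_le_sum fun a _ =>
        pow_le_pow_left₀ (norm_nonneg _) (hpert a) 2).trans ?_
      rw [Finset.sum_const, Finset.card_univ, nsmul_eq_mul, mul_pow, hC₁def, mul_assoc n]
      refine mul_le_mul_of_nonneg_left ?_ (Nat.cast_nonneg _)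
      rw [mul_assoc (C ^ 2), mul_assoc (C ^ 2), mul_assoc (C ^ 2)]
      refine mul_le_mul_of_nonneg_left ?_ (sq_nonneg C)
      refine (sq_sum_le_card _).trans ?_
      rw [mul_assoc n, mul_assoc n]
      refine mul_le_mul_of_nonneg_left ?_ (Nat.cast_nonneg _)
      rw [Finset.mul_sum]
      refine Finset.sum_le_sum fun c _ => ?_
      simp only [Fin.sum_univ_three]
      nlinarith [sq_nonneg (du c 0 - du c 1), sq_nonneg (du c 0 - du c 2),
        sq_nonneg (du c 1 - du c 2), sq_nonneg (du c 0 - D * T * u c),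
        sq_nonneg (du c 1 - D * T * u c), sq_nonneg (du c 2 - D * T * u c),
        mul_nonneg (sq_nonneg D) (add_nonneg (add_nonneg (sq_nonneg (du c 0))
          (sq_nonneg (du c 1))) (sq_nonneg (du c 2))), sq_nonneg (T * u c)]
    have hL : L x ≤ H x + 2 * ∑ a, ‖g * pertT A B θ τ φ x a‖ ^ 2 := by
      simp only [L, H, Finset.mul_sum, ← Finset.sum_add_distrib]
      refine Finset.sum_le_sum fun a _ => ?_
      rw [show g * lapT θ τ (fun y => φ y a) x
        = g * sysConjT A B τ θ φ x a - g * pertT A B θ τ φ x a by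
          rw [congrFun (hS a) x]; ring]
      have h1 : ‖g * sysConjT A B τ θ φ x a‖ ^ 2
          ≤ Real.exp (M * R ^ 2) * ‖sysConjT A B τ θ φ x a‖ ^ 2 := by
        rw [norm_mul, mul_pow]
        exact mul_le_mul_of_nonneg_right (norm_wgt_sq_le F M τ hM hxR) (sq_nonneg _)
      have h2 := pow_le_pow_left₀ (norm_nonneg _)
        (norm_sub_le (g * sysConjT A B τ θ φ x a) (g * pertT A B θ τ φ x a)) 2
      have h3 := sq_nonneg (‖g * sysConjT A B τ θ φ x a‖ - ‖g * pertT A B θ τ φ x a‖)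
      nlinarith
    have hG : G x ≤ T ^ 2 * ∑ c, u c ^ 2 := by
      refine mul_le_mul_of_nonneg_left (Finset.sum_le_sum fun c _ => ?_) (sq_nonneg T)
      rw [← hb1]
      exact pow_le_pow_left₀ (norm_nonneg _)
        (le_mul_of_one_le_left (norm_nonneg _) (one_le_norm_wgt F M τ hM x)) 2
    have hW : W x = M * (∑ c, ∑ i, du c i ^ 2) + M / 2 * T ^ 2 * ∑ c, u c ^ 2 := by
      simp only [W, energyW, hu, hdu, Finset.sum_add_distrib, Finset.mul_sum]
      exact congrArg₂ _ rfl (Finset.sum_congr rfl fun c _ => by ring)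
    rw [Finset.sum_add_distrib, ← Finset.mul_sum] at hsq
    have h4 : 0 ≤ ∑ c, ∑ i, du c i ^ 2 := by positivity
    have h5 := mul_nonneg (show 0 ≤ M - 2 * C₁ by linarith) h4
    rw [hW]
    nlinarith
  -- integration
  have hKφ : IsCompact (tsupport φ) := hK.of_isClosed_subset (isClosed_tsupport φ) hs
  have cφ := fun a => (hc a).continuous
  have iG : Integrable G := integrable_of_out (by fun_prop) hKφ fun x hx => by
    simp [G, image_eq_zero_of_notMem_tsupport hx]
  have iH : Integrable H := integrable_of_out (by fun_prop) hKφ fun x hx => by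
    simp [H, hout x hx]
  have iLa : ∀ a, Integrable fun x => ‖wgt F M τ x * lapT θ τ (fun y => φ y a) x‖ ^ 2 := fun a =>
    integrable_of_out (by
      have := cont_lapT (θ := θ) τ (hc a)
      have := (cd_wgt F M τ).continuous
      fun_prop) hKφ fun x hx => by simp [lapT_out τ fun h => hx (hsc a h)]
  have iWa : ∀ a, Integrable (energyW F M τ fun y => φ y a) := fun a =>
    integrable_of_out (cont_energyW F M τ (hc a)) hKφ fun x hx =>
      energyW_out F M τ fun h => hx (hsc a h)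
  have iL : Integrable L := integrable_finsetSum _ fun a _ => iLa a
  have iW : Integrable W := integrable_finsetSum _ fun a _ => iWa a
  have hint := integral_mono (iG.add iL) (iH.add iW) hpt
  simp only [Pi.add_apply] at hint
  rw [integral_add iG iL, integral_add iH iW] at hint
  have hLW : ∫ x, W x ≤ ∫ x, L x := by
    rw [integral_finsetSum _ fun a _ => iWa a, integral_finsetSum _ fun a _ => iLa a]
    exact Finset.sum_le_sum fun a _ =>
      scalar_carleman F M τ (hc a) hM hMT hT ((hsc a).trans hs)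
  have hfin : ∫ x, G x ≤ ∫ x, H x := by linarith
  simp only [G, H, integral_const_mul] at hfin
  have hT2 : F.N ^ 2 ≤ (τ * F.N) ^ 2 :=
    pow_le_pow_left₀ hN.le (le_mul_of_one_le_left hN.le hτ1) 2
  rw [div_mul_eq_mul_div, le_div_iff₀ (by positivity), mul_comm (∫ x, ∑ a, ‖φ x a‖ ^ 2)]
  exact (mul_le_mul_of_nonneg_right hT2 (integral_nonneg fun x => by positivity)).trans hfin

end system

end Vale.Agent.P136.Carleman
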