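import Vale.Agent.P136.Mod.Calc

/-!
# Carleman estimate for the Laplacian with a convexified linear weight

For real `v` supported in a ball and the weight `T t + M t ^ 2 / 2`, `t = e . x`.
-/

noncomputable section

namespace Vale.Agent.P136.Carleman

open MeasureTheory
open scoped BigOperators ContDiff

section calculus

variable {E : Type*} [NormedAddCommGroup E] [NormedSpace ℝ E]

lemma cd_diff {f : R3 → E} (hf : ContDiff ℝ ∞ f) : Differentiable ℝ f :=
  hf.differentiable (by simp)

lemma tsupport_pd (f : R3 → E) (i : Fin 3) : tsupport (pd i f) ⊆ tsupport f :=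
  tsupport_fderiv_apply_subset ℝ _

lemma pd_zero_out {f : R3 → E} {x : R3} (h : x ∉ tsupport f) (i : Fin 3) : pd i f x = 0 :=
  image_eq_zero_of_notMem_tsupport fun h' => h (tsupport_pd f i h')

lemma pd_comm {f : R3 → E} (hf : ContDiff ℝ ∞ f) (i j : Fin 3) (x : R3) :
    pd i (pd j f) x = pd j (pd i f) x := by
  have hd : Differentiable ℝ (fderiv ℝ f) := cd_diff (hf.fderiv_right (m := ∞) (by simp))
  have hs := (hf.of_le (m := ((2 : ℕ∞) : WithTop ℕ∞)) (WithTop.coe_le_coe.2 le_top)).contDiffAt.isSymmSndFDerivAt (x := x) (by simp)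
  unfold pd
  rw [fderiv_clm_apply (hd x) (differentiableAt_const _),
    fderiv_clm_apply (hd x) (differentiableAt_const _)]
  simpa using hs _ _

lemma pd_coord (i j : Fin 3) (x : R3) : pd i (fun y : R3 => y j) x = if j = i then 1 else 0 := by
  simp only [pd]
  rw [show (fun y : R3 => y j) = EuclideanSpace.proj (𝕜 := ℝ) j from rfl,
    ContinuousLinearMap.fderiv]
  simp [PiLp.single_apply]

lemma pd_rmul {f g : R3 → ℝ} {i : Fin 3} {x : R3} (hf : DifferentiableAt ℝ f x)
    (hg : DifferentiableAt ℝ g x) :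
    pd i (fun y => f y * g y) x = pd i f x * g x + f x * pd i g x := by
  simp [pd, fderiv_fun_mul hf hg, mul_comm (g x), add_comm]

lemma pd_cmul {f : R3 → ℝ} {i : Fin 3} {x : R3} (c : ℝ) (hf : DifferentiableAt ℝ f x) :
    pd i (fun y => c * f y) x = c * pd i f x := by
  simp [pd, fderiv_const_mul hf c]

end calculus

/-- The coordinate along `e`. -/
def tc (e : R3) (x : R3) : ℝ := ∑ i, e i * x i

lemma cd_tc (e : R3) : ContDiff ℝ ∞ (tc e) := by
  unfold tc
  fun_prop

lemma pd_tc (e : R3) (i : Fin 3) (x : R3) : pd i (tc e) x = e i := by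
  unfold tc
  rw [pd_sum _ (fun k _ => by fun_prop)]
  have : ∀ k, pd i (fun y : R3 => e k * y k) x = if k = i then e i else 0 := fun k => by
    rw [pd_cmul _ (by fun_prop), pd_coord]
    by_cases h : k = i
    · subst h; simp
    · simp [h]
  simp [this]

lemma abs_tc_le {e : R3} (he : ∑ i, e i ^ 2 = 1) (x : R3) : |tc e x| ≤ ‖x‖ := by
  refine abs_le_of_sq_le_sq ?_ (norm_nonneg x)
  rw [EuclideanSpace.norm_sq_eq]
  refine (Finset.sum_mul_sq_le_sq_mul_sq Finset.univ (fun i => e i) (fun i => x i)).trans ?_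
  simp [he]

/-- The squared gradient. -/
def gsq (v : R3 → ℝ) (x : R3) : ℝ := ∑ i, pd i v x ^ 2

/-- The derivative along `e`. -/
def de (e : R3) (v : R3 → ℝ) (x : R3) : ℝ := ∑ i, e i * pd i v x

/-- The Laplacian conjugated by the weight. -/
def carP (e : R3) (M T : ℝ) (v : R3 → ℝ) (x : R3) : ℝ :=
  ∑ i, pd i (pd i v) x - 2 * (T + M * tc e x) * de e v x + ((T + M * tc e x) ^ 2 - M) * v x

/-- The divergence terms. -/
def flux (e : R3) (M T : ℝ) (v : R3 → ℝ) (i : Fin 3) (x : R3) : ℝ :=
  2 * (-2 * (T + M * tc e x) * (pd i v x * de e v x) + e i * (T + M * tc e x) * gsq v x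
    - M * (v x * pd i v x) - e i * (T + M * tc e x) ^ 3 * v x ^ 2) - M * (v x * pd i v x)

lemma cd_flux (e : R3) (M T : ℝ) {v : R3 → ℝ} (hv : ContDiff ℝ ∞ v) (i : Fin 3) :
    ContDiff ℝ ∞ (flux e M T v i) := by
  have := cd_tc e
  have := fun j => smooth_pd (i := j) hv
  unfold flux de gsq
  fun_prop

lemma flux_support (e : R3) (M T : ℝ) (v : R3 → ℝ) (i : Fin 3) {x : R3} (h : x ∉ tsupport v) :
    flux e M T v i x = 0 := by
  simp [flux, de, gsq, pd_zero_out h, image_eq_zero_of_notMem_tsupport h]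

/-- The pointwise inequality. -/
lemma carleman_pointwise {e : R3} (he : ∑ i, e i ^ 2 = 1) {M T : ℝ} (hM : 0 ≤ M) (hMT : M ≤ T ^ 2)
    {v : R3 → ℝ} (hv : ContDiff ℝ ∞ v) (x : R3)
    (hx : v x ≠ 0 → T ^ 2 / 4 ≤ (T + M * tc e x) ^ 2) :
    M * gsq v x + M * T ^ 2 / 2 * v x ^ 2 + ∑ i, pd i (flux e M T v i) x
      ≤ carP e M T v x ^ 2 := by
  have dv := cd_diff hv
  have dp : ∀ j, Differentiable ℝ (pd j v) := fun j => cd_diff (smooth_pd hv)
  have dt := cd_diff (cd_tc e)
  set f : R3 → ℝ := fun y => T + M * tc e y with hf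
  have hF : ∀ i, pd i f x = M * e i := fun i => by
    rw [hf, pd_add (by fun_prop) (by fun_prop), pd_const, pd_cmul _ (dt x), pd_tc, zero_add]
  have hde : ∀ i, pd i (de e v) x = ∑ j, e j * pd i (pd j v) x := fun i => by
    unfold de
    rw [pd_sum _ (fun j _ => by fun_prop)]
    exact Finset.sum_congr rfl fun j _ => pd_cmul _ (dp j x)
  have hg : ∀ i, pd i (gsq v) x = ∑ j, 2 * pd j v x * pd i (pd j v) x := fun i => by
    unfold gsq
    rw [pd_sum _ (fun j _ => by fun_prop)]
    exact Finset.sum_congr rfl fun j _ => by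
      simp only [pow_two]
      rw [pd_rmul (dp j x) (dp j x)]; ring
  have dde : Differentiable ℝ (de e v) := by unfold de; fun_prop
  have dg : Differentiable ℝ (gsq v) := by unfold gsq; fun_prop
  have df : Differentiable ℝ f := by fun_prop
  have hflux : ∀ i, flux e M T v i = fun y => (-4 * (f y * (pd i v y * de e v y))
      + (2 * e i) * (f y * gsq v y)) + ((-3 * M) * (v y * pd i v y)
      + (-2 * e i) * (f y * (f y * (f y * (v y * v y))))) := fun i => by
    funext y; simp only [flux, hf]; ring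
  have hd : ∀ i, pd i (flux e M T v i) x
      = -4 * (M * e i * (pd i v x * de e v x)
          + f x * (pd i (pd i v) x * de e v x + pd i v x * ∑ j, e j * pd i (pd j v) x))
        + 2 * e i * (M * e i * gsq v x + f x * ∑ j, 2 * pd j v x * pd i (pd j v) x)
        + -3 * M * (pd i v x * pd i v x + v x * pd i (pd i v) x)
        + -2 * e i * (3 * (M * e i) * f x ^ 2 * v x ^ 2 + 2 * f x ^ 3 * v x * pd i v x) := by
    intro i
    have dpi := dp i
    have d1 : Differentiable ℝ fun y => pd i v y * de e v y := by fun_prop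
    have d2 : Differentiable ℝ fun y => v y * v y := by fun_prop
    have d3 : Differentiable ℝ fun y => f y * (v y * v y) := by fun_prop
    have d4 : Differentiable ℝ fun y => f y * (f y * (v y * v y)) := by fun_prop
    rw [hflux i, pd_add (by fun_prop) (by fun_prop), pd_add (by fun_prop) (by fun_prop),
      pd_add (by fun_prop) (by fun_prop), pd_cmul _ (by fun_prop), pd_cmul _ (by fun_prop),
      pd_cmul _ (by fun_prop), pd_cmul _ (by fun_prop), pd_rmul (df x) (d1 x),
      pd_rmul (df x) (dg x), pd_rmul (dp i x) (dde x), pd_rmul (dv x) (dp i x),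
      pd_rmul (df x) (d4 x), pd_rmul (df x) (d3 x), pd_rmul (df x) (d2 x),
      pd_rmul (dv x) (dv x), hde, hg, hF]
    ring
  simp only [hd]
  have hs := pd_comm hv
  have h01 := hs 1 0 x
  have h02 := hs 2 0 x
  have h12 := hs 2 1 x
  simp only [carP, gsq, de, Fin.sum_univ_three, h01, h02, h12] at *
  simp only [← hf] at *
  have hk : M * T ^ 2 / 2 * v x ^ 2 ≤ (3 * M * f x ^ 2 - M ^ 2 / 4) * v x ^ 2 := by
    rcases eq_or_ne (v x) 0 with h0 | h0
    · simp [h0]
    · refine mul_le_mul_of_nonneg_right ?_ (sq_nonneg _)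
      have h1 := mul_le_mul_of_nonneg_left (hx h0) hM
      have h2 := mul_le_mul_of_nonneg_left hMT hM
      linarith
  set S := pd 0 (pd 0 v) x + pd 1 (pd 1 v) x + pd 2 (pd 2 v) x + f x ^ 2 * v x with hS
  set A := -2 * f x * (e 0 * pd 0 v x + e 1 * pd 1 v x + e 2 * pd 2 v x) - M * v x with hA
  have hsq : 0 ≤ (S + M * v x / 2) ^ 2 + A ^ 2
      + 4 * M * (e 0 * pd 0 v x + e 1 * pd 1 v x + e 2 * pd 2 v x) ^ 2 := by positivity
  simp only [hS, hA] at hsq
  linear_combination hk + hsq + 2 * M * ((pd 0 v x) ^ 2 + (pd 1 v x) ^ 2 + (pd 2 v x) ^ 2) * he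
    - 6 * M * f x ^ 2 * v x ^ 2 * he

/-- **The Carleman estimate.** -/
theorem real_carleman {e : R3} (he : ∑ i, e i ^ 2 = 1) {M T R : ℝ} (hM : 0 ≤ M)
    (hMT : M ≤ T ^ 2) (hT : 2 * M * R ≤ T) {v : R3 → ℝ} (hv : ContDiff ℝ ∞ v)
    (hs : tsupport v ⊆ Metric.closedBall 0 R) :
    ∫ x, (M * gsq v x + M * T ^ 2 / 2 * v x ^ 2) ≤ ∫ x, carP e M T v x ^ 2 := by
  have hc : HasCompactSupport v :=
    (isCompact_closedBall 0 R).of_isClosed_subset (isClosed_tsupport v) hs
  have hout : ∀ x ∉ tsupport v, ∀ i, flux e M T v i x = 0 := fun x h i =>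
    flux_support e M T v i h
  have hflc : ∀ i, HasCompactSupport (flux e M T v i) := fun i =>
    HasCompactSupport.of_support_subset_isCompact hc fun x hx => by
      by_contra h; exact hx (hout x h i)
  have hcont : Continuous fun x => M * gsq v x + M * T ^ 2 / 2 * v x ^ 2 := by
    have := fun i => (smooth_pd (i := i) hv).continuous
    have := hv.continuous
    unfold gsq
    fun_prop
  have i1 : Integrable fun x => M * gsq v x + M * T ^ 2 / 2 * v x ^ 2 :=
    hcont.integrable_of_hasCompactSupport (HasCompactSupport.of_support_subset_isCompact hc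
      fun x hx => by
        by_contra h
        exact hx (by simp [gsq, pd_zero_out h, image_eq_zero_of_notMem_tsupport h]))
  have i2 : ∀ i, Integrable fun x => pd i (flux e M T v i) x := fun i =>
    (smooth_pd (cd_flux e M T hv i)).continuous.integrable_of_hasCompactSupport
      ((hflc i).mono' ((subset_tsupport _).trans (tsupport_pd _ i)))
  have i3 : Integrable fun x => carP e M T v x ^ 2 := by
    refine Continuous.integrable_of_hasCompactSupport ?_
      (HasCompactSupport.of_support_subset_isCompact hc fun x hx => ?_)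
    · have := fun i => (smooth_pd (i := i) hv).continuous
      have := fun i => (smooth_pd (i := i) (smooth_pd (i := i) hv)).continuous
      have := hv.continuous
      have := (cd_tc e).continuous
      unfold carP de
      fun_prop
    · by_contra h
      refine hx ?_
      have h2 : ∀ i, pd i (pd i v) x = 0 := fun i =>
        pd_zero_out (fun h' => h (tsupport_pd v i h')) i
      simp [carP, de, h2, pd_zero_out h, image_eq_zero_of_notMem_tsupport h]
  have h := integral_mono (μ := volume) (i1.add (integrable_finsetSum _ fun i _ => i2 i)) i3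
    (fun x => carleman_pointwise he hM hMT hv x fun hne => by
      have h1 : ‖x‖ ≤ R := mem_closedBall_zero_iff.1 (hs (subset_tsupport v hne))
      have h2 := (abs_le.1 ((abs_tc_le he x).trans h1)).1
      have h3 := mul_le_mul_of_nonneg_left h2 hM
      have h4 : 0 ≤ T := le_trans (mul_nonneg (by linarith) ((norm_nonneg x).trans h1)) hT
      calc T ^ 2 / 4 = (T / 2) ^ 2 := by ring
        _ ≤ _ := pow_le_pow_left₀ (by linarith) (by linarith) 2)
  simp only [Pi.add_apply] at h
  rwa [integral_add i1 (integrable_finsetSum _ fun i _ => i2 i),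
    integral_finsetSum _ (fun i _ => i2 i),
    Finset.sum_eq_zero fun i _ => integral_pd i ((cd_flux e M T hv i).of_le (by simp)) (hflc i), add_zero] at h

end Vale.Agent.P136.Carleman
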