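import Vale.Agent.P136.Spec

/-!
# Calculus for the special solutions

Bounds on derivatives over a compact set, smoothness of the reduced system, conjugation by the
complex exponential.
-/

noncomputable section

namespace Vale.Agent.P136.Cgo

open Metric Set
open scoped BigOperators Matrix ContDiff

variable {E F : Type*} [NormedAddCommGroup E] [NormedSpace ℝ E] [NormedAddCommGroup F]
  [NormedSpace ℝ F]

/-- The derivatives up to order `n` are bounded by `S` on `s`. -/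
def Bd (s : Set R3) (n : ℕ) (f : R3 → E) (S : ℝ) : Prop :=
  ∀ x ∈ s, ∀ i ≤ n, ‖iteratedFDeriv ℝ i f x‖ ≤ S

theorem bd_of_compact {f : R3 → E} (hf : ContDiff ℝ ∞ f) {s : Set R3} (hs : IsCompact s) (n : ℕ) :
    ∃ S, 0 ≤ S ∧ Bd s n f S := by
  have h : ∀ i : ℕ, ∃ C, ∀ x ∈ s, ‖iteratedFDeriv ℝ i f x‖ ≤ C := fun i =>
    hs.exists_bound_of_continuousOn
      (hf.continuous_iteratedFDeriv (m := i) (by exact_mod_cast le_top)).continuousOn
  choose C hC using h
  refine ⟨∑ i ∈ Finset.range (n + 1), |C i|, Finset.sum_nonneg fun i _ => abs_nonneg _,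
    fun x hx i hi => ((hC i x hx).trans (le_abs_self _)).trans ?_⟩
  exact Finset.single_le_sum (f := fun j => |C j|) (fun j _ => abs_nonneg _)
    (Finset.mem_range.2 (Nat.lt_succ_of_le hi))

theorem Bd.mono {s t : Set R3} {n k : ℕ} {f : R3 → E} {S T : ℝ} (h : Bd s n f S) (hts : t ⊆ s)
    (hk : k ≤ n) (hST : S ≤ T) : Bd t k f T :=
  fun x hx i hi => (h x (hts hx) i (hi.trans hk)).trans hST

theorem Bd.nonneg {s : Set R3} {n : ℕ} {f : R3 → E} {S : ℝ} (h : Bd s n f S) (hs : s.Nonempty) :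
    0 ≤ S :=
  (norm_nonneg _).trans (h hs.some hs.some_mem 0 (Nat.zero_le n))

theorem Bd.add {s : Set R3} {n : ℕ} {f g : R3 → E} {S T : ℝ} (hf : ContDiff ℝ ∞ f)
    (hg : ContDiff ℝ ∞ g) (h₁ : Bd s n f S) (h₂ : Bd s n g T) :
    Bd s n (fun y => f y + g y) (S + T) := by
  intro x hx i hi
  rw [show (fun y => f y + g y) = f + g from rfl, iteratedFDeriv_add_apply
    (hf.of_le (by exact_mod_cast le_top)).contDiffAt (hg.of_le (by exact_mod_cast le_top)).contDiffAt]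
  exact (norm_add_le _ _).trans (add_le_add (h₁ x hx i hi) (h₂ x hx i hi))

theorem Bd.zero {s : Set R3} {n : ℕ} : Bd s n (fun _ => (0 : E)) 0 := fun x _ i _ => by
  simp

theorem Bd.sum {α : Type*} {s : Set R3} {n : ℕ} (t : Finset α) {f : α → R3 → E} {S : α → ℝ}
    (hf : ∀ a, ContDiff ℝ ∞ (f a)) (h : ∀ a ∈ t, Bd s n (f a) (S a)) :
    Bd s n (fun y => ∑ a ∈ t, f a y) (∑ a ∈ t, S a) := by
  classical
  induction t using Finset.induction with
  | empty => simpa using Bd.zero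
  | @insert a t ha ih =>
    simp only [Finset.sum_insert ha]
    exact (h a (Finset.mem_insert_self a t)).add (hf a) (ContDiff.sum fun b _ => hf b)
      (ih fun b hb => h b (Finset.mem_insert_of_mem hb))

theorem Bd.clm {s : Set R3} {n : ℕ} {f : R3 → E} {S : ℝ} (hf : ContDiff ℝ ∞ f) (h : Bd s n f S)
    (L : E →L[ℝ] F) : Bd s n (fun y => L (f y)) (‖L‖ * S) := fun x hx i hi =>
  (L.norm_iteratedFDeriv_comp_left hf.contDiffAt (by exact_mod_cast le_top)).trans
    (mul_le_mul_of_nonneg_left (h x hx i hi) (norm_nonneg _))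

theorem bd_smul [NormedSpace ℂ F] [IsScalarTower ℝ ℂ F] {g : R3 → ℂ} (hg : ContDiff ℝ ∞ g)
    {s : Set R3} (hs : IsCompact s) (n : ℕ) :
    ∃ K, 0 ≤ K ∧ ∀ (f : R3 → F) (S : ℝ), ContDiff ℝ ∞ f → Bd s n f S →
      Bd s n (fun y => g y • f y) (K * S) := by
  obtain ⟨G, hG, hb⟩ := bd_of_compact hg hs n
  refine ⟨(2 : ℝ) ^ n * G, by positivity, fun f S hf h x hx i hi => ?_⟩
  have hS := h.nonneg ⟨x, hx⟩
  calc ‖iteratedFDeriv ℝ i (fun y => g y • f y) x‖
      ≤ ∑ j ∈ Finset.range (i + 1), (i.choose j : ℝ) * ‖iteratedFDeriv ℝ j g x‖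
          * ‖iteratedFDeriv ℝ (i - j) f x‖ :=
        norm_iteratedFDeriv_smul_le hg hf x (by exact_mod_cast le_top)
    _ ≤ ∑ j ∈ Finset.range (i + 1), (i.choose j : ℝ) * G * S := by
        refine Finset.sum_le_sum fun j hj => ?_
        have hj' := Nat.lt_succ_iff.1 (Finset.mem_range.1 hj)
        have h1 := hb x hx j (hj'.trans hi)
        have h2 := h x hx (i - j) ((Nat.sub_le i j).trans hi)
        gcongr
    _ = (2 : ℝ) ^ i * G * S := by
        rw [← Finset.sum_mul, ← Finset.sum_mul, ← Nat.cast_sum, Nat.sum_range_choose]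
        push_cast
        ring
    _ ≤ (2 : ℝ) ^ n * G * S := by
        have : (1 : ℝ) ≤ 2 := by norm_num
        gcongr

/-- The evaluation at a coordinate. -/
def ev {ι : Type*} [Fintype ι] (a : ι) : (ι → ℂ) →L[ℝ] ℂ := ContinuousLinearMap.proj a

theorem norm_ev_le {ι : Type*} [Fintype ι] (a : ι) : ‖ev a‖ ≤ 1 :=
  ContinuousLinearMap.opNorm_le_bound _ zero_le_one fun v => by
    simpa [ev] using norm_le_pi_norm v a

theorem Bd.comp_apply {ι : Type*} [Fintype ι] {s : Set R3} {n : ℕ} {f : R3 → ι → ℂ} {S : ℝ}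
    (hf : ContDiff ℝ ∞ f) (h : Bd s n f S) (a : ι) : Bd s n (fun y => f y a) S := fun x hx i hi =>
  ((h.clm hf (ev a)) x hx i hi).trans
    (mul_le_of_le_one_left (h.nonneg ⟨x, hx⟩) (norm_ev_le a))

theorem bd_pi {ι : Type*} [Fintype ι] [DecidableEq ι] :
    ∃ K, 0 ≤ K ∧ ∀ (s : Set R3) (n : ℕ) (f : R3 → ι → ℂ) (S : ℝ), ContDiff ℝ ∞ f →
      (∀ a, Bd s n (fun y => f y a) S) → Bd s n f (K * S) := by
  let L : ι → ℂ →L[ℝ] (ι → ℂ) := fun a => ContinuousLinearMap.single ℝ (fun _ : ι => ℂ) a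
  refine ⟨∑ a, ‖L a‖, Finset.sum_nonneg fun a _ => norm_nonneg _, fun s n f S hf h => ?_⟩
  have hc : ∀ a, ContDiff ℝ ∞ fun y => f y a := fun a => contDiff_pi.1 hf a
  have e : f = fun y => ∑ a, L a (f y a) := funext fun y => (Finset.univ_sum_single (f y)).symm
  rw [e, Finset.sum_mul]
  exact Bd.sum Finset.univ (fun a => (L a).contDiff.comp (hc a)) fun a _ => (h a).clm (hc a) (L a)

theorem contDiff_pd {f : R3 → E} (hf : ContDiff ℝ ∞ f) (i : Fin 3) : ContDiff ℝ ∞ (pd i f) :=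
  (hf.fderiv_right (m := ∞) (by simp)).clm_apply contDiff_const

theorem Bd.pd {s : Set R3} {n : ℕ} {f : R3 → E} {S : ℝ} (hf : ContDiff ℝ ∞ f)
    (h : Bd s (n + 1) f S) (l : Fin 3) : Bd s n (P136.pd l f) S := by
  intro x hx i hi
  set L : (R3 →L[ℝ] E) →L[ℝ] E := ContinuousLinearMap.apply ℝ E (EuclideanSpace.single l 1)
  have hf' : ContDiff ℝ ∞ (fderiv ℝ f) := hf.fderiv_right (by simp)
  have hL : ‖L‖ ≤ 1 := ContinuousLinearMap.opNorm_le_bound _ zero_le_one fun T => by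
    simpa [L] using T.le_opNorm (EuclideanSpace.single l 1)
  refine (L.norm_iteratedFDeriv_comp_left hf'.contDiffAt (by exact_mod_cast le_top)).trans ?_
  rw [norm_iteratedFDeriv_fderiv]
  exact (mul_le_of_le_one_left (norm_nonneg _) hL).trans (h x hx (i + 1) (by omega))

theorem pd_add {f g : R3 → E} (hf : ContDiff ℝ ∞ f) (hg : ContDiff ℝ ∞ g) (i : Fin 3) :
    pd i (fun y => f y + g y) = fun x => pd i f x + pd i g x := by
  funext x
  simp [pd, fderiv_fun_add (hf.differentiable (by simp) x) (hg.differentiable (by simp) x)]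

theorem pd_const_smul [NormedSpace ℂ E] [SMulCommClass ℝ ℂ E] (c : ℂ) {f : R3 → E}
    (hf : ContDiff ℝ ∞ f) (i : Fin 3) : pd i (fun y => c • f y) = fun x => c • pd i f x := by
  funext x
  simp [pd, fderiv_fun_const_smul (hf.differentiable (by simp) x) c]

theorem pd_smul [NormedSpace ℂ E] [IsScalarTower ℝ ℂ E] {c : R3 → ℂ} {f : R3 → E}
    (hc : ContDiff ℝ ∞ c) (hf : ContDiff ℝ ∞ f) (i : Fin 3) :
    pd i (fun y => c y • f y) = fun x => c x • pd i f x + pd i c x • f x := by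
  funext x
  simp [pd, fderiv_fun_smul (hc.differentiable (by simp) x) (hf.differentiable (by simp) x)]

/-! ## The reduced system is smooth -/

theorem contDiff_nu (C : Coef) : ContDiff ℝ ∞ C.nu :=
  C.smooth_mu.inv fun x => (C.mu_pos x).ne'

theorem contDiff_sqrtMu (C : Coef) : ContDiff ℝ ∞ fun x => Real.sqrt (C.mu x) :=
  C.smooth_mu.sqrt fun x => (C.mu_pos x).ne'

theorem contDiff_ofReal {f : R3 → ℝ} (hf : ContDiff ℝ ∞ f) : ContDiff ℝ ∞ fun x => (f x : ℂ) :=
  Complex.ofRealCLM.contDiff.comp hf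

theorem contDiff_ikA (C : Coef) (i : Fin 3) (a b : Fin 4) :
    ContDiff ℝ ∞ fun x => ikA C i x a b := by
  have hs := contDiff_ofReal (contDiff_sqrtMu C)
  have hh : ∀ k, ContDiff ℝ ∞ fun x => (C.hnu k i x : ℂ) := fun k =>
    contDiff_ofReal (contDiff_pd (contDiff_pd (contDiff_nu C) i) k)
  have hg : ∀ k, ContDiff ℝ ∞ fun x => (C.glm k x : ℂ) := fun k =>
    contDiff_ofReal ((contDiff_pd C.smooth_mu k).div C.smooth_mu fun x => (C.mu_pos x).ne')
  have hk : ContDiff ℝ ∞ fun x => (C.kap x : ℂ) :=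
    contDiff_ofReal (((contDiff_sqrtMu C).mul (C.smooth_lam.add C.smooth_mu)).div
      (C.smooth_lam.add (contDiff_const.mul C.smooth_mu)) fun x => by
        have := C.mu_pos x
        have := C.bulk_pos x
        intro h
        linarith)
  simp only [ikA, Matrix.of_apply]
  split_ifs
  all_goals first
    | exact (contDiff_const.mul hs).mul (hh _)
    | exact (hg _).neg
    | exact hk
    | exact contDiff_const

variable {ι : Type} [Fintype ι]

theorem contDiff_mulVec {M : R3 → Matrix ι ι ℂ} (hM : ∀ a b, ContDiff ℝ ∞ fun x => M x a b)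
    {v : R3 → ι → ℂ} (hv : ContDiff ℝ ∞ v) : ContDiff ℝ ∞ fun x => M x *ᵥ v x :=
  contDiff_pi.2 fun a => by
    simp only [Matrix.mulVec, dotProduct]
    exact ContDiff.sum fun b _ => (hM a b).mul (contDiff_pi.1 hv b)

theorem contDiff_sysOp {A : Fin 3 → R3 → Matrix ι ι ℂ} {B : R3 → Matrix ι ι ℂ}
    (hA : ∀ i a b, ContDiff ℝ ∞ fun x => A i x a b) (hB : ∀ a b, ContDiff ℝ ∞ fun x => B x a b)
    {v : R3 → ι → ℂ} (hv : ContDiff ℝ ∞ v) : ContDiff ℝ ∞ (sysOp A B v) := by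
  unfold sysOp
  exact ((ContDiff.sum fun i _ => contDiff_pd (contDiff_pd hv i) i).add
    (ContDiff.sum fun i _ => contDiff_mulVec (hA i) (contDiff_pd hv i))).add (contDiff_mulVec hB hv)

theorem dD_add {θ : C3} {f g : R3 → ι → ℂ} (hf : ContDiff ℝ ∞ f) (hg : ContDiff ℝ ∞ g) :
    dD θ (fun y => f y + g y) = fun x => dD θ f x + dD θ g x := by
  funext x
  simp only [dD, pd_add hf hg, smul_add, Finset.sum_add_distrib]

theorem sysConj_add (A : Fin 3 → R3 → Matrix ι ι ℂ) (B : R3 → Matrix ι ι ℂ) (τ : ℝ) (θ : C3)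
    {f g : R3 → ι → ℂ} (hf : ContDiff ℝ ∞ f) (hg : ContDiff ℝ ∞ g) (x : R3) :
    sysConj A B τ θ (fun y => f y + g y) x = sysConj A B τ θ f x + sysConj A B τ θ g x := by
  simp only [sysConj, sysOp, dD_add hf hg, pd_add hf hg,
    fun i => pd_add (contDiff_pd hf i) (contDiff_pd hg i) i, Matrix.mulVec_add,
    Finset.sum_add_distrib, smul_add]
  abel

theorem sysOp_const_smul (A : Fin 3 → R3 → Matrix ι ι ℂ) (B : R3 → Matrix ι ι ℂ) (c : ℂ)
    {f : R3 → ι → ℂ} (hf : ContDiff ℝ ∞ f) (x : R3) :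
    sysOp A B (fun y => c • f y) x = c • sysOp A B f x := by
  simp only [sysOp, pd_const_smul c hf, fun i => pd_const_smul c (contDiff_pd hf i) i,
    Matrix.mulVec_smul, smul_add, Finset.smul_sum]

theorem sysConj_const_smul (A : Fin 3 → R3 → Matrix ι ι ℂ) (B : R3 → Matrix ι ι ℂ) (τ : ℝ)
    (θ : C3) (c : ℂ) {f : R3 → ι → ℂ} (hf : ContDiff ℝ ∞ f) (x : R3) :
    sysConj A B τ θ (fun y => c • f y) x = c • sysConj A B τ θ f x := by
  simp only [sysConj, sysOp_const_smul A B c hf, dD, pd_const_smul c hf, Matrix.mulVec_smul,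
    smul_add, Finset.smul_sum, smul_comm c]

/-! ## Conjugation -/

/-- The phase. -/
def phase (θ : C3) : R3 →L[ℝ] ℂ :=
  ∑ j, (θ j) • (Complex.ofRealCLM.comp (EuclideanSpace.proj j : R3 →L[ℝ] ℝ))

theorem cexpθ_eq (τ : ℝ) (θ : C3) :
    cexpθ τ θ = fun x => Complex.exp ((τ : ℂ) * phase θ x) := by
  funext x
  simp [cexpθ, phase]

theorem contDiff_cexpθ (τ : ℝ) (θ : C3) : ContDiff ℝ ∞ (cexpθ τ θ) := by
  rw [cexpθ_eq]
  exact (contDiff_const.mul (phase θ).contDiff).cexp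

theorem pd_cexpθ (τ : ℝ) (θ : C3) (i : Fin 3) :
    pd i (cexpθ τ θ) = fun x => ((τ : ℂ) * θ i) * cexpθ τ θ x := by
  funext x
  rw [cexpθ_eq]
  have h := (((phase θ).hasFDerivAt (x := x)).const_mul (τ : ℂ)).cexp
  simp only [pd, h.fderiv]
  have e : phase θ (EuclideanSpace.single i 1) = θ i := by
    simp [phase, Finset.sum_ite_eq', apply_ite Complex.ofReal, mul_ite]
  simp [e]
  ring

theorem cexpθ_neg_mul (τ : ℝ) (θ : C3) (x : R3) : cexpθ τ θ x * cexpθ (-τ) θ x = 1 := by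
  simp [cexpθ, ← Complex.exp_add]

/-- The operator on `exp (τ θ x) • v` is the conjugated operator on `v`. -/
theorem sysOp_cexpθ (A : Fin 3 → R3 → Matrix ι ι ℂ) (B : R3 → Matrix ι ι ℂ) (τ : ℝ) {θ : C3}
    (hθ : ∑ i, θ i ^ 2 = 0) {v : R3 → ι → ℂ} (hv : ContDiff ℝ ∞ v) (x : R3) :
    sysOp A B (fun y => cexpθ τ θ y • v y) x = cexpθ τ θ x • sysConj A B τ θ v x := by
  have he := contDiff_cexpθ τ θ
  have h1 : ∀ i, pd i (fun y => cexpθ τ θ y • v y)
      = fun y => cexpθ τ θ y • (pd i v y + ((τ : ℂ) * θ i) • v y) := fun i => by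
    rw [pd_smul he hv, pd_cexpθ]
    funext y
    rw [smul_add, smul_smul]
    congr 2
    ring
  have h2 : ∀ i, pd i (pd i fun y => cexpθ τ θ y • v y) x = cexpθ τ θ x •
      (pd i (pd i v) x + (2 * (τ : ℂ) * θ i) • pd i v x + ((τ : ℂ) ^ 2 * θ i ^ 2) • v x) := fun i => by
    have hg : ContDiff ℝ ∞ fun y => ((τ : ℂ) * θ i) • v y := hv.const_smul _
    rw [h1, pd_smul he ((contDiff_pd hv i).add hg), pd_cexpθ, pd_add (contDiff_pd hv i) hg,
      pd_const_smul _ hv]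
    ext a
    simp only [Pi.add_apply, Pi.smul_apply, smul_eq_mul]
    ring
  rw [Fin.sum_univ_three] at hθ
  simp only [sysOp, sysConj, h2, dD]
  simp only [h1, Fin.sum_univ_three, Matrix.mulVec_smul, Matrix.mulVec_add]
  ext a
  simp only [Pi.add_apply, Pi.smul_apply, smul_eq_mul]
  linear_combination (cexpθ τ θ x * (τ : ℂ) ^ 2 * v x a) * hθ

end Vale.Agent.P136.Cgo
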