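import Vale.Agent.P136.Mod.DN.Trace

/-!
# Equal displacement-to-traction maps give one symmetric pairing

`sameDN_of_sameMap` derives the working hypothesis `SameDN` from the literal equality `DN.SameMap`
of the two maps, and `sameMap_refl` says that a map equals itself (weak solutions are unique).
-/

noncomputable section

namespace Vale.Agent.P136.DN

open MeasureTheory Filter Topology
open scoped RealInnerProductSpace ContDiff

variable {Ω : Set R3} {lam mu lam₁ mu₁ lam₂ mu₂ : R3 → ℝ}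

theorem setup (hΩ : SmoothDomain Ω) (hA : Admissible Ω lam mu) : Setup Ω lam mu :=
  ⟨hΩ.isOpen, hΩ.bounded, hΩ.connected.nonempty, hA⟩

/-- A `C²` function on a neighbourhood of a compact set agrees near it with a global one. -/
theorem exists_global {F : Type*} [NormedAddCommGroup F] [NormedSpace ℝ F] {K U : Set R3}
    (hK : IsCompact K) (hU : IsOpen U) (hKU : K ⊆ U) {u : R3 → F} (hu : ContDiffOn ℝ 2 u U) :
    ∃ g : R3 → F, ContDiff ℝ 2 g ∧ ∃ V, IsOpen V ∧ K ⊆ V ∧ V ⊆ U ∧ ∀ x ∈ V, g x = u x := by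
  obtain ⟨O, hO, hKO, hOU, -⟩ := exists_open_between_and_isCompact_closure hK hU hKU
  obtain ⟨χ, r, -, hχ, ⟨V, hV, hKV, hV1⟩, -, hout, -⟩ := Extend.exists_cutoff hK hO hKO
  refine ⟨fun x => χ x • u x, contDiff_iff_contDiffAt.2 fun x => ?_, V ∩ O, hV.inter hO,
    Set.subset_inter hKV hKO, fun x hx => hOU (subset_closure hx.2),
    fun x hx => by simp [hV1 x hx.1]⟩
  by_cases hx : x ∈ U
  · exact (hχ.of_le (WithTop.coe_le_coe.2 le_top)).contDiffAt.smul
      (hu.contDiffAt (hU.mem_nhds hx))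
  · refine (contDiffAt_const (c := (0 : F))).congr_of_eventuallyEq ?_
    filter_upwards [isClosed_closure.isOpen_compl.mem_nhds fun h => hx (hOU h)] with y hy
    simp [hout y fun h => hy (subset_closure h)]

theorem grad_congr {f g : R3 → Fin 3 → ℝ} {V : Set R3} (hV : IsOpen V) (h : ∀ x ∈ V, f x = g x)
    {x : R3} (hx : x ∈ V) : grad f x = grad g x := by
  funext i j
  exact pd_congr (by filter_upwards [hV.mem_nhds hx] with y hy; rw [h y hy])

theorem memL2_grad (h : Setup Ω lam mu) {U : Set R3} (hU : IsOpen U) (hKU : closure Ω ⊆ U)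
    {a : R3 → Fin 3 → ℝ} (ha : ContDiffOn ℝ 2 a U) : MemL2 Ω (grad a) :=
  memL2_of_continuousOn h fun i j =>
    (((contDiffOn_pi.1 ha i).continuousOn_fderiv_of_isOpen hU (by simp)).clm_apply
      continuousOn_const).mono hKU

/-- The projection of the class of `grad a` away from the test fields. -/
def pr (h : Setup Ω lam mu) {a : R3 → Fin 3 → ℝ} (ha : MemL2 Ω (grad a)) : H Ω :=
  toH h ha - (W h).starProjection (toH h ha)

theorem inner_pr (h : Setup Ω lam mu) {a b : R3 → Fin 3 → ℝ} (ha : MemL2 Ω (grad a))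
    (hb : MemL2 Ω (grad b)) : ⟪pr h ha, pr h hb⟫ = ⟪pr h ha, toH h hb⟫ := by
  have h0 : ⟪pr h ha, (W h).starProjection (toH h hb)⟫ = 0 :=
    Submodule.starProjection_inner_eq_zero _ _ (Submodule.starProjection_apply_mem _ _)
  rw [show pr h hb = toH h hb - (W h).starProjection (toH h hb) from rfl, inner_sub_right, h0,
    sub_zero]

theorem pr_eq_of_weak (h : Setup Ω lam mu) {a : R3 → Fin 3 → ℝ} (ha : MemL2 Ω (grad a))
    (hw : ∀ φ, Test Ω φ → pairing Ω lam mu (grad a) (grad φ) = 0) : pr h ha = toH h ha := by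
  rw [pr, (W h).starProjection_apply_eq_zero_iff.2 ((mem_orth h ha).2 hw), sub_zero]

/-- The projection depends on the boundary values only. -/
theorem pr_congr (h : Setup Ω lam mu) {U U' : Set R3} (hU : IsOpen U) (hU' : IsOpen U')
    (hKU : closure Ω ⊆ U) (hKU' : closure Ω ⊆ U') {a b : R3 → Fin 3 → ℝ}
    (ha : ContDiffOn ℝ 2 a U) (hb : ContDiffOn ℝ 2 b U') (hab : ∀ x ∈ frontier Ω, a x = b x)
    (hma : MemL2 Ω (grad a)) (hmb : MemL2 Ω (grad b)) : pr h hma = pr h hmb := by
  obtain ⟨a', ha', V, hV, hKV, -, hVa⟩ := exists_global h.compact hU hKU ha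
  obtain ⟨b', hb', V', hV', hKV', -, hVb⟩ := exists_global h.compact hU' hKU' hb
  have hfr : ∀ x ∈ frontier Ω, (a' - b') x = 0 := fun x hx => by
    simp [hVa x (hKV (frontier_subset_closure hx)), hVb x (hKV' (frontier_subset_closure hx)),
      hab x hx]
  have hm : MemL2 Ω (grad (a' - b')) :=
    memL2_of_continuousOn h fun i j => (cont_grad (ha'.sub hb') i j).continuousOn
  have hmem := zero_trace_mem h (ha'.sub hb') hfr hm
  have e : toH h hm = toH h hma - toH h hmb := by
    rw [← toH_sub]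
    refine MemLp.toLp_congr _ _ ?_
    filter_upwards [self_mem_ae_restrict h.isOpen.measurableSet] with x hx
    show qmap _ _ _ = qmap _ _ _
    rw [grad_sub ha' hb', Pi.sub_apply, Pi.sub_apply,
      grad_congr hV hVa (hKV (subset_closure hx)),
      grad_congr hV' hVb (hKV' (subset_closure hx))]
  rw [e] at hmem
  have := Submodule.starProjection_eq_self_iff.2 hmem
  rw [map_sub] at this
  rw [pr, pr, sub_eq_sub_iff_sub_eq_sub]
  exact this.symm

/-- The real part of a complex field. -/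
def reF (u : R3 → C3) : R3 → Fin 3 → ℝ := fun x i => (u x i).re

/-- The imaginary part of a complex field. -/
def imF (u : R3 → C3) : R3 → Fin 3 → ℝ := fun x i => (u x i).im

theorem contDiffOn_reF {U : Set R3} {u : R3 → C3} (hu : ContDiffOn ℝ 2 u U) :
    ContDiffOn ℝ 2 (reF u) U :=
  contDiffOn_pi.2 fun i => Complex.reCLM.contDiff.comp_contDiffOn (contDiffOn_pi.1 hu i)

theorem contDiffOn_imF {U : Set R3} {u : R3 → C3} (hu : ContDiffOn ℝ 2 u U) :
    ContDiffOn ℝ 2 (imF u) U :=
  contDiffOn_pi.2 fun i => Complex.imCLM.contDiff.comp_contDiffOn (contDiffOn_pi.1 hu i)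

theorem pd_eq_re_im {f : R3 → ℂ} {x : R3} (hf : DifferentiableAt ℝ f x) (j : Fin 3) :
    pd j f x = ((pd j (fun y => (f y).re) x : ℝ) : ℂ)
      + ((pd j (fun y => (f y).im) x : ℝ) : ℂ) * Complex.I := by
  have e : ∀ L : ℂ →L[ℝ] ℝ, pd j (fun y => L (f y)) x = L (pd j f x) := fun L =>
    congrArg (fun T : R3 →L[ℝ] ℝ => T (EuclideanSpace.single j 1))
      (L.hasFDerivAt.comp x hf.hasFDerivAt).fderiv
  show pd j f x = ((pd j (fun y => Complex.reCLM (f y)) x : ℝ) : ℂ)
    + ((pd j (fun y => Complex.imCLM (f y)) x : ℝ) : ℂ) * Complex.I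
  rw [e, e]
  exact (Complex.re_add_im _).symm

/-- The complex energy in real and imaginary parts. -/
theorem energy_eq {u v : R3 → C3} {x : R3} (hu : ∀ i, DifferentiableAt ℝ (fun y => u y i) x)
    (hv : ∀ i, DifferentiableAt ℝ (fun y => v y i) x) :
    energy lam mu u v x
      = ((rform (lam x) (mu x) (grad (reF u) x) (grad (reF v) x)
          - rform (lam x) (mu x) (grad (imF u) x) (grad (imF v) x) : ℝ) : ℂ)
        + ((rform (lam x) (mu x) (grad (reF u) x) (grad (imF v) x)
          + rform (lam x) (mu x) (grad (imF u) x) (grad (reF v) x) : ℝ) : ℂ) * Complex.I := by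
  simp only [energy, dvg, strain, rform, grad, reF, imF, pd_eq_re_im (hu _), pd_eq_re_im (hv _),
    Fin.sum_univ_three, Complex.ofReal_add, Complex.ofReal_sub, Complex.ofReal_mul,
    Complex.ofReal_div, Complex.ofReal_ofNat]
  ring_nf
  simp only [Complex.I_sq]
  ring_nf

theorem integrableOn_rform (h : Setup Ω lam mu) {P Q : R3 → Fin 3 → Fin 3 → ℝ}
    (hP : MemL2 Ω P) (hQ : MemL2 Ω Q) :
    IntegrableOn (fun x => rform (lam x) (mu x) (P x) (Q x)) Ω := by
  refine (L2.integrable_inner (𝕜 := ℝ) (toH h hP) (toH h hQ)).congr ?_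
  filter_upwards [(memLp_qfun h hP).coeFn_toLp, (memLp_qfun h hQ).coeFn_toLp,
    self_mem_ae_restrict h.isOpen.measurableSet] with x hx hy hm
  simp only [toH, hx, hy]
  exact inner_qmap (h.a_pos (subset_closure hm)).le (h.adm.mu_pos x (subset_closure hm)).le _ _

theorem setIntegral_energy (h : Setup Ω lam mu) {U : Set R3} (hU : IsOpen U)
    (hKU : closure Ω ⊆ U) {u v : R3 → C3} (hu : ContDiffOn ℝ 2 u U) (hv : ContDiffOn ℝ 2 v U) :
    ∫ x in Ω, energy lam mu u v x
      = ((pairing Ω lam mu (grad (reF u)) (grad (reF v))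
          - pairing Ω lam mu (grad (imF u)) (grad (imF v)) : ℝ) : ℂ)
        + ((pairing Ω lam mu (grad (reF u)) (grad (imF v))
          + pairing Ω lam mu (grad (imF u)) (grad (reF v)) : ℝ) : ℂ) * Complex.I := by
  have hd : ∀ {w : R3 → C3}, ContDiffOn ℝ 2 w U → ∀ x ∈ Ω, ∀ i,
      DifferentiableAt ℝ (fun y => w y i) x := fun hw x hx i =>
    ((contDiffOn_pi.1 hw i).contDiffAt (hU.mem_nhds (hKU (subset_closure hx)))).differentiableAt
      (by norm_num)
  rw [setIntegral_congr_fun h.isOpen.measurableSet fun x hx =>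
    energy_eq (lam := lam) (mu := mu) (hd hu x hx) (hd hv x hx)]
  have r1 := memL2_grad h hU hKU (contDiffOn_reF hu)
  have i1 := memL2_grad h hU hKU (contDiffOn_imF hu)
  have r2 := memL2_grad h hU hKU (contDiffOn_reF hv)
  have i2 := memL2_grad h hU hKU (contDiffOn_imF hv)
  rw [integral_add ((((integrableOn_rform h r1 r2).sub (integrableOn_rform h i1 i2))).ofReal)
    ((((integrableOn_rform h r1 i2).add (integrableOn_rform h i1 r2))).ofReal.mul_const _),
    integral_mul_const, integral_complex_ofReal, integral_complex_ofReal,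
    integral_sub (integrableOn_rform h r1 r2) (integrableOn_rform h i1 i2),
    integral_add (integrableOn_rform h r1 i2) (integrableOn_rform h i1 r2)]
  rfl

/-- A `C²` solution is a weak solution. -/
theorem weak_of_sol (h : Setup Ω lam mu) {U : Set R3} (hU : IsOpen U) (hKU : closure Ω ⊆ U)
    {u : R3 → C3} (hu : ContDiffOn ℝ 2 u U) (hsol : ∀ x ∈ Ω, lame lam mu u x = 0)
    {φ : R3 → Fin 3 → ℝ} (hφ : Test Ω φ) :
    pairing Ω lam mu (grad (reF u)) (grad φ) = 0
      ∧ pairing Ω lam mu (grad (imF u)) (grad φ) = 0 := by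
  obtain ⟨g, hg, V, hV, hKV, hVU, hVg⟩ := exists_global h.compact hU hKU hu
  set ψ : R3 → C3 := fun x i => (φ x i : ℂ) with hψdef
  have hψ : ∀ i, ContDiff ℝ 2 fun y => ψ y i := fun i =>
    Complex.ofRealCLM.contDiff.comp (contDiff_pi.1 hφ.smooth i)
  have hψs : ∀ i, HasCompactSupport fun y => ψ y i := fun i =>
    (hφ.comp i).comp_left (g := Complex.ofReal) Complex.ofReal_zero
  have hg1 : ∀ i j, ContDiff ℝ 1 fun y => pd j (fun z => g z i) y := fun i j =>
    ((contDiff_pi.1 hg i).fderiv_right (m := 1) (by norm_num)).clm_apply contDiff_const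
  have hl : ContDiff ℝ 1 fun y => (lam y : ℂ) :=
    Complex.ofRealCLM.contDiff.comp (h.adm.smooth_lam.of_le (WithTop.coe_le_coe.2 le_top))
  have hm : ContDiff ℝ 1 fun y => (mu y : ℂ) :=
    Complex.ofRealCLM.contDiff.comp (h.adm.smooth_mu.of_le (WithTop.coe_le_coe.2 le_top))
  have hs1 : ContDiff ℝ 1 fun y => (lam y : ℂ) * dvg g y :=
    hl.mul (ContDiff.sum fun i _ => hg1 i i)
  have hs2 : ∀ l j, ContDiff ℝ 1 fun y => 2 * (mu y : ℂ) * strain g l j y := fun l j =>
    (contDiff_const.mul hm).mul (((hg1 l j).add (hg1 j l)).div_const 2)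
  have hd1 : ∀ l, ∫ y, pd l (fun y => (lam y : ℂ) * dvg g y * ψ y l) y = 0 := fun l =>
    integral_pd l (hs1.mul ((hψ l).of_le (by norm_num))) (hψs l).mul_left
  have hd2 : ∀ l j, ∫ y, pd j (fun y => 2 * (mu y : ℂ) * strain g l j y * ψ y l) y = 0 := fun l j =>
    integral_pd j ((hs2 l j).mul ((hψ l).of_le (by norm_num))) (hψs l).mul_left
  have hI1 : ∀ l, Integrable fun y => pd l (fun y => (lam y : ℂ) * dvg g y * ψ y l) y := fun l =>
    (((hs1.mul ((hψ l).of_le (by norm_num))).continuous_fderiv one_ne_zero).clm_apply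
      continuous_const).integrable_of_hasCompactSupport ((hψs l).mul_left.fderiv_apply ℝ _)
  have hI2 : ∀ l j, Integrable fun y =>
      pd j (fun y => 2 * (mu y : ℂ) * strain g l j y * ψ y l) y := fun l j =>
    ((((hs2 l j).mul ((hψ l).of_le (by norm_num))).continuous_fderiv one_ne_zero).clm_apply
      continuous_const).integrable_of_hasCompactSupport ((hψs l).mul_left.fderiv_apply ℝ _)
  have hsum : ∫ y, (∑ l, (pd l (fun y => (lam y : ℂ) * dvg g y * ψ y l) y
      + ∑ j, pd j (fun y => 2 * (mu y : ℂ) * strain g l j y * ψ y l) y)) = 0 := by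
    rw [integral_finsetSum _ fun l _ => (hI1 l).fun_add (integrable_finsetSum _ fun j _ => hI2 l j)]
    refine Finset.sum_eq_zero fun l _ => ?_
    rw [integral_add (hI1 l) (integrable_finsetSum _ fun j _ => hI2 l j), hd1 l,
      integral_finsetSum _ fun j _ => hI2 l j]
    simp [hd2]
  have hpt : ∀ y, (∑ l, (pd l (fun y => (lam y : ℂ) * dvg g y * ψ y l) y
      + ∑ j, pd j (fun y => 2 * (mu y : ℂ) * strain g l j y * ψ y l) y))
      = energy lam mu g ψ y + ∑ l, lame lam mu g y l * ψ y l := by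
    intro y
    simp only [pd_mul ((hs1.differentiable one_ne_zero) y) ((hψ _).differentiable (by norm_num) y),
      pd_mul ((hs2 _ _).differentiable one_ne_zero y) ((hψ _).differentiable (by norm_num) y)]
    simp only [lame, energy, dvg, strain, Fin.sum_univ_three]
    ring
  have hzero : ∀ y, y ∉ Ω → energy lam mu g ψ y + ∑ l, lame lam mu g y l * ψ y l = 0 := by
    intro y hy
    have e : ∀ i, (fun z => ψ z i) =ᶠ[𝓝 y] fun _ => 0 := fun i => by
      filter_upwards [notMem_tsupport_iff_eventuallyEq.1 fun hh => hy (hφ.inside hh)] with z hz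
      simp [hψdef, hz]
    have hv0 : ∀ i, ψ y i = 0 := fun i => (e i).eq_of_nhds
    have hp0 : ∀ i j, pd j (fun z => ψ z i) y = 0 := fun i j => by simp [pd_congr (e i)]
    simp [energy, dvg, strain, hv0, hp0]
  rw [integral_congr_ae (.of_forall hpt), ← setIntegral_eq_integral_of_forall_compl_eq_zero hzero]
    at hsum
  have hin : ∀ y ∈ Ω, energy lam mu g ψ y + ∑ l, lame lam mu g y l * ψ y l
      = energy lam mu u ψ y := by
    intro y hy
    have hyV : V ∈ 𝓝 y := hV.mem_nhds (hKV (subset_closure hy))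
    have eg : ∀ᶠ z in 𝓝 y, ∀ i j, pd j (fun w => g w i) z = pd j (fun w => u w i) z := by
      filter_upwards [hyV] with z hz i j
      exact pd_congr (by filter_upwards [hV.mem_nhds hz] with w hw; rw [hVg w hw])
    have el : lame lam mu g y = lame lam mu u y := by
      funext l
      simp only [lame]
      congr 1
      · exact pd_congr (by filter_upwards [eg] with z hz; simp [dvg, hz])
      · exact Finset.sum_congr rfl fun j _ =>
          pd_congr (by filter_upwards [eg] with z hz; simp [strain, hz])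
    simp [el, hsol y hy, energy, dvg, strain, eg.self_of_nhds]
  rw [setIntegral_congr_fun h.isOpen.measurableSet hin,
    setIntegral_energy h hU hKU hu (contDiff_pi.2 hψ).contDiffOn] at hsum
  have e1 : reF ψ = φ := by funext x i; simp [reF, hψdef]
  have e2 : grad (imF ψ) = 0 := by
    funext x i j
    simp [grad, imF, hψdef]
  have e3 : ∀ P, pairing Ω lam mu P 0 = 0 := fun P => by simp [pairing, rform]
  rw [e1, e2, e3, e3] at hsum
  exact ⟨by simpa using congrArg Complex.re hsum, by simpa using congrArg Complex.im hsum⟩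

/-- A `C²` field on some neighbourhood of the closure with given boundary values. -/
structure Ext (Ω : Set R3) (f : frontier Ω → C3) where
  /-- The neighbourhood. -/
  dom : Set R3
  /-- The field. -/
  fn : R3 → C3
  isOpen : IsOpen dom
  sub : closure Ω ⊆ dom
  smooth : ContDiffOn ℝ 2 fn dom
  trace_eq : trace Ω fn = f

/-- The form of two real fields. -/
def rpair (h : Setup Ω lam mu) {U U' : Set R3} (hU : IsOpen U) (hKU : closure Ω ⊆ U)
    (hU' : IsOpen U') (hKU' : closure Ω ⊆ U') {a b : R3 → Fin 3 → ℝ} (ha : ContDiffOn ℝ 2 a U)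
    (hb : ContDiffOn ℝ 2 b U') : ℝ :=
  ⟪pr h (memL2_grad h hU hKU ha), pr h (memL2_grad h hU' hKU' hb)⟫

/-- The form of two extensions. -/
def extForm (h : Setup Ω lam mu) {f g : frontier Ω → C3} (e : Ext Ω f) (k : Ext Ω g) : ℂ :=
  ((rpair h e.isOpen e.sub k.isOpen k.sub (contDiffOn_reF e.smooth) (contDiffOn_reF k.smooth)
      - rpair h e.isOpen e.sub k.isOpen k.sub (contDiffOn_imF e.smooth) (contDiffOn_imF k.smooth)
        : ℝ) : ℂ)
    + ((rpair h e.isOpen e.sub k.isOpen k.sub (contDiffOn_reF e.smooth) (contDiffOn_imF k.smooth)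
      + rpair h e.isOpen e.sub k.isOpen k.sub (contDiffOn_imF e.smooth) (contDiffOn_reF k.smooth)
        : ℝ) : ℂ) * Complex.I

theorem extForm_symm (h : Setup Ω lam mu) {f g : frontier Ω → C3} (e : Ext Ω f) (k : Ext Ω g) :
    extForm h e k = extForm h k e := by
  simp only [extForm, rpair, real_inner_comm]
  ring_nf

theorem extForm_congr (h : Setup Ω lam mu) {f g : frontier Ω → C3} (e e' : Ext Ω f)
    (k k' : Ext Ω g) : extForm h e k = extForm h e' k' := by
  have key : ∀ {f : frontier Ω → C3} (e e' : Ext Ω f),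
      pr h (memL2_grad h e.isOpen e.sub (contDiffOn_reF e.smooth))
        = pr h (memL2_grad h e'.isOpen e'.sub (contDiffOn_reF e'.smooth)) ∧
      pr h (memL2_grad h e.isOpen e.sub (contDiffOn_imF e.smooth))
        = pr h (memL2_grad h e'.isOpen e'.sub (contDiffOn_imF e'.smooth)) := by
    intro f e e'
    have hfr : ∀ x ∈ frontier Ω, e.fn x = e'.fn x := fun x hx =>
      congrFun (e.trace_eq.trans e'.trace_eq.symm) ⟨x, hx⟩
    exact ⟨pr_congr h e.isOpen e'.isOpen e.sub e'.sub (contDiffOn_reF e.smooth)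
        (contDiffOn_reF e'.smooth) (fun x hx => by funext i; simp [reF, hfr x hx]) _ _,
      pr_congr h e.isOpen e'.isOpen e.sub e'.sub (contDiffOn_imF e.smooth)
        (contDiffOn_imF e'.smooth) (fun x hx => by funext i; simp [imF, hfr x hx]) _ _⟩
  simp only [extForm, rpair, (key e e').1, (key e e').2, (key k k').1, (key k k').2]

open Classical in
/-- The pairing on traces, zero away from them. -/
def form (h : Setup Ω lam mu) (f g : frontier Ω → C3) : ℂ :=
  if H : Nonempty (Ext Ω f) ∧ Nonempty (Ext Ω g) then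
    extForm h (Classical.choice H.1) (Classical.choice H.2) else 0

theorem form_symm (h : Setup Ω lam mu) (f g : frontier Ω → C3) : form h f g = form h g f := by
  by_cases H : Nonempty (Ext Ω f) ∧ Nonempty (Ext Ω g)
  · rw [form, form, dif_pos H, dif_pos H.symm]
    exact extForm_symm h _ _
  · rw [form, form, dif_neg H, dif_neg fun H' => H H'.symm]

theorem form_eq (h : Setup Ω lam mu) {f g : frontier Ω → C3} (e : Ext Ω f) (k : Ext Ω g) :
    form h f g = extForm h e k := by
  rw [form, dif_pos ⟨⟨e⟩, ⟨k⟩⟩]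
  exact extForm_congr h _ _ _ _

theorem isH10_zero : IsH10 Ω 0 0 := by
  refine ⟨fun _ => 0, fun _ => test_zero, fun i => ⟨MemLp.zero', ?_⟩, fun i j => ⟨MemLp.zero', ?_⟩⟩
  · simp
  · simp [grad]

/-- A map equals itself. -/
theorem sameMap_refl (hΩ : SmoothDomain Ω) (hA : Admissible Ω lam mu) :
    SameMap Ω lam mu lam mu := by
  intro U E G w₁ w₂ Dw₁ Dw₂ hU hKU hE hG h₁ h₂
  have h := setup hΩ hA
  have hmE := memL2_grad h hU hKU hE
  obtain ⟨hD₁, m₁⟩ := h₁.1.mem h
  obtain ⟨hD₂, m₂⟩ := h₂.1.mem h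
  have o₁ := (mem_orth h (hmE.add hD₁)).2 h₁.2
  have o₂ := (mem_orth h (hmE.add hD₂)).2 h₂.2
  have hz : toH h (hmE.add hD₁) - toH h (hmE.add hD₂) = 0 := by
    have hin : toH h (hmE.add hD₁) - toH h (hmE.add hD₂) ∈ W h := by
      rw [toH_add h hmE hD₁, toH_add h hmE hD₂, add_sub_add_left_eq_sub]
      exact sub_mem m₁ m₂
    exact inner_self_eq_zero.1 (Submodule.inner_right_of_mem_orthogonal hin (sub_mem o₁ o₂))
  rw [← inner_toH h (hmE.add hD₁) (memL2_grad h hU hKU hG),
    ← inner_toH h (hmE.add hD₂) (memL2_grad h hU hKU hG), sub_eq_zero.1 hz]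

/-- Equal maps give one symmetric pairing. -/
theorem sameDN_of_sameMap (hΩ : SmoothDomain Ω) (h₁ : Admissible Ω lam₁ mu₁)
    (h₂ : Admissible Ω lam₂ mu₂) (hS : SameMap Ω lam₁ mu₁ lam₂ mu₂) :
    SameDN Ω lam₁ mu₁ lam₂ mu₂ := by
  have s₁ := setup hΩ h₁
  have s₂ := setup hΩ h₂
  refine ⟨form s₁, form_symm s₁, ?_, ?_⟩
  · intro U u v hU hKU hu hv hsol
    rw [form_eq s₁ ⟨U, u, hU, hKU, hu, rfl⟩ ⟨U, v, hU, hKU, hv, rfl⟩,
      setIntegral_energy s₁ hU hKU hu hv]
    have hw := fun φ (hφ : Test Ω φ) => weak_of_sol s₁ hU hKU hu hsol hφ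
    have key : ∀ {a b : R3 → Fin 3 → ℝ} (ha : ContDiffOn ℝ 2 a U) (hb : ContDiffOn ℝ 2 b U),
        (∀ φ, Test Ω φ → pairing Ω lam₁ mu₁ (grad a) (grad φ) = 0) →
        rpair s₁ hU hKU hU hKU ha hb = pairing Ω lam₁ mu₁ (grad a) (grad b) := by
      intro a b ha hb hwa
      rw [rpair, inner_pr, pr_eq_of_weak s₁ _ hwa, inner_toH]
    simp only [extForm]
    rw [key (contDiffOn_reF hu) (contDiffOn_reF hv) fun φ hφ => (hw φ hφ).1,
      key (contDiffOn_imF hu) (contDiffOn_imF hv) fun φ hφ => (hw φ hφ).2,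
      key (contDiffOn_reF hu) (contDiffOn_imF hv) fun φ hφ => (hw φ hφ).1,
      key (contDiffOn_imF hu) (contDiffOn_reF hv) fun φ hφ => (hw φ hφ).2]
  · intro U u v hU hKU hu hv hsol
    rw [form_eq s₁ ⟨U, u, hU, hKU, hu, rfl⟩ ⟨U, v, hU, hKU, hv, rfl⟩,
      setIntegral_energy s₂ hU hKU hu hv]
    have hw := fun φ (hφ : Test Ω φ) => weak_of_sol s₂ hU hKU hu hsol hφ
    have key : ∀ {a b : R3 → Fin 3 → ℝ} (ha : ContDiffOn ℝ 2 a U) (hb : ContDiffOn ℝ 2 b U),
        (∀ φ, Test Ω φ → pairing Ω lam₂ mu₂ (grad a) (grad φ) = 0) →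
        rpair s₁ hU hKU hU hKU ha hb = pairing Ω lam₂ mu₂ (grad a) (grad b) := by
      intro a b ha hb hwa
      obtain ⟨w, Dw, hsol₁, hD, he⟩ := exists_sol s₁ (memL2_grad s₁ hU hKU ha)
      have hsol₂ : IsSol Ω lam₂ mu₂ a 0 0 := ⟨isH10_zero, by simpa using hwa⟩
      have := hS U a b w 0 Dw 0 hU hKU ha hb hsol₁ hsol₂
      rw [add_zero] at this
      rw [rpair, inner_pr, ← this, ← inner_toH s₁ ((memL2_grad s₁ hU hKU ha).add hD)
        (memL2_grad s₁ hU hKU hb), he]
      rfl
    simp only [extForm]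
    rw [key (contDiffOn_reF hu) (contDiffOn_reF hv) fun φ hφ => (hw φ hφ).1,
      key (contDiffOn_imF hu) (contDiffOn_imF hv) fun φ hφ => (hw φ hφ).2,
      key (contDiffOn_reF hu) (contDiffOn_imF hv) fun φ hφ => (hw φ hφ).1,
      key (contDiffOn_imF hu) (contDiffOn_reF hv) fun φ hφ => (hw φ hφ).2]

end Vale.Agent.P136.DN
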