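import Vale.Agent.P136.Mod.Calc

/-!
# Calculus for the holomorphy of the gauge

Transposition of `dD θ` on compactly supported functions, and integrals of continuous families
vanishing outside a fixed ball.
-/

noncomputable section

namespace Vale.Agent.P136.Hol

open MeasureTheory Metric Filter
open scoped BigOperators Matrix ContDiff Topology

variable {ι : Type} [Fintype ι]

lemma null_sq_sum (σ : Fin 2 → ℂ) : ∑ i, null σ i ^ 2 = 0 := by
  have hI := Complex.I_sq
  simp only [Fin.sum_univ_three, null, Matrix.cons_val_zero, Matrix.cons_val_one, Matrix.cons_val]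
  linear_combination (σ 0 ^ 2 + σ 1 ^ 2) ^ 2 * hI

lemma null_ne_zero {σ : Fin 2 → ℂ} (h : σ ≠ 0) : null σ ≠ 0 := by
  intro hn
  have h0 : σ 0 ^ 2 - σ 1 ^ 2 = 0 := congrFun hn 0
  have h1 : Complex.I * (σ 0 ^ 2 + σ 1 ^ 2) = 0 := congrFun hn 1
  have h2 := (mul_eq_zero.1 h1).resolve_left Complex.I_ne_zero
  refine h (funext fun i => ?_)
  fin_cases i
  · exact pow_eq_zero_iff two_ne_zero |>.1 (show σ 0 ^ 2 = 0 by linear_combination (h0 + h2) / 2)
  · exact pow_eq_zero_iff two_ne_zero |>.1 (show σ 1 ^ 2 = 0 by linear_combination (h2 - h0) / 2)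

lemma pd_fun_sub {f g : R3 → ι → ℂ} (hf : ContDiff ℝ ∞ f) (hg : ContDiff ℝ ∞ g) (k : Fin 3)
    (x : R3) : pd k (f - g) x = pd k f x - pd k g x := by
  simp only [pd]
  rw [fderiv_sub ((hf.differentiable (by simp)) x) ((hg.differentiable (by simp)) x)]
  rfl

lemma dD_sub {f g : R3 → ι → ℂ} (hf : ContDiff ℝ ∞ f) (hg : ContDiff ℝ ∞ g) (θ : C3) :
    dD θ (f - g) = dD θ f - dD θ g := by
  funext x
  simp only [dD, Pi.sub_apply, pd_fun_sub hf hg, smul_sub, Finset.sum_sub_distrib]

lemma dD_const_smul {f : R3 → ι → ℂ} (hf : ContDiff ℝ ∞ f) (θ : C3) (c : ℂ) :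
    dD θ (c • f) = c • dD θ f := by
  funext x
  simp only [dD, pd, Pi.smul_apply]
  rw [fderiv_const_smul ((hf.differentiable (by simp)) x), Finset.smul_sum]
  simp only [smul_apply]
  exact Finset.sum_congr rfl fun i _ => smul_comm _ _ _

lemma dD_add_smul (θ η : C3) (t : ℂ) (f : R3 → ι → ℂ) (x : R3) :
    dD (θ + t • η) f x = dD θ f x + t • dD η f x := by
  simp only [dD, Pi.add_apply, Pi.smul_apply, add_smul, Finset.sum_add_distrib, Finset.smul_sum,
    smul_smul, smul_eq_mul]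

lemma pd_zero_out {E : Type*} [NormedAddCommGroup E] [NormedSpace ℝ E] {f : R3 → E} {R : ℝ}
    (hf : ∀ x, R < ‖x‖ → f x = 0) (k : Fin 3) {x : R3} (hx : R < ‖x‖) : pd k f x = 0 := by
  have h : f =ᶠ[𝓝 x] fun _ => 0 :=
    Filter.eventually_of_mem ((isOpen_lt continuous_const continuous_norm).mem_nhds hx)
      fun y hy => hf y hy
  simp [pd, h.fderiv_eq]

lemma dD_zero_out {f : R3 → ι → ℂ} {R : ℝ} (hf : ∀ x, R < ‖x‖ → f x = 0) (θ : C3) {x : R3}
    (hx : R < ‖x‖) : dD θ f x = 0 := by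
  simp [dD, pd_zero_out hf _ hx]

lemma hasCompactSupport_out {E : Type*} [Zero E] {f : R3 → E} {R : ℝ}
    (hf : ∀ x, R < ‖x‖ → f x = 0) : HasCompactSupport f :=
  HasCompactSupport.intro (isCompact_closedBall 0 R) fun x hx =>
    hf x (by simpa [mem_closedBall_zero_iff] using hx)

lemma integrable_out {E : Type*} [NormedAddCommGroup E] {f : R3 → E} {R : ℝ}
    (hc : Continuous f) (hf : ∀ x, R < ‖x‖ → f x = 0) : Integrable f :=
  hc.integrable_of_hasCompactSupport (hasCompactSupport_out hf)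

lemma continuous_integral_out {X : Type*} [TopologicalSpace X] [FirstCountableTopology X]
    [LocallyCompactSpace X] {E : Type*} [NormedAddCommGroup E] [NormedSpace ℝ E]
    {H : X → R3 → E} {R : ℝ} (hH : Continuous (Function.uncurry H))
    (h0 : ∀ t, ∀ x, R < ‖x‖ → H t x = 0) : Continuous fun t => ∫ x, H t x := by
  have e : (fun t => ∫ x, H t x) = fun t => ∫ x in closedBall (0 : R3) R, H t x := funext fun t =>
    (setIntegral_eq_integral_of_forall_compl_eq_zero fun x hx =>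
      h0 t x (by simpa [mem_closedBall_zero_iff] using hx)).symm
  rw [e]
  exact continuous_parametric_integral_of_continuous hH (isCompact_closedBall 0 R)

lemma contDiff_dot {z v : R3 → ι → ℂ} (hz : ContDiff ℝ ∞ z) (hv : ContDiff ℝ ∞ v) :
    ContDiff ℝ ∞ fun x => z x ⬝ᵥ v x := by
  simp only [dotProduct]
  exact ContDiff.sum fun i _ => (contDiff_pi.1 hz i).mul (contDiff_pi.1 hv i)

lemma dD_dot {z v : R3 → ι → ℂ} (hz : ContDiff ℝ ∞ z) (hv : ContDiff ℝ ∞ v) (θ : C3) (x : R3) :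
    dD θ (fun y => z y ⬝ᵥ v y) x = dD θ z x ⬝ᵥ v x + z x ⬝ᵥ dD θ v x := by
  have hzd := (hz.differentiable (by simp)) x
  have hvd := (hv.differentiable (by simp)) x
  have hzi : ∀ i, DifferentiableAt ℝ (fun y => z y i) x := differentiableAt_pi.1 hzd
  have hvi : ∀ i, DifferentiableAt ℝ (fun y => v y i) x := differentiableAt_pi.1 hvd
  have hp : ∀ k, pd k (fun y => z y ⬝ᵥ v y) x = pd k z x ⬝ᵥ v x + z x ⬝ᵥ pd k v x := fun k => by
    simp only [dotProduct, ← Finset.sum_add_distrib, pd_apply hzd, pd_apply hvd]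
    rw [pd_sum _ fun i _ => (hzi i).fun_mul (hvi i)]
    exact Finset.sum_congr rfl fun i _ => pd_mul (hzi i) (hvi i)
  simp only [dD, sum_dotProduct, dotProduct_sum, smul_dotProduct, dotProduct_smul, hp, smul_add,
    Finset.sum_add_distrib]

/-- The transpose of `dD θ` is `- dD θ`. -/
lemma integral_dot_dD {z v : R3 → ι → ℂ} (hz : ContDiff ℝ ∞ z) (hv : ContDiff ℝ ∞ v) {R : ℝ}
    (h0 : ∀ x, R < ‖x‖ → v x = 0) (θ : C3) :
    ∫ x, z x ⬝ᵥ dD θ v x = - ∫ x, dD θ z x ⬝ᵥ v x := by
  have hd : ∀ w : R3 → ι → ℂ, ContDiff ℝ ∞ w → Continuous (dD θ w) := fun w hw =>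
    continuous_finsetSum _ fun k _ => (smooth_pd (i := k) hw).continuous.const_smul (θ k)
  have hc1 : Integrable fun x => z x ⬝ᵥ dD θ v x :=
    integrable_out (R := R) (hz.continuous.dotProduct (hd v hv)) fun x hx => by
      simp [dD_zero_out h0 θ hx]
  have hc2 : Integrable fun x => dD θ z x ⬝ᵥ v x :=
    integrable_out (R := R) ((hd z hz).dotProduct hv.continuous) fun x hx => by simp [h0 x hx]
  have h := integral_dD θ (contDiff_dot hz hv |>.of_le (by simp))
    (hasCompactSupport_out (R := R) fun x hx => by simp [h0 x hx])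
  simp only [dD_dot hz hv] at h
  rw [integral_add hc2 hc1] at h
  linear_combination h

/-- A family tending to zero in `L²` tends to zero against a continuous function. -/
lemma tendsto_integral_dot {X : Type*} {l : Filter X} {g : R3 → ι → ℂ} {E : X → R3 → ι → ℂ}
    {R : ℝ} (hg : Continuous g) (hE : ∀ᶠ t in l, Continuous (E t) ∧ ∀ x, R < ‖x‖ → E t x = 0)
    (h2 : Tendsto (fun t => ∫ x, ‖E t x‖ ^ 2) l (𝓝 0)) :
    Tendsto (fun t => ∫ x, g x ⬝ᵥ E t x) l (𝓝 0) := by
  set n : ℝ := (Fintype.card ι : ℝ)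
  set G : ℝ := ∫ x in closedBall (0 : R3) R, ‖g x‖ ^ 2
  have hG : 0 ≤ G := integral_nonneg fun x => sq_nonneg _
  rw [Metric.tendsto_nhds]
  intro ε hε
  have hn : 0 ≤ n := Nat.cast_nonneg _
  set a : ℝ := ε / (n * G + 1) with ha
  have ha0 : 0 < a := by positivity
  filter_upwards [hE, (Metric.tendsto_nhds.1 h2) (ε * a / (n + 1)) (by positivity)] with t ht ht2
  rw [Real.dist_0_eq_abs, abs_of_nonneg (integral_nonneg fun x => sq_nonneg _)] at ht2
  rw [dist_zero_right]
  have hgi : IntegrableOn (fun x => n * (a * ‖g x‖ ^ 2)) (closedBall (0 : R3) R) :=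
    (continuous_const.mul (continuous_const.mul (hg.norm.pow 2))).continuousOn.integrableOn_compact
      (isCompact_closedBall _ _)
  have hEi : Integrable fun x => n * (‖E t x‖ ^ 2 / a) :=
    integrable_out (R := R) (continuous_const.mul ((ht.1.norm.pow 2).div_const a)) fun x hx => by
      simp [ht.2 x hx]
  have hb : ∀ x, ‖g x ⬝ᵥ E t x‖ ≤ (n * (a * ‖g x‖ ^ 2) + n * (‖E t x‖ ^ 2 / a)) / 2 := by
    intro x
    have h1 : ‖g x ⬝ᵥ E t x‖ ≤ n * (‖g x‖ * ‖E t x‖) := by
      refine (norm_sum_le _ _).trans ((Finset.sum_le_card_nsmul _ _ (‖g x‖ * ‖E t x‖)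
        fun i _ => ?_).trans (le_of_eq ?_))
      · rw [norm_mul]
        exact mul_le_mul (norm_le_pi_norm _ i) (norm_le_pi_norm _ i) (norm_nonneg _) (norm_nonneg _)
      · simp [n]
    have h2 : 2 * (‖g x‖ * ‖E t x‖) ≤ a * ‖g x‖ ^ 2 + ‖E t x‖ ^ 2 / a := by
      rw [← sub_nonneg]
      have e : a * ‖g x‖ ^ 2 + ‖E t x‖ ^ 2 / a - 2 * (‖g x‖ * ‖E t x‖) =
          (a * ‖g x‖ - ‖E t x‖) ^ 2 / a := by
        field_simp
        ring
      rw [e]
      positivity
    have h3 := mul_le_mul_of_nonneg_left h2 hn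
    linarith
  have hs : ∫ x, g x ⬝ᵥ E t x = ∫ x in closedBall (0 : R3) R, g x ⬝ᵥ E t x :=
    (setIntegral_eq_integral_of_forall_compl_eq_zero fun x hx => by
      simp [ht.2 x (by simpa [mem_closedBall_zero_iff] using hx)]).symm
  rw [hs]
  refine lt_of_le_of_lt ((norm_integral_le_integral_norm _).trans (integral_mono_of_nonneg
    (Eventually.of_forall fun x => norm_nonneg _) ((hgi.add hEi.integrableOn).div_const 2)
    (Eventually.of_forall hb))) ?_
  simp only [Pi.add_apply]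
  rw [integral_div, integral_add hgi hEi.integrableOn, integral_const_mul, integral_const_mul]
  have h4 : ∫ x in closedBall (0 : R3) R, ‖E t x‖ ^ 2 / a ≤ (∫ x, ‖E t x‖ ^ 2) / a := by
    rw [← integral_div]
    exact setIntegral_le_integral ((integrable_out (R := R) (ht.1.norm.pow 2) fun x hx => by
      simp [ht.2 x hx]).div_const a) (Eventually.of_forall fun x => by positivity)
  rw [integral_const_mul]
  have h5 : (∫ x, ‖E t x‖ ^ 2) / a < ε / (n + 1) := by
    rw [div_lt_iff₀ ha0]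
    exact ht2.trans_eq (by ring)
  have h6 : n * (a * G) < ε := by
    have : a * (n * G + 1) = ε := div_mul_cancel₀ _ (by positivity)
    linarith
  have h7 : n * (ε / (n + 1)) ≤ ε := by
    rw [← mul_div_assoc, div_le_iff₀ (by positivity)]
    linarith
  have := mul_le_mul_of_nonneg_left (h4.trans h5.le) hn
  linarith

end Vale.Agent.P136.Hol
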