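import Vale.Agent.P136.Mod.HolBasic

/-!
# Derivative of a family of compactly supported solutions

Compactly supported solutions `Z t` of `dD (θ t) Z = T t Z + G t` are complex differentiable in `t`
against continuous functions: the forcing of the difference quotients tends to one orthogonal to
the adjoint solutions, whose compact solution is the derivative.
-/

noncomputable section

namespace Vale.Agent.P136.Hol

open MeasureTheory Metric Filter
open scoped BigOperators Matrix ContDiff Topology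

variable {ι : Type} [Fintype ι]

lemma contDiff_mulVec {T : R3 → Matrix ι ι ℂ} {v : R3 → ι → ℂ}
    (hT : ∀ a b, ContDiff ℝ ∞ fun x => T x a b) (hv : ContDiff ℝ ∞ v) :
    ContDiff ℝ ∞ fun x => T x *ᵥ v x := by
  refine contDiff_pi.2 fun a => ?_
  simp only [Matrix.mulVec, dotProduct]
  exact ContDiff.sum fun b _ => (hT a b).mul (contDiff_pi.1 hv b)

lemma continuous_dD_uncurry {θ : ℂ → C3} (hθ : Continuous θ) {f : R3 → ι → ℂ}
    (hf : ContDiff ℝ ∞ f) : Continuous (Function.uncurry fun t => dD (θ t) f) := by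
  show Continuous fun p : ℂ × R3 => ∑ i, θ p.1 i • pd i f p.2
  exact continuous_finsetSum _ fun i _ =>
    ((continuous_apply i).comp (hθ.comp continuous_fst)).smul
      ((smooth_pd (i := i) hf).continuous.comp continuous_snd)

lemma continuous_mulVec_uncurry {T : ℂ → R3 → Matrix ι ι ℂ}
    (hT : ∀ a b, Continuous fun p : ℂ × R3 => T p.1 p.2 a b) {v : ℂ × R3 → ι → ℂ}
    (hv : Continuous v) : Continuous fun p : ℂ × R3 => T p.1 p.2 *ᵥ v p := by
  refine continuous_pi fun a => ?_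
  simp only [Matrix.mulVec, dotProduct]
  exact continuous_finsetSum _ fun b _ => (hT a b).mul ((continuous_apply b).comp hv)

/-- The transpose of a plane system. -/
lemma integral_dot_sys {θ : C3} {T : R3 → Matrix ι ι ℂ}
    (hT : ∀ a b, ContDiff ℝ ∞ fun x => T x a b) {z v : R3 → ι → ℂ} (hz : ContDiff ℝ ∞ z)
    (hv : ContDiff ℝ ∞ v) {R : ℝ} (h0 : ∀ x, R < ‖x‖ → v x = 0) :
    ∫ x, z x ⬝ᵥ (dD θ v x - T x *ᵥ v x) = ∫ x, (-(dD θ z x) - (T x)ᵀ *ᵥ z x) ⬝ᵥ v x := by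
  have hi1 : Integrable fun x => z x ⬝ᵥ dD θ v x := integrable_out (R := R)
    (hz.continuous.dotProduct (smooth_dD θ hv).continuous) fun x hx => by
      simp [dD_zero_out h0 θ hx]
  have hi2 : Integrable fun x => z x ⬝ᵥ (T x *ᵥ v x) := integrable_out (R := R)
    (hz.continuous.dotProduct (contDiff_mulVec hT hv).continuous) fun x hx => by simp [h0 x hx]
  have hi3 : Integrable fun x => -(dD θ z x ⬝ᵥ v x) := (integrable_out (R := R)
    ((smooth_dD θ hz).continuous.dotProduct hv.continuous) fun x hx => by simp [h0 x hx]).neg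
  have e : ∀ x, (-(dD θ z x) - (T x)ᵀ *ᵥ z x) ⬝ᵥ v x =
      -(dD θ z x ⬝ᵥ v x) - z x ⬝ᵥ (T x *ᵥ v x) := fun x => by
    rw [sub_dotProduct, neg_dotProduct, Matrix.mulVec_transpose, ← Matrix.dotProduct_mulVec]
  simp only [e, dotProduct_sub]
  rw [integral_sub hi1 hi2, integral_sub hi3 hi2, integral_neg, integral_dot_dD hz hv h0 θ]

/-- A bound of the integral of a product by the square integrals. -/
lemma norm_integral_dot_le {g v : R3 → ι → ℂ} {R : ℝ} (hg : Continuous g) (hv : Continuous v)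
    (h0 : ∀ x, R < ‖x‖ → v x = 0) :
    ‖∫ x, g x ⬝ᵥ v x‖ ≤
      Fintype.card ι * ((∫ x in closedBall (0 : R3) R, ‖g x‖ ^ 2) + ∫ x, ‖v x‖ ^ 2) := by
  have hs : ∫ x, g x ⬝ᵥ v x = ∫ x in closedBall (0 : R3) R, g x ⬝ᵥ v x :=
    (setIntegral_eq_integral_of_forall_compl_eq_zero fun x hx => by
      simp [h0 x (by simpa [mem_closedBall_zero_iff] using hx)]).symm
  have hgi : IntegrableOn (fun x => ‖g x‖ ^ 2) (closedBall (0 : R3) R) :=
    (hg.norm.pow 2).continuousOn.integrableOn_compact (isCompact_closedBall _ _)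
  have hvi : Integrable fun x => ‖v x‖ ^ 2 :=
    integrable_out (R := R) (hv.norm.pow 2) fun x hx => by simp [h0 x hx]
  rw [hs]
  refine ((norm_integral_le_integral_norm _).trans (integral_mono_of_nonneg
    (Eventually.of_forall fun x => norm_nonneg _) ((hgi.add hvi.integrableOn).const_mul (Fintype.card ι : ℝ))
    (Eventually.of_forall fun x => ?_))).trans (le_of_eq_of_le (integral_const_mul _ _) ?_)
  · refine (norm_sum_le _ _).trans ((Finset.sum_le_card_nsmul _ _ (‖g x‖ ^ 2 + ‖v x‖ ^ 2)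
      fun i _ => ?_).trans (le_of_eq ?_))
    · rw [norm_mul]
      have h1 := mul_le_mul (norm_le_pi_norm (g x) i) (norm_le_pi_norm (v x) i) (norm_nonneg _)
        (norm_nonneg _)
      linarith [two_mul_le_add_sq ‖g x‖ ‖v x‖, mul_nonneg (norm_nonneg (g x)) (norm_nonneg (v x))]
    · simp only [Finset.card_univ, nsmul_eq_mul, Pi.add_apply]
  · refine mul_le_mul_of_nonneg_left ?_ (Nat.cast_nonneg _)
    simp only [Pi.add_apply]
    rw [integral_add hgi hvi.integrableOn]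
    exact add_le_add le_rfl (setIntegral_le_integral hvi (Eventually.of_forall fun x => sq_nonneg _))

/-- A family of compactly supported solutions. -/
structure Fam (ι : Type) [Fintype ι] where
  R : ℝ
  R_pos : 0 < R
  θ : ℂ → C3
  θ₁ : ℂ → C3
  T : ℂ → R3 → Matrix ι ι ℂ
  T₁ : ℂ → R3 → Matrix ι ι ℂ
  G : ℂ → R3 → ι → ℂ
  G₁ : ℂ → R3 → ι → ℂ
  Z : ℂ → R3 → ι → ℂ
  θ_cont : Continuous θ
  θ₁_cont : Continuous θ₁
  θ_eq : ∀ t, θ t = θ 0 + t • θ₁ t
  θ_null : ∀ t, θ t ≠ 0 ∧ ∑ i, θ t i ^ 2 = 0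
  T_smooth : ∀ t a b, ContDiff ℝ ∞ fun x => T t x a b
  T₁_smooth : ∀ t a b, ContDiff ℝ ∞ fun x => T₁ t x a b
  T_cont : ∀ a b, Continuous fun p : ℂ × R3 => T p.1 p.2 a b
  T₁_cont : ∀ a b, Continuous fun p : ℂ × R3 => T₁ p.1 p.2 a b
  T_eq : ∀ t x, T t x = T 0 x + t • T₁ t x
  G₁_smooth : ∀ t, ContDiff ℝ ∞ (G₁ t)
  G₁_cont : Continuous fun p : ℂ × R3 => G₁ p.1 p.2
  G_eq : ∀ t x, G t x = G 0 x + t • G₁ t x
  G_out : ∀ t x, R < ‖x‖ → G t x = 0
  Z_smooth : ∀ t, ContDiff ℝ ∞ (Z t)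
  Z_out : ∀ t x, R < ‖x‖ → Z t x = 0
  eqn : ∀ t x, dD (θ t) (Z t) x = T t x *ᵥ Z t x + G t x

namespace Fam

variable (F : Fam ι)

/-- The difference quotient. -/
def Q (t : ℂ) : R3 → ι → ℂ := t⁻¹ • (F.Z t - F.Z 0)

/-- The forcing of the difference quotient. -/
def f (t : ℂ) : R3 → ι → ℂ :=
  fun x => F.T₁ t x *ᵥ F.Z 0 x + F.G₁ t x - dD (F.θ₁ t) (F.Z 0) x

lemma contDiff_Q (t : ℂ) : ContDiff ℝ ∞ (F.Q t) :=
  ((F.Z_smooth t).sub (F.Z_smooth 0)).const_smul t⁻¹

lemma Q_out (t : ℂ) {x : R3} (hx : F.R < ‖x‖) : F.Q t x = 0 := by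
  simp [Q, F.Z_out t x hx, F.Z_out 0 x hx]

lemma contDiff_f (t : ℂ) : ContDiff ℝ ∞ (F.f t) :=
  ((contDiff_mulVec (F.T₁_smooth t) (F.Z_smooth 0)).add (F.G₁_smooth t)).sub
    (smooth_dD _ (F.Z_smooth 0))

lemma continuous_f : Continuous (Function.uncurry F.f) := by
  show Continuous fun p : ℂ × R3 => F.T₁ p.1 p.2 *ᵥ F.Z 0 p.2 + F.G₁ p.1 p.2 -
    dD (F.θ₁ p.1) (F.Z 0) p.2
  exact ((continuous_mulVec_uncurry F.T₁_cont ((F.Z_smooth 0).continuous.comp continuous_snd)).add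
    F.G₁_cont).sub (continuous_dD_uncurry F.θ₁_cont (F.Z_smooth 0))

lemma G₁_out (t : ℂ) {x : R3} (hx : F.R < ‖x‖) : F.G₁ t x = 0 := by
  have hc : Continuous fun s => F.G₁ s x := F.G₁_cont.comp (continuous_id.prodMk continuous_const)
  have hd : Dense ({0}ᶜ : Set ℂ) := dense_compl_singleton 0
  have := hc.ext_on hd continuous_const (g := fun _ => 0) fun s hs => by
    have h := F.G_eq s x
    rw [F.G_out s x hx, F.G_out 0 x hx, zero_add] at h
    exact (smul_eq_zero.1 h.symm).resolve_left hs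
  exact congrFun this t

lemma f_out (t : ℂ) {x : R3} (hx : F.R < ‖x‖) : F.f t x = 0 := by
  simp [f, F.Z_out 0 x hx, F.G₁_out t hx, dD_zero_out (F.Z_out 0) _ hx]

lemma eqn_Q {t : ℂ} (ht : t ≠ 0) (x : R3) :
    dD (F.θ t) (F.Q t) x - F.T t x *ᵥ F.Q t x = F.f t x := by
  have h0 : dD (F.θ t) (F.Z 0) x = F.T 0 x *ᵥ F.Z 0 x + F.G 0 x + t • dD (F.θ₁ t) (F.Z 0) x := by
    rw [F.θ_eq t, dD_add_smul, F.eqn]
  rw [Q, dD_const_smul (f := F.Z t - F.Z 0) ((F.Z_smooth t).sub (F.Z_smooth 0)), dD_sub (F.Z_smooth t) (F.Z_smooth 0)]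
  simp only [Pi.smul_apply, Pi.sub_apply, F.eqn t x, h0, Matrix.mulVec_smul, Matrix.mulVec_sub,
    f]
  rw [F.G_eq t x, F.T_eq t x, Matrix.add_mulVec, Matrix.add_mulVec, Matrix.smul_mulVec,
    Matrix.smul_mulVec]
  funext i
  simp only [Pi.smul_apply, Pi.sub_apply, Pi.add_apply, smul_eq_mul]
  field_simp
  ring

variable (hB : PlaneBoundOut)
include hB

/-- The bound on the disk of radius one in the parameter. -/
lemma exists_bound (r : ℝ) : ∃ K, ∀ t : ℂ, ‖t‖ ≤ 1 → ∀ v : R3 → ι → ℂ, ContDiff ℝ 1 v →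
    (∀ x, r < ‖x‖ → v x = 0) →
    ∫ x, ‖v x‖ ^ 2 ≤ K * ∫ x, ‖dD (F.θ t) v x - F.T t x *ᵥ v x‖ ^ 2 := by
  obtain ⟨K, hK⟩ := hB ι ℂ (closedBall 0 1) (isCompact_closedBall _ _) F.θ F.T
    F.θ_cont.continuousOn (fun t _ => F.θ_null t) (fun a b => (F.T_cont a b).continuousOn) r
  exact ⟨K, fun t ht => hK t (mem_closedBall_zero_iff.2 ht)⟩

omit hB in
lemma eventually_small : ∀ᶠ t : ℂ in 𝓝[≠] 0, t ≠ 0 ∧ ‖t‖ ≤ 1 :=
  (eventually_mem_nhdsWithin).and ((eventually_le_nhds (by simp : ‖(0 : ℂ)‖ < 1)).filter_mono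
    ((continuous_norm.tendsto 0).mono_left nhdsWithin_le_nhds) |> fun h => h)

lemma exists_Q_bound : ∃ B, ∀ᶠ t in 𝓝[≠] (0 : ℂ), ∫ x, ‖F.Q t x‖ ^ 2 ≤ B := by
  obtain ⟨K, hK⟩ := F.exists_bound hB F.R
  have hc : Continuous fun t => ∫ x, ‖F.f t x‖ ^ 2 := continuous_integral_out (R := F.R)
    (F.continuous_f.norm.pow 2) fun t x hx => by simp [F.f_out t hx]
  refine ⟨|K| * (∫ x, ‖F.f 0 x‖ ^ 2) + 1, ?_⟩
  filter_upwards [eventually_small, ((continuous_const.mul hc).tendsto 0).mono_left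
    nhdsWithin_le_nhds |>.eventually (eventually_le_nhds (lt_add_one (|K| * ∫ x, ‖F.f 0 x‖ ^ 2)))]
    with t ht hle
  refine ((hK t ht.2 _ ((F.contDiff_Q t).of_le (by simp)) fun x hx => F.Q_out t hx).trans ?_)
  simp only [F.eqn_Q ht.1]
  exact (mul_le_mul_of_nonneg_right (le_abs_self K) (integral_nonneg fun x => sq_nonneg _)).trans hle

/-- The forcing of the derivative is orthogonal to the adjoint solutions. -/
lemma orth {z : R3 → ι → ℂ} (hz : ContDiff ℝ ∞ z)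
    (hzeq : ∀ x ∈ ball 0 (F.R + 3), dD (F.θ 0) z x = -((F.T 0 x)ᵀ *ᵥ z x)) :
    ∫ x, z x ⬝ᵥ F.f 0 x = 0 := by
  obtain ⟨B, hB'⟩ := F.exists_Q_bound hB
  set w : ℂ → R3 → ι → ℂ := fun t x => -(dD (F.θ₁ t) z x) - (F.T₁ t x)ᵀ *ᵥ z x with hw
  have hwc : Continuous (Function.uncurry w) := by
    show Continuous fun p : ℂ × R3 => -(dD (F.θ₁ p.1) z p.2) - (F.T₁ p.1 p.2)ᵀ *ᵥ z p.2
    exact (continuous_dD_uncurry F.θ₁_cont hz).neg.sub (continuous_mulVec_uncurry
      (T := fun t x => (F.T₁ t x)ᵀ) (fun a b => F.T₁_cont b a) (hz.continuous.comp continuous_snd))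
  have hW : Continuous fun t => ∫ x in closedBall (0 : R3) F.R, ‖w t x‖ ^ 2 :=
    continuous_parametric_integral_of_continuous (hwc.norm.pow 2) (isCompact_closedBall _ _)
  have heq : ∀ t : ℂ, t ≠ 0 → ∫ x, z x ⬝ᵥ F.f t x = t * ∫ x, w t x ⬝ᵥ F.Q t x := by
    intro t ht
    simp only [← F.eqn_Q ht]
    rw [integral_dot_sys (F.T_smooth t) hz (F.contDiff_Q t) fun x hx => F.Q_out t hx,
      ← integral_const_mul]
    refine integral_congr_ae (Eventually.of_forall fun x => ?_)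
    by_cases hx : ‖x‖ < F.R + 3
    · have h0 := hzeq x (mem_ball_zero_iff.2 hx)
      show _ = t * (w t x ⬝ᵥ F.Q t x)
      rw [← smul_eq_mul t, ← smul_dotProduct]
      refine congrArg (· ⬝ᵥ F.Q t x) ?_
      rw [F.θ_eq t, dD_add_smul, h0, F.T_eq t x, Matrix.transpose_add, Matrix.transpose_smul,
        Matrix.add_mulVec, Matrix.smul_mulVec]
      simp only [hw, smul_sub, smul_neg]
      abel
    · have := F.Q_out t (show F.R < ‖x‖ by linarith)
      simp [this]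
  have hlim0 : Tendsto (fun t => ∫ x, z x ⬝ᵥ F.f t x) (𝓝[≠] 0) (𝓝 0) := by
    refine squeeze_zero_norm' (a := fun t : ℂ => ‖t‖ * (Fintype.card ι *
      ((∫ x in closedBall (0 : R3) F.R, ‖w t x‖ ^ 2) + B))) ?_ ?_
    · filter_upwards [hB', eventually_small] with t ht ht'
      rw [heq t ht'.1, norm_mul]
      refine mul_le_mul_of_nonneg_left ((norm_integral_dot_le (g := w t) (R := F.R)
        (hwc.comp (continuous_const.prodMk continuous_id)) (F.contDiff_Q t).continuous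
        fun x hx => F.Q_out t hx).trans ?_) (norm_nonneg _)
      exact mul_le_mul_of_nonneg_left (by linarith) (Nat.cast_nonneg _)
    · have hc : Continuous fun t : ℂ => ‖t‖ * (Fintype.card ι *
          ((∫ x in closedBall (0 : R3) F.R, ‖w t x‖ ^ 2) + B)) :=
        continuous_norm.mul (continuous_const.mul (hW.add continuous_const))
      simpa using (hc.tendsto (0 : ℂ)).mono_left (nhdsWithin_le_nhds (s := {(0 : ℂ)}ᶜ))
  have hcf : Continuous fun t => ∫ x, z x ⬝ᵥ F.f t x := by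
    refine continuous_integral_out (R := F.R) ?_ fun t x hx => by simp [F.f_out t hx]
    show Continuous fun p : ℂ × R3 => z p.2 ⬝ᵥ F.f p.1 p.2
    exact (hz.continuous.comp continuous_snd).dotProduct F.continuous_f
  exact tendsto_nhds_unique ((hcf.tendsto 0).mono_left nhdsWithin_le_nhds) hlim0

/-- The family is complex differentiable against continuous functions. -/
theorem hasDerivAt (hX : PlaneExtOut) {g : R3 → ι → ℂ} (hg : Continuous g) :
    ∃ d, HasDerivAt (fun t => ∫ x, g x ⬝ᵥ F.Z t x) d 0 := by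
  obtain ⟨L, hL, hLout, hLeq⟩ := hX ι (F.T 0) (F.T_smooth 0) (F.θ 0) (F.θ_null 0).1 (F.θ_null 0).2
    F.R (F.f 0) F.R_pos (F.contDiff_f 0) (fun x hx => F.f_out 0 hx) fun z hz hzeq => F.orth hB hz hzeq
  obtain ⟨K, hK⟩ := F.exists_bound hB (F.R + 3)
  set H : ℂ → R3 → ι → ℂ :=
    fun t x => F.f t x - F.f 0 x - t • (dD (F.θ₁ t) L x - F.T₁ t x *ᵥ L x) with hH
  have hHc : Continuous (Function.uncurry H) := by
    show Continuous fun p : ℂ × R3 =>
      F.f p.1 p.2 - F.f 0 p.2 - p.1 • (dD (F.θ₁ p.1) L p.2 - F.T₁ p.1 p.2 *ᵥ L p.2)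
    exact (F.continuous_f.sub ((F.contDiff_f 0).continuous.comp continuous_snd)).sub
      (continuous_fst.smul ((continuous_dD_uncurry F.θ₁_cont hL).sub
        (continuous_mulVec_uncurry F.T₁_cont (hL.continuous.comp continuous_snd))))
  have hHout : ∀ t x, F.R + 3 < ‖x‖ → H t x = 0 := fun t x hx => by
    have h1 : F.R < ‖x‖ := by linarith
    simp [hH, F.f_out _ h1, hLout x hx, dD_zero_out hLout _ hx]
  set E : ℂ → R3 → ι → ℂ := fun t => F.Q t - L with hE
  have hEout : ∀ t x, F.R + 3 < ‖x‖ → E t x = 0 := fun t x hx => by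
    simp [hE, F.Q_out t (show F.R < ‖x‖ by linarith), hLout x hx]
  have hEeq : ∀ t : ℂ, t ≠ 0 → ∀ x, dD (F.θ t) (E t) x - F.T t x *ᵥ E t x = H t x := by
    intro t ht x
    simp only [hE, dD_sub (F.contDiff_Q t) hL, Pi.sub_apply, Matrix.mulVec_sub]
    rw [show ∀ a b c d : ι → ℂ, a - b - (c - d) = a - c - (b - d) from fun a b c d => by abel,
      F.eqn_Q ht, F.θ_eq t, dD_add_smul, hLeq, F.T_eq t x, Matrix.add_mulVec, Matrix.smul_mulVec]
    simp only [hH, smul_sub]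
    abel
  have hE2 : Tendsto (fun t => ∫ x, ‖E t x‖ ^ 2) (𝓝[≠] 0) (𝓝 0) := by
    refine squeeze_zero' (Eventually.of_forall fun t => integral_nonneg fun x => sq_nonneg _)
      (eventually_small.mono fun t ht => (hK t ht.2 (E t)
        (((F.contDiff_Q t).sub hL).of_le (by simp)) (hEout t)).trans
        (mul_le_mul_of_nonneg_right (le_abs_self K) (integral_nonneg fun x => sq_nonneg _))) ?_
    have hc : Continuous fun t => ∫ x, ‖H t x‖ ^ 2 := continuous_integral_out (R := F.R + 3)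
      (hHc.norm.pow 2) fun t x hx => by simp [hHout t x hx]
    refine Tendsto.congr' (eventually_small.mono fun t ht => ?_)
      (show Tendsto (fun t => |K| * ∫ x, ‖H t x‖ ^ 2) (𝓝[≠] 0) (𝓝 0) from ?_)
    · simp only [hEeq t ht.1]
    · have h0 : H 0 = 0 := funext fun x => by simp [hH]
      have hc2 : Continuous fun t => |K| * ∫ x, ‖H t x‖ ^ 2 := continuous_const.mul hc
      simpa [h0] using (hc2.tendsto (0 : ℂ)).mono_left nhdsWithin_le_nhds
  refine ⟨∫ x, g x ⬝ᵥ L x, hasDerivAt_iff_tendsto_slope_zero.2 ?_⟩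
  have hgi : ∀ (v : R3 → ι → ℂ) (r : ℝ), Continuous v → (∀ x, r < ‖x‖ → v x = 0) →
      Integrable fun x => g x ⬝ᵥ v x := fun v r hv h0 =>
    integrable_out (R := r) (hg.dotProduct hv) fun x hx => by simp [h0 x hx]
  refine tendsto_sub_nhds_zero_iff.1 (Tendsto.congr (fun t => ?_)
    (tendsto_integral_dot (R := F.R + 3) hg (Eventually.of_forall fun t =>
      ⟨((F.contDiff_Q t).sub hL).continuous, hEout t⟩) hE2))
  have e : ∀ x, g x ⬝ᵥ (F.Q t x - L x) = t⁻¹ * (g x ⬝ᵥ F.Z t x - g x ⬝ᵥ F.Z 0 x) - g x ⬝ᵥ L x := fun x => by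
    simp [Fam.Q, dotProduct_sub, dotProduct_smul]
  have h1 := hgi _ F.R (F.Z_smooth t).continuous (F.Z_out t)
  have h2 := hgi _ F.R (F.Z_smooth 0).continuous (F.Z_out 0)
  simp only [e, zero_add, smul_eq_mul]
  rw [integral_sub ((h1.sub' h2).const_mul _) (hgi _ (F.R + 3) hL.continuous hLout),
    integral_const_mul, integral_sub h1 h2]

end Fam

end Vale.Agent.P136.Hol
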