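import Vale.Agent.P136.Mod.HolFamily

/-!
# The gauge along complex lines and under scaling

Along a complex line of spinors the gauge is complex differentiable against test functions, and it
scales like `X (c σ) = diag(1, c, c) X σ diag(1, 1/c, 1/c)`.
-/

noncomputable section

namespace Vale.Agent.P136.Hol

open MeasureTheory Metric Filter
open scoped BigOperators Matrix ContDiff Topology

/-- Smooth in the space variable and jointly continuous. -/
def Nice (f : ℂ → R3 → ℂ) : Prop :=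
  (∀ t, ContDiff ℝ ∞ (f t)) ∧ Continuous fun p : ℂ × R3 => f p.1 p.2

/-- Nice with nice slope at zero. -/
def Sl (f : ℂ → R3 → ℂ) : Prop :=
  Nice f ∧ ∃ f₁, Nice f₁ ∧ ∀ t x, f t x = f 0 x + t * f₁ t x

lemma Nice.add {f g} (hf : Nice f) (hg : Nice g) : Nice fun t x => f t x + g t x :=
  ⟨fun t => (hf.1 t).add (hg.1 t), hf.2.add hg.2⟩

lemma Nice.mul {f g} (hf : Nice f) (hg : Nice g) : Nice fun t x => f t x * g t x :=
  ⟨fun t => (hf.1 t).mul (hg.1 t), hf.2.mul hg.2⟩

lemma Nice.coef {c : R3 → ℂ} (hc : ContDiff ℝ ∞ c) : Nice fun _ x => c x :=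
  ⟨fun _ => hc, hc.continuous.comp continuous_snd⟩

lemma Nice.continuous_zero {f} (hf : Nice f) : Continuous fun t : ℂ => f t 0 :=
  hf.2.comp (continuous_id.prodMk continuous_const)

lemma Sl.coef {c : R3 → ℂ} (hc : ContDiff ℝ ∞ c) : Sl fun _ x => c x :=
  ⟨Nice.coef hc, fun _ _ => 0, Nice.coef contDiff_const, fun _ _ => by simp⟩

lemma Sl.const (c : ℂ) : Sl fun _ _ => c := Sl.coef contDiff_const

lemma Sl.var : Sl fun t _ => t :=
  ⟨⟨fun _ => contDiff_const, continuous_fst⟩, fun _ _ => 1, Nice.coef contDiff_const,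
    fun _ _ => by simp⟩

lemma Sl.add {f g} (hf : Sl f) (hg : Sl g) : Sl fun t x => f t x + g t x := by
  obtain ⟨hfn, f₁, hf₁, hfe⟩ := hf
  obtain ⟨hgn, g₁, hg₁, hge⟩ := hg
  refine ⟨hfn.add hgn, _, hf₁.add hg₁, fun t x => ?_⟩
  simp only
  rw [hfe t x, hge t x]
  ring

lemma Sl.mul {f g} (hf : Sl f) (hg : Sl g) : Sl fun t x => f t x * g t x := by
  obtain ⟨hfn, f₁, hf₁, hfe⟩ := hf
  obtain ⟨hgn, g₁, hg₁, hge⟩ := hg
  refine ⟨hfn.mul hgn, _, (hf₁.mul hgn).add ((Nice.coef (hfn.1 0)).mul hg₁), fun t x => ?_⟩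
  simp only
  rw [hfe t x, hge t x]
  ring

lemma Sl.neg {f} (hf : Sl f) : Sl fun t x => -f t x := by
  simpa using (Sl.const (-1)).mul hf

lemma Sl.sub {f g} (hf : Sl f) (hg : Sl g) : Sl fun t x => f t x - g t x := by
  simpa [sub_eq_add_neg] using hf.add hg.neg

lemma contDiff_ofReal {f : R3 → ℝ} (hf : ContDiff ℝ ∞ f) : ContDiff ℝ ∞ fun x => (f x : ℂ) :=
  Complex.ofRealCLM.contDiff.comp hf

variable (p q : Fin 2 → ℂ)

lemma sl_line (i : Fin 2) : Sl fun t _ => (p + t • q) i :=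
  (Sl.const (p i)).add (Sl.var.mul (Sl.const (q i)))

lemma sl_null (i : Fin 3) : Sl fun t _ => null (p + t • q) i := by
  have h0 := sl_line p q 0
  have h1 := sl_line p q 1
  fin_cases i
  · simpa [null, sq] using (h0.mul h0).sub (h1.mul h1)
  · simpa [null, sq] using (Sl.const Complex.I).mul ((h0.mul h0).add (h1.mul h1))
  · simpa [null, mul_assoc] using (Sl.const (-2)).mul (h0.mul h1)

lemma sl_stM (C : Coef) (a b : Fin 3) : Sl fun t x => stM C (p + t • q) x a b := by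
  have h0 := sl_line p q 0
  have h1 := sl_line p q 1
  set y : Fin 3 → ℂ := Pi.single b 1
  have hs : Sl fun t (_ : R3) => (p + t • q) 0 * y 2 - (p + t • q) 1 * y 1 :=
    (h0.mul (Sl.const _)).sub (h1.mul (Sl.const _))
  set v : Fin 3 → ℂ → R3 → ℂ := fun i t x =>
    (Real.sqrt (C.mu x) : ℂ) * (∑ j, (C.hnu i j x : ℂ) * null (p + t • q) j) * y 0
      + (C.glm i x : ℂ) * ((p + t • q) 0 * y 2 - (p + t • q) 1 * y 1) / 2 with hv
  have hn : ∀ i, Sl fun t x => ∑ j, (C.hnu i j x : ℂ) * null (p + t • q) j := fun i => by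
    simp only [Fin.sum_univ_three]
    exact (((Sl.coef (contDiff_ofReal (C.smooth_hnu i 0))).mul (sl_null p q 0)).add
      ((Sl.coef (contDiff_ofReal (C.smooth_hnu i 1))).mul (sl_null p q 1))).add
      ((Sl.coef (contDiff_ofReal (C.smooth_hnu i 2))).mul (sl_null p q 2))
  have hvs : ∀ i, Sl (v i) := fun i =>
    (((Sl.coef (contDiff_ofReal C.smooth_sqrt)).mul (hn i)).mul (Sl.const _)).add
      (by simpa [div_eq_mul_inv] using
        ((Sl.coef (contDiff_ofReal (C.smooth_glm i))).mul hs).mul (Sl.const (2 : ℂ)⁻¹))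
  have hI := Sl.const Complex.I
  fin_cases a
  · simpa [stM, stApply, div_eq_mul_inv, y] using
      (((Sl.coef (contDiff_ofReal C.smooth_kap)).mul hs).mul (Sl.const (2 : ℂ)⁻¹)).neg
  · simpa [stM, stApply, pauli, hv, y] using
      ((hvs 2).mul h0).add (((hvs 0).sub (hI.mul (hvs 1))).mul h1)
  · simpa [stM, stApply, pauli, hv, y] using
      (((hvs 0).add (hI.mul (hvs 1))).mul h0).sub ((hvs 2).mul h1)

variable {C₁ C₂ : Coef} {R : ℝ}

lemma stM_eq_out (he : EqOut C₁ C₂ R) (σ : Fin 2 → ℂ) {x : R3} (hx : R < ‖x‖) :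
    stM C₁ σ x = stM C₂ σ x := by
  have ho : ∀ᶠ y in 𝓝 x, C₁.mu y = C₂.mu y :=
    Filter.eventually_of_mem ((isOpen_lt continuous_const continuous_norm).mem_nhds hx)
      fun y hy => he.mu y (le_of_lt hy)
  have hm : C₁.mu x = C₂.mu x := ho.self_of_nhds
  have hk : C₁.kap x = C₂.kap x := by simp [Coef.kap, hm, he.lam x hx.le]
  have hg : ∀ i, C₁.glm i x = C₂.glm i x := fun i => by simp [Coef.glm, pd_congr ho, hm]
  have hh : ∀ i j, C₁.hnu i j x = C₂.hnu i j x := by
    intro i j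
    refine pd_congr ?_
    filter_upwards [ho.eventually_nhds] with y hy
    exact pd_congr (hy.mono fun z hz => by simp [Coef.nu, hz])
  ext a b
  simp only [stM, Matrix.of_apply, stApply, hm, hk, hg, hh]

lemma stM_smul (C : Coef) {c : ℂ} (hc : c ≠ 0) (σ : Fin 2 → ℂ) (x : R3) (a b : Fin 3) :
    stM C (c • σ) x a b =
      c ^ 2 * ((![1, c, c] : Fin 3 → ℂ) a / (![1, c, c] : Fin 3 → ℂ) b) * stM C σ x a b := by
  fin_cases a <;> fin_cases b <;>
    simp [stM, stApply, pauli, null, Fin.sum_univ_three] <;> field_simp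

/-- The coefficient matrix of the equation of the gauge, on the nine entries. -/
def gaugeT (C₁ C₂ : Coef) (σ : Fin 2 → ℂ) (x : R3) :
    Matrix (Fin 3 × Fin 3) (Fin 3 × Fin 3) ℂ :=
  Matrix.of fun i j => stM C₂ σ x i.1 j.1 * (if j.2 = i.2 then 1 else 0)
    - (if j.1 = i.1 then 1 else 0) * stM C₁ σ x j.2 i.2

lemma gaugeT_mulVec (C₁ C₂ : Coef) (σ : Fin 2 → ℂ) (x : R3) (Z : Matrix (Fin 3) (Fin 3) ℂ)
    (i : Fin 3 × Fin 3) :
    (gaugeT C₁ C₂ σ x *ᵥ fun j => Z j.1 j.2) i =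
      (stM C₂ σ x * Z - Z * stM C₁ σ x) i.1 i.2 := by
  simp [gaugeT, Matrix.mulVec, dotProduct, Fintype.sum_prod_type, sub_mul,
    Finset.sum_sub_distrib, Matrix.mul_apply, ite_mul, mul_comm (stM C₁ σ x _ i.2)]

lemma sl_gaugeT (i j : Fin 3 × Fin 3) : Sl fun t x => gaugeT C₁ C₂ (p + t • q) x i j := by
  simp only [gaugeT, Matrix.of_apply]
  exact ((sl_stM p q C₂ i.1 j.1).mul (Sl.const _)).sub
    ((Sl.const _).mul (sl_stM p q C₁ j.2 i.2))

variable {X : (Fin 2 → ℂ) → R3 → Matrix (Fin 3) (Fin 3) ℂ}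

/-- The gauge minus one, as a vector. -/
def vecX (X : (Fin 2 → ℂ) → R3 → Matrix (Fin 3) (Fin 3) ℂ) (σ : Fin 2 → ℂ) (x : R3) :
    Fin 3 × Fin 3 → ℂ := fun j => (X σ x - 1) j.1 j.2

lemma contDiff_vecX (hG : IsGauge C₁ C₂ R X) {σ : Fin 2 → ℂ} (hσ : σ ≠ 0) :
    ContDiff ℝ ∞ (vecX X σ) :=
  contDiff_pi.2 fun i => (hG.smooth σ hσ i.1 i.2).sub contDiff_const

lemma eqn_vecX (hG : IsGauge C₁ C₂ R X) {σ : Fin 2 → ℂ} (hσ : σ ≠ 0) (x : R3)
    (i : Fin 3 × Fin 3) :
    dD (null σ) (vecX X σ) x i =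
      (gaugeT C₁ C₂ σ x *ᵥ vecX X σ x) i + (stM C₂ σ x - stM C₁ σ x) i.1 i.2 := by
  have hd := ((hG.smooth σ hσ i.1 i.2).differentiable (by simp)) x
  have h1 : dD (null σ) (fun y => vecX X σ y i) x = dD (null σ) (fun y => X σ y i.1 i.2) x := by
    simp only [dD, vecX, Matrix.sub_apply, pd_sub hd (differentiableAt_const _), pd_const, sub_zero]
  rw [dD_apply ((contDiff_vecX hG hσ).differentiable (by simp) x), h1, hG.eqn σ hσ,
    show vecX X σ x = fun j => (X σ x - 1) j.1 j.2 from rfl, gaugeT_mulVec]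
  simp only [mul_sub, sub_mul, one_mul, mul_one, Matrix.sub_apply]
  ring

/-- The family along a line. -/
lemma exists_fam (hR : 0 < R) (he : EqOut C₁ C₂ R) (hG : IsGauge C₁ C₂ R X)
    (hne : ∀ t : ℂ, p + t • q ≠ 0) :
    ∃ F : Fam (Fin 3 × Fin 3), F.Z = fun t => vecX X (p + t • q) := by
  choose hθn θ₁ hθ₁ hθe using fun i => sl_null p q i
  choose hTn T₁ hT₁ hTe using fun i j => sl_gaugeT (C₁ := C₁) (C₂ := C₂) p q i j
  choose hGn G₁ hG₁ hGe using fun i : Fin 3 × Fin 3 =>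
    (sl_stM p q C₂ i.1 i.2).sub (sl_stM p q C₁ i.1 i.2)
  exact ⟨{
    R := R + 7
    R_pos := by linarith
    θ := fun t => null (p + t • q)
    θ₁ := fun t i => θ₁ i t 0
    T := fun t => gaugeT C₁ C₂ (p + t • q)
    T₁ := fun t x => Matrix.of fun i j => T₁ i j t x
    G := fun t x i => stM C₂ (p + t • q) x i.1 i.2 - stM C₁ (p + t • q) x i.1 i.2
    G₁ := fun t x i => G₁ i t x
    Z := fun t => vecX X (p + t • q)
    θ_cont := continuous_pi fun i => (hθn i).continuous_zero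
    θ₁_cont := continuous_pi fun i => (hθ₁ i).continuous_zero
    θ_eq := fun t => funext fun i => by
      rw [Pi.add_apply, Pi.smul_apply, smul_eq_mul]; exact hθe i t 0
    θ_null := fun t => ⟨null_ne_zero (hne t), null_sq_sum _⟩
    T_smooth := fun t i j => (hTn i j).1 t
    T₁_smooth := fun t i j => (hT₁ i j).1 t
    T_cont := fun i j => (hTn i j).2
    T₁_cont := fun i j => (hT₁ i j).2
    T_eq := fun t x => Matrix.ext fun i j => by
      rw [Matrix.add_apply, Matrix.smul_apply, Matrix.of_apply, smul_eq_mul]; exact hTe i j t x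
    G₁_smooth := fun t => contDiff_pi.2 fun i => (hG₁ i).1 t
    G₁_cont := continuous_pi fun i => (hG₁ i).2
    G_eq := fun t x => funext fun i => by
      rw [Pi.add_apply, Pi.smul_apply, smul_eq_mul]; exact hGe i t x
    G_out := fun t x hx => funext fun i => by
      rw [stM_eq_out he _ (show R < ‖x‖ by linarith), sub_self]; rfl
    Z_smooth := fun t => contDiff_vecX hG (hne t)
    Z_out := fun t x hx => funext fun i => by
      rw [vecX, hG.out _ (hne t) x hx, sub_self]; rfl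
    eqn := fun t x => funext fun i => by
      rw [Pi.add_apply, eqn_vecX hG (hne t) x i, Matrix.sub_apply] }, rfl⟩

/-- The gauge is complex differentiable along lines against continuous functions. -/
lemma differentiable_line (hB : PlaneBoundOut) (hX : PlaneExtOut) (hR : 0 < R)
    (he : EqOut C₁ C₂ R) (hG : IsGauge C₁ C₂ R X) (hne : ∀ t : ℂ, p + t • q ≠ 0)
    {g : R3 → ℂ} (hg : Continuous g) (a b : Fin 3) :
    Differentiable ℂ fun t : ℂ => ∫ x, g x * (X (p + t • q) x - 1) a b := by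
  intro t₀
  have he' : ∀ t : ℂ, p + t₀ • q + t • q = p + (t₀ + t) • q := fun t => by rw [add_smul, add_assoc]
  obtain ⟨F, hF⟩ := exists_fam (p + t₀ • q) q hR he hG fun t => he' t ▸ hne _
  obtain ⟨d, hd⟩ := F.hasDerivAt hB hX
    (g := fun x => Pi.single (a, b) (g x)) ((continuous_single (a, b)).comp hg)
  have e : (fun t : ℂ => ∫ x, g x * (X (p + t • q) x - 1) a b) = fun t : ℂ =>
      (fun s => ∫ x, (Pi.single (a, b) (g x) : Fin 3 × Fin 3 → ℂ) ⬝ᵥ F.Z s x) (t - t₀) := by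
    funext t
    simp only [hF, single_dotProduct, vecX, he', add_sub_cancel]
  rw [e]
  have h' : HasDerivAt (fun s => ∫ x, (Pi.single (a, b) (g x) : Fin 3 × Fin 3 → ℂ) ⬝ᵥ F.Z s x) d
      (t₀ - t₀) := by rwa [sub_self]
  exact (HasDerivAt.comp_sub_const t₀ t₀ h').differentiableAt

/-- Scaling of the spinor. -/
lemma gauge_smul (hB : PlaneBoundOut) (hG : IsGauge C₁ C₂ R X) {σ : Fin 2 → ℂ} (hσ : σ ≠ 0)
    {c : ℂ} (hc : c ≠ 0) (x : R3) (a b : Fin 3) :
    X (c • σ) x a b = (![1, c, c] : Fin 3 → ℂ) a / (![1, c, c] : Fin 3 → ℂ) b * X σ x a b := by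
  set w : Fin 3 → ℂ := ![1, c, c] with hw
  have hw0 : ∀ i, w i ≠ 0 := by intro i; fin_cases i <;> simp [hw, hc]
  have hcσ : c • σ ≠ 0 := smul_ne_zero hc hσ
  set V : R3 → Fin 3 × Fin 3 → ℂ :=
    fun y i => X (c • σ) y i.1 i.2 - w i.1 / w i.2 * X σ y i.1 i.2 with hV
  have hVs : ContDiff ℝ ∞ V := contDiff_pi.2 fun i =>
    (hG.smooth _ hcσ i.1 i.2).sub (contDiff_const.mul (hG.smooth σ hσ i.1 i.2))
  have hV0 : ∀ y, R + 7 < ‖y‖ → V y = 0 := fun y hy => funext fun i => by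
    simp only [hV, hG.out _ hcσ y hy, hG.out σ hσ y hy, Matrix.one_apply, Pi.zero_apply]
    split_ifs with h
    · rw [h, div_self (hw0 _), one_mul, sub_self]
    · simp
  have hnull : null (c • σ) = c ^ 2 • null σ := by
    funext i
    fin_cases i <;> simp [null] <;> ring
  have hVe : ∀ y, dD (null (c • σ)) V y = gaugeT C₁ C₂ (c • σ) y *ᵥ V y := by
    intro y
    funext i
    have h1 := ((hG.smooth _ hcσ i.1 i.2).differentiable (by simp)) y
    have h2 := ((hG.smooth σ hσ i.1 i.2).differentiable (by simp)) y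
    have hs : ∀ f : R3 → ℂ, dD (c ^ 2 • null σ) f y = c ^ 2 * dD (null σ) f y := fun f => by
      simp [dD, Finset.mul_sum, mul_assoc]
    rw [dD_apply (hVs.differentiable (by simp) y),
      show V y = fun j => (Matrix.of fun u v => V y (u, v)) j.1 j.2 from rfl, gaugeT_mulVec]
    have e : dD (null (c • σ)) (fun z => V z i) y = dD (null (c • σ)) (fun z => X (c • σ) z i.1 i.2) y
        - w i.1 / w i.2 * dD (null (c • σ)) (fun z => X σ z i.1 i.2) y := by
      simp only [hV, dD, smul_eq_mul, pd_sub h1 (h2.const_mul _), pd_const_mul _ h2,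
        Finset.mul_sum, ← Finset.sum_sub_distrib]
      exact Finset.sum_congr rfl fun j _ => by ring
    rw [e, hG.eqn _ hcσ, show dD (null (c • σ)) (fun z => X σ z i.1 i.2) y = _ from
      (by rw [hnull, hs, hG.eqn σ hσ] : _ = c ^ 2 * (stM C₂ σ y * X σ y - X σ y * stM C₁ σ y) i.1 i.2)]
    simp only [hV, Matrix.sub_apply, Matrix.mul_apply, Matrix.of_apply, mul_sub, sub_mul,
      Finset.sum_sub_distrib, Finset.mul_sum, stM_smul _ hc, ← hw]
    rw [sub_sub_sub_comm]
    congr 2 <;> refine Finset.sum_congr rfl fun j _ => ?_ <;> field_simp [hw0 i.1, hw0 i.2, hw0 j]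
  obtain ⟨K, hK⟩ := hB (Fin 3 × Fin 3) Unit Set.univ isCompact_univ (fun _ => null (c • σ))
    (fun _ => gaugeT C₁ C₂ (c • σ)) continuousOn_const
    (fun _ _ => ⟨null_ne_zero hcσ, null_sq_sum _⟩)
    (fun i j => by
      have h := ((sl_gaugeT (C₁ := C₁) (C₂ := C₂) (c • σ) 0 i j).1.1 0).continuous
      simp only [smul_zero, add_zero] at h
      exact (h.comp continuous_snd).continuousOn) (R + 7)
  have hle := hK () trivial V (hVs.of_le (by simp)) hV0
  simp only [hVe, sub_self, norm_zero, zero_pow two_ne_zero, integral_zero, mul_zero] at hle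
  by_contra hne
  have hpos := Continuous.integral_pos_of_hasCompactSupport_nonneg_nonzero
    (μ := (volume : Measure R3)) (x := x) (hVs.continuous.norm.pow 2)
    (hasCompactSupport_out (R := R + 7) fun y hy => by simp [hV0 y hy]) (fun y => sq_nonneg _)
    (pow_ne_zero 2 (norm_ne_zero_iff.2 fun h0 => hne (sub_eq_zero.1 (congrFun h0 (a, b)))))
  simp only [Pi.pow_apply] at hpos
  linarith

end Vale.Agent.P136.Hol
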