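import Vale.Agent.P136.Mod.Calc

/-!
# The Ikehata reduction: the identity for complex scalar coefficients

With `H H = N = 1 / m` and `u = H w + N ∇g - g ∇N` the Lamé operator of `(L, m)` applied to `u` is
`m H` times a system with Laplacian principal part in `w` plus a gradient of a scalar one in `g`.
-/

noncomputable section

namespace Vale.Agent.P136.Ikehata

open scoped BigOperators ContDiff

/-- Smoothness on a set, for scalar functions. -/
abbrev Sm (U : Set R3) (f : R3 → ℂ) : Prop := ContDiffOn ℝ ∞ f U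

variable {U : Set R3} {x : R3} {f g : R3 → ℂ}

lemma diffAt (hU : IsOpen U) (hf : Sm U f) (hx : x ∈ U) : DifferentiableAt ℝ f x :=
  ((hf x hx).contDiffAt (hU.mem_nhds hx)).differentiableAt (by simp)

lemma sm_pd (hU : IsOpen U) (i : Fin 3) (hf : Sm U f) : Sm U (pd i f) :=
  (hf.fderiv_of_isOpen hU (m := ∞) (by simp)).clm_apply contDiffOn_const

lemma pd_congrOn {E : Type*} [NormedAddCommGroup E] [NormedSpace ℝ E] {f g : R3 → E}
    (hU : IsOpen U) (h : ∀ y ∈ U, f y = g y) (hx : x ∈ U) (i : Fin 3) : pd i f x = pd i g x :=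
  pd_congr (Filter.eventuallyEq_of_mem (hU.mem_nhds hx) h)

lemma pd_addOn (hU : IsOpen U) (hf : Sm U f) (hg : Sm U g) (hx : x ∈ U) (i : Fin 3) :
    pd i (fun y => f y + g y) x = pd i f x + pd i g x :=
  pd_add (diffAt hU hf hx) (diffAt hU hg hx)

lemma pd_subOn (hU : IsOpen U) (hf : Sm U f) (hg : Sm U g) (hx : x ∈ U) (i : Fin 3) :
    pd i (fun y => f y - g y) x = pd i f x - pd i g x :=
  pd_sub (diffAt hU hf hx) (diffAt hU hg hx)

lemma pd_mulOn (hU : IsOpen U) (hf : Sm U f) (hg : Sm U g) (hx : x ∈ U) (i : Fin 3) :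
    pd i (fun y => f y * g y) x = pd i f x * g x + f x * pd i g x :=
  pd_mul (diffAt hU hf hx) (diffAt hU hg hx)

lemma pd_sumOn {F : Fin 3 → R3 → ℂ} (hU : IsOpen U) (hF : ∀ k, Sm U (F k)) (hx : x ∈ U) (i : Fin 3) :
    pd i (fun y => ∑ k, F k y) x = ∑ k, pd i (F k) x :=
  pd_sum _ fun k _ => diffAt hU (hF k) hx

lemma pd_comm (hU : IsOpen U) (hf : Sm U f) (hx : x ∈ U) (i j : Fin 3) :
    pd i (pd j f) x = pd j (pd i f) x := by
  have hd : DifferentiableAt ℝ (fderiv ℝ f) x :=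
    (((hf.fderiv_of_isOpen hU (m := ∞) (by simp)) x hx).contDiffAt
      (hU.mem_nhds hx)).differentiableAt (by simp)
  have e : ∀ a b : Fin 3, pd a (pd b f) x =
      fderiv ℝ (fderiv ℝ f) x (EuclideanSpace.single a 1) (EuclideanSpace.single b 1) := by
    intro a b
    change fderiv ℝ (fun y => fderiv ℝ f y (EuclideanSpace.single b 1)) x
      (EuclideanSpace.single a 1) = _
    rw [fderiv_clm_apply hd (differentiableAt_const _)]
    simp
  rw [e, e]
  exact (((hf x hx).contDiffAt (hU.mem_nhds hx)).isSymmSndFDerivAt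
    (by rw [minSmoothness_of_isRCLikeNormedField]; exact WithTop.coe_le_coe.2 le_top)) _ _

lemma pd_comm₃ (hU : IsOpen U) (hf : Sm U f) (hx : x ∈ U) (i j : Fin 3) :
    pd i (pd i (pd j f)) x = pd j (pd i (pd i f)) x := by
  rw [pd_congrOn hU (fun y hy => pd_comm hU hf hy i j) hx i, pd_comm hU (sm_pd hU i hf) hx i j]

section Core

variable {L m H N φ : R3 → ℂ} {w : Fin 3 → R3 → ℂ}

/-- The derivative of the displacement of the potentials. -/
def dU (H N φ : R3 → ℂ) (w : Fin 3 → R3 → ℂ) (j l : Fin 3) (y : R3) : ℂ :=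
  ((pd j H y * w l y + H y * pd j (w l) y) + (pd j N y * pd l φ y + N y * pd j (pd l φ) y))
    - (pd j φ y * pd l N y + φ y * pd j (pd l N) y)

lemma sm_dU (hU : IsOpen U) (hH : Sm U H) (hN : Sm U N) (hφ : Sm U φ) (hw : ∀ l, Sm U (w l))
    (j l : Fin 3) : Sm U (dU H N φ w j l) :=
  ((((sm_pd hU j hH).mul (hw l)).add (hH.mul (sm_pd hU j (hw l)))).add
      (((sm_pd hU j hN).mul (sm_pd hU l hφ)).add (hN.mul (sm_pd hU j (sm_pd hU l hφ))))).sub
    (((sm_pd hU j hφ).mul (sm_pd hU l hN)).add (hφ.mul (sm_pd hU j (sm_pd hU l hN))))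

lemma pd_disp (hU : IsOpen U) (hH : Sm U H) (hN : Sm U N) (hφ : Sm U φ) (hw : ∀ l, Sm U (w l))
    (hx : x ∈ U) (j l : Fin 3) :
    pd j (fun y => H y * w l y + N y * pd l φ y - φ y * pd l N y) x = dU H N φ w j l x := by
  have h1 : Sm U fun y => H y * w l y := hH.mul (hw l)
  have h2 : Sm U fun y => N y * pd l φ y := hN.mul (sm_pd hU l hφ)
  have h3 : Sm U fun y => φ y * pd l N y := hφ.mul (sm_pd hU l hN)
  rw [pd_subOn hU (h1.add h2) h3 hx, pd_addOn hU h1 h2 hx, pd_mulOn hU hH (hw l) hx,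
    pd_mulOn hU hN (sm_pd hU l hφ) hx, pd_mulOn hU hφ (sm_pd hU l hN) hx]
  rfl

/-- The derivative of `dU`. -/
lemma pd_dU (hU : IsOpen U) (hH : Sm U H) (hN : Sm U N) (hφ : Sm U φ) (hw : ∀ l, Sm U (w l))
    (hx : x ∈ U) (k j l : Fin 3) :
    pd k (dU H N φ w j l) x =
      ((pd k (pd j H) x * w l x + pd j H x * pd k (w l) x
          + (pd k H x * pd j (w l) x + H x * pd k (pd j (w l)) x))
        + (pd k (pd j N) x * pd l φ x + pd j N x * pd k (pd l φ) x
          + (pd k N x * pd j (pd l φ) x + N x * pd k (pd j (pd l φ)) x)))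
      - (pd k (pd j φ) x * pd l N x + pd j φ x * pd k (pd l N) x
          + (pd k φ x * pd j (pd l N) x + φ x * pd k (pd j (pd l N)) x)) := by
  have a1 : Sm U fun y => pd j H y * w l y := (sm_pd hU j hH).mul (hw l)
  have a2 : Sm U fun y => H y * pd j (w l) y := hH.mul (sm_pd hU j (hw l))
  have a3 : Sm U fun y => pd j N y * pd l φ y := (sm_pd hU j hN).mul (sm_pd hU l hφ)
  have a4 : Sm U fun y => N y * pd j (pd l φ) y := hN.mul (sm_pd hU j (sm_pd hU l hφ))
  have a5 : Sm U fun y => pd j φ y * pd l N y := (sm_pd hU j hφ).mul (sm_pd hU l hN)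
  have a6 : Sm U fun y => φ y * pd j (pd l N) y := hφ.mul (sm_pd hU j (sm_pd hU l hN))
  unfold dU
  rw [pd_subOn hU ((a1.add a2).add (a3.add a4)) (a5.add a6) hx,
    pd_addOn hU (a1.add a2) (a3.add a4) hx, pd_addOn hU a1 a2 hx, pd_addOn hU a3 a4 hx,
    pd_addOn hU a5 a6 hx, pd_mulOn hU (sm_pd hU j hH) (hw l) hx, pd_mulOn hU hH (sm_pd hU j (hw l)) hx,
    pd_mulOn hU (sm_pd hU j hN) (sm_pd hU l hφ) hx,
    pd_mulOn hU hN (sm_pd hU j (sm_pd hU l hφ)) hx,
    pd_mulOn hU (sm_pd hU j hφ) (sm_pd hU l hN) hx,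
    pd_mulOn hU hφ (sm_pd hU j (sm_pd hU l hN)) hx]

/-- The scalar whose gradient appears. -/
def scalarPart (L m H N φ : R3 → ℂ) (w : Fin 3 → R3 → ℂ) (y : R3) : ℂ :=
  (L y + (m y + m y)) * N y * ∑ j, pd j (pd j φ) y
    + (L y + m y) * H y * ∑ j, pd j (w j) y
    + ∑ j, ((L y + m y) * pd j H y + H y * pd j m y) * w j y
    - L y * (∑ j, pd j (pd j N) y) * φ y

/-- The vector part. -/
def vectorPart (m H N φ : R3 → ℂ) (w : Fin 3 → R3 → ℂ) (l : Fin 3) (x : R3) : ℂ :=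
  m x * H x * ∑ j, pd j (pd j (w l)) x
    - 2 * m x * ∑ i, pd l (pd i N) x * pd i φ x
    - pd l m x * H x * ∑ i, pd i (w i) x
    + (m x * ∑ j, pd j (pd j H) x + ∑ j, pd j m x * pd j H x) * w l x
    + ∑ j, (-(pd l m x * pd j H x) - H x * pd l (pd j m) x) * w j x
    + (-2 * m x * ∑ j, pd l (pd j (pd j N)) x
        + 2 * m x * m x * ∑ j, pd j N x * pd l (pd j N) x) * φ x

theorem core (hU : IsOpen U) (hL : Sm U L) (hm : Sm U m) (hH : Sm U H) (hN : Sm U N)
    (hφ : Sm U φ) (hw : ∀ l, Sm U (w l)) (hmN : ∀ y ∈ U, m y * N y = 1)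
    (hHH : ∀ y ∈ U, H y * H y = N y) (hx : x ∈ U) (l : Fin 3) :
    pd l (fun y => L y * ∑ i, dU H N φ w i i y) x
      + ∑ j, pd j (fun y => m y * (dU H N φ w j l y + dU H N φ w l j y)) x
    = vectorPart m H N φ w l x + pd l (scalarPart L m H N φ w) x := by
  have sD := sm_dU hU hH hN hφ hw
  have sP := fun i => sm_pd hU i (f := φ) hφ
  have sDiv : Sm U fun y => ∑ i, dU H N φ w i i y := ContDiffOn.sum fun i _ => sD i i
  have sLap : Sm U fun y => ∑ j, pd j (pd j φ) y := ContDiffOn.sum fun i _ => sm_pd hU i (sP i)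
  have sDw : Sm U fun y => ∑ j, pd j (w j) y := ContDiffOn.sum fun i _ => sm_pd hU i (hw i)
  have sLN : Sm U fun y => ∑ j, pd j (pd j N) y :=
    ContDiffOn.sum fun i _ => sm_pd hU i (sm_pd hU i hN)
  have sLm : Sm U fun y => L y + m y := hL.add hm
  have sLmm : Sm U fun y => L y + (m y + m y) := hL.add (hm.add hm)
  have s1 : ∀ j, Sm U fun y => (L y + m y) * pd j H y := fun j => sLm.mul (sm_pd hU j hH)
  have s2 : ∀ j, Sm U fun y => H y * pd j m y := fun j => hH.mul (sm_pd hU j hm)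
  have s3 : ∀ j, Sm U fun y => ((L y + m y) * pd j H y + H y * pd j m y) * w j y :=
    fun j => ((s1 j).add (s2 j)).mul (hw j)
  have e1 : pd l (fun y => L y * ∑ i, dU H N φ w i i y) x =
      pd l L x * (∑ i, dU H N φ w i i x) + L x * ∑ i, pd l (dU H N φ w i i) x := by
    rw [pd_mulOn hU hL sDiv hx, pd_sumOn hU (fun i => sD i i) hx]
  have e2 : ∀ j, pd j (fun y => m y * (dU H N φ w j l y + dU H N φ w l j y)) x =
      pd j m x * (dU H N φ w j l x + dU H N φ w l j x)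
        + m x * (pd j (dU H N φ w j l) x + pd j (dU H N φ w l j) x) := fun j => by
    rw [pd_mulOn hU hm ((sD j l).add (sD l j)) hx, pd_addOn hU (sD j l) (sD l j) hx]
  have eP : pd l (scalarPart L m H N φ w) x =
      ((pd l L x + (pd l m x + pd l m x)) * N x + (L x + (m x + m x)) * pd l N x)
          * ∑ j, pd j (pd j φ) x
        + (L x + (m x + m x)) * N x * ∑ j, pd l (pd j (pd j φ)) x
        + (((pd l L x + pd l m x) * H x + (L x + m x) * pd l H x) * ∑ j, pd j (w j) x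
          + (L x + m x) * H x * ∑ j, pd l (pd j (w j)) x)
        + ∑ j, (((pd l L x + pd l m x) * pd j H x + (L x + m x) * pd l (pd j H) x
            + (pd l H x * pd j m x + H x * pd l (pd j m) x)) * w j x
          + ((L x + m x) * pd j H x + H x * pd j m x) * pd l (w j) x)
        - ((pd l L x * (∑ j, pd j (pd j N) x) + L x * ∑ j, pd l (pd j (pd j N)) x) * φ x
          + L x * (∑ j, pd j (pd j N) x) * pd l φ x) := by
    unfold scalarPart
    rw [pd_subOn hU ((((sLmm.mul hN).mul sLap).add ((sLm.mul hH).mul sDw)).add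
        (ContDiffOn.sum fun j _ => s3 j)) ((hL.mul sLN).mul hφ) hx,
      pd_addOn hU (((sLmm.mul hN).mul sLap).add ((sLm.mul hH).mul sDw))
        (ContDiffOn.sum fun j _ => s3 j) hx,
      pd_addOn hU ((sLmm.mul hN).mul sLap) ((sLm.mul hH).mul sDw) hx,
      pd_mulOn hU (sLmm.mul hN) sLap hx, pd_mulOn hU sLmm hN hx, pd_addOn hU hL (hm.add hm) hx,
      pd_addOn hU hm hm hx, pd_sumOn hU (fun i => sm_pd hU i (sP i)) hx,
      pd_mulOn hU (sLm.mul hH) sDw hx, pd_mulOn hU sLm hH hx, pd_addOn hU hL hm hx,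
      pd_sumOn hU (fun i => sm_pd hU i (hw i)) hx, pd_sumOn hU s3 hx,
      pd_mulOn hU (hL.mul sLN) hφ hx, pd_mulOn hU hL sLN hx,
      pd_sumOn hU (fun i => sm_pd hU i (sm_pd hU i hN)) hx]
    congr 2
    refine Finset.sum_congr rfl fun j _ => ?_
    rw [pd_mulOn hU ((s1 j).add (s2 j)) (hw j) hx, pd_addOn hU (s1 j) (s2 j) hx,
      pd_mulOn hU sLm (sm_pd hU j hH) hx, pd_addOn hU hL hm hx, pd_mulOn hU hH (sm_pd hU j hm) hx]
  have hH0 : H x ≠ 0 := fun h0 => by
    have h1 := hmN x hx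
    rw [← hHH x hx, h0] at h1
    simp at h1
  have hNx : N x = H x * H x := (hHH x hx).symm
  have hmx : m x = 1 / (H x * H x) := by
    rw [eq_div_iff (mul_ne_zero hH0 hH0), ← hNx]; exact hmN x hx
  have hN1 : ∀ j, pd j N x = 2 * H x * pd j H x := fun j => by
    rw [← pd_congrOn hU hHH hx j, pd_mulOn hU hH hH hx]; ring
  have hm1 : ∀ j, pd j m x = -2 * pd j H x / (H x * H x * H x) := fun j => by
    have h1 : pd j m x * N x + m x * pd j N x = 0 := by
      rw [← pd_mulOn hU hm hN hx, pd_congrOn hU hmN hx j, pd_const]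
    rw [hNx, hN1 j, hmx] at h1
    field_simp at h1 ⊢
    linear_combination h1
  have c1 : ∀ j, pd j (pd j (pd l φ)) x = pd l (pd j (pd j φ)) x := fun j => pd_comm₃ hU hφ hx j l
  have c1' : ∀ j, pd j (pd l (pd j φ)) x = pd l (pd j (pd j φ)) x :=
    fun j => pd_comm hU (sP j) hx j l
  have c2 : ∀ j, pd j (pd j (pd l N)) x = pd l (pd j (pd j N)) x := fun j => pd_comm₃ hU hN hx j l
  have c2' : ∀ j, pd j (pd l (pd j N)) x = pd l (pd j (pd j N)) x :=
    fun j => pd_comm hU (sm_pd hU j hN) hx j l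
  have c3 : ∀ j k, pd j (pd l (w k)) x = pd l (pd j (w k)) x := fun j k => pd_comm hU (hw k) hx j l
  have c4 : ∀ j, pd j (pd l H) x = pd l (pd j H) x := fun j => pd_comm hU hH hx j l
  have c5 : ∀ j, pd j (pd l N) x = pd l (pd j N) x := fun j => pd_comm hU hN hx j l
  have c6 : ∀ j, pd j (pd l φ) x = pd l (pd j φ) x := fun j => pd_comm hU hφ hx j l
  rw [e1, Finset.sum_congr rfl fun j _ => e2 j, eP]
  simp only [vectorPart, pd_dU hU hH hN hφ hw hx, c1, c1', c2, c2', c3, c4, c5, c6, dU]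
  simp only [Fin.sum_univ_three, hN1, hm1, hNx, hmx]
  field_simp
  ring

end Core

end Vale.Agent.P136.Ikehata
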