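import Vale.Agent.P136.Mod.Calc

/-!
# Derivative bounds for the Lamé operator and for rescaled functions
-/

noncomputable section

namespace Vale.Agent.P136.Jet

open MeasureTheory Metric Filter Topology
open scoped BigOperators ContDiff

/-- The derivatives up to order `n` at a point. -/
def tot (n : ℕ) (u : R3 → C3) (x : R3) : ℝ :=
  ∑ k ∈ Finset.range (n + 1), ‖iteratedFDeriv ℝ k u x‖

theorem tot_nonneg (n : ℕ) (u : R3 → C3) (x : R3) : 0 ≤ tot n u x :=
  Finset.sum_nonneg fun _ _ => norm_nonneg _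

theorem tot_mono {n m : ℕ} (h : n ≤ m) (u : R3 → C3) (x : R3) : tot n u x ≤ tot m u x :=
  Finset.sum_le_sum_of_subset_of_nonneg (Finset.range_mono (Nat.succ_le_succ h))
    fun _ _ _ => norm_nonneg _

theorem le_tot {k n : ℕ} (h : k ≤ n) (u : R3 → C3) (x : R3) :
    ‖iteratedFDeriv ℝ k u x‖ ≤ tot n u x :=
  Finset.single_le_sum (f := fun k => ‖iteratedFDeriv ℝ k u x‖) (fun _ _ => norm_nonneg _)
    (Finset.mem_range.2 (Nat.lt_succ_of_le h))

theorem norm_iteratedFDeriv_clm {E F : Type*} [NormedAddCommGroup E] [NormedSpace ℝ E]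
    [NormedAddCommGroup F] [NormedSpace ℝ F] (L : E →L[ℝ] F) (hL : ‖L‖ ≤ 1) {f : R3 → E}
    (hf : ContDiff ℝ ∞ f) (i : ℕ) (x : R3) :
    ‖iteratedFDeriv ℝ i (fun y => L (f y)) x‖ ≤ ‖iteratedFDeriv ℝ i f x‖ :=
  (L.norm_iteratedFDeriv_comp_left (N := ∞) hf.contDiffAt (by exact_mod_cast le_top)).trans
    (mul_le_of_le_one_left (norm_nonneg _) hL)

theorem norm_iteratedFDeriv_pd {E : Type*} [NormedAddCommGroup E] [NormedSpace ℝ E] {f : R3 → E}
    (hf : ContDiff ℝ ∞ f) (k : Fin 3) (i : ℕ) (x : R3) :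
    ‖iteratedFDeriv ℝ i (pd k f) x‖ ≤ ‖iteratedFDeriv ℝ (i + 1) f x‖ := by
  rw [← norm_iteratedFDeriv_fderiv]
  refine norm_iteratedFDeriv_clm
    (ContinuousLinearMap.apply ℝ E (EuclideanSpace.single k (1 : ℝ) : R3)) ?_
    (hf.fderiv_right (by simp)) i x
  refine ContinuousLinearMap.opNorm_le_bound _ zero_le_one fun L => ?_
  simpa using L.le_opNorm (EuclideanSpace.single k (1 : ℝ))

theorem norm_iteratedFDeriv_comp {f : R3 → C3} (hf : ContDiff ℝ ∞ f) (l : Fin 3) (i : ℕ) (x : R3) :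
    ‖iteratedFDeriv ℝ i (fun y => f y l) x‖ ≤ ‖iteratedFDeriv ℝ i f x‖ :=
  norm_iteratedFDeriv_clm (ContinuousLinearMap.proj l : C3 →L[ℝ] ℂ)
    (ContinuousLinearMap.opNorm_le_bound _ zero_le_one fun z => by
      simpa using norm_le_pi_norm z l) hf i x

theorem norm_iteratedFDeriv_le_sum_comp {f : R3 → C3} (hf : ContDiff ℝ ∞ f) (i : ℕ) (x : R3) :
    ‖iteratedFDeriv ℝ i f x‖ ≤ ∑ l, ‖iteratedFDeriv ℝ i (fun y => f y l) x‖ := by
  let L : Fin 3 → ℂ →L[ℝ] C3 := fun l => ContinuousLinearMap.single ℝ (fun _ => ℂ) l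
  have hc : ∀ l, ContDiff ℝ ∞ fun y => f y l := fun l => contDiff_pi.1 hf l
  have e : f = fun y => ∑ l, L l (f y l) := by
    funext y
    exact (Finset.univ_sum_single (f y)).symm
  conv_lhs => rw [e]
  rw [iteratedFDeriv_fun_sum_apply (f := fun l y => L l (f y l)) fun l _ =>
    (((L l).contDiff.comp (hc l)).of_le (by exact_mod_cast le_top)).contDiffAt]
  refine (norm_sum_le _ _).trans (Finset.sum_le_sum fun l _ => ?_)
  refine norm_iteratedFDeriv_clm (L l) ?_ (hc l) i x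
  refine ContinuousLinearMap.opNorm_le_bound _ zero_le_one fun z => ?_
  rw [one_mul]
  exact (pi_norm_le_iff_of_nonneg (norm_nonneg z)).2 fun q => by
    by_cases h : q = l <;> simp [L, h]

/-- An operation of order at most `a`, on a ball. -/
def Ord (R : ℝ) (a : ℕ) (F : (R3 → C3) → R3 → ℂ) : Prop :=
  ∀ i, ∃ K, 0 ≤ K ∧ ∀ u, ContDiff ℝ ∞ u → ContDiff ℝ ∞ (F u) ∧
    ∀ x, ‖x‖ ≤ R → ‖iteratedFDeriv ℝ i (F u) x‖ ≤ K * tot (i + a) u x

theorem Ord.comp (R : ℝ) (l : Fin 3) : Ord R 0 fun u x => u x l := fun i =>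
  ⟨1, zero_le_one, fun u hu => ⟨contDiff_pi.1 hu l, fun x _ => by
    rw [one_mul]
    exact (norm_iteratedFDeriv_comp hu l i x).trans (le_tot le_rfl u x)⟩⟩

theorem Ord.mono {R : ℝ} {a b : ℕ} {F : (R3 → C3) → R3 → ℂ} (h : Ord R a F) (hab : a ≤ b) :
    Ord R b F := fun i => by
  obtain ⟨K, hK, h⟩ := h i
  exact ⟨K, hK, fun u hu => ⟨(h u hu).1, fun x hx => ((h u hu).2 x hx).trans
    (mul_le_mul_of_nonneg_left (tot_mono (by omega) u x) hK)⟩⟩

theorem Ord.pd {R : ℝ} {a : ℕ} {F : (R3 → C3) → R3 → ℂ} (h : Ord R a F) (k : Fin 3) :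
    Ord R (a + 1) fun u => Vale.Agent.P136.pd k (F u) := fun i => by
  obtain ⟨K, hK, h⟩ := h (i + 1)
  refine ⟨K, hK, fun u hu => ⟨smooth_pd (h u hu).1, fun x hx => ?_⟩⟩
  rw [show i + (a + 1) = i + 1 + a by omega]
  exact (norm_iteratedFDeriv_pd (h u hu).1 k i x).trans ((h u hu).2 x hx)

theorem Ord.add {R : ℝ} {a : ℕ} {F G : (R3 → C3) → R3 → ℂ} (hF : Ord R a F) (hG : Ord R a G) :
    Ord R a fun u x => F u x + G u x := fun i => by
  obtain ⟨K, hK, hF⟩ := hF i
  obtain ⟨L, hL, hG⟩ := hG i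
  refine ⟨K + L, add_nonneg hK hL, fun u hu => ⟨(hF u hu).1.add (hG u hu).1, fun x hx => ?_⟩⟩
  rw [show (fun u x => F u x + G u x) u = F u + G u from rfl, iteratedFDeriv_add_apply
    ((hF u hu).1.of_le (by exact_mod_cast le_top)).contDiffAt
    ((hG u hu).1.of_le (by exact_mod_cast le_top)).contDiffAt, add_mul]
  exact (norm_add_le _ _).trans (add_le_add ((hF u hu).2 x hx) ((hG u hu).2 x hx))

theorem Ord.sum {R : ℝ} {a : ℕ} {F : Fin 3 → (R3 → C3) → R3 → ℂ} (h : ∀ k, Ord R a (F k)) :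
    Ord R a fun u x => ∑ k, F k u x := by
  simpa only [Fin.sum_univ_three] using ((h 0).add (h 1)).add (h 2)

theorem Ord.mul {R : ℝ} {a : ℕ} {F : (R3 → C3) → R3 → ℂ} (hF : Ord R a F) {g : R3 → ℂ}
    (hg : ContDiff ℝ ∞ g) : Ord R a fun u x => g x * F u x := fun i => by
  choose K hK hF using hF
  have hb : ∀ k, ∃ B, ∀ x ∈ closedBall (0 : R3) R, ‖iteratedFDeriv ℝ k g x‖ ≤ B := fun k =>
    (isCompact_closedBall 0 R).exists_bound_of_continuousOn
      (hg.continuous_iteratedFDeriv (by exact_mod_cast le_top)).continuousOn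
  choose B hB using hb
  refine ⟨∑ k ∈ Finset.range (i + 1), (i.choose k : ℝ) * max (B k) 0 * K (i - k),
    Finset.sum_nonneg fun k _ => mul_nonneg (mul_nonneg (Nat.cast_nonneg _) (le_max_right _ _))
      (hK _), fun u hu => ⟨hg.mul (hF 0 u hu).1, fun x hx => ?_⟩⟩
  refine (norm_iteratedFDeriv_mul_le hg (hF 0 u hu).1 x (by exact_mod_cast le_top)).trans ?_
  rw [Finset.sum_mul]
  refine Finset.sum_le_sum fun k _ => ?_
  calc (i.choose k : ℝ) * ‖iteratedFDeriv ℝ k g x‖ * ‖iteratedFDeriv ℝ (i - k) (F u) x‖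
      ≤ (i.choose k : ℝ) * max (B k) 0 * (K (i - k) * tot (i - k + a) u x) := by
        refine mul_le_mul (mul_le_mul_of_nonneg_left
          ((hB k x (mem_closedBall_zero_iff.2 hx)).trans (le_max_left _ _)) (Nat.cast_nonneg _))
          ((hF (i - k) u hu).2 x hx) (norm_nonneg _) ?_
        exact mul_nonneg (Nat.cast_nonneg _) (le_max_right _ _)
    _ ≤ (i.choose k : ℝ) * max (B k) 0 * (K (i - k) * tot (i + a) u x) := by
        refine mul_le_mul_of_nonneg_left (mul_le_mul_of_nonneg_left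
          (tot_mono (by omega) u x) (hK _)) (mul_nonneg (Nat.cast_nonneg _) (le_max_right _ _))
    _ = _ := by ring

theorem lame_ord {lam mu : R3 → ℝ} (hl : ContDiff ℝ ∞ lam) (hm : ContDiff ℝ ∞ mu) (R : ℝ)
    (l : Fin 3) : Ord R 2 fun u x => lame lam mu u x l := by
  have hc : ∀ f : R3 → ℝ, ContDiff ℝ ∞ f → ContDiff ℝ ∞ fun x => (f x : ℂ) := fun f hf =>
    Complex.ofRealCLM.contDiff.comp hf
  have hd : Ord R 1 fun u => dvg u :=
    Ord.sum (F := fun k u => Vale.Agent.P136.pd k fun y => u y k) fun k => (Ord.comp R k).pd k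
  have hs : ∀ j, Ord R 1 fun u => strain u l j := fun j => by
    have h := (((Ord.comp R l).pd j).add ((Ord.comp R j).pd l)).mul
      (contDiff_const (c := (2 : ℂ)⁻¹))
    have e : (fun u : R3 → C3 => strain u l j) = fun u x => (2 : ℂ)⁻¹ *
        (Vale.Agent.P136.pd j (fun y => u y l) x + Vale.Agent.P136.pd l (fun y => u y j) x) := by
      funext u x
      rw [strain, div_eq_inv_mul]
    rw [e]
    exact h
  exact ((hd.mul (hc _ hl)).pd l).add
    (Ord.sum fun j => ((hs j).mul (contDiff_const.mul (hc _ hm))).pd j)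

theorem contDiff_lame {lam mu : R3 → ℝ} (hl : ContDiff ℝ ∞ lam) (hm : ContDiff ℝ ∞ mu)
    {u : R3 → C3} (hu : ContDiff ℝ ∞ u) : ContDiff ℝ ∞ (lame lam mu u) :=
  contDiff_pi.2 fun l => by
    obtain ⟨K, -, h⟩ := lame_ord hl hm 0 l 0
    exact (h u hu).1

/-- The bound for the Lamé operator on a ball. -/
theorem lame_bound {lam mu : R3 → ℝ} (hl : ContDiff ℝ ∞ lam) (hm : ContDiff ℝ ∞ mu) (R : ℝ)
    (i : ℕ) : ∃ K, 0 ≤ K ∧ ∀ u, ContDiff ℝ ∞ u → ∀ x, ‖x‖ ≤ R →
      ‖iteratedFDeriv ℝ i (lame lam mu u) x‖ ≤ K * tot (i + 2) u x := by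
  choose K hK h using fun l => lame_ord hl hm R l i
  refine ⟨∑ l, K l, Finset.sum_nonneg fun l _ => hK l, fun u hu x hx => ?_⟩
  refine (norm_iteratedFDeriv_le_sum_comp (contDiff_lame hl hm hu) i x).trans ?_
  rw [Finset.sum_mul]
  exact Finset.sum_le_sum fun l _ => (h l u hu).2 x hx

theorem pd_scale {E : Type*} [NormedAddCommGroup E] [NormedSpace ℝ E] {F : R3 → E} {c : ℝ}
    {p x : R3} {k : Fin 3} (hF : DifferentiableAt ℝ F (c • (x - p))) :
    pd k (fun x => F (c • (x - p))) x = c • pd k F (c • (x - p)) := by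
  have h := hF.hasFDerivAt.comp x (((hasFDerivAt_id x).sub_const p).const_smul c)
  rw [pd, show (fun x => F (c • (x - p))) = F ∘ fun x => c • (x - p) from rfl]
  rw [show (fun x => c • (x - p)) = c • fun x => id x - p from rfl]
  rw [h.fderiv]
  simp [pd]

theorem norm_iteratedFDeriv_scale {E : Type*} [NormedAddCommGroup E] [NormedSpace ℝ E]
    {F : R3 → E} (hF : ContDiff ℝ ∞ F) (c : ℝ) (p : R3) (i : ℕ) (x : R3) :
    ‖iteratedFDeriv ℝ i (fun x => F (c • (x - p))) x‖ ≤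
      |c| ^ i * ‖iteratedFDeriv ℝ i F (c • (x - p))‖ := by
  set L : R3 →L[ℝ] R3 := c • ContinuousLinearMap.id ℝ R3 with hL
  rw [iteratedFDeriv_comp_sub (f := fun z => F (c • z)) i p x,
    show (fun z => F (c • z)) = F ∘ L from rfl,
    L.iteratedFDeriv_comp_right hF (x - p) (i := i) (by exact_mod_cast le_top)]
  refine (ContinuousMultilinearMap.norm_compContinuousLinearMap_le _ _).trans ?_
  rw [mul_comm, Finset.prod_const, Finset.card_univ, Fintype.card_fin]
  refine mul_le_mul_of_nonneg_right (pow_le_pow_left₀ (norm_nonneg _) ?_ i) (norm_nonneg _)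
  refine ContinuousLinearMap.opNorm_le_bound _ (abs_nonneg c) fun z => ?_
  simp [hL, norm_smul]

theorem lame_congr {lam mu lam' mu' : R3 → ℝ} {u v : R3 → C3} {x : R3} (hl : lam =ᶠ[𝓝 x] lam')
    (hm : mu =ᶠ[𝓝 x] mu') (h : u =ᶠ[𝓝 x] v) : lame lam mu u x = lame lam' mu' v x := by
  have hu : ∀ (k l : Fin 3), pd k (fun y => u y l) =ᶠ[𝓝 x] pd k (fun y => v y l) := fun k l => by
    filter_upwards [eventually_eventually_nhds.2 h] with z hz
    exact pd_congr (hz.mono fun w hw => congrFun hw l)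
  funext l
  simp only [lame]
  congr 1
  · refine pd_congr ?_
    filter_upwards [hl, hu 0 0, hu 1 1, hu 2 2] with z h1 h2 h3 h4
    simp only [dvg, Fin.sum_univ_three, h1, h2, h3, h4]
  · refine Finset.sum_congr rfl fun j _ => pd_congr ?_
    filter_upwards [hm, hu j l, hu l j] with z h1 h2 h3
    simp only [strain, h1, h2, h3]

theorem lame_sub {lam mu : R3 → ℝ} (hl : ContDiff ℝ ∞ lam) (hm : ContDiff ℝ ∞ mu) {u v : R3 → C3}
    (hu : ContDiff ℝ ∞ u) (hv : ContDiff ℝ ∞ v) (x : R3) :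
    lame lam mu (fun y => u y - v y) x = lame lam mu u x - lame lam mu v x := by
  have hlc : ContDiff ℝ ∞ fun y => (lam y : ℂ) := Complex.ofRealCLM.contDiff.comp hl
  have hmc : ContDiff ℝ ∞ fun y => (2 : ℂ) * (mu y : ℂ) :=
    contDiff_const.mul (Complex.ofRealCLM.contDiff.comp hm)
  have hc : ∀ (w : R3 → C3), ContDiff ℝ ∞ w → ∀ l, ContDiff ℝ ∞ fun y => w y l :=
    fun w hw l => contDiff_pi.1 hw l
  have hd : ∀ w : R3 → C3, ContDiff ℝ ∞ w → ContDiff ℝ ∞ (dvg w) := fun w hw =>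
    ContDiff.sum fun k _ => smooth_pd (hc w hw k)
  have hs : ∀ w : R3 → C3, ContDiff ℝ ∞ w → ∀ a b, ContDiff ℝ ∞ (strain w a b) := fun w hw a b =>
    ((smooth_pd (hc w hw a)).add (smooth_pd (hc w hw b))).div_const 2
  have hp : ∀ (k l : Fin 3) z,
      pd k (fun y => (u y - v y) l) z = pd k (fun y => u y l) z - pd k (fun y => v y l) z :=
    fun k l z => by
      simp only [Pi.sub_apply]
      exact pd_sub ((hc u hu l).differentiable (by simp) z) ((hc v hv l).differentiable (by simp) z)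
  funext l
  simp only [lame, Pi.sub_apply]
  have e1 : (fun y => (lam y : ℂ) * dvg (fun y => u y - v y) y) =
      fun y => (lam y : ℂ) * dvg u y - (lam y : ℂ) * dvg v y := by
    funext y
    simp only [dvg, hp, Finset.sum_sub_distrib, mul_sub]
  have e2 : ∀ j, (fun y => 2 * (mu y : ℂ) * strain (fun y => u y - v y) l j y) =
      fun y => 2 * (mu y : ℂ) * strain u l j y - 2 * (mu y : ℂ) * strain v l j y := by
    intro j
    funext y
    simp only [strain, hp]
    ring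
  rw [e1, pd_sub ((hlc.mul (hd u hu)).differentiable (by simp) x)
    ((hlc.mul (hd v hv)).differentiable (by simp) x)]
  simp only [e2]
  rw [Finset.sum_congr rfl fun j _ => pd_sub ((hmc.mul (hs u hu l j)).differentiable (by simp) x)
    ((hmc.mul (hs v hv l j)).differentiable (by simp) x), Finset.sum_sub_distrib]
  ring

end Vale.Agent.P136.Jet
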