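import Vale.Agent.P136.Spec

/-!
# Boundary layer functions on a half space

`H O b y = ∫ b η exp (ζ η · O y)` with null `ζ η`; the class spanned by `Z ^ l * H O b` is closed
under derivatives and coordinates, bounded for `Z ≤ 2`, and the Laplacian is surjective on it.
-/

noncomputable section

namespace Vale.Agent.P136.Jet

open MeasureTheory Metric Filter Topology
open scoped BigOperators ContDiff

/-- Parameters. -/
abbrev P2 : Type := ℝ × ℝ

/-- The null vector of a parameter. -/
def zeta (η : P2) : Fin 3 → ℂ :=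
  ![Complex.I * ((η.1 ^ 2 - η.2 ^ 2 : ℝ) : ℂ), Complex.I * ((2 * η.1 * η.2 : ℝ) : ℂ),
    ((η.1 ^ 2 + η.2 ^ 2 : ℝ) : ℂ)]

theorem zeta_null (η : P2) : ∑ i, zeta η i ^ 2 = 0 := by
  simp [zeta, Fin.sum_univ_three, mul_pow, Complex.I_sq]
  ring

theorem contDiff_zeta (i : Fin 3) : ContDiff ℝ ∞ fun η => zeta η i := by
  have h : ∀ f : P2 → ℝ, ContDiff ℝ ∞ f → ContDiff ℝ ∞ fun η => (f η : ℂ) :=
    fun f hf => Complex.ofRealCLM.contDiff.comp hf
  fin_cases i
  · exact contDiff_const.mul (h _ (by fun_prop))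
  · exact contDiff_const.mul (h _ (by fun_prop))
  · exact h _ (by fun_prop)

variable (O : R3 ≃ₗᵢ[ℝ] R3)

/-- The adapted coordinates. -/
def cd (i : Fin 3) : R3 →L[ℝ] ℝ :=
  (EuclideanSpace.proj i).comp (O.toContinuousLinearEquiv : R3 →L[ℝ] R3)

theorem cd_apply (i : Fin 3) (y : R3) : cd O i y = O y i := rfl

/-- The normal coordinate. -/
abbrev Z : R3 →L[ℝ] ℝ := cd O 2

/-- The phase. -/
def ph (η : P2) : R3 →L[ℝ] ℂ := ∑ i, zeta η i • (Complex.ofRealCLM.comp (cd O i))

theorem ph_apply (η : P2) (y : R3) : ph O η y = ∑ i, zeta η i * (cd O i y : ℂ) := by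
  simp [ph]

theorem re_ph (η : P2) (y : R3) : (ph O η y).re = (η.1 ^ 2 + η.2 ^ 2) * Z O y := by
  simp [ph_apply, zeta, Fin.sum_univ_three, Complex.mul_re, Complex.mul_im, -Complex.ofReal_pow,
    -Complex.ofReal_add, -Complex.ofReal_sub]

theorem continuous_ph : Continuous fun q : P2 × R3 => ph O q.1 q.2 := by
  simp only [ph_apply]
  exact continuous_finsetSum _ fun i _ => ((contDiff_zeta i).continuous.comp continuous_fst).mul
    (Complex.continuous_ofReal.comp ((cd O i).continuous.comp continuous_snd))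

/-- An admissible weight. -/
structure Adm (b : P2 → ℂ) : Prop where
  smooth : ContDiff ℝ ∞ b
  cpt : HasCompactSupport b
  zero : b =ᶠ[𝓝 0] 0

variable {O}

theorem Adm.mul {b : P2 → ℂ} (hb : Adm b) {g : P2 → ℂ}
    (hg : ∀ η ≠ 0, ContDiffAt ℝ ∞ g η) : Adm fun η => g η * b η := by
  refine ⟨contDiff_iff_contDiffAt.2 fun η => ?_, hb.cpt.mul_left, ?_⟩
  · by_cases h : η = 0
    · subst h
      refine (contDiffAt_const (c := (0 : ℂ))).congr_of_eventuallyEq ?_
      filter_upwards [hb.zero] with x hx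
      simp [hx]
    · exact (hg η h).mul hb.smooth.contDiffAt
  · filter_upwards [hb.zero] with x hx
    simp [hx]

theorem Adm.fderiv {b : P2 → ℂ} (hb : Adm b) (v : P2) : Adm fun η => fderiv ℝ b η v := by
  refine ⟨(hb.smooth.fderiv_right (by simp)).clm_apply contDiff_const, hb.cpt.fderiv_apply ℝ v, ?_⟩
  filter_upwards [eventuallyEq_iff_exists_mem.1 hb.zero |>.elim fun s hs =>
    eventually_of_mem (interior_mem_nhds.2 hs.1) fun x hx =>
      (hs.2.mono interior_subset).eventuallyEq_of_mem (isOpen_interior.mem_nhds hx)] with x hx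
  rw [hx.fderiv_eq]
  simp

theorem radial_ne {η : P2} (h : η ≠ 0) : η.1 ^ 2 + η.2 ^ 2 ≠ 0 := fun e => h <| by
  have h1 : η.1 = 0 := by nlinarith [sq_nonneg η.1, sq_nonneg η.2]
  have h2 : η.2 = 0 := by nlinarith [sq_nonneg η.1, sq_nonneg η.2]
  exact Prod.ext h1 h2

variable (O)

/-- The superposition. -/
def H (b : P2 → ℂ) (y : R3) : ℂ := ∫ η, b η * Complex.exp (ph O η y)

theorem integrable_H {g : P2 → ℂ} (hg : Continuous g) (hc : HasCompactSupport g) (y : R3) :
    Integrable fun η => g η * Complex.exp (ph O η y) :=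
  (hg.mul (Complex.continuous_exp.comp
    ((continuous_ph O).comp (continuous_id.prodMk continuous_const)))).integrable_of_hasCompactSupport
    hc.mul_right

theorem H_add {b c : P2 → ℂ} (hb : Adm b) (hc : Adm c) (y : R3) :
    H O (fun η => b η + c η) y = H O b y + H O c y := by
  simp only [H, add_mul]
  exact integral_add (integrable_H O hb.smooth.continuous hb.cpt y)
    (integrable_H O hc.smooth.continuous hc.cpt y)

theorem H_const_mul (k : ℂ) (b : P2 → ℂ) (y : R3) : H O (fun η => k * b η) y = k * H O b y := by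
  simp only [H, mul_assoc, integral_const_mul]

theorem hasFDerivAt_H {b : P2 → ℂ} (hb : Adm b) (y₀ : R3) :
    HasFDerivAt (H O b) (∫ η, (b η * Complex.exp (ph O η y₀)) • ph O η) y₀ := by
  have hph : Continuous fun η => ph O η := by
    refine continuous_finsetSum _ fun i _ => ?_
    exact (contDiff_zeta i).continuous.smul continuous_const
  have hcont : Continuous fun q : R3 × P2 =>
      (b q.2 * Complex.exp (ph O q.2 q.1)) • ph O q.2 :=
    ((hb.smooth.continuous.comp continuous_snd).mul (Complex.continuous_exp.comp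
      ((continuous_ph O).comp (continuous_snd.prodMk continuous_fst)))).smul
      (hph.comp continuous_snd)
  obtain ⟨C, hC⟩ := ((isCompact_closedBall y₀ 1).prod hb.cpt).exists_bound_of_continuousOn
    hcont.continuousOn
  refine hasFDerivAt_integral_of_dominated_of_fderiv_le (Metric.closedBall_mem_nhds y₀ one_pos)
    (F' := fun y η => (b η * Complex.exp (ph O η y)) • ph O η)
    (bound := Set.indicator (tsupport b) fun _ => C)
    (.of_forall fun y => (integrable_H O hb.smooth.continuous hb.cpt y).aestronglyMeasurable)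
    (integrable_H O hb.smooth.continuous hb.cpt y₀)
    ((hcont.comp (continuous_const.prodMk continuous_id)).aestronglyMeasurable) ?_
    ((integrable_indicator_iff (isClosed_tsupport b).measurableSet).2
      (integrableOn_const (hs := hb.cpt.measure_lt_top.ne))) ?_
  · refine .of_forall fun η y hy => ?_
    by_cases h : η ∈ tsupport b
    · rw [Set.indicator_of_mem h]
      exact hC (y, η) ⟨hy, h⟩
    · rw [Set.indicator_of_notMem h, image_eq_zero_of_notMem_tsupport h]
      simp
  · refine .of_forall fun η y _ => ?_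
    simpa [smul_smul] using (((ph O η).hasFDerivAt).cexp.const_mul (b η) : _)

/-- The unit coordinate vector. -/
abbrev ev (k : Fin 3) : R3 := EuclideanSpace.single k 1

/-- The symbol of a partial derivative. -/
def sym (k : Fin 3) (η : P2) : ℂ := ph O η (ev k)

theorem adm_sym {b : P2 → ℂ} (hb : Adm b) (k : Fin 3) : Adm fun η => sym O k η * b η :=
  hb.mul (g := sym O k) fun η _ => by
    unfold sym
    simp only [ph_apply]
    exact (ContDiff.sum fun i _ => (contDiff_zeta i).mul contDiff_const).contDiffAt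

theorem pd_H {b : P2 → ℂ} (hb : Adm b) (k : Fin 3) :
    pd k (H O b) = H O fun η => sym O k η * b η := by
  funext y
  rw [pd, (hasFDerivAt_H O hb y).fderiv, ContinuousLinearMap.integral_apply, H]
  · refine integral_congr_ae (.of_forall fun η => ?_)
    simp [sym]
    ring
  · refine Continuous.integrable_of_hasCompactSupport ?_ ?_
    · refine (hb.smooth.continuous.mul (Complex.continuous_exp.comp
        ((continuous_ph O).comp (continuous_id.prodMk continuous_const)))).smul ?_
      exact continuous_finsetSum _ fun i _ => (contDiff_zeta i).continuous.smul continuous_const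
    · exact (hb.cpt.mul_right).smul_right

theorem fderiv_eq_sum_pd {E : Type*} [NormedAddCommGroup E] [NormedSpace ℝ E] (f : R3 → E) :
    fderiv ℝ f = fun y => ∑ k, (EuclideanSpace.proj k : R3 →L[ℝ] ℝ).smulRight (pd k f y) := by
  funext y
  refine ContinuousLinearMap.ext fun v => ?_
  have hv : v = ∑ k, v k • ev k := by
    ext j
    simp [Finset.sum_apply, Pi.single_apply]
  conv_lhs => rw [hv]
  simp [pd, map_sum]

theorem contDiff_H_nat (n : ℕ) : ∀ {b : P2 → ℂ}, Adm b → ContDiff ℝ n (H O b) := by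
  induction n with
  | zero =>
    intro b hb
    exact contDiff_zero.2 (continuous_iff_continuousAt.2 fun y => (hasFDerivAt_H O hb y).continuousAt)
  | succ n ih =>
    intro b hb
    push_cast
    rw [contDiff_succ_iff_fderiv]
    refine ⟨fun y => (hasFDerivAt_H O hb y).differentiableAt, by simp, ?_⟩
    rw [fderiv_eq_sum_pd]
    refine ContDiff.sum fun k _ => ?_
    rw [pd_H O hb k]
    exact contDiff_const.smulRight (ih (adm_sym O hb k))

theorem contDiff_H {b : P2 → ℂ} (hb : Adm b) : ContDiff ℝ ∞ (H O b) :=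
  contDiff_infty.2 fun n => contDiff_H_nat O n hb

/-- The generators. -/
def gen (l : ℕ) (b : P2 → ℂ) (y : R3) : ℂ := (Z O y : ℂ) ^ l * H O b y

/-- The class. -/
def Cls : Submodule ℂ (R3 → ℂ) := Submodule.span ℂ {F | ∃ l b, Adm b ∧ F = gen O l b}

theorem gen_mem (l : ℕ) {b : P2 → ℂ} (hb : Adm b) : gen O l b ∈ Cls O :=
  Submodule.subset_span ⟨l, b, hb, rfl⟩

theorem contDiff_gen (l : ℕ) {b : P2 → ℂ} (hb : Adm b) : ContDiff ℝ ∞ (gen O l b) :=
  ((Complex.ofRealCLM.comp (Z O)).contDiff.pow l).mul (contDiff_H O hb)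

theorem contDiff_cls {F : R3 → ℂ} (hF : F ∈ Cls O) : ContDiff ℝ ∞ F := by
  induction hF using Submodule.span_induction with
  | mem F h => obtain ⟨l, b, hb, rfl⟩ := h; exact contDiff_gen O l hb
  | zero => exact contDiff_const
  | add F G _ _ hF hG => exact hF.add hG
  | smul c F _ hF => exact hF.const_smul c

theorem diff_cls {F : R3 → ℂ} (hF : F ∈ Cls O) : Differentiable ℝ F :=
  (contDiff_cls O hF).differentiable (by simp)

theorem pd_gen (k : Fin 3) (l : ℕ) {b : P2 → ℂ} (hb : Adm b) :
    pd k (gen O l b) = ((l : ℂ) * (Z O (ev k) : ℂ)) • gen O (l - 1) b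
      + gen O l (fun η => sym O k η * b η) := by
  funext y
  have h1 : HasFDerivAt (fun y => (Z O y : ℂ)) (Complex.ofRealCLM.comp (Z O)) y :=
    (Complex.ofRealCLM.comp (Z O)).hasFDerivAt
  have h2 := ((contDiff_H O hb).differentiable (by simp) y).hasFDerivAt
  have h := ((h1.pow l).mul h2).fderiv
  rw [pd, show gen O l b = (fun y => (Z O y : ℂ) ^ l) * H O b from rfl, h]
  simp [gen, ← pd_H O hb k, pd]
  ring

theorem pd_mem {F : R3 → ℂ} (hF : F ∈ Cls O) (k : Fin 3) : pd k F ∈ Cls O := by
  induction hF using Submodule.span_induction with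
  | mem F h =>
    obtain ⟨l, b, hb, rfl⟩ := h
    rw [pd_gen O k l hb]
    exact add_mem (Submodule.smul_mem _ _ (gen_mem O _ hb)) (gen_mem O _ (adm_sym O hb k))
  | zero =>
    convert (Cls O).zero_mem
    funext y
    simp [pd]
  | add F G hF hG hF' hG' =>
    convert add_mem hF' hG' using 1
    funext y
    simp [pd, fderiv_add (diff_cls O hF y) (diff_cls O hG y)]
  | smul c F hF hF' =>
    convert Submodule.smul_mem _ c hF' using 1
    funext y
    simp [pd, fderiv_const_smul (diff_cls O hF y)]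

theorem sum_cd_cd (i j : Fin 3) :
    ∑ k, cd O i (ev k) * cd O j (ev k) = if i = j then 1 else 0 := by
  have h := ((EuclideanSpace.basisFun (Fin 3) ℝ).map O).sum_inner_mul_inner (ev i) (ev j)
  simpa [cd_apply, EuclideanSpace.inner_single_left, EuclideanSpace.inner_single_right, mul_comm,
    Pi.single_apply, eq_comm] using h

/-- The Laplacian. -/
def lap (F : R3 → ℂ) (y : R3) : ℂ := ∑ k, pd k (pd k F) y

theorem sum_sym_sq (η : P2) : ∑ k, sym O k η ^ 2 = 0 := by
  simp only [sym, ph_apply, pow_two, Finset.sum_mul, Finset.mul_sum]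
  rw [Finset.sum_comm]
  refine Eq.trans (Finset.sum_congr rfl fun i _ => ?_) (zeta_null η)
  rw [Finset.sum_comm, pow_two]
  refine Eq.trans (Finset.sum_congr rfl fun j _ => Finset.sum_congr rfl fun k _ => mul_comm _ _) ?_
  calc ∑ j, ∑ k, zeta η i * (cd O i (ev k) : ℂ) * (zeta η j * (cd O j (ev k) : ℂ))
      = ∑ j, zeta η i * zeta η j * ((∑ k, cd O i (ev k) * cd O j (ev k) : ℝ) : ℂ) := by
        refine Finset.sum_congr rfl fun j _ => ?_
        push_cast
        rw [Finset.mul_sum]
        exact Finset.sum_congr rfl fun k _ => by ring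
    _ = _ := by
      simp only [sum_cd_cd]
      rw [Finset.sum_eq_single i] <;> simp +contextual [eq_comm]

theorem sum_Z_sym (η : P2) :
    ∑ k, (Z O (ev k) : ℂ) * sym O k η = ((η.1 ^ 2 + η.2 ^ 2 : ℝ) : ℂ) := by
  simp only [sym, ph_apply, Finset.mul_sum]
  rw [Finset.sum_comm]
  calc ∑ i, ∑ k, (Z O (ev k) : ℂ) * (zeta η i * (cd O i (ev k) : ℂ))
      = ∑ i, zeta η i * ((∑ k, cd O i (ev k) * cd O 2 (ev k) : ℝ) : ℂ) := by
        refine Finset.sum_congr rfl fun i _ => ?_
        push_cast
        rw [Finset.mul_sum]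
        exact Finset.sum_congr rfl fun k _ => by ring
    _ = _ := by
      simp only [sum_cd_cd]
      simp [zeta, Fin.sum_univ_three]

/-- The radial weight. -/
def rad (η : P2) : ℂ := ((η.1 ^ 2 + η.2 ^ 2 : ℝ) : ℂ)

theorem contDiffAt_inv_rad {η : P2} (h : η ≠ 0) : ContDiffAt ℝ ∞ (fun η => (rad η)⁻¹) η :=
  (Complex.ofRealCLM.contDiff.comp (by fun_prop : ContDiff ℝ ∞ fun η : P2 => η.1 ^ 2 + η.2 ^ 2)
    ).contDiffAt.inv (by simpa [rad, -Complex.ofReal_add, -Complex.ofReal_pow] using radial_ne h)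

theorem lap_gen (l : ℕ) {b : P2 → ℂ} (hb : Adm b) :
    lap (gen O l b) = ((l : ℂ) * ((l - 1 : ℕ) : ℂ)) • gen O (l - 2) b
      + (2 * (l : ℂ)) • gen O (l - 1) (fun η => rad η * b η) := by
  funext y
  have key : ∀ k, pd k (pd k (gen O l b)) y =
      ((l : ℂ) * ((l - 1 : ℕ) : ℂ)) * gen O (l - 2) b y * (Z O (ev k) : ℂ) ^ 2
      + 2 * (l : ℂ) * (Z O y : ℂ) ^ (l - 1) *
          ((Z O (ev k) : ℂ) * H O (fun η => sym O k η * b η) y)
      + (Z O y : ℂ) ^ l * H O (fun η => sym O k η * (sym O k η * b η)) y := by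
    intro k
    have hs := adm_sym O hb k
    have h1 : Differentiable ℝ (gen O (l - 1) b) := (contDiff_gen O _ hb).differentiable (by simp)
    have h2 : Differentiable ℝ (gen O l (fun η => sym O k η * b η)) :=
      (contDiff_gen O _ hs).differentiable (by simp)
    rw [pd_gen O k l hb]
    have e : pd k (((l : ℂ) * (Z O (ev k) : ℂ)) • gen O (l - 1) b
        + gen O l (fun η => sym O k η * b η)) y = ((l : ℂ) * (Z O (ev k) : ℂ))
        * pd k (gen O (l - 1) b) y + pd k (gen O l (fun η => sym O k η * b η)) y := by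
      simp [pd, fderiv_add ((h1 y).const_smul _) (h2 y), fderiv_const_smul (h1 y)]
    rw [e, pd_gen O k (l - 1) hb, pd_gen O k l hs]
    simp [gen, Nat.sub_sub]
    ring
  have e1 : ∑ k, (Z O (ev k) : ℂ) ^ 2 = 1 := by
    have := congrArg (fun t : ℝ => (t : ℂ)) (sum_cd_cd O 2 2)
    simpa [pow_two] using this
  have e2 : ∑ k, (Z O (ev k) : ℂ) * H O (fun η => sym O k η * b η) y
      = H O (fun η => rad η * b η) y := by
    simp only [← H_const_mul O]
    simp only [H]
    rw [← integral_finsetSum _ fun k _ => ?_]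
    swap
    · exact integrable_H O (g := fun η => (Z O (ev k) : ℂ) * (sym O k η * b η))
        (continuous_const.mul (adm_sym O hb k).smooth.continuous) (adm_sym O hb k).cpt.mul_left y
    refine integral_congr_ae (.of_forall fun η => ?_)
    simp only [rad, ← sum_Z_sym O η, Finset.sum_mul]
    exact Finset.sum_congr rfl fun k _ => by ring
  have e3 : ∑ k, H O (fun η => sym O k η * (sym O k η * b η)) y = 0 := by
    simp only [H]
    rw [← integral_finsetSum _ fun k _ => integrable_H O (adm_sym O (adm_sym O hb k) k).smooth.continuous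
      (adm_sym O (adm_sym O hb k) k).cpt y]
    refine Eq.trans (integral_congr_ae (.of_forall fun η => ?_)) (integral_zero _ _)
    calc ∑ k, sym O k η * (sym O k η * b η) * Complex.exp (ph O η y)
        = (∑ k, sym O k η ^ 2) * (b η * Complex.exp (ph O η y)) := by
          rw [Finset.sum_mul]; exact Finset.sum_congr rfl fun k _ => by ring
      _ = 0 := by rw [sum_sym_sq, zero_mul]
  simp only [lap, key, Finset.sum_add_distrib, ← Finset.mul_sum, e1, e2, e3]
  simp [gen]
  ring

theorem lap_add {F G : R3 → ℂ} (hF : F ∈ Cls O) (hG : G ∈ Cls O) :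
    lap (F + G) = lap F + lap G := by
  funext y
  simp only [lap, Pi.add_apply, ← Finset.sum_add_distrib]
  refine Finset.sum_congr rfl fun k _ => ?_
  have e : pd k (F + G) = pd k F + pd k G := by
    funext z; simp [pd, fderiv_add (diff_cls O hF z) (diff_cls O hG z)]
  rw [e]
  simp [pd, fderiv_add (diff_cls O (pd_mem O hF k) y) (diff_cls O (pd_mem O hG k) y)]

theorem lap_smul (c : ℂ) {F : R3 → ℂ} (hF : F ∈ Cls O) : lap (c • F) = c • lap F := by
  funext y
  simp only [lap, Pi.smul_apply, Finset.smul_sum]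
  refine Finset.sum_congr rfl fun k _ => ?_
  have e : pd k (c • F) = c • pd k F := by
    funext z; simp [pd, fderiv_const_smul (diff_cls O hF z)]
  rw [e]
  simp [pd, fderiv_const_smul (diff_cls O (pd_mem O hF k) y)]

theorem gen_in_lap (l : ℕ) : ∀ {b : P2 → ℂ}, Adm b → ∃ G ∈ Cls O, lap G = gen O l b := by
  induction l with
  | zero =>
    intro b hb
    have hd := hb.mul (g := fun η => (rad η)⁻¹) fun η h => contDiffAt_inv_rad h
    refine ⟨(2 : ℂ)⁻¹ • gen O 1 (fun η => (rad η)⁻¹ * b η), Submodule.smul_mem _ _ (gen_mem O _ hd), ?_⟩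
    rw [lap_smul O _ (gen_mem O _ hd), lap_gen O 1 hd]
    funext y
    have : (fun η => rad η * ((rad η)⁻¹ * b η)) = b := by
      funext η
      by_cases h : η = 0
      · subst h
        simp [rad, hb.zero.self_of_nhds]
      · rw [← mul_assoc, mul_inv_cancel₀ (by
          simpa [rad, -Complex.ofReal_add, -Complex.ofReal_pow] using radial_ne h), one_mul]
    simp [this]
  | succ l ih =>
    intro b hb
    have hd := hb.mul (g := fun η => (rad η)⁻¹) fun η h => contDiffAt_inv_rad h
    obtain ⟨G, hG, hG'⟩ := ih hd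
    set c : ℂ := (2 * ((l : ℂ) + 2))⁻¹ with hc
    refine ⟨c • (gen O (l + 2) (fun η => (rad η)⁻¹ * b η) - (((l : ℂ) + 2) * ((l : ℂ) + 1)) • G),
      Submodule.smul_mem _ _ (sub_mem (gen_mem O _ hd) (Submodule.smul_mem _ _ hG)), ?_⟩
    rw [lap_smul O _ (sub_mem (gen_mem O _ hd) (Submodule.smul_mem _ _ hG)),
      sub_eq_add_neg, ← neg_smul, lap_add O (gen_mem O _ hd) (Submodule.smul_mem _ _ hG),
      lap_smul O _ hG, hG', lap_gen O (l + 2) hd]
    have : (fun η => rad η * ((rad η)⁻¹ * b η)) = b := by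
      funext η
      by_cases h : η = 0
      · subst h
        simp [rad, hb.zero.self_of_nhds]
      · rw [← mul_assoc, mul_inv_cancel₀ (by
          simpa [rad, -Complex.ofReal_add, -Complex.ofReal_pow] using radial_ne h), one_mul]
    funext y
    have h2 : (l : ℂ) + 2 ≠ 0 := by exact_mod_cast (by omega : l + 2 ≠ 0)
    simp [this, hc]
    field_simp

theorem exists_lap_eq {F : R3 → ℂ} (hF : F ∈ Cls O) : ∃ G ∈ Cls O, lap G = F := by
  induction hF using Submodule.span_induction with
  | mem F h => obtain ⟨l, b, hb, rfl⟩ := h; exact gen_in_lap O l hb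
  | zero => exact ⟨0, (Cls O).zero_mem, by
      funext y
      have e : ∀ k, pd k (0 : R3 → ℂ) = 0 := fun k => by funext z; simp [pd]
      simp [lap, e]⟩
  | add F F' _ _ h h' =>
    obtain ⟨G, hG, rfl⟩ := h
    obtain ⟨G', hG', rfl⟩ := h'
    exact ⟨G + G', add_mem hG hG', lap_add O hG hG'⟩
  | smul c F _ h =>
    obtain ⟨G, hG, rfl⟩ := h
    exact ⟨c • G, Submodule.smul_mem _ c hG, lap_smul O c hG⟩

end Vale.Agent.P136.Jet
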