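import Vale.Agent.P136.Mod.JetExp

/-!
# Formal boundary layer solutions
-/

noncomputable section

namespace Vale.Agent.P136.Jet

open MeasureTheory Metric Filter Topology
open scoped BigOperators ContDiff

/-- The truncated expansion at scale `ε`. -/
def ansatz (p : R3) (ε : ℝ) (V : ℕ → R3 → C3) (N : ℕ) (x : R3) : C3 :=
  ∑ j ∈ Finset.range (N + 1), ((ε : ℂ) ^ j) • V j (ε⁻¹ • (x - p))

theorem ansatz_apply (p : R3) (ε : ℝ) (V : ℕ → R3 → C3) (N : ℕ) (x : R3) (l : Fin 3) :
    ansatz p ε V N x l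
      = ∑ j ∈ Finset.range (N + 1), (ε : ℂ) ^ j * rs p ε (fun y => V j y l) x := by
  simp [ansatz, rs, Finset.sum_apply]

theorem lame_add {lam mu : R3 → ℝ} (hl : ContDiff ℝ ∞ lam) (hm : ContDiff ℝ ∞ mu) {u v : R3 → C3}
    (hu : ∀ l, ContDiff ℝ ∞ fun y => u y l) (hv : ∀ l, ContDiff ℝ ∞ fun y => v y l) (x : R3)
    (l : Fin 3) :
    lame lam mu (fun y m => u y m + v y m) x l = lame lam mu u x l + lame lam mu v x l := by
  have hd : dvg (fun y m => u y m + v y m) = fun y => dvg u y + dvg v y := by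
    funext y
    simp only [dvg, ← Finset.sum_add_distrib]
    exact Finset.sum_congr rfl fun i _ => pd_add (dif (hu i) y) (dif (hv i) y)
  have hs : ∀ j, strain (fun y m => u y m + v y m) l j x = strain u l j x + strain v l j x := fun j => by
    simp only [strain, pd_add (dif (hu _) x) (dif (hv _) x)]
    ring
  have e : ∀ k, (pd k fun y => u y l + v y l)
      = fun y => pd k (fun z => u z l) y + pd k (fun z => v z l) y :=
    fun k => funext fun y => pd_add (dif (hu l) y) (dif (hv l) y)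
  rw [lame_eq hl hm (fun m => (hu m).add (hv m)) x l, lame_eq hl hm hu x l, lame_eq hl hm hv x l, hd,
    pd_add (dif (smooth_dvg hu) x) (dif (smooth_dvg hv) x)]
  simp only [hs, lap, e, pd_add (dif (smooth_pd (hu l)) x) (dif (smooth_pd (hv l)) x),
    Fin.sum_univ_three]
  ring

/-- Expansions of every order with a residual of higher order. -/
theorem formal_aux {O : R3 ≃ₗᵢ[ℝ] R3} (C : Coef) (p : R3) {V₀ : R3 → C3}
    (hV : ∀ l, (fun y => V₀ y l) ∈ Cls O)
    (h0 : ∀ y, lame (fun _ => C.lam p) (fun _ => C.mu p) V₀ y = 0) (N : ℕ) :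
    ∃ V : ℕ → R3 → C3, V 0 = V₀ ∧ (∀ j l, (fun y => V j y l) ∈ Cls O) ∧
      ∀ l, Fam O p (N + 1) fun ε x => (ε : ℂ) ^ 2 * lame C.lam C.mu (ansatz p ε V N) x l := by
  induction N with
  | zero =>
    refine ⟨fun j => if j = 0 then V₀ else 0, if_pos rfl, fun j l => ?_, fun l => ?_⟩
    · by_cases h : j = 0
      · simpa [h] using hV l
      · simp only [h, if_false]
        exact (Cls O).zero_mem
    refine (step C.smooth_lam C.smooth_mu 0 hV l).congr fun ε _ x => ?_
    have hL : ∀ y, L0 (C.lam p) (C.mu p) V₀ l y = 0 := fun y => by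
      rw [← lame_const _ _ (fun m => contDiff_cls O (hV m)), h0]; rfl
    have e : ansatz p ε (fun j => if j = 0 then V₀ else 0) 0
        = fun z m => (ε : ℂ) ^ 0 * rs p ε (fun y => V₀ y m) z := by
      funext z m
      simp [ansatz_apply]
    rw [e]
    simp [rs, hL]
  | succ N ih =>
    obtain ⟨V, hV0, hVC, hR⟩ := ih
    choose F hF hF' using fun l => split (hR l)
    obtain ⟨W, hW, hW'⟩ := solve O (a := C.lam p) (b := C.mu p) (C.mu_pos p)
      (C.lam_add_two_mu_pos p) (F := fun l => (-1 : ℂ) • F l)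
      fun l => Submodule.smul_mem _ _ (hF l)
    refine ⟨Function.update V (N + 1) W, ?_, fun j l => ?_, fun l => ?_⟩
    · rw [Function.update_of_ne (by omega), hV0]
    · by_cases h : j = N + 1
      · subst h
        rw [Function.update_self]
        exact hW l
      · rw [Function.update_of_ne h]
        exact hVC j l
    refine ((hF' l).add (step C.smooth_lam C.smooth_mu (N + 1) hW l)).congr fun ε hε x => ?_
    have e : ansatz p ε (Function.update V (N + 1) W) (N + 1) = fun z m => ansatz p ε V N z m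
        + (ε : ℂ) ^ (N + 1) * rs p ε (fun y => W y m) z := by
      funext z m
      rw [ansatz_apply, ansatz_apply, Finset.sum_range_succ, Function.update_self]
      congr 1
      refine Finset.sum_congr rfl fun j hj => ?_
      rw [Function.update_of_ne (Finset.mem_range.1 hj).ne]
    have hu : ∀ m, ContDiff ℝ ∞ fun z => ansatz p ε V N z m := fun m => by
      simp only [ansatz_apply]
      exact ContDiff.sum fun j _ => contDiff_const.mul (smooth_rs ε (contDiff_cls O (hVC j m)))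
    rw [e, lame_add C.smooth_lam C.smooth_mu hu
      (fun m => contDiff_const.mul (smooth_rs ε (contDiff_cls O (hW m)))) x l, hW' l]
    simp only [rs, Pi.smul_apply, smul_eq_mul]
    ring

/-- A solution of the frozen system extends to a formal solution with a small residual. -/
theorem formal (O : R3 ≃ₗᵢ[ℝ] R3) (C : Coef) (p : R3) (V₀ : R3 → C3)
    (hV : ∀ l, (fun y => V₀ y l) ∈ Cls O)
    (h0 : ∀ y, lame (fun _ => C.lam p) (fun _ => C.mu p) V₀ y = 0) (N : ℕ) :
    ∃ V : ℕ → R3 → C3, V 0 = V₀ ∧ (∀ j l, (fun y => V j y l) ∈ Cls O) ∧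
      ∀ (i : ℕ) (R : ℝ), ∃ K, ∀ ε : ℝ, 0 < ε → ε ≤ 1 → ∀ x : R3, ‖x - p‖ ≤ R →
        Z O (ε⁻¹ • (x - p)) < 3 →
        ‖iteratedFDeriv ℝ i (lame C.lam C.mu (ansatz p ε V N)) x‖ ≤ K * ε ^ N / ε ^ (i + 2) := by
  obtain ⟨V, hV0, hVC, hR⟩ := formal_aux C p hV h0 N
  refine ⟨V, hV0, hVC, fun i r => ?_⟩
  choose K hK0 hK using fun l => (hR l).bound i r
  obtain ⟨P, hP0, hP⟩ := Cgo.bd_pi (ι := Fin 3)
  refine ⟨P * ∑ l, K l, fun ε hε hε1 x hx hz => ?_⟩
  have hεC : (ε : ℂ) ≠ 0 := Complex.ofReal_ne_zero.2 hε.ne'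
  set f := lame C.lam C.mu (ansatz p ε V N) with hf
  have e : ∀ l, (fun y => f y l) = ((ε : ℂ) ^ 2)⁻¹ • fun y => (ε : ℂ) ^ 2 * f y l := fun l => by
    funext y; simp [hεC]
  have hsm : ∀ l, ContDiff ℝ ∞ fun y => f y l := fun l => by
    rw [e l]; exact (hK l ε hε hε1).1.const_smul ((ε : ℂ) ^ 2)⁻¹
  have hmem : x ∈ dom O p r ε := ⟨mem_closedBall.2 (by rwa [dist_eq_norm]), hz⟩
  set T := ε ^ (N + 1) * (ε⁻¹) ^ i with hT
  have hb : ∀ l, Cgo.Bd (dom O p r ε) i (fun y => f y l) ((∑ l, K l) * (T / ε ^ 2)) := by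
    intro l y hy m hm
    rw [e l, iteratedFDeriv_const_smul_apply ((hK l ε hε hε1).1.of_le
      (by exact_mod_cast le_top)).contDiffAt, norm_smul, norm_inv, norm_pow, Complex.norm_real,
      Real.norm_of_nonneg hε.le]
    calc (ε ^ 2)⁻¹ * ‖iteratedFDeriv ℝ m (fun y => (ε : ℂ) ^ 2 * f y l) y‖
        ≤ (ε ^ 2)⁻¹ * ((∑ l, K l) * T) := by
          refine mul_le_mul_of_nonneg_left (((hK l ε hε hε1).2 y hy m hm).trans ?_) (by positivity)
          exact mul_le_mul_of_nonneg_right
            (Finset.single_le_sum (f := K) (fun q _ => hK0 q) (Finset.mem_univ l)) (by positivity)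
      _ = _ := by ring
  refine (hP _ i f _ (contDiff_pi.2 hsm) hb x hmem i le_rfl).trans ?_
  have h1 : T / ε ^ 2 ≤ ε ^ N / ε ^ (i + 2) := by
    rw [hT, inv_pow, ← div_eq_mul_inv, div_div, ← pow_add]
    exact div_le_div_of_nonneg_right (pow_le_pow_of_le_one hε.le hε1 (by omega)) (by positivity)
  calc P * ((∑ l, K l) * (T / ε ^ 2)) ≤ P * ((∑ l, K l) * (ε ^ N / ε ^ (i + 2))) :=
      mul_le_mul_of_nonneg_left (mul_le_mul_of_nonneg_left h1
        (Finset.sum_nonneg fun l _ => hK0 l)) hP0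
    _ = _ := by ring

theorem pd_real {F : R3 → ℂ} (hF : ContDiff ℝ ∞ F) (h : ∀ y, (F y).im = 0) (k : Fin 3) (y : R3) :
    (pd k F y).im = 0 := by
  have h1 := Complex.imCLM.hasFDerivAt.comp y (dif hF y).hasFDerivAt
  have h2 : (Complex.imCLM ∘ F : R3 → ℝ) = fun _ => 0 := funext h
  rw [h2] at h1
  exact congrArg (fun L : R3 →L[ℝ] ℝ => L (ev k)) (h1.unique (hasFDerivAt_const 0 y))

/-- Real solutions of the frozen systems detecting `mu`, resp. `lam`. -/
theorem exists_fields (O : R3 ≃ₗᵢ[ℝ] R3) : ∃ (P : R3 → C3) (E S : R3 → ℝ),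
    (∀ l, (fun y => P y l) ∈ Cls O) ∧ Continuous E ∧ Continuous S ∧ (∀ y, 0 ≤ E y) ∧ 0 < E 0 ∧
    S 0 ≠ 0 ∧ (∀ y, dvg P y = 0) ∧ (∀ y, ∑ i, ∑ j, strain P i j y * strain P i j y = (E y : ℂ)) ∧
    ∀ a b : ℝ, 0 < b → 0 < a + 2 * b →
      (∀ y, lame (fun _ => a) (fun _ => b) P y = 0) ∧
      ∃ Q : R3 → C3, (∀ l, (fun y => Q y l) ∈ Cls O) ∧
        (∀ y, lame (fun _ => a) (fun _ => b) Q y = 0) ∧
        ∀ y, dvg Q y = ((S y / (a + 2 * b) : ℝ) : ℂ) := by
  obtain ⟨β, hβ, him, hre⟩ := exists_test O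
  set h := H O β with hh
  have hhm : h ∈ Cls O := by rw [hh, ← gen_zero]; exact gen_mem O 0 hβ
  have hhs := contDiff_cls O hhm
  have hrad : ∀ {γ : P2 → ℂ}, Adm γ → Adm fun η => rad η * γ η := fun {γ} hγ =>
    hγ.mul fun η _ => (Complex.ofRealCLM.contDiff.comp (by fun_prop :
      ContDiff ℝ ∞ fun η : P2 => η.1 ^ 2 + η.2 ^ 2)).contDiffAt
  have hw := hrad hβ
  set w := H O (fun η => rad η * (rad η * β η)) with hwdef
  have hws : ContDiff ℝ ∞ w := contDiff_H O (hrad hw)
  have hlap : lap h = 0 := by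
    rw [hh, ← gen_zero, lap_gen O 0 hβ]
    simp
  have hsum : ∀ y, w y = ∑ k, ∑ m, (Z O (ev k) : ℂ) * (Z O (ev m) : ℂ) * pd k (pd m h) y := by
    intro y
    have e1 : H O (fun η => rad η * β η) = fun z => ∑ m, (Z O (ev m) : ℂ) * pd m h z := by
      funext z
      rw [← sum_Z_H O hβ z]
      simp only [hh, pd_H O hβ]
    rw [hwdef, ← sum_Z_H O hw y]
    refine Finset.sum_congr rfl fun k _ => ?_
    rw [← congrFun (pd_H O hw k) y, e1,
      pd_sum _ fun m _ => (dif (smooth_pd hhs) y).const_mul _, Finset.mul_sum]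
    refine Finset.sum_congr rfl fun m _ => ?_
    rw [pd_const_mul _ (dif (smooth_pd hhs) y)]
    ring
  have him2 : ∀ k m y, (pd k (pd m h) y).im = 0 := fun k m =>
    pd_real (smooth_pd hhs) (pd_real hhs him m) k
  have hwim : ∀ y, (w y).im = 0 := fun y => by
    rw [hsum y, Complex.im_sum]
    refine Finset.sum_eq_zero fun k _ => ?_
    rw [Complex.im_sum]
    refine Finset.sum_eq_zero fun m _ => ?_
    simp [Complex.mul_im, him2 k m y]
  let P : R3 → C3 := fun y l => pd l h y
  have hstr : ∀ i j, strain P i j = pd i (pd j h) := fun i j => by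
    funext y
    simp only [strain, P]
    rw [pd_comm_smooth hhs j i]
    ring
  have hdP : ∀ y, dvg P y = 0 := fun y => congrFun hlap y
  refine ⟨P, fun y => ∑ i, ∑ j, (pd i (pd j h) y).re ^ 2, fun y => 2 * (w y).re,
    fun l => pd_mem O hhm l, ?_, continuous_const.mul (Complex.continuous_re.comp hws.continuous),
    fun y => Finset.sum_nonneg fun i _ => Finset.sum_nonneg fun j _ => sq_nonneg _, ?_,
    mul_ne_zero two_ne_zero hre.ne', hdP, fun y => ?_, fun a b hb hab => ⟨fun y => ?_, ?_⟩⟩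
  · exact continuous_finsetSum _ fun i _ => continuous_finsetSum _ fun j _ =>
      (Complex.continuous_re.comp (smooth_pd (smooth_pd hhs)).continuous).pow 2
  · refine (Finset.sum_nonneg fun i _ => Finset.sum_nonneg fun j _ => sq_nonneg _).lt_of_ne ?_
    intro h0
    have hz : ∀ i j, pd i (pd j h) (0 : R3) = 0 := fun i j => by
      have h1 := (Finset.sum_eq_zero_iff_of_nonneg
        fun i _ => Finset.sum_nonneg fun j _ => sq_nonneg _).1 h0.symm i (Finset.mem_univ i)
      have h2 := (Finset.sum_eq_zero_iff_of_nonneg fun j _ => sq_nonneg _).1 h1 j (Finset.mem_univ j)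
      exact Complex.ext (pow_eq_zero_iff two_ne_zero |>.1 h2) (him2 i j 0)
    have := hsum 0
    simp [hz] at this
    exact hre.ne' (by rw [this]; rfl)
  · simp only [hstr, Complex.ofReal_sum]
    refine Finset.sum_congr rfl fun i _ => Finset.sum_congr rfl fun j _ => ?_
    apply Complex.ext <;> simp [him2 i j y, pow_two]
  · funext l
    rw [lame_const a b (u := P) (fun m => smooth_pd hhs) y l, L0,
      show dvg P = fun _ => (0 : ℂ) from funext hdP, ← pd_lap hhs l, hlap]
    simp [pd]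
  · let G : R3 → C3 := fun y l => ((Z O (ev l) : ℂ) • gen O 1 β) y
    have hG : ∀ l, (fun y => G y l) ∈ Cls O := fun l => Submodule.smul_mem _ _ (gen_mem O 1 hβ)
    have hGs : ∀ l, ContDiff ℝ ∞ fun y => G y l := fun l => contDiff_cls O (hG l)
    have hG1 : ∀ l, lap (fun y => G y l)
        = (2 * (Z O (ev l) : ℂ)) • H O (fun η => rad η * β η) := by
      intro l
      show lap ((Z O (ev l) : ℂ) • gen O 1 β) = _
      rw [lap_smul O _ (gen_mem O 1 hβ), lap_gen O 1 hβ, ← gen_zero O (fun η => rad η * β η)]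
      funext y
      simp
      ring
    refine ⟨gal a b G, gal_mem a b hG, fun y => funext fun l => ?_, fun y => ?_⟩
    · rw [lame_const a b (fun m => contDiff_cls O (gal_mem a b hG m)) y l, L0_gal hb hab hGs, hG1,
        ← gen_zero O (fun η => rad η * β η), lap_smul O _ (gen_mem O 0 hw), lap_gen O 0 hw]
      simp
    · have e2 : lap (dvg G) y = 2 * w y := by
        rw [lap_dvg hGs]
        simp only [hG1]
        rw [hwdef, ← sum_Z_H O hw y, Finset.mul_sum]
        refine Finset.sum_congr rfl fun k _ => ?_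
        rw [← congrFun (pd_H O hw k) y]
        show pd k (fun z => (2 * (Z O (ev k) : ℂ)) * H O (fun η => rad η * β η) z) y = _
        rw [pd_const_mul _ (dif (contDiff_H O hw) y)]
        ring
      rw [congrFun (dvg_gal hb hab hGs) y, e2]
      have hwre : w y = ((w y).re : ℂ) := Complex.ext rfl (by simp [hwim y])
      rw [hwre]
      push_cast
      ring

end Vale.Agent.P136.Jet
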