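import Vale.Agent.P136.Spec

/-!
# A smooth boundary seen from one of its points
-/

noncomputable section

namespace Vale.Agent.P136.Jet

open MeasureTheory Metric Filter Topology
open scoped BigOperators ContDiff RealInnerProductSpace

/-- What is used about the boundary at a point `p` with outward normal `n`. -/
structure Normal (Ω : Set R3) (p n : R3) : Prop where
  unit : ‖n‖ = 1
  inside : ∀ y, ⟪n, y⟫ < 0 → ∀ᶠ ε in 𝓝[>] (0 : ℝ), p + ε • y ∈ Ω
  outside : ∀ y, 0 < ⟪n, y⟫ → ∀ᶠ ε in 𝓝[>] (0 : ℝ), p + ε • y ∉ Ω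
  quad : ∃ K δ : ℝ, 0 < δ ∧ ∀ x ∈ closure Ω, ‖x - p‖ ≤ δ → ⟪n, x - p⟫ ≤ K * ‖x - p‖ ^ 2
  tangent : ∀ f : R3 → ℝ, DifferentiableAt ℝ f p → (∀ q ∈ frontier Ω, f q = 0) →
    ∀ v, ⟪n, v⟫ = 0 → fderiv ℝ f p v = 0

/-- A segment which leaves a set meets its frontier. -/
private lemma exists_frontier_mem_segment {Ω : Set R3} (hΩ : IsOpen Ω) {x₀ x₁ : R3}
    (h₀ : x₀ ∈ Ω) (h₁ : x₁ ∉ Ω) : ∃ q ∈ segment ℝ x₀ x₁, q ∈ frontier Ω := by
  by_contra h
  push Not at h
  have hsub : segment ℝ x₀ x₁ ⊆ Ω ∪ (closure Ω)ᶜ := by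
    intro q hq
    by_cases hc : q ∈ closure Ω
    · left
      by_contra hn
      exact h q hq (by rw [hΩ.frontier_eq]; exact ⟨hc, hn⟩)
    · exact Or.inr hc
  have hx₁ : x₁ ∈ (closure Ω)ᶜ := by
    rcases hsub (right_mem_segment ℝ x₀ x₁) with hin | hout
    · exact absurd hin h₁
    · exact hout
  obtain ⟨q, -, hq, hq'⟩ := (convex_segment x₀ x₁).isPreconnected Ω (closure Ω)ᶜ hΩ
    isClosed_closure.isOpen_compl hsub ⟨x₀, left_mem_segment ℝ x₀ x₁, h₀⟩
    ⟨x₁, right_mem_segment ℝ x₀ x₁, hx₁⟩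
  exact hq' (subset_closure hq)

/-- Second order approximation on a ball. -/
private lemma exists_quad_bound {f : R3 → ℝ} (hf : ContDiff ℝ ∞ f) (p : R3) {δ : ℝ}
    (hδ : 0 ≤ δ) : ∃ C, 0 ≤ C ∧ ∀ x ∈ closedBall p δ,
      |f x - f p - fderiv ℝ f p (x - p)| ≤ C * ‖x - p‖ ^ 2 := by
  have h1 : ContDiff ℝ ∞ (fderiv ℝ f) := hf.fderiv_right le_rfl
  obtain ⟨C, hC⟩ := (isCompact_closedBall p δ).exists_bound_of_continuousOn
    ((h1.continuous_fderiv (by simp)).continuousOn)
  have hC0 : 0 ≤ C := le_trans (norm_nonneg _) (hC p (mem_closedBall_self hδ))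
  refine ⟨C, hC0, fun x hx => ?_⟩
  have hsub : closedBall p ‖x - p‖ ⊆ closedBall p δ :=
    closedBall_subset_closedBall (by rwa [← dist_eq_norm])
  have hlip : ∀ z ∈ closedBall p ‖x - p‖, ‖fderiv ℝ f z - fderiv ℝ f p‖ ≤ C * ‖x - p‖ := by
    intro z hz
    refine le_trans ((convex_closedBall p δ).norm_image_sub_le_of_norm_fderiv_le
      (fun w _ => (h1.differentiable (by simp)).differentiableAt) hC (mem_closedBall_self hδ)
      (hsub hz)) ?_
    exact mul_le_mul_of_nonneg_left (mem_closedBall_iff_norm.1 hz) hC0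
  have h := (convex_closedBall p ‖x - p‖).norm_image_sub_le_of_norm_fderiv_le'
    (fun w _ => (hf.differentiable (by simp)).differentiableAt) hlip
    (mem_closedBall_self (norm_nonneg _)) (mem_closedBall_iff_norm.2 le_rfl)
  rw [Real.norm_eq_abs] at h
  calc _ ≤ C * ‖x - p‖ * ‖x - p‖ := h
    _ = C * ‖x - p‖ ^ 2 := by ring

/-- A defining function near a boundary point. -/
private lemma exists_chart {Ω : Set R3} (hΩ : SmoothDomain Ω) {p : R3} (hp : p ∈ frontier Ω) :
    ∃ (ρ : R3 → ℝ) (g : R3) (C δ : ℝ), g ≠ 0 ∧ 0 ≤ C ∧ 0 < δ ∧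
      ∀ x, ‖x - p‖ ≤ δ → (x ∈ Ω ↔ ρ x < 0) ∧ (x ∈ closure Ω → ρ x ≤ 0) ∧
        |ρ x - ⟪g, x - p⟫| ≤ C * ‖x - p‖ ^ 2 := by
  obtain ⟨U, ρ, hU, hpU, hρ, hne, heq⟩ := hΩ.boundary p hp
  obtain ⟨δ, hδ, hball⟩ := Metric.isOpen_iff.1 hU p hpU
  have hcl : ∀ x ∈ U, x ∈ closure Ω → ρ x ≤ 0 := by
    intro x hxU hx
    have hx' : x ∈ closure (Ω ∩ U) := hU.closure_inter ⟨hx, hxU⟩
    have hsub : closure (Ω ∩ U) ⊆ {z | ρ z ≤ 0} :=
      closure_minimal (by rw [heq]; exact fun z hz => show ρ z ≤ 0 from le_of_lt (show ρ z < 0 from hz.1))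
        (isClosed_le hρ.continuous continuous_const)
    exact hsub hx'
  have hiff : ∀ x ∈ U, (x ∈ Ω ↔ ρ x < 0) := by
    intro x hxU
    have := Set.ext_iff.1 heq x
    simpa [hxU] using this
  have hp0 : ρ p = 0 := by
    refine le_antisymm (hcl p hpU (frontier_subset_closure hp)) (not_lt.1 fun h => ?_)
    rw [hΩ.isOpen.frontier_eq] at hp
    exact hp.2 ((hiff p hpU).2 h)
  obtain ⟨C, hC, hb⟩ := exists_quad_bound hρ p (half_pos hδ).le
  refine ⟨ρ, (InnerProductSpace.toDual ℝ R3).symm (fderiv ℝ ρ p), C, δ / 2, ?_, hC, half_pos hδ,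
    fun x hx => ?_⟩
  · simpa using hne
  have hxU : x ∈ U := hball (mem_ball_iff_norm.2 (lt_of_le_of_lt hx (half_lt_self hδ)))
  refine ⟨hiff x hxU, hcl x hxU, ?_⟩
  rw [InnerProductSpace.toDual_symm_apply]
  simpa [hp0] using hb x (mem_closedBall_iff_norm.2 hx)

/-- A function vanishing on the frontier is stationary along tangent vectors. -/
private lemma tangent_aux {Ω : Set R3} (hΩ : IsOpen Ω) {p n v : R3} (hunit : ‖n‖ = 1)
    {f : R3 → ℝ} (hf : DifferentiableAt ℝ f p) (hfp : f p = 0)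
    (hf0 : ∀ q ∈ frontier Ω, f q = 0) {K : ℝ} (hK : 0 < K)
    (hcross : ∀ᶠ t in 𝓝[>] (0 : ℝ),
      p + (t • v - (K * t ^ 2) • n) ∈ Ω ∧ p + (t • v + (K * t ^ 2) • n) ∉ Ω) :
    fderiv ℝ f p v = 0 := by
  set L := fderiv ℝ f p with hL
  suffices h : ∀ e : ℝ, 0 < e → |L v| ≤ e * ‖v‖ by
    refine abs_nonpos_iff.1 (le_of_forall_pos_le_add fun r hr => ?_)
    have h1 := h (r / (‖v‖ + 1)) (by positivity)
    rw [zero_add]
    refine h1.trans ?_
    rw [div_mul_eq_mul_div, div_le_iff₀ (by positivity)]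
    exact mul_le_mul_of_nonneg_left (by linarith) hr.le
  intro e he
  have hd : ∀ᶠ x in 𝓝 p, ‖f x - f p - L (x - p)‖ ≤ e * ‖x - p‖ := hf.hasFDerivAt.isLittleO.def he
  obtain ⟨η, hη, hd⟩ := Metric.eventually_nhds_iff.1 hd
  have hlim : Tendsto (fun t : ℝ => e * (‖v‖ + K * t) + K * t * ‖L‖) (𝓝[>] 0) (𝓝 (e * ‖v‖)) :=
    (Continuous.tendsto' (by fun_prop) _ _ (by simp)).mono_left nhdsWithin_le_nhds
  refine ge_of_tendsto hlim ?_
  have hsmall : ∀ᶠ t in 𝓝 (0 : ℝ), t * (‖v‖ + K * t) < η :=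
    (Continuous.tendsto' (by fun_prop) _ _ (by simp)).eventually (gt_mem_nhds hη)
  filter_upwards [hcross, nhdsWithin_le_nhds hsmall, self_mem_nhdsWithin] with t ⟨h₀, h₁⟩ hs' ht'
  have ht : (0 : ℝ) < t := ht'
  obtain ⟨q, hq, hqf⟩ := exists_frontier_mem_segment hΩ h₀ h₁
  obtain ⟨a, b, ha, hb, hab, rfl⟩ := hq
  set s := (b - a) * (K * t ^ 2) with hsdef
  have hs : |s| ≤ K * t ^ 2 := by
    rw [hsdef, abs_mul, abs_of_pos (show (0 : ℝ) < K * t ^ 2 by positivity)]
    exact mul_le_of_le_one_left (by positivity) (abs_le.2 ⟨by linarith, by linarith⟩)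
  set d := t • v + s • n with hd'
  have hqd : a • (p + (t • v - (K * t ^ 2) • n)) + b • (p + (t • v + (K * t ^ 2) • n)) = p + d := by
    have ha' : a = 1 - b := by linarith
    simp only [hd', hsdef, ha']
    module
  rw [hqd] at hqf
  have hdn : ‖d‖ ≤ t * (‖v‖ + K * t) := by
    have h : ‖d‖ ≤ t * ‖v‖ + |s| := by
      simpa [hd', norm_smul, hunit, abs_of_pos ht] using norm_add_le (t • v) (s • n)
    linarith [show t * (‖v‖ + K * t) = t * ‖v‖ + K * t ^ 2 by ring]
  have happ := hd (y := p + d) (by rw [dist_eq_norm, add_sub_cancel_left]; exact hdn.trans_lt hs')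
  rw [hf0 _ hqf, hfp, add_sub_cancel_left, sub_zero, zero_sub, norm_neg, Real.norm_eq_abs] at happ
  have hLd : L d = t * L v + s * L n := by simp [hd', map_add, map_smul]
  have hLn : |L n| ≤ ‖L‖ := by simpa [hunit] using L.le_opNorm n
  have h1 : t * |L v| ≤ |L d| + |s| * |L n| := by
    have h := abs_sub (L d) (s * L n)
    rw [show L d - s * L n = t * L v by rw [hLd]; ring, abs_mul, abs_mul, abs_of_pos ht] at h
    exact h
  have h2 : |s| * |L n| ≤ K * t ^ 2 * ‖L‖ := mul_le_mul hs hLn (abs_nonneg _) (by positivity)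
  have h3 : |L d| ≤ e * (t * (‖v‖ + K * t)) := happ.trans (mul_le_mul_of_nonneg_left hdn he.le)
  refine le_of_mul_le_mul_left ?_ ht
  linarith [show t * (e * (‖v‖ + K * t) + K * t * ‖L‖)
    = e * (t * (‖v‖ + K * t)) + K * t ^ 2 * ‖L‖ by ring]

theorem exists_normal {Ω : Set R3} (hΩ : SmoothDomain Ω) {p : R3} (hp : p ∈ frontier Ω) :
    ∃ n, Normal Ω p n := by
  obtain ⟨ρ, g, C, δ, hg, hC, hδ, hch⟩ := exists_chart hΩ hp
  have hgn : (0 : ℝ) < ‖g‖ := norm_pos_iff.2 hg
  set n : R3 := ‖g‖⁻¹ • g with hn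
  have hgi : ∀ y : R3, ⟪g, y⟫ = ‖g‖ * ⟪n, y⟫ := by
    intro y
    rw [hn, real_inner_smul_left]
    field_simp
  have hunit : ‖n‖ = 1 := by simp [hn, norm_smul, hgn.ne']
  have hnn : ⟪n, n⟫ = (1 : ℝ) := by rw [real_inner_self_eq_norm_sq, hunit]; norm_num
  have hsign : ∀ y : R3, ⟪n, y⟫ ≠ 0 → ∀ᶠ ε in 𝓝[>] (0 : ℝ), 0 < ε ∧ ‖(p + ε • y) - p‖ ≤ δ ∧
      C * ‖(p + ε • y) - p‖ ^ 2 < ε * (‖g‖ * |⟪n, y⟫|) := by
    intro y hy
    have hpos : 0 < ‖g‖ * |⟪n, y⟫| := mul_pos hgn (abs_pos.2 hy)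
    have h1 : ∀ᶠ ε in 𝓝 (0 : ℝ), |ε| * ‖y‖ < δ :=
      (Continuous.tendsto' (by fun_prop) _ _ (by simp)).eventually (gt_mem_nhds hδ)
    have h2 : ∀ᶠ ε in 𝓝 (0 : ℝ), C * ε * ‖y‖ ^ 2 < ‖g‖ * |⟪n, y⟫| :=
      (Continuous.tendsto' (by fun_prop) _ _ (by simp)).eventually (gt_mem_nhds hpos)
    filter_upwards [nhdsWithin_le_nhds h1, nhdsWithin_le_nhds h2,
      self_mem_nhdsWithin] with ε e1 e2 e3
    have e3' : (0 : ℝ) < ε := e3
    have hnorm : ‖(p + ε • y) - p‖ = ε * ‖y‖ := by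
      rw [add_sub_cancel_left, norm_smul, Real.norm_eq_abs, abs_of_pos e3']
    rw [abs_of_pos e3'] at e1
    rw [hnorm]
    refine ⟨e3', e1.le, ?_⟩
    nlinarith
  refine ⟨n, hunit, ?_, ?_, ?_, ?_⟩
  · intro y hy
    filter_upwards [hsign y hy.ne] with ε he
    obtain ⟨-, e1, e2⟩ := he
    obtain ⟨hiff, -, hb⟩ := hch _ e1
    rw [add_sub_cancel_left, real_inner_smul_right, hgi] at hb
    rw [add_sub_cancel_left, abs_of_neg hy] at e2
    rw [hiff]
    nlinarith [(abs_le.1 hb).2]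
  · intro y hy
    filter_upwards [hsign y hy.ne'] with ε he
    obtain ⟨-, e1, e2⟩ := he
    obtain ⟨hiff, -, hb⟩ := hch _ e1
    rw [add_sub_cancel_left, real_inner_smul_right, hgi] at hb
    rw [add_sub_cancel_left, abs_of_pos hy] at e2
    rw [hiff, not_lt]
    nlinarith [(abs_le.1 hb).1]
  · refine ⟨C / ‖g‖, δ, hδ, fun x hx hxd => ?_⟩
    obtain ⟨-, hle, hb⟩ := hch x hxd
    rw [hgi] at hb
    rw [div_mul_eq_mul_div, le_div_iff₀ hgn]
    nlinarith [(abs_le.1 hb).1, hle hx]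
  · intro f hf hf0 v hv
    set K := (C * (‖v‖ + 1) ^ 2 + 1) / ‖g‖ with hK
    have hK0 : 0 < K := by positivity
    have hKg : ‖g‖ * K = C * (‖v‖ + 1) ^ 2 + 1 := by rw [hK]; field_simp
    refine tangent_aux hΩ.isOpen hunit hf (hf0 p hp) hf0 hK0 ?_
    have h1 : ∀ᶠ t in 𝓝 (0 : ℝ), K * t < 1 :=
      (Continuous.tendsto' (by fun_prop) _ _ (by simp)).eventually (gt_mem_nhds one_pos)
    have h2 : ∀ᶠ t in 𝓝 (0 : ℝ), t * (‖v‖ + 1) < δ :=
      (Continuous.tendsto' (by fun_prop) _ _ (by simp)).eventually (gt_mem_nhds hδ)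
    filter_upwards [nhdsWithin_le_nhds h1, nhdsWithin_le_nhds h2, self_mem_nhdsWithin]
      with t e1 e2 ht'
    have ht : (0 : ℝ) < t := ht'
    have key : ∀ s : ℝ, |s| = 1 → ‖g‖ * (s * (K * t ^ 2)) - ‖g‖ * (K * t ^ 2) <
          ρ (p + (t • v + (s * (K * t ^ 2)) • n)) ∧
        ρ (p + (t • v + (s * (K * t ^ 2)) • n)) <
          ‖g‖ * (s * (K * t ^ 2)) + ‖g‖ * (K * t ^ 2) ∧
        (p + (t • v + (s * (K * t ^ 2)) • n) ∈ Ω ↔
          ρ (p + (t • v + (s * (K * t ^ 2)) • n)) < 0) := by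
      intro s hs
      set d := t • v + (s * (K * t ^ 2)) • n with hd'
      have hdn : ‖d‖ ≤ t * (‖v‖ + 1) := by
        have h : ‖d‖ ≤ t * ‖v‖ + |s * (K * t ^ 2)| := by
          have h := norm_add_le (t • v) ((s * (K * t ^ 2)) • n)
          rw [norm_smul, norm_smul, hunit, mul_one, Real.norm_eq_abs, Real.norm_eq_abs,
            abs_of_pos ht] at h
          exact h
        rw [abs_mul, hs, one_mul, abs_of_pos (show (0 : ℝ) < K * t ^ 2 by positivity)] at h
        have h' : K * t ^ 2 ≤ t * 1 := by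
          rw [show K * t ^ 2 = t * (K * t) by ring]
          exact mul_le_mul_of_nonneg_left e1.le ht.le
        linarith [show t * (‖v‖ + 1) = t * ‖v‖ + t * 1 by ring]
      obtain ⟨hiff, -, hb⟩ := hch (p + d) (by rw [add_sub_cancel_left]; exact hdn.trans e2.le)
      have hin : ⟪g, d⟫ = ‖g‖ * (s * (K * t ^ 2)) := by
        rw [hgi, hd', inner_add_right, real_inner_smul_right, real_inner_smul_right, hv, hnn]
        ring
      rw [add_sub_cancel_left, hin] at hb
      have hsq : C * ‖d‖ ^ 2 ≤ C * (‖v‖ + 1) ^ 2 * t ^ 2 := by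
        rw [mul_assoc, ← mul_pow, mul_comm (‖v‖ + 1)]
        exact mul_le_mul_of_nonneg_left (pow_le_pow_left₀ (norm_nonneg _) hdn 2) hC
      have hgK : ‖g‖ * (K * t ^ 2) = C * (‖v‖ + 1) ^ 2 * t ^ 2 + t ^ 2 := by
        rw [← mul_assoc, hKg]; ring
      obtain ⟨hb1, hb2⟩ := abs_le.1 hb
      have ht2 : 0 < t ^ 2 := pow_pos ht 2
      exact ⟨by linarith, by linarith, hiff⟩
    obtain ⟨-, hneg, hin₀⟩ := key (-1) (by norm_num)
    obtain ⟨hpos, -, hin₁⟩ := key 1 (by norm_num)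
    simp only [neg_mul, one_mul, neg_smul, ← sub_eq_add_neg] at hneg hin₀ hpos hin₁
    exact ⟨hin₀.2 (by linarith), fun h => by linarith [hin₁.1 h]⟩

/-- One derivative moved to the function. -/
private lemma iteratedFDeriv_snoc {f : R3 → ℝ} (hf : ContDiff ℝ ∞ f) (j : ℕ) (x : R3)
    (m : Fin (j + 1) → R3) :
    iteratedFDeriv ℝ (j + 1) f x m
      = iteratedFDeriv ℝ j (fun y => fderiv ℝ f y (m (Fin.last j))) x (Fin.init m) := by
  have h1 : ContDiff ℝ ∞ (fderiv ℝ f) := hf.fderiv_right le_rfl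
  rw [iteratedFDeriv_succ_apply_right]
  change _ = iteratedFDeriv ℝ j
    ((ContinuousLinearMap.apply ℝ ℝ (m (Fin.last j))) ∘ fderiv ℝ f) x (Fin.init m)
  rw [ContinuousLinearMap.iteratedFDeriv_comp_left _ h1.contDiffAt (by exact_mod_cast le_top)]
  rfl

/-- A top derivative kills tangent vectors in every slot. -/
private lemma top_tangent {Ω : Set R3} {p n : R3} (hn : Normal Ω p n) :
    ∀ (j : ℕ) (f : R3 → ℝ), ContDiff ℝ ∞ f →
      (∀ i < j, ∀ q ∈ frontier Ω, iteratedFDeriv ℝ i f q = 0) →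
      ∀ m : Fin j → R3, (∃ k, ⟪n, m k⟫ = 0) → iteratedFDeriv ℝ j f p m = 0 := by
  intro j
  induction j with
  | zero => rintro f - - m ⟨k, -⟩; exact k.elim0
  | succ j ih =>
    intro f hf hflat m hm
    rcases j with - | j
    · rw [iteratedFDeriv_one_apply]
      obtain ⟨k, hk⟩ := hm
      rw [show k = 0 from Fin.ext (by omega)] at hk
      refine hn.tangent f (hf.differentiable (by simp)).differentiableAt (fun q hq => ?_) _ hk
      simpa using congrArg (fun T => T (fun i : Fin 0 => i.elim0)) (hflat 0 one_pos q hq)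
    · have hstep : ∀ m' : Fin (j + 2) → R3, (∃ k : Fin (j + 1), ⟪n, m' k.castSucc⟫ = 0) →
          iteratedFDeriv ℝ (j + 2) f p m' = 0 := by
        rintro m' ⟨k, hk⟩
        rw [iteratedFDeriv_snoc hf]
        refine ih _ ((hf.fderiv_right le_rfl).clm_apply contDiff_const) (fun i hi q hq => ?_) _
          ⟨k, hk⟩
        ext w
        have h := iteratedFDeriv_snoc hf i q (Fin.snoc w (m' (Fin.last (j + 1))))
        rw [Fin.init_snoc, Fin.snoc_last, hflat (i + 1) (by omega) q hq] at h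
        exact h.symm
      obtain ⟨k, hk⟩ := hm
      rcases Fin.eq_castSucc_or_eq_last k with ⟨k', rfl⟩ | rfl
      · exact hstep m ⟨k', hk⟩
      · set a := m (Fin.last j).castSucc with ha
        set b := m (Fin.last (j + 1)) with hb
        set w : Fin j → R3 := Fin.init (Fin.init m) with hw
        have h0 := hstep (Fin.snoc (Fin.snoc w b) a)
          ⟨Fin.last j, by rw [Fin.snoc_castSucc, Fin.snoc_last]; exact hk⟩
        have hsymm : (fun y => fderiv ℝ (fun z => fderiv ℝ f z b) y a)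
            = fun y => fderiv ℝ (fun z => fderiv ℝ f z a) y b := by
          funext y
          have hd : DifferentiableAt ℝ (fderiv ℝ f) y :=
            ((hf.fderiv_right (m := ∞) le_rfl).differentiable (by simp)).differentiableAt
          rw [fderiv_clm_apply hd (differentiableAt_const _),
            fderiv_clm_apply hd (differentiableAt_const _)]
          simpa using (hf.contDiffAt.isSymmSndFDerivAt
            (by rw [minSmoothness_of_isRCLikeNormedField]; exact WithTop.coe_le_coe.2 le_top)).eq a b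
        have hfb : ∀ c : R3, ContDiff ℝ ∞ fun z => fderiv ℝ f z c :=
          fun c => (hf.fderiv_right le_rfl).clm_apply contDiff_const
        rw [iteratedFDeriv_snoc hf, iteratedFDeriv_snoc (hfb _), Fin.snoc_last, Fin.init_snoc,
          Fin.snoc_last, Fin.init_snoc, ← hsymm] at h0
        rw [iteratedFDeriv_snoc hf, iteratedFDeriv_snoc (hfb _)]
        exact h0

/-- A form killing tangent vectors in every slot is a multiple of the normal one. -/
private lemma form_eq {j : ℕ} (T : ContinuousMultilinearMap ℝ (fun _ : Fin j => R3) ℝ) {n : R3}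
    (hn : ⟪n, n⟫ = (1 : ℝ)) (hT : ∀ m : Fin j → R3, (∃ k, ⟪n, m k⟫ = 0) → T m = 0)
    (m : Fin j → R3) : T m = (∏ k, ⟪n, m k⟫) * T fun _ => n := by
  classical
  conv_lhs => rw [show m = (fun k => ⟪n, m k⟫ • n) + fun k => m k - ⟪n, m k⟫ • n by
    funext k; simp]
  rw [T.map_add_univ, Finset.sum_eq_single Finset.univ]
  · rw [Finset.piecewise_univ, T.map_smul_univ]
    rfl
  · intro s _ hs
    obtain ⟨k, hk⟩ : ∃ k, k ∉ s := by
      by_contra h
      push Not at h
      exact hs (Finset.eq_univ_iff_forall.2 h)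
    refine hT _ ⟨k, ?_⟩
    rw [Finset.piecewise_eq_of_notMem _ _ _ hk, inner_sub_right, real_inner_smul_right, hn]
    ring
  · exact fun h => absurd (Finset.mem_univ _) h

/-- The leading part of a function whose lower jets vanish along the boundary. -/
theorem flat_top {Ω : Set R3} (hΩ : SmoothDomain Ω) {p n : R3} (hp : p ∈ frontier Ω)
    (hn : Normal Ω p n) {f : R3 → ℝ} (hf : ContDiff ℝ ∞ f) {j : ℕ}
    (hflat : ∀ i < j, ∀ q ∈ frontier Ω, iteratedFDeriv ℝ i f q = 0) :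
    ∃ c : ℝ, (c = 0 → iteratedFDeriv ℝ j f p = 0) ∧
      (∀ y, Tendsto (fun ε : ℝ => f (p + ε • y) / ε ^ j) (𝓝[>] 0) (𝓝 (c * ⟪n, y⟫ ^ j))) ∧
      ∀ R, ∃ K, ∀ x, ‖x - p‖ ≤ R → |f x| ≤ K * ‖x - p‖ ^ j := by
  clear hΩ
  rcases j with - | i
  · refine ⟨f p, fun h => ?_, fun y => ?_, fun R => ?_⟩
    · ext m; simpa using h
    · simpa [Function.comp_def] using ((hf.continuous.comp
        (by fun_prop : Continuous fun ε : ℝ => p + ε • y)).tendsto'
        0 (f p) (by simp)).mono_left nhdsWithin_le_nhds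
    · obtain ⟨K, hK⟩ := (isCompact_closedBall p R).exists_bound_of_continuousOn
        hf.continuous.continuousOn
      exact ⟨K, fun x hx => by simpa using hK x (mem_closedBall_iff_norm.2 hx)⟩
  set T := iteratedFDeriv ℝ (i + 1) f p with hTdef
  have hnn : ⟪n, n⟫ = (1 : ℝ) := by rw [real_inner_self_eq_norm_sq, hn.unit]; norm_num
  have hT : ∀ m, T m = (∏ k, ⟪n, m k⟫) * T fun _ => n :=
    form_eq T hnn (top_tangent hn (i + 1) f hf hflat)
  set F : ℝ → R3 → ℝ := fun t h =>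
    (1 - t) ^ i * iteratedFDeriv ℝ (i + 1) f (p + t • h) (fun _ => h) with hF
  have htay : ∀ h : R3, f (p + h) = (i.factorial : ℝ)⁻¹ * ∫ t in (0 : ℝ)..1, F t h := by
    intro h
    rw [map_add_eq_sum_add_integral_iteratedFDeriv (n := i)
      (fun t _ => hf.contDiffAt.of_le (by exact_mod_cast le_top))]
    rw [Finset.sum_eq_zero, zero_add]
    · simp [hF, smul_eq_mul]
    · intro k hk
      simp [hflat k (Finset.mem_range.1 hk) p hp]
  have hcD : Continuous (iteratedFDeriv ℝ (i + 1) f) :=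
    hf.continuous_iteratedFDeriv (by exact_mod_cast le_top)
  refine ⟨(T fun _ => n) / (i + 1).factorial, fun h => ?_, fun y => ?_, fun R => ?_⟩
  · have h' : T (fun _ => n) = 0 := by simpa [Nat.factorial_ne_zero] using h
    ext m
    rw [hT m, h']
    simp
  · set G : ℝ → ℝ := fun ε => (i.factorial : ℝ)⁻¹ *
      ∫ t in (0 : ℝ)..1, (1 - t) ^ i * iteratedFDeriv ℝ (i + 1) f (p + (ε * t) • y) (fun _ => y)
    have hG : Continuous G := by
      refine continuous_const.mul
        (intervalIntegral.continuous_parametric_intervalIntegral_of_continuous' ?_ _ _)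
      exact ((continuous_const.sub continuous_snd).pow i).mul
        ((hcD.comp (by fun_prop)).eval_const _)
    have heq : ∀ ε : ℝ, 0 < ε → f (p + ε • y) / ε ^ (i + 1) = G ε := by
      intro ε hε
      have hscale : ∀ t, F t (ε • y) = ε ^ (i + 1) * ((1 - t) ^ i *
          iteratedFDeriv ℝ (i + 1) f (p + (ε * t) • y) (fun _ => y)) := by
        intro t
        simp only [hF, smul_smul, mul_comm t ε]
        rw [(iteratedFDeriv ℝ (i + 1) f _).map_smul_univ (fun _ => ε) (fun _ => y)]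
        simp
        ring
      rw [htay]
      simp_rw [hscale]
      rw [intervalIntegral.integral_const_mul]
      simp only [G]
      field_simp
      simp only [mul_comm]
    have hG0 : G 0 = (T fun _ => n) / (i + 1).factorial * ⟪n, y⟫ ^ (i + 1) := by
      have hint : ∫ t in (0 : ℝ)..1, (1 - t) ^ i = 1 / (i + 1 : ℝ) := by
        rw [intervalIntegral.integral_comp_sub_left (fun t : ℝ => t ^ i)]
        simp
      simp only [G, zero_mul, zero_smul, add_zero, ← hTdef]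
      rw [intervalIntegral.integral_mul_const, hint, hT fun _ => y, Nat.factorial_succ]
      simp only [Finset.prod_const, Finset.card_univ, Fintype.card_fin]
      push_cast
      field_simp
    rw [← hG0]
    refine (hG.tendsto 0).mono_left nhdsWithin_le_nhds |>.congr' ?_
    filter_upwards [self_mem_nhdsWithin] with ε hε using (heq ε hε).symm
  · obtain ⟨M, hM⟩ := (isCompact_closedBall p R).exists_bound_of_continuousOn hcD.continuousOn
    refine ⟨(i.factorial : ℝ)⁻¹ * M, fun x hx => ?_⟩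
    have h := intervalIntegral.norm_integral_le_of_norm_le_const (a := (0 : ℝ)) (b := 1)
      (f := fun t => F t (x - p)) (C := M * ‖x - p‖ ^ (i + 1)) (fun t ht => by
        rw [Set.uIoc_of_le zero_le_one] at ht
        have hin : p + t • (x - p) ∈ closedBall p R := by
          rw [mem_closedBall_iff_norm, add_sub_cancel_left, norm_smul, Real.norm_eq_abs,
            abs_of_pos ht.1]
          exact le_trans (mul_le_of_le_one_left (norm_nonneg _) ht.2) hx
        have hb := (iteratedFDeriv ℝ (i + 1) f (p + t • (x - p))).le_opNorm fun _ => x - p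
        simp only [Finset.prod_const, Finset.card_univ, Fintype.card_fin] at hb
        have hone : |(1 - t) ^ i| ≤ 1 := by
          rw [abs_pow]
          exact pow_le_one₀ (abs_nonneg _) (abs_le.2 ⟨by linarith [ht.2], by linarith [ht.1]⟩)
        rw [Real.norm_eq_abs, hF, abs_mul]
        refine le_trans (mul_le_of_le_one_left (abs_nonneg _) hone) (le_trans hb ?_)
        exact mul_le_mul_of_nonneg_right (hM _ hin) (by positivity))
    rw [Real.norm_eq_abs, sub_zero, abs_one, mul_one] at h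
    rw [show x = p + (x - p) by abel, htay, abs_mul,
      abs_of_nonneg (by positivity : (0 : ℝ) ≤ (i.factorial : ℝ)⁻¹), add_sub_cancel_left, mul_assoc]
    exact mul_le_mul_of_nonneg_left h (by positivity)

end Vale.Agent.P136.Jet
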