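import Vale.Agent.P136.Mod.JetBd
import Vale.Agent.P136.Mod.JetFam
import Vale.Agent.P136.Mod.JetGeo

/-!
# Exact solutions concentrated at a boundary point

The formal solution at scale `ε = s ^ 3` is cut off at distance `s ^ 2` from the point; only its
residual, cut in the normal direction, is corrected.
-/

noncomputable section

namespace Vale.Agent.P136.Jet

open MeasureTheory Metric Filter Topology
open scoped BigOperators ContDiff RealInnerProductSpace

theorem bounded_deriv_of_const {E F : Type*} [NormedAddCommGroup E] [NormedSpace ℝ E]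
    [NormedAddCommGroup F] [NormedSpace ℝ F] {f : E → F} (hf : ContDiff ℝ ∞ f) {S : Set E}
    (hS : IsCompact S) (B : ℝ) (hB : ∀ x, ‖f x‖ ≤ B)
    (hc : ∀ x ∉ S, ∃ c, f =ᶠ[𝓝 x] fun _ => c) (i : ℕ) :
    ∃ A, 0 ≤ A ∧ ∀ x, ‖iteratedFDeriv ℝ i f x‖ ≤ A := by
  rcases i with _ | i
  · exact ⟨max B 0, le_max_right _ _, fun x => by
      rw [norm_iteratedFDeriv_zero]; exact (hB x).trans (le_max_left _ _)⟩
  obtain ⟨A, hA⟩ := hS.exists_bound_of_continuousOn
    (hf.continuous_iteratedFDeriv (m := i + 1) (by exact_mod_cast le_top)).continuousOn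
  refine ⟨max A 0, le_max_right _ _, fun x => ?_⟩
  by_cases hx : x ∈ S
  · exact (hA x hx).trans (le_max_left _ _)
  · obtain ⟨c, hc⟩ := hc x hx
    rw [(hc.iteratedFDeriv ℝ (i + 1)).self_of_nhds, iteratedFDeriv_succ_const]
    simp

/-- The cut in the normal coordinate. -/
def nrm (O : R3 ≃ₗᵢ[ℝ] R3) (y : R3) : ℝ := Real.smoothTransition (2 - Z O y)

theorem contDiff_nrm (O : R3 ≃ₗᵢ[ℝ] R3) : ContDiff ℝ ∞ (nrm O) :=
  Real.smoothTransition.contDiff.comp (contDiff_const.sub (Z O).contDiff)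

theorem nrm_bound (O : R3 ≃ₗᵢ[ℝ] R3) (i : ℕ) :
    ∃ A, 0 ≤ A ∧ ∀ y, ‖iteratedFDeriv ℝ i (nrm O) y‖ ≤ A := by
  set h : ℝ → ℝ := fun t => Real.smoothTransition (2 - t) with hh
  have hs : ContDiff ℝ ∞ h := Real.smoothTransition.contDiff.comp (contDiff_const.sub contDiff_id)
  obtain ⟨A, hA, hb⟩ := bounded_deriv_of_const hs (isCompact_Icc (a := (1 : ℝ)) (b := 2)) 1
    (fun t => by
      rw [Real.norm_eq_abs, abs_le]
      exact ⟨by linarith [Real.smoothTransition.nonneg (2 - t)],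
        Real.smoothTransition.le_one _⟩)
    (fun t ht => by
      rw [Set.mem_Icc, not_and_or, not_le, not_le] at ht
      rcases ht with ht | ht
      · refine ⟨1, ?_⟩
        filter_upwards [eventually_lt_nhds ht] with z hz
        exact Real.smoothTransition.one_of_one_le (by linarith)
      · refine ⟨0, ?_⟩
        filter_upwards [eventually_gt_nhds ht] with z hz
        exact Real.smoothTransition.zero_of_nonpos (by linarith)) i
  refine ⟨A * ‖Z O‖ ^ i, mul_nonneg hA (pow_nonneg (norm_nonneg _) i), fun y => ?_⟩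
  rw [show nrm O = h ∘ Z O from rfl,
    (Z O).iteratedFDeriv_comp_right hs y (i := i) (by exact_mod_cast le_top)]
  refine (ContinuousMultilinearMap.norm_compContinuousLinearMap_le _ _).trans ?_
  rw [Finset.prod_const, Finset.card_univ, Fintype.card_fin]
  exact mul_le_mul_of_nonneg_right (hb _) (pow_nonneg (norm_nonneg _) i)

/-- The unit cut. -/
def bump : ContDiffBump (0 : R3) := ⟨1, 2, zero_lt_one, one_lt_two⟩

theorem bump_bound (i : ℕ) : ∃ A, 0 ≤ A ∧ ∀ y, ‖iteratedFDeriv ℝ i (⇑bump) y‖ ≤ A := by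
  refine bounded_deriv_of_const bump.contDiff (isCompact_closedBall (0 : R3) 2) 1
    (fun y => by rw [Real.norm_eq_abs, abs_le]; exact ⟨by linarith [bump.nonneg (x := y)], bump.le_one⟩)
    (fun y hy => ⟨0, ?_⟩) i
  filter_upwards [(isClosed_closedBall.isOpen_compl).mem_nhds hy] with z hz
  exact bump.zero_of_le_dist (le_of_lt (not_le.1 hz))

theorem pow_bound {ε : ℝ} (hε : 0 < ε) (hε1 : ε ≤ 1) {a b : ℕ} (h : a ≤ b) :
    1 / ε ^ a ≤ 1 / ε ^ b :=
  one_div_le_one_div_of_le (pow_pos hε b) (pow_le_pow_of_le_one hε.le hε1 h)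

theorem contDiff_ansatz {O : R3 ≃ₗᵢ[ℝ] R3} {V : ℕ → R3 → C3}
    (hV : ∀ j l, (fun y => V j y l) ∈ Cls O) (p : R3) (ε : ℝ) (N : ℕ) :
    ContDiff ℝ ∞ (ansatz p ε V N) :=
  ContDiff.sum fun j _ => ((contDiff_pi.2 fun l => contDiff_cls O (hV j l)).comp
    ((contDiff_id.sub contDiff_const).const_smul ε⁻¹)).const_smul ((ε : ℂ) ^ j)

theorem ansatz_bound {O : R3 ≃ₗᵢ[ℝ] R3} {V : ℕ → R3 → C3}
    (hV : ∀ j l, (fun y => V j y l) ∈ Cls O) (p : R3) (N k M : ℕ) :
    ∃ A, 0 ≤ A ∧ ∀ ε : ℝ, 0 < ε → ε ≤ 1 → ∀ x, Z O (ε⁻¹ • (x - p)) ≤ 3 →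
      ‖iteratedFDeriv ℝ k (ansatz p ε V N) x‖ * (1 + ‖ε⁻¹ • (x - p)‖ ^ 2) ^ M ≤ A / ε ^ k := by
  choose A hA using fun j l => decay O k (hV j l) M
  refine ⟨∑ j ∈ Finset.range (N + 1), ∑ l, max (A j l) 0,
    Finset.sum_nonneg fun j _ => Finset.sum_nonneg fun l _ => le_max_right _ _,
    fun ε hε hε1 x hz => ?_⟩
  have hF : ∀ j, ContDiff ℝ ∞ (V j) := fun j => contDiff_pi.2 fun l => contDiff_cls O (hV j l)
  have hterm : ∀ j, ContDiff ℝ ∞ fun x => V j (ε⁻¹ • (x - p)) := fun j =>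
    (hF j).comp ((contDiff_id.sub contDiff_const).const_smul ε⁻¹)
  have hsum : ‖iteratedFDeriv ℝ k (ansatz p ε V N) x‖ ≤
      ∑ j ∈ Finset.range (N + 1), (ε⁻¹) ^ k * ∑ l,
        ‖iteratedFDeriv ℝ k (fun y => V j y l) (ε⁻¹ • (x - p))‖ := by
    rw [show ansatz p ε V N = fun x => ∑ j ∈ Finset.range (N + 1),
      (fun j x => ((ε : ℂ) ^ j) • V j (ε⁻¹ • (x - p))) j x from rfl,
      iteratedFDeriv_fun_sum_apply fun j _ =>
        (((hterm j).const_smul ((ε : ℂ) ^ j)).of_le (by exact_mod_cast le_top)).contDiffAt]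
    refine (norm_sum_le _ _).trans (Finset.sum_le_sum fun j _ => ?_)
    rw [iteratedFDeriv_const_smul_apply' ((hterm j).of_le (by exact_mod_cast le_top)).contDiffAt,
      norm_smul, norm_pow, Complex.norm_real, Real.norm_of_nonneg hε.le]
    refine (mul_le_of_le_one_left (norm_nonneg _) (pow_le_one₀ hε.le hε1)).trans
      ((norm_iteratedFDeriv_scale (hF j) ε⁻¹ p k x).trans ?_)
    rw [abs_of_pos (inv_pos.2 hε)]
    exact mul_le_mul_of_nonneg_left (norm_iteratedFDeriv_le_sum_comp (hF j) k _) (by positivity)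
  refine (mul_le_mul_of_nonneg_right hsum (by positivity)).trans ?_
  rw [Finset.sum_mul, div_eq_mul_inv, Finset.sum_mul, ← inv_pow]
  refine Finset.sum_le_sum fun j _ => ?_
  rw [mul_assoc, mul_comm (∑ l, max (A j l) 0), Finset.sum_mul]
  refine mul_le_mul_of_nonneg_left (Finset.sum_le_sum fun l _ => ?_) (by positivity)
  rw [mul_comm]
  exact (hA j l _ hz).trans (le_max_left _ _)

/-- The cut-off expansion. -/
def cutW (p : R3) (s : ℝ) (V : ℕ → R3 → C3) (N : ℕ) (x : R3) : C3 :=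
  bump ((s ^ 2)⁻¹ • (x - p)) • ansatz p (s ^ 3) V N x

theorem contDiff_cutW {O : R3 ≃ₗᵢ[ℝ] R3} {V : ℕ → R3 → C3}
    (hV : ∀ j l, (fun y => V j y l) ∈ Cls O) (p : R3) (s : ℝ) (N : ℕ) :
    ContDiff ℝ ∞ (cutW p s V N) :=
  (bump.contDiff.comp ((contDiff_id.sub contDiff_const).const_smul (s ^ 2)⁻¹)).smul
    (contDiff_ansatz hV p (s ^ 3) N)

theorem cutW_bound {O : R3 ≃ₗᵢ[ℝ] R3} {V : ℕ → R3 → C3}
    (hV : ∀ j l, (fun y => V j y l) ∈ Cls O) (p : R3) (N n M : ℕ) :
    ∃ A, 0 ≤ A ∧ ∀ s : ℝ, 0 < s → s ≤ 1 → ∀ x, Z O ((s ^ 3)⁻¹ • (x - p)) ≤ 3 →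
      tot n (cutW p s V N) x * (1 + ‖(s ^ 3)⁻¹ • (x - p)‖ ^ 2) ^ M ≤ A / (s ^ 3) ^ n := by
  choose A hA hb using fun k => ansatz_bound hV p N k M
  choose B hB hbb using bump_bound
  refine ⟨∑ k ∈ Finset.range (n + 1), ∑ a ∈ Finset.range (k + 1), (k.choose a : ℝ) * B a * A (k - a),
    Finset.sum_nonneg fun k _ => Finset.sum_nonneg fun a _ =>
      mul_nonneg (mul_nonneg (Nat.cast_nonneg _) (hB a)) (hA _), fun s hs hs1 x hz => ?_⟩
  have hε : 0 < s ^ 3 := pow_pos hs 3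
  have hε1 : s ^ 3 ≤ 1 := pow_le_one₀ hs.le hs1
  have h2 : s ^ 3 ≤ s ^ 2 := pow_le_pow_of_le_one hs.le hs1 (by norm_num)
  rw [tot, Finset.sum_mul, div_eq_mul_inv, Finset.sum_mul]
  refine Finset.sum_le_sum fun k hk => ?_
  have hkn : k ≤ n := Nat.lt_succ_iff.1 (Finset.mem_range.1 hk)
  refine (mul_le_mul_of_nonneg_right (norm_iteratedFDeriv_smul_le
    (bump.contDiff.comp ((contDiff_id.sub contDiff_const).const_smul (s ^ 2)⁻¹))
    (contDiff_ansatz hV p (s ^ 3) N) x (n := k) (by exact_mod_cast le_top)) (by positivity)).trans ?_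
  rw [Finset.sum_mul, Finset.sum_mul]
  refine Finset.sum_le_sum fun a ha => ?_
  have hak : a ≤ k := Nat.lt_succ_iff.1 (Finset.mem_range.1 ha)
  have h1 : ‖iteratedFDeriv ℝ a (fun x => bump ((s ^ 2)⁻¹ • (x - p))) x‖ ≤ B a / (s ^ 3) ^ a := by
    refine (norm_iteratedFDeriv_scale bump.contDiff _ p a x).trans ?_
    rw [abs_of_pos (by positivity), div_eq_mul_inv, mul_comm, inv_pow]
    exact mul_le_mul (hbb a _) (inv_anti₀ (pow_pos hε a) (pow_le_pow_left₀ hε.le h2 a))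
      (by positivity) (hB a)
  calc (k.choose a : ℝ) * ‖iteratedFDeriv ℝ a (fun x => bump ((s ^ 2)⁻¹ • (x - p))) x‖ *
        ‖iteratedFDeriv ℝ (k - a) (ansatz p (s ^ 3) V N) x‖ *
        (1 + ‖(s ^ 3)⁻¹ • (x - p)‖ ^ 2) ^ M
      = (k.choose a : ℝ) * ‖iteratedFDeriv ℝ a (fun x => bump ((s ^ 2)⁻¹ • (x - p))) x‖ *
        (‖iteratedFDeriv ℝ (k - a) (ansatz p (s ^ 3) V N) x‖ *
        (1 + ‖(s ^ 3)⁻¹ • (x - p)‖ ^ 2) ^ M) := by ring
    _ ≤ (k.choose a : ℝ) * (B a / (s ^ 3) ^ a) * (A (k - a) / (s ^ 3) ^ (k - a)) :=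
        mul_le_mul (mul_le_mul_of_nonneg_left h1 (Nat.cast_nonneg _))
          (hb (k - a) _ hε hε1 x hz) (by positivity)
          (mul_nonneg (Nat.cast_nonneg _) (div_nonneg (hB a) (by positivity)))
    _ = (k.choose a : ℝ) * B a * A (k - a) * (1 / (s ^ 3) ^ k) := by
        rw [show (s ^ 3) ^ k = (s ^ 3) ^ a * (s ^ 3) ^ (k - a) by
          rw [← pow_add, Nat.add_sub_cancel' hak]]
        field_simp
    _ ≤ (k.choose a : ℝ) * B a * A (k - a) * (1 / (s ^ 3) ^ n) :=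
        mul_le_mul_of_nonneg_left (pow_bound hε hε1 hkn)
          (mul_nonneg (mul_nonneg (Nat.cast_nonneg _) (hB a)) (hA _))
    _ = _ := by rw [one_div]

theorem cutW_eq {p x : R3} {s : ℝ} (hs : 0 < s) (hx : ‖x - p‖ < s ^ 2) (V : ℕ → R3 → C3) (N : ℕ) :
    cutW p s V N =ᶠ[𝓝 x] ansatz p (s ^ 3) V N := by
  filter_upwards [(isOpen_lt (continuous_id.sub continuous_const).norm continuous_const).mem_nhds hx]
    with z hz
  have : bump ((s ^ 2)⁻¹ • (z - p)) = 1 := bump.one_of_mem_closedBall (by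
    rw [mem_closedBall_zero_iff, norm_smul, Real.norm_of_nonneg (by positivity)]
    exact (inv_mul_le_iff₀ (pow_pos hs 2)).2 (by simpa [bump] using hz.le))
  rw [cutW, this, one_smul]

theorem cutW_zero {p x : R3} {s : ℝ} (hs : 0 < s) (hx : 2 * s ^ 2 < ‖x - p‖) (V : ℕ → R3 → C3)
    (N : ℕ) : cutW p s V N =ᶠ[𝓝 x] fun _ => 0 := by
  filter_upwards [(isOpen_lt continuous_const (continuous_id.sub continuous_const).norm).mem_nhds hx]
    with z hz
  have : bump ((s ^ 2)⁻¹ • (z - p)) = 0 := bump.zero_of_le_dist (by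
    rw [dist_zero_right, norm_smul, Real.norm_of_nonneg (by positivity),
      le_inv_mul_iff₀ (pow_pos hs 2)]
    simpa [bump, mul_comm] using hz.le)
  rw [cutW, this, zero_smul]

theorem lame_zero (lam mu : R3 → ℝ) (x : R3) : lame lam mu (fun _ => 0) x = 0 := by
  funext l
  simp [lame, dvg, strain]

/-- Solutions in `Ω` concentrated at `p`, at the scale `s ^ 3`. -/
theorem approx (hG : GreenOut) {Ω : Set R3} (hbd : Bornology.IsBounded Ω) {p n : R3}
    (hn : Normal Ω p n) (O : R3 ≃ₗᵢ[ℝ] R3) (hO : ∀ y, Z O y = ⟪n, y⟫)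
    {lam mu : R3 → ℝ} (C : Coef) {U : Set R3} (hU : IsOpen U) (hUc : closure Ω ⊆ U)
    (hC : ∀ x ∈ U, C.lam x = lam x ∧ C.mu x = mu x) {V₀ : R3 → C3}
    (hV₀ : ∀ l, (fun y => V₀ y l) ∈ Cls O)
    (h0 : ∀ y, lame (fun _ => C.lam p) (fun _ => C.mu p) V₀ y = 0) (M : ℕ) :
    ∃ u : ℝ → R3 → C3, (∀ s, ContDiff ℝ 2 (u s)) ∧
      (∀ᶠ s in 𝓝[>] (0 : ℝ), ∀ x ∈ Ω, lame lam mu (u s) x = 0) ∧
      (∃ K, ∀ᶠ s in 𝓝[>] (0 : ℝ), ∀ y, p + s ^ 3 • y ∈ Ω → ∀ k l,
        ‖(s ^ 3 : ℝ) • pd k (fun x => u s x l) (p + s ^ 3 • y)‖ ≤ K / (1 + ‖y‖ ^ 2) ^ M) ∧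
      ∀ y, ⟪n, y⟫ < 0 → ∀ k l,
        Tendsto (fun s : ℝ => (s ^ 3 : ℝ) • pd k (fun x => u s x l) (p + s ^ 3 • y)) (𝓝[>] 0)
          (𝓝 (pd k (fun z => V₀ z l) y)) := by
  classical
  obtain ⟨R₀, hR₀⟩ := hbd.subset_closedBall (0 : R3)
  set R := |R₀| + ‖p‖ + 1 with hR
  have hRpos : 0 < R := by positivity
  have hΩR : ∀ x ∈ Ω, ‖x‖ < R := fun x hx => by
    have := mem_closedBall_zero_iff.1 (hR₀ hx)
    linarith [le_abs_self R₀, norm_nonneg p]
  obtain ⟨KG, m, hG⟩ := hG C R hRpos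
  set Q := 2 * M + 1
  set N := Q + 2 * m + 2
  obtain ⟨V, hV0, hV, hform⟩ := formal O C p V₀ hV₀ h0 N
  choose KF hKF using fun i => hform i 3
  choose AW hAW hbW using fun i => cutW_bound hV p N i (2 * N)
  choose KL hKL0 hKL using fun i => lame_bound C.smooth_lam C.smooth_mu (R + 2) i
  choose AN hAN hbN using nrm_bound O
  set KR := fun i => max (KF i) 0 + KL i * AW (i + 2) with hKR
  set KS := ∑ i ∈ Finset.range (m + 1), ∑ a ∈ Finset.range (i + 1),
    (i.choose a : ℝ) * AN a * KR (i - a) with hKS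
  set f : ℝ → R3 → C3 := fun s x =>
    nrm O ((s ^ 3)⁻¹ • (x - p)) • lame C.lam C.mu (cutW p s V N) x with hf
  have hfs : ∀ s, ContDiff ℝ ∞ (f s) := fun s =>
    ((contDiff_nrm O).comp ((contDiff_id.sub contDiff_const).const_smul (s ^ 3)⁻¹)).smul
      (contDiff_lame C.smooth_lam C.smooth_mu (contDiff_cutW hV p s N))
  have hS : ∀ s : ℝ, 0 < s → s ≤ 1 → ∀ x ∈ closedBall (0 : R3) (R + 2), ∀ i ≤ m,
      ‖iteratedFDeriv ℝ i (f s) x‖ ≤ KS * (s ^ 3) ^ Q := by
    intro s hs hs1 x hx i hi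
    have hε : 0 < s ^ 3 := pow_pos hs 3
    have hε1 : s ^ 3 ≤ 1 := pow_le_one₀ hs.le hs1
    have hKRn : ∀ j, 0 ≤ KR j := fun j =>
      add_nonneg (le_max_right _ _) (mul_nonneg (hKL0 j) (hAW _))
    have hKSn : 0 ≤ KS * (s ^ 3) ^ Q := mul_nonneg (Finset.sum_nonneg fun j _ =>
      Finset.sum_nonneg fun a _ => mul_nonneg (mul_nonneg (Nat.cast_nonneg _) (hAN a)) (hKRn _))
      (by positivity)
    set y := (s ^ 3)⁻¹ • (x - p) with hy
    by_cases hz : 2 < Z O y
    · have e : f s =ᶠ[𝓝 x] fun _ => 0 := by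
        filter_upwards [(isOpen_lt continuous_const ((Z O).continuous.comp
          ((continuous_id.sub continuous_const).const_smul (s ^ 3)⁻¹))).mem_nhds hz] with z hz
        simp only [hf, nrm]
        rw [Real.smoothTransition.zero_of_nonpos (by simpa using hz.le), zero_smul]
      rw [(e.iteratedFDeriv ℝ i).self_of_nhds]
      simpa [iteratedFDeriv_fun_zero] using hKSn
    by_cases hd : 2 * s ^ 2 < ‖x - p‖
    · have e : f s =ᶠ[𝓝 x] fun _ => 0 := by
        filter_upwards [eventually_eventually_nhds.2 (cutW_zero hs hd V N)] with z hz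
        simp only [hf]
        rw [lame_congr EventuallyEq.rfl EventuallyEq.rfl hz, lame_zero, smul_zero]
      rw [(e.iteratedFDeriv ℝ i).self_of_nhds]
      simpa [iteratedFDeriv_fun_zero] using hKSn
    push Not at hz hd
    have hL : ∀ j ≤ m, ‖iteratedFDeriv ℝ j (lame C.lam C.mu (cutW p s V N)) x‖ ≤
        KR j * ((s ^ 3) ^ N / (s ^ 3) ^ (j + 2)) := by
      intro j _
      have hq : 0 ≤ (s ^ 3) ^ N / (s ^ 3) ^ (j + 2) := by positivity
      by_cases hc : ‖x - p‖ < s ^ 2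
      · have e : lame C.lam C.mu (cutW p s V N) =ᶠ[𝓝 x]
            lame C.lam C.mu (ansatz p (s ^ 3) V N) := by
          filter_upwards [eventually_eventually_nhds.2 (cutW_eq hs hc V N)] with z hz
          exact lame_congr EventuallyEq.rfl EventuallyEq.rfl hz
        rw [(e.iteratedFDeriv ℝ j).self_of_nhds]
        refine (hKF j _ hε hε1 x ?_ (by linarith)).trans ?_
        · calc ‖x - p‖ ≤ s ^ 2 := hc.le
            _ ≤ 1 := pow_le_one₀ hs.le hs1
            _ ≤ 3 := by norm_num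
        · rw [mul_div_assoc]
          exact mul_le_mul_of_nonneg_right ((le_max_left _ _).trans
            (le_add_of_nonneg_right (mul_nonneg (hKL0 j) (hAW _)))) hq
      · push Not at hc
        refine (hKL j _ (contDiff_cutW hV p s N) x (mem_closedBall_zero_iff.1 hx)).trans ?_
        have hb := hbW (j + 2) s hs hs1 x (by linarith)
        have hpow : 1 / (1 + ‖y‖ ^ 2) ^ (2 * N) ≤ (s ^ 3) ^ N := by
          have h1 : 1 / s ≤ ‖y‖ := by
            rw [hy, norm_smul, Real.norm_of_nonneg (by positivity), le_inv_mul_iff₀ hε]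
            calc s ^ 3 * (1 / s) = s ^ 2 := by field_simp
              _ ≤ ‖x - p‖ := hc
          have h2 : 1 / s ^ 2 ≤ 1 + ‖y‖ ^ 2 := by
            have := pow_le_pow_left₀ (by positivity) h1 2
            rw [div_pow, one_pow] at this
            linarith
          calc 1 / (1 + ‖y‖ ^ 2) ^ (2 * N) ≤ 1 / (1 / s ^ 2) ^ (2 * N) :=
                one_div_le_one_div_of_le (by positivity) (pow_le_pow_left₀ (by positivity) h2 _)
            _ = (s ^ 4) ^ N := by rw [div_pow, one_pow, one_div_one_div, ← pow_mul, ← pow_mul]; ring_nf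
            _ ≤ (s ^ 3) ^ N :=
                pow_le_pow_left₀ (by positivity) (pow_le_pow_of_le_one hs.le hs1 (by norm_num)) N
        have ht : tot (j + 2) (cutW p s V N) x ≤
            AW (j + 2) / (s ^ 3) ^ (j + 2) * (1 / (1 + ‖y‖ ^ 2) ^ (2 * N)) := by
          rw [mul_one_div, le_div_iff₀ (by positivity)]
          exact hb
        calc KL j * tot (j + 2) (cutW p s V N) x
            ≤ KL j * (AW (j + 2) / (s ^ 3) ^ (j + 2) * (s ^ 3) ^ N) :=
              mul_le_mul_of_nonneg_left (ht.trans (mul_le_mul_of_nonneg_left hpow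
                (div_nonneg (hAW _) (by positivity)))) (hKL0 j)
          _ = KL j * AW (j + 2) * ((s ^ 3) ^ N / (s ^ 3) ^ (j + 2)) := by ring
          _ ≤ _ := mul_le_mul_of_nonneg_right (le_add_of_nonneg_left (le_max_right _ _)) hq
    refine (norm_iteratedFDeriv_smul_le
      ((contDiff_nrm O).comp ((contDiff_id.sub contDiff_const).const_smul (s ^ 3)⁻¹))
      (contDiff_lame C.smooth_lam C.smooth_mu (contDiff_cutW hV p s N)) x (n := i)
      (by exact_mod_cast le_top)).trans ?_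
    rw [hKS, Finset.sum_mul]
    refine le_trans ?_ (Finset.single_le_sum
      (f := fun i => (∑ a ∈ Finset.range (i + 1), (i.choose a : ℝ) * AN a * KR (i - a)) * (s ^ 3) ^ Q)
      (fun j _ => mul_nonneg (Finset.sum_nonneg fun a _ =>
        mul_nonneg (mul_nonneg (Nat.cast_nonneg _) (hAN a)) (hKRn _)) (by positivity))
      (Finset.mem_range.2 (Nat.lt_succ_of_le hi)))
    rw [Finset.sum_mul]
    refine Finset.sum_le_sum fun a ha => ?_
    have hai : a ≤ i := Nat.lt_succ_iff.1 (Finset.mem_range.1 ha)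
    have h1 : ‖iteratedFDeriv ℝ a (fun x => nrm O ((s ^ 3)⁻¹ • (x - p))) x‖ ≤
        AN a * (1 / (s ^ 3) ^ a) := by
      refine (norm_iteratedFDeriv_scale (contDiff_nrm O) _ p a x).trans ?_
      rw [abs_of_pos (inv_pos.2 hε), inv_pow, one_div, mul_comm]
      exact mul_le_mul_of_nonneg_right (hbN a _) (by positivity)
    calc (i.choose a : ℝ) * ‖iteratedFDeriv ℝ a (fun x => nrm O ((s ^ 3)⁻¹ • (x - p))) x‖ *
          ‖iteratedFDeriv ℝ (i - a) (lame C.lam C.mu (cutW p s V N)) x‖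
        ≤ (i.choose a : ℝ) * (AN a * (1 / (s ^ 3) ^ a)) *
          (KR (i - a) * ((s ^ 3) ^ N / (s ^ 3) ^ (i - a + 2))) :=
          mul_le_mul (mul_le_mul_of_nonneg_left h1 (Nat.cast_nonneg _)) (hL (i - a) (by omega))
            (norm_nonneg _) (mul_nonneg (Nat.cast_nonneg _) (mul_nonneg (hAN a) (by positivity)))
      _ = (i.choose a : ℝ) * AN a * KR (i - a) *
          ((s ^ 3) ^ N * (1 / (s ^ 3) ^ (a + (i - a + 2)))) := by
          rw [pow_add _ a]; field_simp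
      _ ≤ (i.choose a : ℝ) * AN a * KR (i - a) * ((s ^ 3) ^ N * (1 / (s ^ 3) ^ (2 * m + 2))) :=
          mul_le_mul_of_nonneg_left (mul_le_mul_of_nonneg_left (pow_bound hε hε1 (by omega))
            (by positivity)) (mul_nonneg (mul_nonneg (Nat.cast_nonneg _) (hAN a)) (hKRn _))
      _ = _ := by
          rw [show N = Q + (2 * m + 2) by omega, pow_add _ Q]
          field_simp
  -- the correction
  have hw : ∀ s : ℝ, ∃ w : R3 → C3, ContDiff ℝ ∞ w ∧ (0 < s → s ≤ 1 →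
      (∀ x ∈ ball (0 : R3) R, lame C.lam C.mu w x = f s x) ∧
      ∀ x ∈ ball (0 : R3) R, ∀ i ≤ 2, ‖iteratedFDeriv ℝ i w x‖ ≤ KG * (KS * (s ^ 3) ^ Q)) := by
    intro s
    by_cases hs : 0 < s ∧ s ≤ 1
    · obtain ⟨w, h1, h2, h3⟩ := hG (f s) (hfs s) _ (hS s hs.1 hs.2)
      exact ⟨w, h1, fun _ _ => ⟨h2, h3⟩⟩
    · exact ⟨fun _ => 0, contDiff_const, fun a b => absurd ⟨a, b⟩ hs⟩
  choose w hws hwp using hw
  obtain ⟨KQ, δ, hδ, hq⟩ := hn.quad
  -- on the support of the cut-off the domain lies in the slab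
  have hslab : ∀ᶠ s in 𝓝[>] (0 : ℝ), 0 < s ∧ s ≤ 1 ∧ ∀ x ∈ Ω, ‖x - p‖ ≤ 2 * s ^ 2 →
      Z O ((s ^ 3)⁻¹ • (x - p)) ≤ 1 := by
    have hT : Tendsto (fun s : ℝ => s) (𝓝[>] 0) (𝓝 0) := nhdsWithin_le_nhds
    have e1 : Tendsto (fun s : ℝ => 2 * s ^ 2) (𝓝[>] 0) (𝓝 0) := by
      simpa using (hT.pow 2).const_mul 2
    have e2 : Tendsto (fun s : ℝ => |KQ| * (4 * s)) (𝓝[>] 0) (𝓝 0) := by
      simpa using (hT.const_mul 4).const_mul |KQ|
    filter_upwards [self_mem_nhdsWithin, hT.eventually (eventually_le_nhds zero_lt_one),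
      e1.eventually (eventually_le_nhds hδ), e2.eventually (eventually_le_nhds zero_lt_one)]
      with s (hs : 0 < s) hs1 hs2 hs3
    refine ⟨hs, hs1, fun x hx hxp => ?_⟩
    have h1 := hq x (subset_closure hx) (hxp.trans hs2)
    rw [map_smul, hO, smul_eq_mul, inv_mul_le_iff₀ (pow_pos hs 3), mul_one]
    refine h1.trans ?_
    calc KQ * ‖x - p‖ ^ 2 ≤ |KQ| * (2 * s ^ 2) ^ 2 :=
          mul_le_mul (le_abs_self _) (pow_le_pow_left₀ (norm_nonneg _) hxp 2) (by positivity)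
            (abs_nonneg _)
      _ = |KQ| * (4 * s) * s ^ 3 := by ring
      _ ≤ s ^ 3 := mul_le_of_le_one_left (pow_nonneg hs.le 3) hs3
  have hvs : ∀ s, ContDiff ℝ ∞ (cutW p s V N) := fun s => contDiff_cutW hV p s N
  refine ⟨fun s x => cutW p s V N x - w s x, fun s => ((hvs s).sub (hws s)).of_le
    (WithTop.coe_le_coe.2 le_top), ?_, ?_, ?_⟩
  · filter_upwards [hslab] with s ⟨hs, hs1, hz⟩ x hx
    have hxU := hU.mem_nhds (hUc (subset_closure hx))
    rw [lame_congr (lam' := C.lam) (mu' := C.mu) (v := fun x => cutW p s V N x - w s x)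
      (eventually_of_mem hxU fun z hz => (hC z hz).1.symm)
      (eventually_of_mem hxU fun z hz => (hC z hz).2.symm) EventuallyEq.rfl,
      lame_sub C.smooth_lam C.smooth_mu (hvs s) (hws s),
      ((hwp s hs hs1).1 x (mem_ball_zero_iff.2 (hΩR x hx))), sub_eq_zero, hf]
    by_cases hd : 2 * s ^ 2 < ‖x - p‖
    · simp only
      rw [lame_congr EventuallyEq.rfl EventuallyEq.rfl (cutW_zero hs hd V N), lame_zero, smul_zero]
    · simp only [nrm]
      rw [Real.smoothTransition.one_of_one_le (by linarith [hz x hx (not_lt.1 hd)]), one_smul]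
  · obtain ⟨A, hA, hb⟩ := cutW_bound hV p N 1 M
    refine ⟨A + |KG * KS| * (1 + (2 * R) ^ 2) ^ M, ?_⟩
    filter_upwards [hslab] with s ⟨hs, hs1, hz⟩ y hy k l
    set x := p + s ^ 3 • y with hxdef
    have hε : 0 < s ^ 3 := pow_pos hs 3
    have hε1 : s ^ 3 ≤ 1 := pow_le_one₀ hs.le hs1
    have hyx : (s ^ 3)⁻¹ • (x - p) = y := by
      rw [hxdef, add_sub_cancel_left, smul_smul, inv_mul_cancel₀ hε.ne', one_smul]
    have hD : DifferentiableAt ℝ (fun x => cutW p s V N x l) x :=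
      (contDiff_pi.1 (hvs s) l).differentiable (by simp) x
    have hD' : DifferentiableAt ℝ (fun x => w s x l) x :=
      (contDiff_pi.1 (hws s) l).differentiable (by simp) x
    have hp1 : ∀ g : R3 → C3, ContDiff ℝ ∞ g →
        ‖pd k (fun x => g x l) x‖ ≤ ‖iteratedFDeriv ℝ 1 g x‖ := fun g hg => by
      have h1 := norm_iteratedFDeriv_pd (contDiff_pi.1 hg l) k 0 x
      rw [norm_iteratedFDeriv_zero] at h1
      exact h1.trans (norm_iteratedFDeriv_comp hg l 1 x)
    simp only [Pi.sub_apply]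
    rw [pd_sub hD hD', smul_sub, add_div]
    refine (norm_sub_le _ _).trans (add_le_add ?_ ?_)
    · by_cases hd : 2 * s ^ 2 < ‖x - p‖
      · rw [pd_congr ((cutW_zero hs hd V N).mono fun z hz => congrFun hz l)]
        simp only [Pi.zero_apply, pd_const, smul_zero, norm_zero]
        positivity
      · have hz1 := hz x hy (not_lt.1 hd)
        have h1 := hb s hs hs1 x (by linarith)
        rw [hyx, pow_one, le_div_iff₀ hε] at h1
        rw [norm_smul, Real.norm_of_nonneg hε.le, le_div_iff₀ (by positivity)]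
        refine le_trans ?_ h1
        rw [mul_comm (s ^ 3), mul_right_comm]
        refine mul_le_mul_of_nonneg_right (mul_le_mul_of_nonneg_right ?_ (by positivity)) hε.le
        exact (hp1 _ (hvs s)).trans (le_tot le_rfl _ x)
    · rw [norm_smul, Real.norm_of_nonneg hε.le, le_div_iff₀ (by positivity)]
      have h1 := (hp1 _ (hws s)).trans ((hwp s hs hs1).2 x
        (mem_ball_zero_iff.2 (hΩR x hy)) 1 (by norm_num))
      have hyR : ‖y‖ ≤ 2 * R / s ^ 3 := by
        rw [← hyx, norm_smul, Real.norm_of_nonneg (by positivity), ← div_eq_inv_mul]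
        refine div_le_div_of_nonneg_right ?_ hε.le
        calc ‖x - p‖ ≤ ‖x‖ + ‖p‖ := norm_sub_le _ _
          _ ≤ R + R := add_le_add (hΩR x hy).le (by rw [hR]; linarith [abs_nonneg R₀])
          _ = 2 * R := by ring
      have h2 : (1 + ‖y‖ ^ 2) * (s ^ 3) ^ 2 ≤ 1 + (2 * R) ^ 2 := by
        have := pow_le_pow_left₀ (norm_nonneg _) hyR 2
        rw [div_pow, le_div_iff₀ (by positivity)] at this
        nlinarith [pow_le_one₀ (n := 2) hε.le hε1]
      calc s ^ 3 * ‖pd k (fun x => w s x l) x‖ * (1 + ‖y‖ ^ 2) ^ M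
          ≤ s ^ 3 * (|KG * KS| * (s ^ 3) ^ Q) * (1 + ‖y‖ ^ 2) ^ M := by
            refine mul_le_mul_of_nonneg_right (mul_le_mul_of_nonneg_left (h1.trans ?_) hε.le)
              (by positivity)
            rw [← mul_assoc]
            exact mul_le_mul_of_nonneg_right (le_abs_self _) (by positivity)
        _ = |KG * KS| * (((1 + ‖y‖ ^ 2) * (s ^ 3) ^ 2) ^ M * (s ^ 3) ^ 2) := by
            simp only [Q, mul_pow, ← pow_mul]; ring
        _ ≤ |KG * KS| * ((1 + (2 * R) ^ 2) ^ M * 1) :=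
            mul_le_mul_of_nonneg_left (mul_le_mul (pow_le_pow_left₀ (by positivity) h2 M)
              (pow_le_one₀ hε.le hε1) (by positivity) (by positivity)) (abs_nonneg _)
        _ = _ := by rw [mul_one]
  · intro y hy k l
    have hT : Tendsto (fun s : ℝ => s) (𝓝[>] 0) (𝓝 0) := nhdsWithin_le_nhds
    have hT3 : Tendsto (fun s : ℝ => s ^ 3) (𝓝[>] 0) (𝓝[>] 0) :=
      tendsto_nhdsWithin_of_tendsto_nhds_of_eventually_within _ (by simpa using hT.pow 3)
        (eventually_of_mem self_mem_nhdsWithin fun s hs => pow_pos (Set.mem_Ioi.1 hs) 3)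
    set g : ℝ → ℂ := fun s =>
      ∑ j ∈ Finset.range (N + 1), ((s ^ 3 : ℝ) : ℂ) ^ j * pd k (fun z => V j z l) y with hg
    have hgT : Tendsto g (𝓝[>] 0) (𝓝 (pd k (fun z => V₀ z l) y)) := by
      have : Tendsto g (𝓝 0) (𝓝 (g 0)) := (by fun_prop : Continuous g).tendsto 0
      rw [show g 0 = pd k (fun z => V₀ z l) y by
        simp only [hg]; rw [Finset.sum_range_succ']; simp [hV0]] at this
      exact this.mono_left nhdsWithin_le_nhds
    have hsm : Tendsto (fun s : ℝ => s * ‖y‖) (𝓝[>] 0) (𝓝 0) := by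
      simpa using hT.mul_const ‖y‖
    have hB : Tendsto (fun s : ℝ => |KG * KS| * s ^ 3) (𝓝[>] 0) (𝓝 0) := by
      simpa using (hT.pow 3).const_mul |KG * KS|
    have hmain : ∀ᶠ s in 𝓝[>] (0 : ℝ),
        ‖(s ^ 3 : ℝ) • pd k (fun x => cutW p s V N x l - w s x l) (p + s ^ 3 • y) - g s‖ ≤
          |KG * KS| * s ^ 3 := by
      filter_upwards [hslab, hsm.eventually (eventually_lt_nhds zero_lt_one),
        hT3.eventually (hn.inside y hy)] with s hs' hsy hin
      obtain ⟨hs, hs1, -⟩ := hs'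
      set x := p + s ^ 3 • y with hxdef
      have hε : 0 < s ^ 3 := pow_pos hs 3
      have hε1 : s ^ 3 ≤ 1 := pow_le_one₀ hs.le hs1
      have hyx : (s ^ 3)⁻¹ • (x - p) = y := by
        rw [hxdef, add_sub_cancel_left, smul_smul, inv_mul_cancel₀ hε.ne', one_smul]
      have hc : ‖x - p‖ < s ^ 2 := by
        rw [hxdef, add_sub_cancel_left, norm_smul, Real.norm_of_nonneg hε.le]
        calc s ^ 3 * ‖y‖ = s ^ 2 * (s * ‖y‖) := by ring
          _ < s ^ 2 * 1 := mul_lt_mul_of_pos_left hsy (pow_pos hs 2)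
          _ = s ^ 2 := mul_one _
      have hjl : ∀ j, Differentiable ℝ fun x : R3 => V j ((s ^ 3)⁻¹ • (x - p)) l := fun j =>
        (diff_cls O (hV j l)).comp
          (((contDiff_id.sub contDiff_const).const_smul (s ^ 3)⁻¹).differentiable (n := 1) one_ne_zero)
      have eW : pd k (fun x => cutW p s V N x l) x
          = (s ^ 3)⁻¹ • g s := by
        rw [pd_congr ((cutW_eq hs hc V N).mono fun z hz => congrFun hz l)]
        simp only [ansatz, Finset.sum_apply, Pi.smul_apply, smul_eq_mul]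
        rw [pd_sum _ fun j _ => ((hjl j x).const_mul _), hg, Finset.smul_sum]
        refine Finset.sum_congr rfl fun j _ => ?_
        rw [pd_const_mul _ (hjl j x), pd_scale (F := fun z => V j z l) (diff_cls O (hV j l) _), hyx,
          mul_smul_comm]
      rw [pd_sub ((contDiff_pi.1 (hvs s) l).differentiable (by simp) x)
        ((contDiff_pi.1 (hws s) l).differentiable (by simp) x), smul_sub, eW, smul_smul,
        mul_inv_cancel₀ hε.ne', one_smul, sub_sub_cancel_left, norm_neg, norm_smul,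
        Real.norm_of_nonneg hε.le, mul_comm]
      refine mul_le_mul_of_nonneg_right ?_ hε.le
      have h1 := norm_iteratedFDeriv_pd (contDiff_pi.1 (hws s) l) k 0 x
      rw [norm_iteratedFDeriv_zero] at h1
      refine (h1.trans ((norm_iteratedFDeriv_comp (hws s) l 1 x).trans ((hwp s hs hs1).2 x
        (mem_ball_zero_iff.2 (hΩR x hin)) 1 (by norm_num)))).trans ?_
      rw [← mul_assoc]
      refine le_trans (mul_le_mul_of_nonneg_right (le_abs_self _) (by positivity)) ?_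
      exact mul_le_of_le_one_right (abs_nonneg _) (pow_le_one₀ hε.le hε1)
    have h0' := (squeeze_zero_norm' hmain hB).add hgT
    simp only [sub_add_cancel, zero_add] at h0'
    simpa only [Pi.sub_apply] using h0'

end Vale.Agent.P136.Jet
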