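import Vale.Agent.P136.Mod.JetCls

/-!
# Decay of the boundary layer functions, and a real test function
-/

noncomputable section

namespace Vale.Agent.P136.Jet

open MeasureTheory Metric Filter Topology
open scoped BigOperators ContDiff

variable (O : R3 ≃ₗᵢ[ℝ] R3)

/-- The exponential as a function of the parameter. -/
def ker (y : R3) (η : P2) : ℂ := Complex.exp (ph O η y)

theorem contDiff_ker (y : R3) : ContDiff ℝ ∞ (ker O y) := by
  unfold ker
  simp only [ph_apply]
  exact (ContDiff.sum fun i _ => (contDiff_zeta i).mul contDiff_const).cexp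

theorem ker_deriv (η : P2) (y : R3) :
    fderiv ℝ (ker O y) η (1, 0) = ker O y η *
      (2 * Complex.I * η.1 * (cd O 0 y : ℂ) + 2 * Complex.I * η.2 * (cd O 1 y : ℂ)
        + 2 * η.1 * (Z O y : ℂ)) ∧
    fderiv ℝ (ker O y) η (0, 1) = ker O y η *
      (-2 * Complex.I * η.2 * (cd O 0 y : ℂ) + 2 * Complex.I * η.1 * (cd O 1 y : ℂ)
        + 2 * η.2 * (Z O y : ℂ)) := by
  have hd : DifferentiableAt ℝ (ker O y) η := (contDiff_ker O y).differentiable (by simp) η
  have key : ∀ (v : P2) (d : Fin 3 → ℂ),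
      (∀ i, HasDerivAt (fun t : ℝ => zeta (η + t • v) i) (d i) 0) →
      fderiv ℝ (ker O y) η v = ker O y η * ∑ i, d i * (cd O i y : ℂ) := by
    intro v d hz
    rw [← hd.lineDeriv_eq_fderiv, lineDeriv]
    have h : HasDerivAt (fun t : ℝ => Complex.exp (∑ i, zeta (η + t • v) i * (cd O i y : ℂ)))
        (Complex.exp (∑ i, zeta (η + (0 : ℝ) • v) i * (cd O i y : ℂ))
          * ∑ i, d i * (cd O i y : ℂ)) 0 :=
      (HasDerivAt.fun_sum fun i _ => (hz i).mul_const _).cexp
    rw [zero_smul, add_zero, ← ph_apply] at h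
    rw [show (fun t : ℝ => ker O y (η + t • v)) = fun t : ℝ =>
      Complex.exp (∑ i, zeta (η + t • v) i * (cd O i y : ℂ)) from funext fun t => by
        rw [ker, ph_apply], h.deriv]
    rfl
  have hr : ∀ (f : ℝ → ℝ) (c : ℝ), HasDerivAt f c 0 →
      HasDerivAt (fun t => ((f t : ℝ) : ℂ)) (c : ℂ) 0 := fun f c h => h.ofReal_comp
  have hl : ∀ a b : ℝ, HasDerivAt (fun t : ℝ => a + t * b) b 0 := fun a b => by
    simpa using ((hasDerivAt_id (0 : ℝ)).mul_const b).const_add a
  refine ⟨(key (1, 0) ![2 * Complex.I * η.1, 2 * Complex.I * η.2, 2 * η.1] fun i => ?_).trans ?_,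
    (key (0, 1) ![-2 * Complex.I * η.2, 2 * Complex.I * η.1, 2 * η.2] fun i => ?_).trans ?_⟩
  · fin_cases i
    · convert (hr _ _ (((hl η.1 1).pow 2).sub_const (η.2 ^ 2))).const_mul Complex.I using 1 <;>
        first | rfl | (simp [zeta] <;> ring)
    · convert (hr _ _ (((hl η.1 1).const_mul 2).mul_const η.2)).const_mul Complex.I using 1 <;>
        first | rfl | (simp [zeta] <;> ring)
    · convert hr _ _ (((hl η.1 1).pow 2).add_const (η.2 ^ 2)) using 1 <;>
        first | rfl | simp [zeta]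
  · simp [Fin.sum_univ_three]
  · fin_cases i
    · convert (hr _ _ (((hl η.2 1).pow 2).const_sub (η.1 ^ 2))).const_mul Complex.I using 1 <;>
        first | rfl | (simp [zeta] <;> ring)
    · convert (hr _ _ ((hl η.2 1).const_mul (2 * η.1))).const_mul Complex.I using 1 <;>
        first | rfl | (simp [zeta] <;> ring)
    · convert hr _ _ (((hl η.2 1).pow 2).const_add (η.1 ^ 2)) using 1 <;>
        first | rfl | simp [zeta]
  · simp [Fin.sum_univ_three]

theorem parts {g : P2 → ℂ} (hg : Adm g) (y : R3) (v : P2) :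
    ∫ η, g η * fderiv ℝ (ker O y) η v = -H O (fun η => fderiv ℝ g η v) y := by
  have hk := contDiff_ker O y
  have hcont : Continuous fun η => fderiv ℝ (ker O y) η v :=
    (hk.continuous_fderiv (by simp)).clm_apply continuous_const
  exact integral_mul_fderiv_eq_neg_fderiv_mul_of_integrable
    ((hg.fderiv v).smooth.continuous.mul hk.continuous |>.integrable_of_hasCompactSupport
      ((hg.fderiv v).cpt.mul_right))
    ((hg.smooth.continuous.mul hcont).integrable_of_hasCompactSupport hg.cpt.mul_right)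
    ((hg.smooth.continuous.mul hk.continuous).integrable_of_hasCompactSupport hg.cpt.mul_right)
    (fun x _ => hg.smooth.differentiable (by simp) x) (fun x _ => hk.differentiable (by simp) x)

/-- A tangential coordinate times a superposition, for suitable coefficients. -/
theorem cd_mul_H {b : P2 → ℂ} (hb : Adm b) (k : Fin 3) (u v z : P2 → ℂ)
    (hu : ∀ η ≠ 0, ContDiffAt ℝ ∞ u η) (hv : ∀ η ≠ 0, ContDiffAt ℝ ∞ v η)
    (hz : ∀ η ≠ 0, ContDiffAt ℝ ∞ z η)
    (he : ∀ η ≠ 0, ∀ y, (cd O k y : ℂ) * ker O y η = u η * fderiv ℝ (ker O y) η (1, 0)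
      + v η * fderiv ℝ (ker O y) η (0, 1) + z η * (Z O y : ℂ) * ker O y η) :
    ∃ b₀ b₁, Adm b₀ ∧ Adm b₁ ∧ ∀ y, (cd O k y : ℂ) * H O b y = H O b₀ y + (Z O y : ℂ) * H O b₁ y := by
  have au := hb.mul hu
  have av := hb.mul hv
  have az := hb.mul hz
  have n1 := (au.fderiv (1, 0)).mul (g := fun _ => (-1 : ℂ)) fun _ _ => contDiffAt_const
  have n2 := (av.fderiv (0, 1)).mul (g := fun _ => (-1 : ℂ)) fun _ _ => contDiffAt_const
  refine ⟨fun η => -1 * fderiv ℝ (fun η => u η * b η) η (1, 0)
    + -1 * fderiv ℝ (fun η => v η * b η) η (0, 1), fun η => z η * b η,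
    ⟨n1.smooth.add n2.smooth, n1.cpt.add n2.cpt, ?_⟩, az, fun y => ?_⟩
  · filter_upwards [n1.zero, n2.zero] with x h1 h2
    simp only [Pi.zero_apply] at h1 h2 ⊢
    rw [h1, h2, add_zero]
  rw [H_add O n1 n2, H_const_mul, H_const_mul, neg_one_mul, neg_one_mul, ← parts O au y,
    ← parts O av y]
  simp only [H, ← integral_const_mul]
  have hk := contDiff_ker O y
  have hd : ∀ w : P2, Continuous fun η => fderiv ℝ (ker O y) η w := fun w =>
    (hk.continuous_fderiv (by simp)).clm_apply continuous_const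
  have i1 : Integrable fun η => u η * b η * fderiv ℝ (ker O y) η (1, 0) :=
    (au.smooth.continuous.mul (hd (1, 0))).integrable_of_hasCompactSupport au.cpt.mul_right
  have i2 : Integrable fun η => v η * b η * fderiv ℝ (ker O y) η (0, 1) :=
    (av.smooth.continuous.mul (hd (0, 1))).integrable_of_hasCompactSupport av.cpt.mul_right
  have i3 := (integrable_H O az.smooth.continuous az.cpt y).const_mul (Z O y : ℂ)
  rw [← integral_add i1 i2]
  refine Eq.trans ?_ (integral_add (i1.add i2) i3)
  refine integral_congr_ae (.of_forall fun η => ?_)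
  by_cases h : η = 0
  · subst h
    simp [hb.zero.self_of_nhds]
  · have := he η h y
    simp only [ker] at this ⊢
    linear_combination b η * this

theorem cd_mul_mem {F : R3 → ℂ} (hF : F ∈ Cls O) (k : Fin 3) :
    (fun y => (cd O k y : ℂ) * F y) ∈ Cls O := by
  induction hF using Submodule.span_induction with
  | zero =>
    convert (Cls O).zero_mem using 1
    funext y; simp
  | add F G _ _ hF hG =>
    convert add_mem hF hG using 1
    funext y; simp [mul_add]
  | smul c F _ hF =>
    convert Submodule.smul_mem _ c hF using 1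
    funext y; simp [mul_left_comm]
  | mem F h =>
    obtain ⟨l, b, hb, rfl⟩ := h
    suffices h : ∃ b₀ b₁, Adm b₀ ∧ Adm b₁ ∧
        ∀ y, (cd O k y : ℂ) * H O b y = H O b₀ y + (Z O y : ℂ) * H O b₁ y by
      obtain ⟨b₀, b₁, h₀, h₁, he⟩ := h
      convert add_mem (gen_mem O l h₀) (gen_mem O (l + 1) h₁) using 1
      funext y
      simp only [gen, Pi.add_apply]
      rw [← mul_assoc, mul_comm ((cd O k y : ℂ)), mul_assoc, he, pow_succ]
      ring
    have hr : ∀ η : P2, η ≠ 0 → rad η ≠ 0 := fun η h => by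
      simpa [rad, -Complex.ofReal_add, -Complex.ofReal_pow] using radial_ne h
    have hre : ∀ f : P2 → ℝ, ContDiff ℝ ∞ f → ContDiff ℝ ∞ fun η => (f η : ℂ) :=
      fun f hf => Complex.ofRealCLM.contDiff.comp hf
    have h1 : ContDiff ℝ ∞ fun η : P2 => (η.1 : ℂ) := hre _ (by fun_prop)
    have h2 : ContDiff ℝ ∞ fun η : P2 => (η.2 : ℂ) := hre _ (by fun_prop)
    have hI := Complex.I_mul_I
    fin_cases k
    · refine cd_mul_H O hb 0 (fun η => -Complex.I / 2 * η.1 * (rad η)⁻¹)
        (fun η => Complex.I / 2 * η.2 * (rad η)⁻¹)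
        (fun η => Complex.I * ((η.1 : ℂ) ^ 2 - (η.2 : ℂ) ^ 2) * (rad η)⁻¹)
        (fun η h => ((contDiff_const.mul h1).contDiffAt).mul (contDiffAt_inv_rad h))
        (fun η h => ((contDiff_const.mul h2).contDiffAt).mul (contDiffAt_inv_rad h))
        (fun η h => ((contDiff_const.mul ((h1.pow 2).sub (h2.pow 2))).contDiffAt).mul
          (contDiffAt_inv_rad h)) fun η h y => ?_
      rw [(ker_deriv O η y).1, (ker_deriv O η y).2]
      have := hr η h
      field_simp
      simp only [rad, Complex.ofReal_add, Complex.ofReal_pow]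
      linear_combination ((cd O 0 y : ℂ) * ker O y η * ((η.1 : ℂ) ^ 2 + (η.2 : ℂ) ^ 2)) *
        Complex.I_sq
    · refine cd_mul_H O hb 1 (fun η => -Complex.I / 2 * η.2 * (rad η)⁻¹)
        (fun η => -Complex.I / 2 * η.1 * (rad η)⁻¹)
        (fun η => 2 * Complex.I * η.1 * η.2 * (rad η)⁻¹)
        (fun η h => ((contDiff_const.mul h2).contDiffAt).mul (contDiffAt_inv_rad h))
        (fun η h => ((contDiff_const.mul h1).contDiffAt).mul (contDiffAt_inv_rad h))
        (fun η h => (((contDiff_const.mul h1).mul h2).contDiffAt).mul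
          (contDiffAt_inv_rad h)) fun η h y => ?_
      rw [(ker_deriv O η y).1, (ker_deriv O η y).2]
      have := hr η h
      field_simp
      simp only [rad, Complex.ofReal_add, Complex.ofReal_pow]
      linear_combination ((cd O 1 y : ℂ) * ker O y η * ((η.1 : ℂ) ^ 2 + (η.2 : ℂ) ^ 2)) *
        Complex.I_sq
    · refine ⟨fun _ => 0, b, ⟨contDiff_const, .zero, .rfl⟩, hb, fun y => ?_⟩
      simp [H]

theorem eq_sum_cd (y : R3) (i : Fin 3) : y i = ∑ k, cd O k (ev i) * cd O k y := by
  have h := O.inner_map_map (ev i) y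
  rw [EuclideanSpace.inner_single_left, PiLp.inner_apply] at h
  simpa [cd_apply, mul_comm] using h.symm

theorem coord_mem {F : R3 → ℂ} (hF : F ∈ Cls O) (i : Fin 3) :
    (fun y => ((y i : ℝ) : ℂ) * F y) ∈ Cls O := by
  convert Submodule.sum_mem (Cls O) fun k (_ : k ∈ Finset.univ) =>
    Submodule.smul_mem _ (cd O k (ev i) : ℂ) (cd_mul_mem O hF k) using 1
  funext y
  rw [eq_sum_cd O y i]
  push_cast
  simp [Finset.sum_mul, mul_assoc]

theorem weight_mem {F : R3 → ℂ} (hF : F ∈ Cls O) (m : ℕ) :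
    (fun y => (((1 + ‖y‖ ^ 2) ^ m : ℝ) : ℂ) * F y) ∈ Cls O := by
  induction m with
  | zero => simpa using hF
  | succ m ih =>
    convert add_mem ih (Submodule.sum_mem (Cls O) fun i (_ : i ∈ Finset.univ) =>
      coord_mem O (coord_mem O ih i) i) using 1
    funext y
    simp only [Pi.add_apply, Finset.sum_apply]
    rw [EuclideanSpace.norm_sq_eq]
    simp only [Real.norm_eq_abs, sq_abs]
    push_cast
    rw [pow_succ]
    simp only [← mul_assoc, ← Finset.sum_mul]
    ring

theorem bounded {F : R3 → ℂ} (hF : F ∈ Cls O) : ∃ C, ∀ y, Z O y ≤ 3 → ‖F y‖ ≤ C := by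
  induction hF using Submodule.span_induction with
  | zero => exact ⟨0, fun y _ => by simp⟩
  | add F G _ _ hF hG =>
    obtain ⟨C, hC⟩ := hF
    obtain ⟨C', hC'⟩ := hG
    exact ⟨C + C', fun y hy => (norm_add_le _ _).trans (add_le_add (hC y hy) (hC' y hy))⟩
  | smul c F _ hF =>
    obtain ⟨C, hC⟩ := hF
    exact ⟨‖c‖ * C, fun y hy => by
      simp only [Pi.smul_apply, norm_smul]
      exact mul_le_mul_of_nonneg_left (hC y hy) (norm_nonneg c)⟩
  | mem F h =>
    obtain ⟨l, b, hb, rfl⟩ := h
    set q : P2 → ℝ := fun η => η.1 ^ 2 + η.2 ^ 2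
    have hq : Continuous q := by fun_prop
    obtain ⟨B, hB⟩ := hb.cpt.exists_bound_of_continuousOn hq.continuousOn
    obtain ⟨U, hU, hU0⟩ := eventuallyEq_iff_exists_mem.1 hb.zero
    obtain ⟨δ, hδ, hball⟩ := Metric.mem_nhds_iff.1 hU
    set r := δ ^ 2 / 4 with hr
    have hr0 : 0 < r := by positivity
    have hlow : ∀ η, b η ≠ 0 → r ≤ q η ∧ q η ≤ max B 0 := by
      intro η hη
      refine ⟨not_lt.1 fun hlt => hη (hU0 (hball ?_)),
        ((le_abs_self _).trans (hB η (subset_tsupport b hη))).trans (le_max_left _ _)⟩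
      rw [mem_ball_zero_iff, Prod.norm_def, max_lt_iff, Real.norm_eq_abs, Real.norm_eq_abs]
      constructor <;> refine abs_lt_of_sq_lt_sq ?_ hδ.le <;>
        simp only [q] at hlt <;> nlinarith [sq_nonneg η.1, sq_nonneg η.2]
    set K := max (3 ^ l * Real.exp (3 * max B 0)) ((Nat.factorial l : ℝ) / r ^ l)
    refine ⟨(∫ η, ‖b η‖) * K, fun y hy => ?_⟩
    simp only [gen, H, ← integral_const_mul, ← integral_mul_const]
    refine norm_integral_le_of_norm_le ((hb.smooth.continuous.norm.integrable_of_hasCompactSupport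
      hb.cpt.norm).mul_const K) (.of_forall fun η => ?_)
    by_cases hη : b η = 0
    · simp [hη]
    obtain ⟨hq1, hq2⟩ := hlow η hη
    rw [norm_mul, norm_mul, norm_pow, Complex.norm_real, Complex.norm_exp, re_ph,
      mul_left_comm, Real.norm_eq_abs]
    refine mul_le_mul_of_nonneg_left ?_ (norm_nonneg _)
    rcases le_or_gt 0 (Z O y) with hz | hz
    · refine le_max_of_le_left ?_
      rw [abs_of_nonneg hz]
      refine mul_le_mul (pow_le_pow_left₀ hz hy l) (Real.exp_le_exp.2 ?_) (Real.exp_nonneg _)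
        (by positivity)
      exact (mul_le_mul hq2 hy hz (le_max_right _ _)).trans_eq (mul_comm _ _)
    · refine le_max_of_le_right ?_
      rw [abs_of_neg hz, le_div_iff₀ (pow_pos hr0 l)]
      have h1 : 0 ≤ r * -(Z O y) := by nlinarith
      have h2 := Real.pow_div_factorial_le_exp _ h1 l
      rw [div_le_iff₀ (by positivity)] at h2
      have h3 : Real.exp (q η * Z O y) * Real.exp (r * -(Z O y)) ≤ 1 := by
        rw [← Real.exp_add, Real.exp_le_one_iff]
        nlinarith
      calc (-(Z O y)) ^ l * Real.exp (q η * Z O y) * r ^ l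
          = Real.exp (q η * Z O y) * (r * -(Z O y)) ^ l := by rw [mul_pow]; ring
        _ ≤ Real.exp (q η * Z O y) * (Real.exp (r * -(Z O y)) * (Nat.factorial l : ℝ)) :=
          mul_le_mul_of_nonneg_left h2 (Real.exp_nonneg _)
        _ ≤ 1 * (Nat.factorial l : ℝ) := by
          rw [← mul_assoc]; exact mul_le_mul_of_nonneg_right h3 (by positivity)
        _ = _ := one_mul _

theorem norm_iteratedFDeriv_succ_le_sum {E : Type*} [NormedAddCommGroup E] [NormedSpace ℝ E]
    {f : R3 → E} (hf : ContDiff ℝ ∞ f) (i : ℕ) (x : R3) :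
    ‖iteratedFDeriv ℝ (i + 1) f x‖ ≤ ∑ k, ‖iteratedFDeriv ℝ i (pd k f) x‖ := by
  rw [← norm_iteratedFDeriv_fderiv, fderiv_eq_sum_pd]
  have hk : ∀ k, ContDiff ℝ ∞ (pd k f) := fun k =>
    (hf.fderiv_right (by simp)).clm_apply contDiff_const
  set L : Fin 3 → E →L[ℝ] R3 →L[ℝ] E := fun k =>
    ContinuousLinearMap.smulRightL ℝ R3 E (EuclideanSpace.proj k) with hL
  have e : (fun y => ∑ k, (EuclideanSpace.proj k : R3 →L[ℝ] ℝ).smulRight (pd k f y))
      = fun y => ∑ k, (L k ∘ pd k f) y := rfl
  rw [e, iteratedFDeriv_fun_sum_apply fun k _ =>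
    (((L k).contDiff (n := i)).comp ((hk k).of_le (by exact_mod_cast le_top))).contDiffAt]
  refine (norm_sum_le _ _).trans (Finset.sum_le_sum fun k _ => ?_)
  refine ((L k).norm_iteratedFDeriv_comp_left (N := ∞) (hk k).contDiffAt
    (by exact_mod_cast le_top)).trans ?_
  refine mul_le_of_le_one_left (norm_nonneg _) ?_
  refine ContinuousLinearMap.opNorm_le_bound _ zero_le_one fun e => ?_
  rw [hL, one_mul]
  rw [show ContinuousLinearMap.smulRightL ℝ R3 E (EuclideanSpace.proj k) e =
    (EuclideanSpace.proj k : R3 →L[ℝ] ℝ).smulRight e from rfl,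
    ContinuousLinearMap.norm_smulRight_apply]
  refine mul_le_of_le_one_left (norm_nonneg _) ?_
  refine ContinuousLinearMap.opNorm_le_bound _ zero_le_one fun z => ?_
  simpa using PiLp.norm_apply_le z k

/-- Every derivative decays faster than every power for `Z ≤ 3`. -/
theorem decay (i : ℕ) : ∀ {F : R3 → ℂ}, F ∈ Cls O → ∀ m : ℕ, ∃ C, ∀ y, Z O y ≤ 3 →
    (1 + ‖y‖ ^ 2) ^ m * ‖iteratedFDeriv ℝ i F y‖ ≤ C := by
  induction i with
  | zero =>
    intro F hF m
    obtain ⟨C, hC⟩ := bounded O (weight_mem O hF m)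
    refine ⟨C, fun y hy => ?_⟩
    have := hC y hy
    rw [norm_mul, Complex.norm_real, Real.norm_of_nonneg (by positivity)] at this
    rwa [norm_iteratedFDeriv_zero]
  | succ i ih =>
    intro F hF m
    choose C hC using fun k => ih (pd_mem O hF k) m
    refine ⟨∑ k, C k, fun y hy => ?_⟩
    refine (mul_le_mul_of_nonneg_left
      (norm_iteratedFDeriv_succ_le_sum (contDiff_cls O hF) i y) (by positivity)).trans ?_
    rw [Finset.mul_sum]
    exact Finset.sum_le_sum fun k _ => hC k y hy

/-- A real test function with positive second normal derivative at the origin. -/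
theorem exists_test : ∃ b : P2 → ℂ, Adm b ∧ (∀ y, (H O b y).im = 0) ∧
    0 < (H O (fun η => rad η * (rad η * b η)) 0).re := by
  set φ : ContDiffBump (1 : ℝ) := ⟨1 / 4, 1 / 2, by norm_num, by norm_num⟩
  set q : P2 → ℝ := fun η => η.1 ^ 2 + η.2 ^ 2 with hq
  set B : P2 → ℝ := fun η => φ (q η) with hB
  have hBs : ContDiff ℝ ∞ B := φ.contDiff.comp (by fun_prop)
  have hout : ∀ η, q η < 1 / 2 ∨ 3 / 2 < q η → B η = 0 := fun η h => by
    refine φ.zero_of_le_dist ?_
    rw [Real.dist_eq, le_abs]
    rcases h with h | h <;> [right; left] <;> show (1 / 2 : ℝ) ≤ _ <;> linarith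
  have hAdm : Adm fun η => (B η : ℂ) := by
    refine ⟨Complex.ofRealCLM.contDiff.comp hBs,
      HasCompactSupport.intro (isCompact_closedBall (0 : P2) 2) fun η hη => ?_, ?_⟩
    · rw [hout η (Or.inr ?_), Complex.ofReal_zero]
      rw [mem_closedBall_zero_iff, Prod.norm_def, max_le_iff, not_and_or, not_le, not_le,
        Real.norm_eq_abs, Real.norm_eq_abs, lt_abs, lt_abs] at hη
      simp only [hq]
      rcases hη with (h | h) | (h | h) <;> nlinarith [sq_nonneg η.1, sq_nonneg η.2]
    · have : ∀ᶠ η : P2 in 𝓝 0, q η < 1 / 2 :=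
        (isOpen_lt (by fun_prop) continuous_const).mem_nhds (by simp [hq])
      filter_upwards [this] with η hη
      simp [hout η (Or.inl hη)]
  have hB0 : ∀ η, 0 ≤ B η := fun η => φ.nonneg
  refine ⟨fun η => (B η : ℂ), hAdm, fun y => ?_, ?_⟩
  · rw [← Complex.conj_eq_iff_im, H, ← integral_conj]
    have hT : MeasurePreserving (fun η : P2 => (-η.2, η.1)) volume volume :=
      ((Measure.measurePreserving_neg (volume : Measure ℝ)).prod
        (MeasurePreserving.id (volume : Measure ℝ))).comp Measure.measurePreserving_swap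
    let T : P2 ≃ᵐ P2 :=
      MeasurableEquiv.prodComm.trans ((MeasurableEquiv.neg ℝ).prodCongr (MeasurableEquiv.refl ℝ))
    conv_rhs => rw [← hT.integral_comp T.measurableEmbedding]
    refine integral_congr_ae (.of_forall fun η => ?_)
    simp only [map_mul, Complex.conj_ofReal, ← Complex.exp_conj]
    congr 2
    · simp only [hB, hq]; congr 1; ring
    · simp [ph_apply, zeta, Fin.sum_univ_three, Complex.conj_ofReal, map_ofNat]
      ring
  · have e : H O (fun η => rad η * (rad η * (B η : ℂ))) 0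
        = ((∫ η, q η * (q η * B η) : ℝ) : ℂ) := by
      rw [H, ← integral_complex_ofReal]
      refine integral_congr_ae (.of_forall fun η => ?_)
      simp [rad, hq]
    rw [e, Complex.ofReal_re]
    have hc : Continuous fun η => q η * (q η * B η) := by
      have : Continuous q := by fun_prop
      exact this.mul (this.mul hBs.continuous)
    refine hc.integral_pos_of_hasCompactSupport_nonneg_nonzero ?_
      (fun η => ?_) (x := (1, 0)) ?_
    · refine HasCompactSupport.mul_left (HasCompactSupport.mul_left ?_)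
      refine hAdm.cpt.mono fun η hη => ?_
      simpa using hη
    · have : 0 ≤ q η := by positivity
      exact mul_nonneg this (mul_nonneg this (hB0 η))
    · have : B (1, 0) = 1 := φ.one_of_mem_closedBall (by simp [hq, φ])
      simp [this, hq]

end Vale.Agent.P136.Jet
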