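import Vale.Agent.P136.Mod.JetFrozen
import Vale.Agent.P136.Mod.CgoTools
import Vale.Agent.P229.Hol

/-!
# Expansions at scale `ε`

Sums of `ε ^ j * g x * F ((x - p) / ε)` with `F` in the class and `k ≤ j`: the leading part can be
frozen at `p` and the derivatives grow at most like `ε ^ (k - i)`.
-/

noncomputable section

namespace Vale.Agent.P136.Jet

open MeasureTheory Metric Filter Topology
open scoped BigOperators ContDiff

/-- A function of the stretched variable. -/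
def rs (p : R3) (ε : ℝ) (F : R3 → ℂ) (x : R3) : ℂ := F (ε⁻¹ • (x - p))

variable {O : R3 ≃ₗᵢ[ℝ] R3} {p : R3} {k : ℕ}

theorem smooth_rs (ε : ℝ) {F : R3 → ℂ} (hF : ContDiff ℝ ∞ F) : ContDiff ℝ ∞ (rs p ε F) :=
  hF.comp ((contDiff_id.sub contDiff_const).const_smul ε⁻¹)

theorem pd_rs (ε : ℝ) {F : R3 → ℂ} (hF : ContDiff ℝ ∞ F) (i : Fin 3) :
    pd i (rs p ε F) = fun x => (ε : ℂ)⁻¹ * rs p ε (pd i F) x := by
  funext x
  have h1 : HasFDerivAt (fun y : R3 => ε⁻¹ • (y - p)) (ε⁻¹ • ContinuousLinearMap.id ℝ R3) x :=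
    ((hasFDerivAt_id x).sub_const p).const_smul ε⁻¹
  have h2 := (dif hF (ε⁻¹ • (x - p))).hasFDerivAt.comp x h1
  rw [pd, show rs p ε F = F ∘ (fun y : R3 => ε⁻¹ • (y - p)) from rfl, h2.fderiv]
  simp [rs, pd]

theorem pd_mul_rs (c : ℂ) (ε : ℝ) {F : R3 → ℂ} (hF : ContDiff ℝ ∞ F) (i : Fin 3) :
    pd i (fun x => c * rs p ε F x) = fun x => c * (ε : ℂ)⁻¹ * rs p ε (pd i F) x := by
  funext x
  rw [pd_const_mul c (dif (smooth_rs ε hF) x), pd_rs ε hF]
  ring

/-- Hadamard's lemma. -/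
theorem hadamard {g : R3 → ℂ} (hg : ContDiff ℝ ∞ g) (p : R3) :
    ∃ gi : Fin 3 → R3 → ℂ, (∀ i, ContDiff ℝ ∞ (gi i)) ∧
      ∀ x, g x = g p + ∑ i, ((x i - p i : ℝ) : ℂ) * gi i x := by
  refine ⟨fun i x => ∫ t in (0 : ℝ)..1, pd i g (p + t • (x - p)), fun i => ?_, fun x => ?_⟩
  · refine contDiff_infty.2 fun n => contDiffOn_univ.1 ?_
    have hf : ContDiff ℝ ∞ fun q : R3 × ℝ => pd i g (p + q.2 • (q.1 - p)) :=
      (smooth_pd hg).comp (by fun_prop)
    exact P229.contDiffOn_param_integral n (f := fun q : R3 × ℝ => pd i g (p + q.2 • (q.1 - p)))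
      (U := Set.univ) isOpen_univ (hf.of_le (by exact_mod_cast le_top)).contDiffOn isOpen_univ
      fun _ _ _ _ => Set.mem_univ _
  · have hd : ∀ t : ℝ, HasDerivAt (fun t : ℝ => g (p + t • (x - p)))
        (∑ i, ((x i - p i : ℝ) : ℂ) * pd i g (p + t • (x - p))) t := by
      intro t
      have h1 : HasDerivAt (fun t : ℝ => p + t • (x - p)) (x - p) t := by
        simpa using ((hasDerivAt_id t).smul_const (x - p)).const_add p
      have h2 := (dif hg (p + t • (x - p))).hasFDerivAt.comp_hasDerivAt t h1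
      refine h2.congr_deriv ?_
      rw [fderiv_eq_sum_pd]
      simp
    have hc : ∀ i, Continuous fun t : ℝ => pd i g (p + t • (x - p)) := fun i =>
      (smooth_pd hg).continuous.comp (by fun_prop)
    have h3 := intervalIntegral.integral_eq_sub_of_hasDerivAt (a := 0) (b := 1) (fun t _ => hd t)
      ((continuous_finsetSum _ fun i _ => continuous_const.mul (hc i)).intervalIntegrable _ _)
    rw [intervalIntegral.integral_finsetSum fun i _ =>
      (continuous_const.fun_mul (hc i)).intervalIntegrable _ _] at h3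
    simp only [intervalIntegral.integral_const_mul, one_smul, zero_smul, add_zero,
      add_sub_cancel] at h3
    rw [h3]
    ring

/-- Sums of terms `ε ^ j * g x * F ((x - p) / ε)` with `k ≤ j`, for `ε ≠ 0`. -/
inductive Fam (O : R3 ≃ₗᵢ[ℝ] R3) (p : R3) (k : ℕ) : (ℝ → R3 → ℂ) → Prop
  | term (j : ℕ) (g F : R3 → ℂ) : k ≤ j → ContDiff ℝ ∞ g → F ∈ Cls O →
      Fam O p k fun ε x => (ε : ℂ) ^ j * (g x * rs p ε F x)
  | add {R S : ℝ → R3 → ℂ} : Fam O p k R → Fam O p k S → Fam O p k fun ε x => R ε x + S ε x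
  | congr {R S : ℝ → R3 → ℂ} : Fam O p k R → (∀ ε : ℝ, ε ≠ 0 → ∀ x, S ε x = R ε x) → Fam O p k S

theorem Fam.zero : Fam O p k fun _ _ => 0 :=
  (Fam.term k 0 0 le_rfl contDiff_const (Cls O).zero_mem).congr fun ε _ x => by simp

theorem Fam.sum {ι : Type*} (s : Finset ι) {R : ι → ℝ → R3 → ℂ}
    (h : ∀ i ∈ s, Fam O p k (R i)) : Fam O p k fun ε x => ∑ i ∈ s, R i ε x := by
  classical
  induction s using Finset.induction with
  | empty => simpa using Fam.zero
  | @insert a s ha ih =>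
    refine ((h a (Finset.mem_insert_self a s)).add
      (ih fun i hi => h i (Finset.mem_insert_of_mem hi))).congr fun ε _ x => ?_
    rw [Finset.sum_insert ha]

theorem freeze (j : ℕ) {g F : R3 → ℂ} (hg : ContDiff ℝ ∞ g) (hF : F ∈ Cls O) :
    Fam O p (j + 1) fun ε x => (ε : ℂ) ^ j * (g x * rs p ε F x - g p * rs p ε F x) := by
  obtain ⟨gi, hgi, e⟩ := hadamard hg p
  refine (Fam.sum Finset.univ fun i _ => Fam.term (j + 1) (gi i) _ le_rfl (hgi i)
    (coord_mem O hF i)).congr fun ε hε x => ?_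
  rw [e x, add_mul, add_sub_cancel_left, Finset.sum_mul, Finset.mul_sum]
  refine Finset.sum_congr rfl fun i _ => ?_
  have h1 : (x i - p i : ℝ) = ε * (ε⁻¹ • (x - p)) i := by
    simp only [PiLp.smul_apply, PiLp.sub_apply, smul_eq_mul]
    field_simp
  rw [h1]
  simp only [rs]
  push_cast
  ring

/-- The leading part of an expansion, frozen at `p`. -/
theorem split {R : ℝ → R3 → ℂ} (hR : Fam O p k R) :
    ∃ F ∈ Cls O, Fam O p (k + 1) fun ε x => R ε x - (ε : ℂ) ^ k * rs p ε F x := by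
  induction hR with
  | term j g F hkj hg hF =>
    rcases hkj.eq_or_lt with rfl | hlt
    · refine ⟨g p • F, Submodule.smul_mem _ _ hF, (freeze k hg hF).congr fun ε _ x => ?_⟩
      simp only [rs, Pi.smul_apply, smul_eq_mul]
      ring
    · refine ⟨0, (Cls O).zero_mem, (Fam.term j g F hlt hg hF).congr fun ε _ x => ?_⟩
      simp [rs]
  | add _ _ ihR ihS =>
    obtain ⟨F, hF, hF'⟩ := ihR
    obtain ⟨G, hG, hG'⟩ := ihS
    refine ⟨F + G, add_mem hF hG, (hF'.add hG').congr fun ε _ x => ?_⟩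
    simp only [rs, Pi.add_apply]
    ring
  | congr _ e ih =>
    obtain ⟨F, hF, hF'⟩ := ih
    exact ⟨F, hF, hF'.congr fun ε hε x => by rw [e ε hε x]⟩

theorem bound_rs (i : ℕ) : ∀ {F : R3 → ℂ}, F ∈ Cls O → ∃ K, 0 ≤ K ∧ ∀ ε : ℝ, 0 < ε → ∀ x : R3,
    Z O (ε⁻¹ • (x - p)) < 3 → ‖iteratedFDeriv ℝ i (rs p ε F) x‖ ≤ K * (ε⁻¹) ^ i := by
  induction i with
  | zero =>
    intro F hF
    obtain ⟨K, hK⟩ := bounded O hF
    refine ⟨max K 0, le_max_right _ _, fun ε _ x hx => ?_⟩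
    rw [norm_iteratedFDeriv_zero, pow_zero, mul_one]
    exact (hK _ hx.le).trans (le_max_left _ _)
  | succ i ih =>
    intro F hF
    choose K hK0 hK using fun l => ih (pd_mem O hF l)
    refine ⟨∑ l, K l, Finset.sum_nonneg fun l _ => hK0 l, fun ε hε x hx => ?_⟩
    refine (norm_iteratedFDeriv_succ_le_sum (smooth_rs ε (contDiff_cls O hF)) i x).trans ?_
    rw [Finset.sum_mul]
    refine Finset.sum_le_sum fun l _ => ?_
    have e : pd l (rs p ε F) = (ε : ℂ)⁻¹ • rs p ε (pd l F) := by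
      rw [pd_rs ε (contDiff_cls O hF)]; rfl
    rw [e, iteratedFDeriv_const_smul_apply
      ((smooth_rs ε (smooth_pd (contDiff_cls O hF))).of_le (by exact_mod_cast le_top)).contDiffAt,
      norm_smul, norm_inv, Complex.norm_real, Real.norm_of_nonneg hε.le, pow_succ]
    calc ε⁻¹ * ‖iteratedFDeriv ℝ i (rs p ε (pd l F)) x‖ ≤ ε⁻¹ * (K l * (ε⁻¹) ^ i) :=
        mul_le_mul_of_nonneg_left (hK l ε hε x hx) (inv_nonneg.2 hε.le)
      _ = _ := by ring

/-- The region on which the expansions are bounded. -/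
def dom (O : R3 ≃ₗᵢ[ℝ] R3) (p : R3) (r ε : ℝ) : Set R3 :=
  closedBall p r ∩ {x | Z O (ε⁻¹ • (x - p)) < 3}

theorem Fam.bound {R : ℝ → R3 → ℂ} (hR : Fam O p k R) (n : ℕ) (r : ℝ) : ∃ K, 0 ≤ K ∧
    ∀ ε : ℝ, 0 < ε → ε ≤ 1 →
      ContDiff ℝ ∞ (R ε) ∧ Cgo.Bd (dom O p r ε) n (R ε) (K * (ε ^ k * (ε⁻¹) ^ n)) := by
  induction hR with
  | term j g F hkj hg hF =>
    obtain ⟨G, hG0, hG⟩ := Cgo.bd_of_compact hg (isCompact_closedBall p r) n
    choose K hK0 hK using fun m : ℕ => bound_rs (p := p) m hF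
    refine ⟨(2 : ℝ) ^ n * G * ∑ m ∈ Finset.range (n + 1), K m,
      mul_nonneg (by positivity) (Finset.sum_nonneg fun m _ => hK0 m), fun ε hε hε1 => ?_⟩
    have hF' := smooth_rs (p := p) ε (contDiff_cls O hF)
    refine ⟨contDiff_const.mul (hg.mul hF'), fun x hx i hi => ?_⟩
    have hi1 : (1 : ℝ) ≤ ε⁻¹ := (one_le_inv₀ hε).2 hε1
    show ‖iteratedFDeriv ℝ i (((ε : ℂ) ^ j) • fun x => g x * rs p ε F x) x‖ ≤ _
    rw [iteratedFDeriv_const_smul_apply
        ((hg.mul hF').of_le (by exact_mod_cast le_top)).contDiffAt,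
      norm_smul, norm_pow, Complex.norm_real, Real.norm_of_nonneg hε.le]
    have h1 : ‖iteratedFDeriv ℝ i (fun x => g x * rs p ε F x) x‖
        ≤ (2 : ℝ) ^ n * G * (∑ m ∈ Finset.range (n + 1), K m) * (ε⁻¹) ^ n := by
      calc _ ≤ ∑ m ∈ Finset.range (i + 1), (i.choose m : ℝ) * ‖iteratedFDeriv ℝ m g x‖
            * ‖iteratedFDeriv ℝ (i - m) (rs p ε F) x‖ :=
          norm_iteratedFDeriv_mul_le hg hF' x (by exact_mod_cast le_top)
        _ ≤ ∑ m ∈ Finset.range (i + 1), (i.choose m : ℝ) * G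
            * ((∑ m ∈ Finset.range (n + 1), K m) * (ε⁻¹) ^ n) := by
          refine Finset.sum_le_sum fun m hm => ?_
          have hm' := Nat.lt_succ_iff.1 (Finset.mem_range.1 hm)
          have h2 := hG x hx.1 m (hm'.trans hi)
          have h3 := (hK (i - m) ε hε x hx.2).trans (mul_le_mul (Finset.single_le_sum (f := K)
            (fun q _ => hK0 q) (Finset.mem_range.2 (show i - m < n + 1 by omega)))
            (pow_le_pow_right₀ hi1 (show i - m ≤ n by omega)) (by positivity)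
            (Finset.sum_nonneg fun q _ => hK0 q))
          gcongr
        _ = (2 : ℝ) ^ i * G * (∑ m ∈ Finset.range (n + 1), K m) * (ε⁻¹) ^ n := by
          rw [← Finset.sum_mul, ← Finset.sum_mul, ← Nat.cast_sum, Nat.sum_range_choose]
          push_cast
          ring
        _ ≤ _ := by
          have : (1 : ℝ) ≤ 2 := by norm_num
          have := Finset.sum_nonneg (s := Finset.range (n + 1)) fun m _ => hK0 m
          gcongr
    calc ε ^ j * ‖iteratedFDeriv ℝ i (fun x => g x * rs p ε F x) x‖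
        ≤ ε ^ k * ((2 : ℝ) ^ n * G * (∑ m ∈ Finset.range (n + 1), K m) * (ε⁻¹) ^ n) :=
          mul_le_mul (pow_le_pow_of_le_one hε.le hε1 hkj) h1 (norm_nonneg _) (by positivity)
      _ = _ := by ring
  | add _ _ ihR ihS =>
    obtain ⟨K, hK0, hK⟩ := ihR
    obtain ⟨L, hL0, hL⟩ := ihS
    refine ⟨K + L, add_nonneg hK0 hL0, fun ε hε hε1 => ?_⟩
    obtain ⟨s1, b1⟩ := hK ε hε hε1
    obtain ⟨s2, b2⟩ := hL ε hε hε1
    refine ⟨s1.add s2, ?_⟩
    rw [add_mul]
    exact b1.add s1 s2 b2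
  | congr _ e ih =>
    obtain ⟨K, hK0, hK⟩ := ih
    refine ⟨K, hK0, fun ε hε hε1 => ?_⟩
    rw [funext (e ε hε.ne')]
    exact hK ε hε hε1

/-- The scaled operator on one stretched term, up to a term of higher order. -/
theorem step {lam mu : R3 → ℝ} (hl : ContDiff ℝ ∞ lam) (hm : ContDiff ℝ ∞ mu) (j : ℕ)
    {W : R3 → C3} (hW : ∀ l, (fun y => W y l) ∈ Cls O) (l : Fin 3) :
    Fam O p (j + 1) fun ε x =>
      (ε : ℂ) ^ 2 * lame lam mu (fun z m => (ε : ℂ) ^ j * rs p ε (fun y => W y m) z) x l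
        - (ε : ℂ) ^ j * rs p ε (L0 (lam p) (mu p) W l) x := by
  have hd := dvg_mem O hW
  have hs : ∀ m, ContDiff ℝ ∞ fun y => W y m := fun m => contDiff_cls O (hW m)
  refine ((((freeze j (p := p) ((smooth_cast hl).add (smooth_cast hm)) (pd_mem O hd l)).add
    (freeze j (p := p) (smooth_cast hm) (lap_mem O (hW l)))).add
    (Fam.term (j + 1) _ _ le_rfl (smooth_cast (smooth_pd (i := l) hl)) hd)).add
    (Fam.sum Finset.univ fun i _ => Fam.term (j + 1) _ _ le_rfl
      ((smooth_cast (smooth_pd (i := i) hm)).const_smul (2 : ℂ))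
      (strain_mem O hW l i))).congr fun ε hε x => ?_
  have hc : ∀ (c : ℂ) (m : Fin 3), ContDiff ℝ ∞ fun z => c * rs p ε (fun y => W y m) z :=
    fun c m => contDiff_const.mul (smooth_rs ε (hs m))
  set c := (ε : ℂ) ^ j with hcdef
  have e1 : dvg (fun z m => c * rs p ε (fun y => W y m) z)
      = fun z => c * (ε : ℂ)⁻¹ * rs p ε (dvg W) z := by
    funext z
    simp only [dvg, pd_mul_rs c ε (hs _)]
    simp only [rs, dvg, Finset.mul_sum]
  have e2 : ∀ i, strain (fun z m => c * rs p ε (fun y => W y m) z) l i x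
      = c * (ε : ℂ)⁻¹ * rs p ε (strain W l i) x := fun i => by
    simp only [strain, pd_mul_rs c ε (hs _)]
    simp only [rs, strain]
    ring
  have e3 : lap (fun z => c * rs p ε (fun y => W y l) z) x
      = c * (ε : ℂ)⁻¹ * (ε : ℂ)⁻¹ * rs p ε (lap fun y => W y l) x := by
    simp only [lap, pd_mul_rs c ε (hs l), pd_mul_rs _ ε (smooth_pd (hs l))]
    simp only [rs, lap, Finset.mul_sum]
  rw [lame_eq hl hm (hc c) x l, e1, e3, pd_mul_rs _ ε (contDiff_cls O hd)]
  simp only [e2, smul_eq_mul]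
  have hεC : (ε : ℂ) ≠ 0 := Complex.ofReal_ne_zero.2 hε
  simp only [Fin.sum_univ_three, rs, L0]
  rw [hcdef, pow_succ]
  field_simp
  ring

end Vale.Agent.P136.Jet
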