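import Vale.Agent.P136.Mod.Calc
import Vale.Agent.P136.Mod.JetDecay
import Vale.Agent.P136.Mod.IkehataCalc

/-!
# The frozen system on the class of boundary layer functions

The Lamé operator in non-divergence form, its constant coefficient version `L0`, and solutions of
`L0` by the Galerkin representation.
-/

noncomputable section

namespace Vale.Agent.P136.Jet

open MeasureTheory Metric Filter Topology
open scoped BigOperators ContDiff

theorem dif {E : Type*} [NormedAddCommGroup E] [NormedSpace ℝ E] {f : R3 → E}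
    (hf : ContDiff ℝ ∞ f) (x : R3) : DifferentiableAt ℝ f x :=
  hf.differentiable (by simp) x

theorem smooth_cast {f : R3 → ℝ} (hf : ContDiff ℝ ∞ f) : ContDiff ℝ ∞ fun x => (f x : ℂ) :=
  Complex.ofRealCLM.contDiff.comp hf

theorem pd_comm_smooth {f : R3 → ℂ} (hf : ContDiff ℝ ∞ f) (i j : Fin 3) :
    pd i (pd j f) = pd j (pd i f) :=
  funext fun x => Ikehata.pd_comm (U := Set.univ) isOpen_univ hf.contDiffOn (Set.mem_univ x) i j

theorem pd_lin {f g : R3 → ℂ} (hf : ContDiff ℝ ∞ f) (hg : ContDiff ℝ ∞ g) (c d : ℂ) (i : Fin 3) :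
    pd i (fun x => c * f x + d * g x) = fun x => c * pd i f x + d * pd i g x := by
  funext x
  rw [pd_add ((dif hf x).const_mul c) ((dif hg x).const_mul d), pd_const_mul c (dif hf x),
    pd_const_mul d (dif hg x)]

theorem lap_lin {f g : R3 → ℂ} (hf : ContDiff ℝ ∞ f) (hg : ContDiff ℝ ∞ g) (c d : ℂ) :
    lap (fun x => c * f x + d * g x) = fun x => c * lap f x + d * lap g x := by
  funext x
  simp only [lap, pd_lin hf hg c d, pd_lin (smooth_pd hf) (smooth_pd hg) c d, Finset.sum_add_distrib,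
    Finset.mul_sum]

theorem smooth_lap {f : R3 → ℂ} (hf : ContDiff ℝ ∞ f) : ContDiff ℝ ∞ (lap f) :=
  ContDiff.sum fun _ _ => smooth_pd (smooth_pd hf)

theorem pd_lap {f : R3 → ℂ} (hf : ContDiff ℝ ∞ f) (i : Fin 3) :
    pd i (lap f) = lap (pd i f) := by
  funext x
  unfold lap
  rw [pd_sum _ fun k _ => dif (smooth_pd (smooth_pd hf)) x]
  refine Finset.sum_congr rfl fun k _ => ?_
  rw [pd_comm_smooth (smooth_pd hf) i k, pd_comm_smooth hf i k]

theorem smooth_dvg {u : R3 → C3} (hu : ∀ l, ContDiff ℝ ∞ fun y => u y l) :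
    ContDiff ℝ ∞ (dvg u) :=
  ContDiff.sum fun i _ => smooth_pd (hu i)

theorem smooth_strain {u : R3 → C3} (hu : ∀ l, ContDiff ℝ ∞ fun y => u y l) (i j : Fin 3) :
    ContDiff ℝ ∞ (strain u i j) :=
  ((smooth_pd (hu i)).add (smooth_pd (hu j))).div_const 2

theorem lap_dvg {u : R3 → C3} (hu : ∀ l, ContDiff ℝ ∞ fun y => u y l) :
    lap (dvg u) = fun x => ∑ i, pd i (lap fun y => u y i) x := by
  funext x
  simp only [lap, pd_lap (hu _)]
  rw [Finset.sum_comm]
  refine Finset.sum_congr rfl fun k _ => ?_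
  have e : pd k (dvg u) = fun y => ∑ i, pd k (pd i fun z => u z i) y :=
    funext fun y => pd_sum _ fun i _ => dif (smooth_pd (hu i)) y
  rw [e, pd_sum _ fun i _ => dif (smooth_pd (smooth_pd (hu i))) x]

/-- The Lamé operator in non-divergence form. -/
theorem lame_eq {lam mu : R3 → ℝ} (hl : ContDiff ℝ ∞ lam) (hm : ContDiff ℝ ∞ mu) {u : R3 → C3}
    (hu : ∀ l, ContDiff ℝ ∞ fun y => u y l) (x : R3) (l : Fin 3) :
    lame lam mu u x l = ((lam x : ℂ) + (mu x : ℂ)) * pd l (dvg u) x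
      + (mu x : ℂ) * lap (fun y => u y l) x + ((pd l lam x : ℝ) : ℂ) * dvg u x
      + ∑ j, 2 * ((pd j mu x : ℝ) : ℂ) * strain u l j x := by
  have e1 : pd l (fun y => (lam y : ℂ) * dvg u y) x
      = ((pd l lam x : ℝ) : ℂ) * dvg u x + (lam x : ℂ) * pd l (dvg u) x := by
    rw [pd_mul (dif (smooth_cast hl) x) (dif (smooth_dvg hu) x), pd_ofReal (dif hl x)]
  have e2 : ∀ j, pd j (fun y => 2 * (mu y : ℂ) * strain u l j y) x
      = 2 * ((pd j mu x : ℝ) : ℂ) * strain u l j x
        + (mu x : ℂ) * (pd j (pd j fun y => u y l) x + pd l (pd j fun y => u y j) x) := by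
    intro j
    rw [pd_mul ((dif (smooth_cast hm) x).const_mul 2) (dif (smooth_strain hu l j) x),
      pd_const_mul 2 (dif (smooth_cast hm) x), pd_ofReal (dif hm x)]
    have e3 : strain u l j = fun y => (1 / 2 : ℂ) * pd j (fun z => u z l) y
        + (1 / 2 : ℂ) * pd l (fun z => u z j) y := by
      funext y; simp only [strain]; ring
    rw [e3, pd_lin (smooth_pd (hu l)) (smooth_pd (hu j)), pd_comm_smooth (hu j) j l]
    ring
  have e4 : pd l (dvg u) x = ∑ j, pd l (pd j fun y => u y j) x :=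
    pd_sum _ fun j _ => dif (smooth_pd (hu j)) x
  show pd l (fun y => (lam y : ℂ) * dvg u y) x
    + ∑ j, pd j (fun y => 2 * (mu y : ℂ) * strain u l j y) x = _
  rw [e1, Finset.sum_congr rfl fun j _ => e2 j, e4]
  simp only [lap, Fin.sum_univ_three]
  ring

/-- The operator with frozen coefficients. -/
def L0 (a b : ℝ) (u : R3 → C3) (l : Fin 3) (x : R3) : ℂ :=
  ((a : ℂ) + (b : ℂ)) * pd l (dvg u) x + (b : ℂ) * lap (fun y => u y l) x

theorem lame_const (a b : ℝ) {u : R3 → C3} (hu : ∀ l, ContDiff ℝ ∞ fun y => u y l) (x : R3)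
    (l : Fin 3) : lame (fun _ => a) (fun _ => b) u x l = L0 a b u l x := by
  rw [lame_eq contDiff_const contDiff_const hu x l]
  simp [L0]

variable (O : R3 ≃ₗᵢ[ℝ] R3)

theorem lap_mem {F : R3 → ℂ} (hF : F ∈ Cls O) : lap F ∈ Cls O := by
  have e : lap F = ∑ k, pd k (pd k F) := by
    funext y; simp [lap, Finset.sum_apply]
  rw [e]
  exact Submodule.sum_mem _ fun k _ => pd_mem O (pd_mem O hF k) k

theorem dvg_mem {W : R3 → C3} (hW : ∀ l, (fun y => W y l) ∈ Cls O) : dvg W ∈ Cls O := by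
  have e : dvg W = ∑ i, pd i (fun y => W y i) := by
    funext y; simp [dvg, Finset.sum_apply]
  rw [e]
  exact Submodule.sum_mem _ fun k _ => pd_mem O (hW k) k

theorem strain_mem {W : R3 → C3} (hW : ∀ l, (fun y => W y l) ∈ Cls O) (i j : Fin 3) :
    strain W i j ∈ Cls O := by
  convert Submodule.smul_mem _ (1 / 2 : ℂ) (add_mem (pd_mem O (hW i) j) (pd_mem O (hW j) i)) using 1
  funext y
  simp [strain]
  ring

theorem L0_mem (a b : ℝ) {W : R3 → C3} (hW : ∀ l, (fun y => W y l) ∈ Cls O) (l : Fin 3) :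
    L0 a b W l ∈ Cls O :=
  add_mem (Submodule.smul_mem _ ((a : ℂ) + b) (pd_mem O (dvg_mem O hW) l))
    (Submodule.smul_mem _ (b : ℂ) (lap_mem O (hW l)))

/-- The Galerkin representation of a solution of the frozen system. -/
def gal (a b : ℝ) (G : R3 → C3) (y : R3) (l : Fin 3) : ℂ :=
  (b : ℂ)⁻¹ * lap (fun z => G z l) y
    + -((a : ℂ) + b) / ((b : ℂ) * ((a : ℂ) + 2 * b)) * pd l (dvg G) y

variable {O}

theorem gal_mem (a b : ℝ) {G : R3 → C3} (hG : ∀ l, (fun y => G y l) ∈ Cls O) (l : Fin 3) :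
    (fun y => gal a b G y l) ∈ Cls O :=
  add_mem (Submodule.smul_mem _ _ (lap_mem O (hG l)))
    (Submodule.smul_mem _ _ (pd_mem O (dvg_mem O hG) l))

theorem dvg_gal {a b : ℝ} (hb : 0 < b) (hab : 0 < a + 2 * b) {G : R3 → C3}
    (hG : ∀ l, ContDiff ℝ ∞ fun y => G y l) :
    dvg (gal a b G) = fun y => ((a : ℂ) + 2 * b)⁻¹ * lap (dvg G) y := by
  funext y
  have hs := smooth_dvg hG
  have h1 : (b : ℂ) ≠ 0 := by exact_mod_cast hb.ne'
  have h2 : (a : ℂ) + 2 * b ≠ 0 := by exact_mod_cast hab.ne'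
  simp only [dvg, gal, pd_lin (smooth_lap (hG _)) (smooth_pd hs), Finset.sum_add_distrib,
    ← Finset.mul_sum]
  rw [show ∑ i, pd i (pd i (dvg G)) y = lap (dvg G) y from rfl,
    show ∑ i, pd i (lap fun z => G z i) y = lap (dvg G) y from (congrFun (lap_dvg hG) y).symm,
    ← add_mul]
  congr 1
  rw [inv_eq_one_div, inv_eq_one_div, div_add_div _ _ h1 (mul_ne_zero h1 h2),
    div_eq_div_iff (mul_ne_zero h1 (mul_ne_zero h1 h2)) h2]
  ring

theorem L0_gal {a b : ℝ} (hb : 0 < b) (hab : 0 < a + 2 * b) {G : R3 → C3}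
    (hG : ∀ l, ContDiff ℝ ∞ fun y => G y l) (l : Fin 3) (y : R3) :
    L0 a b (gal a b G) l y = lap (lap fun z => G z l) y := by
  have hs := smooth_dvg hG
  have h1 : (b : ℂ) ≠ 0 := by exact_mod_cast hb.ne'
  have h2 : (a : ℂ) + 2 * b ≠ 0 := by exact_mod_cast hab.ne'
  have e1 : pd l (fun x => ((a : ℂ) + 2 * b)⁻¹ * lap (dvg G) x) y
      = ((a : ℂ) + 2 * b)⁻¹ * pd l (lap (dvg G)) y := pd_const_mul _ (dif (smooth_lap hs) y)
  unfold L0
  rw [dvg_gal hb hab hG, e1]
  simp only [gal, lap_lin (smooth_lap (hG l)) (smooth_pd hs), ← pd_lap hs l]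
  field_simp
  ring

variable (O)

/-- The frozen system can be solved in the class. -/
theorem solve {a b : ℝ} (hb : 0 < b) (hab : 0 < a + 2 * b) {F : Fin 3 → R3 → ℂ}
    (hF : ∀ l, F l ∈ Cls O) : ∃ W : R3 → C3, (∀ l, (fun y => W y l) ∈ Cls O) ∧
      ∀ l, L0 a b W l = F l := by
  choose G₁ hG₁ hG₁' using fun l => exists_lap_eq O (hF l)
  choose G hG hG' using fun l => exists_lap_eq O (hG₁ l)
  refine ⟨gal a b fun y l => G l y, gal_mem a b (G := fun y l => G l y) hG, fun l => funext fun y => ?_⟩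
  rw [L0_gal hb hab (G := fun y l => G l y) (fun l => contDiff_cls O (hG l)) l y]
  show lap (lap (G l)) y = _
  rw [hG', hG₁']

theorem sum_Z_H {b : P2 → ℂ} (hb : Adm b) (y : R3) :
    ∑ k, (Z O (ev k) : ℂ) * H O (fun η => sym O k η * b η) y
      = H O (fun η => rad η * b η) y := by
  simp only [← H_const_mul O]
  simp only [H]
  rw [← integral_finsetSum _ fun k _ => ?_]
  swap
  · exact integrable_H O (g := fun η => (Z O (ev k) : ℂ) * (sym O k η * b η))
      (continuous_const.mul (adm_sym O hb k).smooth.continuous) (adm_sym O hb k).cpt.mul_left y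
  refine integral_congr_ae (.of_forall fun η => ?_)
  simp only [rad, ← sum_Z_sym O η, Finset.sum_mul]
  exact Finset.sum_congr rfl fun k _ => by ring

theorem gen_zero (b : P2 → ℂ) : gen O 0 b = H O b := by
  funext y; simp [gen]

end Vale.Agent.P136.Jet
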