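import Vale.Agent.P136.Mod.OrthFlux

/-!
# The two leading orders of the flux between special solutions

Order `τ²` pairs the potential `g` with `θ · w`, order `τ` pairs the transverse parts of `w`.
-/

noncomputable section

namespace Vale.Agent.P136.Orth

open MeasureTheory Metric Filter Topology
open scoped BigOperators ContDiff Matrix

/-! ## Algebra of the amplitudes -/

/-- The amplitude of the displacement. -/
def ampU (τ : ℂ) (θ : C3) (a : ℂ) (q : C3) : C3 := (τ * a) • θ + q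

/-- The part of first order of the amplitude of the gradient. -/
def G1 (θ q da : C3) : Fin 3 → Fin 3 → ℂ := fun l j => θ j * q l + θ l * da j

/-- The amplitude of the gradient. -/
def ampG (τ : ℂ) (θ : C3) (a : ℂ) (da q : C3) (dq : Fin 3 → Fin 3 → ℂ) : Fin 3 → Fin 3 → ℂ :=
  τ ^ 2 • (a • fun l j => θ l * θ j) + τ • G1 θ q da + dq

theorem ctr_tensor (l₀ : ℂ) (H θ V : C3) (hθ : θ ⬝ᵥ θ = 0) :
    ctr l₀ H (fun l j => θ l * θ j) V = 2 * (θ ⬝ᵥ H) * (θ ⬝ᵥ V) := by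
  simp [ctr, dotProduct, Fin.sum_univ_three] at hθ ⊢
  linear_combination (l₀ * (H 0 * V 0 + H 1 * V 1 + H 2 * V 2)) * hθ

theorem ctr_G1_null (l₀ : ℂ) (H θ q da : C3) (hθ : θ ⬝ᵥ θ = 0) :
    ctr l₀ H (G1 θ q da) θ = (θ ⬝ᵥ H) * ((l₀ + 1) * (θ ⬝ᵥ q + θ ⬝ᵥ da)) := by
  simp [ctr, G1, dotProduct, Fin.sum_univ_three] at hθ ⊢
  linear_combination ((H 0 * q 0 + H 1 * q 1 + H 2 * q 2) + (H 0 * da 0 + H 1 * da 1 + H 2 * da 2)) * hθ

theorem ctr_G1_zero (l₀ : ℂ) (H θ q V : C3) :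
    ctr l₀ H (G1 θ q 0) V
      = l₀ * (θ ⬝ᵥ q) * (H ⬝ᵥ V) + (θ ⬝ᵥ H) * (q ⬝ᵥ V) + (θ ⬝ᵥ V) * (H ⬝ᵥ q) := by
  simp [ctr, G1, dotProduct, Fin.sum_univ_three]
  ring

/-- The order `τ²`. -/
def T2 (l₀ : ℂ) (H θ : C3) (a c : ℂ) (da dc q p : C3) : ℂ :=
  (θ ⬝ᵥ H) * (2 * a * (θ ⬝ᵥ p) - c * ((l₀ + 1) * (θ ⬝ᵥ q + θ ⬝ᵥ da))
    + a * ((l₀ + 1) * (θ ⬝ᵥ p + θ ⬝ᵥ dc)) - 2 * c * (θ ⬝ᵥ q))

/-- The order `τ`. -/
def T1 (l₀ : ℂ) (H θ : C3) (a c : ℂ) (da dc q p : C3) (dq dp : Fin 3 → Fin 3 → ℂ) : ℂ :=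
  ctr l₀ H (G1 θ q da) p - c * ctr l₀ H dq θ - ctr l₀ H (G1 (-θ) p dc) q - a * ctr l₀ H dp θ

/-- The order `1`. -/
def T0 (l₀ : ℂ) (H : C3) (q p : C3) (dq dp : Fin 3 → Fin 3 → ℂ) : ℂ :=
  ctr l₀ H dq p - ctr l₀ H dp q

theorem G1_neg (θ q da : C3) : G1 (-θ) q da = (-1 : ℂ) • G1 θ q da := by
  funext l j
  simp [G1]
  ring

theorem expand (l₀ τ : ℂ) (H θ : C3) (a c : ℂ) (da dc q p : C3) (dq dp : Fin 3 → Fin 3 → ℂ)
    (hθ : θ ⬝ᵥ θ = 0) :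
    ctr l₀ H (ampG τ θ a da q dq) (ampU τ (-θ) c p)
        - ctr l₀ H (ampG τ (-θ) c dc p dp) (ampU τ θ a q)
      = τ ^ 2 * T2 l₀ H θ a c da dc q p + τ * T1 l₀ H θ a c da dc q p dq dp + T0 l₀ H q p dq dp := by
  have hn : (fun l j => (-θ) l * (-θ) j) = fun l j => θ l * θ j := by funext l j; simp
  have hU : ampU τ (-θ) c p = (-(τ * c)) • θ + p := by simp [ampU]
  rw [hU]
  simp only [ampG, ampU, hn, G1_neg, ctr_add_left, ctr_add_right, ctr_smul_left, ctr_smul_right,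
    ctr_tensor _ _ _ _ hθ, ctr_G1_null _ _ _ _ _ hθ, hθ, T2, T1, T0]
  ring

theorem T1_pure (l₀ : ℂ) (H θ q p : C3) (dq dp : Fin 3 → Fin 3 → ℂ) (hq : θ ⬝ᵥ q = 0)
    (hp : θ ⬝ᵥ p = 0) :
    T1 l₀ H θ 0 0 0 0 q p dq dp = 2 * (θ ⬝ᵥ H) * (q ⬝ᵥ p) := by
  simp only [T1, ctr_G1_zero, neg_dotProduct, dotProduct_comm p q, hq, hp, zero_mul, sub_zero]
  ring

/-! ## Limits of integrals -/

theorem tendsto_integral_comp {W : Type*} [NormedAddCommGroup W] [ProperSpace W]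
    {K : Set R3} (hK : IsCompact K) {Φ : R3 × W → ℂ} (hΦ : Continuous Φ)
    (h0 : ∀ x w, x ∉ K → Φ (x, w) = 0) {w : ℝ → R3 → W} {wi : R3 → W} (hwi : Continuous wi)
    {M τ₀ : ℝ} (hw : ∀ τ, τ₀ ≤ τ → Continuous (w τ))
    (hclose : ∀ τ, τ₀ ≤ τ → ∀ x ∈ K, ‖w τ x - wi x‖ ≤ M / τ) :
    Tendsto (fun τ => ∫ x, Φ (x, w τ x)) atTop (𝓝 (∫ x, Φ (x, wi x))) := by
  obtain ⟨B, hB⟩ := hK.exists_bound_of_continuousOn hwi.continuousOn
  obtain ⟨N, hN⟩ := (hK.prod (isCompact_closedBall (0 : W) (B + |M|))).exists_bound_of_continuousOn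
    hΦ.continuousOn
  refine tendsto_integral_filter_of_dominated_convergence (K.indicator fun _ => |N|) ?_ ?_ ?_ ?_
  · filter_upwards [eventually_ge_atTop τ₀] with τ hτ
    exact (hΦ.comp (continuous_id.prodMk (hw τ hτ))).aestronglyMeasurable
  · filter_upwards [eventually_ge_atTop τ₀, eventually_ge_atTop (1 : ℝ)] with τ hτ hτ1
    refine Eventually.of_forall fun x => ?_
    by_cases hx : x ∈ K
    · rw [Set.indicator_of_mem hx]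
      refine (hN (x, w τ x) ⟨hx, ?_⟩).trans (le_abs_self N)
      rw [mem_closedBall_zero_iff]
      have h1 : M / τ ≤ |M| := (div_le_div_of_nonneg_right (le_abs_self M) (by linarith)).trans
        (div_le_self (abs_nonneg M) hτ1)
      calc ‖w τ x‖ ≤ ‖w τ x - wi x‖ + ‖wi x‖ := norm_le_norm_sub_add _ _
        _ ≤ |M| + B := add_le_add ((hclose τ hτ x hx).trans h1) (hB x hx)
        _ = B + |M| := add_comm _ _
    · simp [h0 x _ hx, Set.indicator_of_notMem hx]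
  · exact (integrable_indicator_iff hK.measurableSet).2
      (integrableOn_const hK.measure_lt_top.ne)
  · refine Eventually.of_forall fun x => ?_
    by_cases hx : x ∈ K
    · refine (hΦ.comp (continuous_const.prodMk continuous_id) |>.tendsto (wi x)).comp ?_
      refine tendsto_iff_norm_sub_tendsto_zero.2 (squeeze_zero' (g := fun τ : ℝ => M / τ)
        (Eventually.of_forall fun _ => norm_nonneg _) ?_ ?_)
      · filter_upwards [eventually_ge_atTop τ₀] with τ hτ using hclose τ hτ x hx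
      · simpa [div_eq_mul_inv] using tendsto_inv_atTop_zero.const_mul M
    · simp [h0 x _ hx]

/-! ## The amplitude of a special solution -/

/-- The `w` part. -/
def wvec (Y : R3 → Fin 4 → ℂ) (x : R3) : C3 := fun l => Y x l.castSucc

/-- The `g` part. -/
def gsc (Y : R3 → Fin 4 → ℂ) (x : R3) : ℂ := Y x 3

/-- `w + ∇ g`. -/
def pot (Y : R3 → Fin 4 → ℂ) (x : R3) : C3 := fun l => wvec Y x l + pd l (gsc Y) x

/-- The amplitude of order one of the displacement, at finite `τ`. -/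
def qAmp (θ : C3) (Y₀ Y₁ r : R3 → Fin 4 → ℂ) (τ : ℂ) (x : R3) : C3 := fun l =>
  pot Y₀ x l + τ⁻¹ * pot Y₁ x l + pot r x l + (gsc Y₁ x + τ * gsc r x) * θ l

/-- Its limit. -/
def qLim (θ : C3) (Y₀ Y₁ : R3 → Fin 4 → ℂ) (x : R3) : C3 := fun l =>
  pot Y₀ x l + gsc Y₁ x * θ l

/-- The special solution. -/
def sol (C : Coef) (θ : C3) (Y₀ Y₁ r : R3 → Fin 4 → ℂ) (τ : ℝ) : R3 → C3 :=
  toU C fun y => cexpθ τ θ y • (Y₀ y + (τ : ℂ)⁻¹ • Y₁ y + r y)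

variable {Y₀ Y₁ r : R3 → Fin 4 → ℂ}

/-- The gradient of a function. -/
def cgr (f : R3 → ℂ) (y : R3) : C3 := fun j => pd j f y

theorem smooth_wvec (h : ContDiff ℝ ∞ Y₀) (l : Fin 3) : ContDiff ℝ ∞ fun x => wvec Y₀ x l :=
  contDiff_pi.1 h _

theorem smooth_gsc (h : ContDiff ℝ ∞ Y₀) : ContDiff ℝ ∞ (gsc Y₀) := contDiff_pi.1 h 3

theorem smooth_pot (h : ContDiff ℝ ∞ Y₀) (l : Fin 3) : ContDiff ℝ ∞ fun x => pot Y₀ x l :=
  (smooth_wvec h l).add (smooth_pd (smooth_gsc h))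

theorem smooth_qAmp (θ : C3) (h₀ : ContDiff ℝ ∞ Y₀) (h₁ : ContDiff ℝ ∞ Y₁) (hr : ContDiff ℝ ∞ r)
    (τ : ℂ) (l : Fin 3) : ContDiff ℝ ∞ fun x => qAmp θ Y₀ Y₁ r τ x l :=
  (((smooth_pot h₀ l).add (contDiff_const.mul (smooth_pot h₁ l))).add (smooth_pot hr l)).add
    (((smooth_gsc h₁).add (contDiff_const.mul (smooth_gsc hr))).mul contDiff_const)

theorem smooth_qLim (θ : C3) (h₀ : ContDiff ℝ ∞ Y₀) (h₁ : ContDiff ℝ ∞ Y₁) (l : Fin 3) :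
    ContDiff ℝ ∞ fun x => qLim θ Y₀ Y₁ x l :=
  (smooth_pot h₀ l).add ((smooth_gsc h₁).mul contDiff_const)

theorem smooth_toU (C : Coef) {Y : R3 → Fin 4 → ℂ} (hY : ContDiff ℝ ∞ Y) :
    ContDiff ℝ ∞ (toU C Y) := contDiff_pi.2 fun l => by
  have hs : ContDiff ℝ ∞ fun x => ((Real.sqrt (C.mu x))⁻¹ : ℂ) := by
    have h := Complex.ofRealCLM.contDiff.comp (C.smooth_sqrt.inv fun x => (Real.sqrt_pos.2 (C.mu_pos x)).ne')
    simpa [Function.comp_def] using h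
  exact ((hs.mul (contDiff_pi.1 hY _)).add
    ((Complex.ofRealCLM.contDiff.comp C.smooth_nu).mul (smooth_pd (contDiff_pi.1 hY 3)))).sub
    ((contDiff_pi.1 hY 3).mul (Complex.ofRealCLM.contDiff.comp (smooth_pd C.smooth_nu)))

theorem smooth_sol (C : Coef) (θ : C3) (h₀ : ContDiff ℝ ∞ Y₀) (h₁ : ContDiff ℝ ∞ Y₁)
    (hr : ContDiff ℝ ∞ r) (τ : ℝ) : ContDiff ℝ ∞ (sol C θ Y₀ Y₁ r τ) :=
  smooth_toU C ((contDiff_cexpθ τ θ).smul ((h₀.add (h₁.const_smul _)).add hr))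

theorem toU_out (C : Coef) {x : R3} (hx : C.rad < ‖x‖) (Y : R3 → Fin 4 → ℂ) (l : Fin 3) :
    toU C Y x l = wvec Y x l + pd l (gsc Y) x := by
  have he : C.nu =ᶠ[𝓝 x] fun _ => (1 : ℝ) := by
    filter_upwards [(isOpen_lt continuous_const continuous_norm).mem_nhds hx] with y hy
    simp [Coef.nu, C.mu_out y hy.le]
  simp [toU, wvec, gsc, C.mu_out x hx.le, pd_congr he, Coef.nu]
  rfl

theorem sol_out (C : Coef) (θ : C3) (h₀ : ContDiff ℝ ∞ Y₀) (h₁ : ContDiff ℝ ∞ Y₁)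
    (hr : ContDiff ℝ ∞ r) {τ : ℝ} (hτ : τ ≠ 0) {x : R3} (hx : C.rad < ‖x‖) :
    sol C θ Y₀ Y₁ r τ x = cexpθ τ θ x • ampU τ θ (gsc Y₀ x) (qAmp θ Y₀ Y₁ r τ x) := by
  funext l
  rw [sol, toU_out C hx]
  have hd : ∀ {Y : R3 → Fin 4 → ℂ}, ContDiff ℝ ∞ Y → DifferentiableAt ℝ (gsc Y) x := fun h =>
    (smooth_gsc h).differentiable (by simp) x
  have hg : gsc (fun y => cexpθ τ θ y • (Y₀ y + (τ : ℂ)⁻¹ • Y₁ y + r y))
      = fun y => cexpθ τ θ y * ((gsc Y₀ y + (τ : ℂ)⁻¹ * gsc Y₁ y) + gsc r y) := by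
    funext y; simp [gsc]
  rw [hg, pd_mul ((contDiff_cexpθ τ θ).differentiable (by simp) x)
      (((hd h₀).fun_add ((hd h₁).const_mul _)).fun_add (hd hr)),
    pd_add ((hd h₀).fun_add ((hd h₁).const_mul _)) (hd hr), pd_add (hd h₀) ((hd h₁).const_mul _),
    pd_const_mul _ (hd h₁), pd_cexpθ]
  have hτ' : (τ : ℂ) ≠ 0 := Complex.ofReal_ne_zero.2 hτ
  simp [ampU, qAmp, pot, wvec, gsc]
  field_simp
  ring

theorem grad_sol_out (C : Coef) (θ : C3) (h₀ : ContDiff ℝ ∞ Y₀) (h₁ : ContDiff ℝ ∞ Y₁)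
    (hr : ContDiff ℝ ∞ r) {τ : ℝ} (hτ : τ ≠ 0) {x : R3} (hx : C.rad < ‖x‖) :
    grad (sol C θ Y₀ Y₁ r τ) x = cexpθ τ θ x • ampG τ θ (gsc Y₀ x) (cgr (gsc Y₀) x)
      (qAmp θ Y₀ Y₁ r τ x) (grad (qAmp θ Y₀ Y₁ r τ) x) := by
  funext l j
  have he : (fun y => sol C θ Y₀ Y₁ r τ y l) =ᶠ[𝓝 x]
      fun y => cexpθ τ θ y * ((τ : ℂ) * θ l * gsc Y₀ y + qAmp θ Y₀ Y₁ r τ y l) := by
    filter_upwards [(isOpen_lt continuous_const continuous_norm).mem_nhds hx] with y hy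
    rw [sol_out C θ h₀ h₁ hr hτ hy]
    simp only [ampU, Pi.smul_apply, Pi.add_apply, smul_eq_mul]
    ring
  have hd₀ := (smooth_gsc h₀).differentiable (by simp) x
  have hq := (smooth_qAmp θ h₀ h₁ hr (τ : ℂ) l).differentiable (by simp) x
  show pd j (fun y => sol C θ Y₀ Y₁ r τ y l) x = _
  rw [pd_congr he, pd_mul ((contDiff_cexpθ τ θ).differentiable (by simp) x)
      ((hd₀.const_mul _).fun_add hq), pd_add (hd₀.const_mul _) hq, pd_const_mul _ hd₀, pd_cexpθ]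
  simp [ampG, G1, cgr, grad]
  ring

end Vale.Agent.P136.Orth
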