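import Vale.Agent.P136.Mod.Calc

/-!
# The flux identity

For a cut-off equal to one where the coefficients differ, the integral identity says that the flux
of two solutions through the gradient of the cut-off vanishes.
-/

noncomputable section

namespace Vale.Agent.P136.Orth

open MeasureTheory Metric Filter Topology
open scoped BigOperators ContDiff Matrix

/-- The gradient, first index the component. -/
def grad (u : R3 → C3) (x : R3) : Fin 3 → Fin 3 → ℂ := fun l j => pd j (fun y => u y l) x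

/-- The stress. -/
def stress (C : Coef) (u : R3 → C3) (l j : Fin 3) (x : R3) : ℂ :=
  (if l = j then (C.lam x : ℂ) * dvg u x else 0) + 2 * (C.mu x : ℂ) * strain u l j x

/-- The stress of a gradient for the constant moduli `(l₀, 1)`, contracted. -/
def ctr (l₀ : ℂ) (H : C3) (G : Fin 3 → Fin 3 → ℂ) (V : C3) : ℂ :=
  ∑ l, ∑ j, H j * ((if l = j then l₀ * ∑ i, G i i else 0) + (G l j + G j l)) * V l

/-- The gradient of a real function as a complex vector. -/
def cgrad (φ : R3 → ℝ) (x : R3) : C3 := fun j => ((pd j φ x : ℝ) : ℂ)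

/-- The flux density. -/
def dens (l₀ : ℂ) (φ : R3 → ℝ) (u v : R3 → C3) (x : R3) : ℂ :=
  ctr l₀ (cgrad φ x) (grad u x) (v x) - ctr l₀ (cgrad φ x) (grad v x) (u x)

theorem ctr_add_left (l₀ : ℂ) (H : C3) (G G' : Fin 3 → Fin 3 → ℂ) (V : C3) :
    ctr l₀ H (G + G') V = ctr l₀ H G V + ctr l₀ H G' V := by
  simp [ctr, Fin.sum_univ_three]
  ring

theorem ctr_add_right (l₀ : ℂ) (H : C3) (G : Fin 3 → Fin 3 → ℂ) (V V' : C3) :
    ctr l₀ H G (V + V') = ctr l₀ H G V + ctr l₀ H G V' := by
  simp [ctr, Fin.sum_univ_three]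
  ring

theorem ctr_smul_left (l₀ : ℂ) (H : C3) (c : ℂ) (G : Fin 3 → Fin 3 → ℂ) (V : C3) :
    ctr l₀ H (c • G) V = c * ctr l₀ H G V := by
  simp [ctr, Fin.sum_univ_three]
  ring

theorem ctr_smul_right (l₀ : ℂ) (H : C3) (c : ℂ) (G : Fin 3 → Fin 3 → ℂ) (V : C3) :
    ctr l₀ H G (c • V) = c * ctr l₀ H G V := by
  simp [ctr, Fin.sum_univ_three]
  ring

theorem continuous_ctr (l₀ : ℂ) :
    Continuous fun q : C3 × (Fin 3 → Fin 3 → ℂ) × C3 => ctr l₀ q.1 q.2.1 q.2.2 := by
  simp only [ctr, Fin.sum_univ_three, if_true, show ¬((0 : Fin 3) = 1) by decide, show ¬((0 : Fin 3) = 2) by decide,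
    show ¬((1 : Fin 3) = 0) by decide, show ¬((1 : Fin 3) = 2) by decide,
    show ¬((2 : Fin 3) = 0) by decide, show ¬((2 : Fin 3) = 1) by decide, if_false]
  fun_prop

theorem energy_comm (lam mu : R3 → ℝ) (u v : R3 → C3) (x : R3) :
    energy lam mu u v x = energy lam mu v u x := by
  simp only [energy, mul_comm (dvg u x), mul_comm (strain u _ _ x)]

variable {R' : ℝ}

theorem isOpen_ball0 : IsOpen (ball (0 : R3) R') := isOpen_ball

theorem contDiffOn_comp {u : R3 → C3} (hu : ContDiffOn ℝ 2 u (ball 0 R')) (l : Fin 3) :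
    ContDiffOn ℝ 2 (fun y => u y l) (ball 0 R') := contDiffOn_pi.1 hu l

theorem contDiffOn_pd {f : R3 → ℂ} (hf : ContDiffOn ℝ 2 f (ball 0 R')) (j : Fin 3) :
    ContDiffOn ℝ 1 (pd j f) (ball 0 R') :=
  (hf.fderiv_of_isOpen isOpen_ball (by norm_num)).clm_apply contDiffOn_const

theorem contDiffOn_stress (C : Coef) {u : R3 → C3} (hu : ContDiffOn ℝ 2 u (ball 0 R'))
    (l j : Fin 3) : ContDiffOn ℝ 1 (stress C u l j) (ball 0 R') := by
  have hd : ∀ a b, ContDiffOn ℝ 1 (pd a fun y => u y b) (ball 0 R') := fun a b =>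
    contDiffOn_pd (contDiffOn_comp hu b) a
  have hl : ContDiff ℝ 1 fun x => (C.lam x : ℂ) :=
    Complex.ofRealCLM.contDiff.comp (C.smooth_lam.of_le (by exact_mod_cast le_top))
  have hm : ContDiff ℝ 1 fun x => (C.mu x : ℂ) :=
    Complex.ofRealCLM.contDiff.comp (C.smooth_mu.of_le (by exact_mod_cast le_top))
  have h2 : ContDiffOn ℝ 1 (strain u l j) (ball 0 R') := ((hd j l).add (hd l j)).div_const (2 : ℂ)
  have h3 : ContDiffOn ℝ 1 (dvg u) (ball 0 R') := ContDiffOn.sum fun a _ => hd a a
  have h4 := ((contDiffOn_const (c := (2 : ℂ))).mul hm.contDiffOn).mul h2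
  unfold stress
  by_cases h : l = j
  · simp only [if_pos h]; exact (hl.contDiffOn.mul h3).add h4
  · simp only [if_neg h]; exact contDiffOn_const.add h4

theorem lame_eq (C : Coef) {u : R3 → C3} (hu : ContDiffOn ℝ 2 u (ball 0 R')) {x : R3}
    (hx : x ∈ ball 0 R') (l : Fin 3) : lame C.lam C.mu u x l = ∑ j, pd j (stress C u l j) x := by
  have hd : ∀ a b, DifferentiableAt ℝ (pd a fun y => u y b) x := fun a b =>
    ((contDiffOn_pd (contDiffOn_comp hu b) a).contDiffAt (isOpen_ball.mem_nhds hx)).differentiableAt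
      one_ne_zero
  have hl : DifferentiableAt ℝ (fun y => (C.lam y : ℂ)) x :=
    (Complex.ofRealCLM.contDiff.comp C.smooth_lam).differentiable (by simp) x
  have hm : DifferentiableAt ℝ (fun y => (C.mu y : ℂ)) x :=
    (Complex.ofRealCLM.contDiff.comp C.smooth_mu).differentiable (by simp) x
  have h3 : DifferentiableAt ℝ (dvg u) x := DifferentiableAt.fun_sum fun a _ => hd a a
  have h4 : ∀ j, DifferentiableAt ℝ (fun y => 2 * (C.mu y : ℂ) * strain u l j y) x := fun j =>
    (hm.const_mul (2 : ℂ)).fun_mul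
      (show DifferentiableAt ℝ (fun y => strain u l j y) x by
        simp only [strain, div_eq_mul_inv]; exact ((hd j l).fun_add (hd l j)).mul_const _)
  have h : ∀ j, pd j (stress C u l j) x = (if l = j then pd j (fun y => (C.lam y : ℂ) * dvg u y) x
      else 0) + pd j (fun y => 2 * (C.mu y : ℂ) * strain u l j y) x := by
    intro j
    unfold stress
    split_ifs
    · exact pd_add (hl.mul h3) (h4 j)
    · simp
  simp [lame, h, Finset.sum_add_distrib]

theorem sum_stress_grad (C : Coef) (u v : R3 → C3) (x : R3) :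
    ∑ l, ∑ j, stress C u l j x * grad v x l j = energy C.lam C.mu u v x := by
  simp [stress, energy, grad, strain, dvg, Fin.sum_univ_three]
  ring

variable {φ : R3 → ℝ}

theorem pd_eq_zero_of_not_tsupport {x : R3} (hx : x ∉ tsupport φ) (j : Fin 3) : pd j φ x = 0 := by
  rw [pd_congr (notMem_tsupport_iff_eventuallyEq.mp hx)]
  exact pd_const 0

theorem hasCompactSupport_of_ball (hs : tsupport φ ⊆ ball 0 R') : HasCompactSupport φ :=
  (isBounded_ball.subset hs).isCompact_closure.of_isClosed_subset (isClosed_tsupport φ)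
    subset_closure

theorem contDiff_cut {n : WithTop ℕ∞} {g : R3 → ℂ} (hg : ContDiffOn ℝ n g (ball 0 R'))
    (hs : tsupport φ ⊆ ball 0 R') (h0 : ∀ x, x ∉ tsupport φ → g x = 0) : ContDiff ℝ n g :=
  contDiff_iff_contDiffAt.2 fun x => by
    by_cases hx : x ∈ tsupport φ
    · exact hg.contDiffAt (isOpen_ball.mem_nhds (hs hx))
    · refine (contDiffAt_const (c := (0 : ℂ))).congr_of_eventuallyEq ?_
      filter_upwards [(isClosed_tsupport φ).isOpen_compl.mem_nhds hx] with y hy using h0 y hy

theorem integrable_cut {g : R3 → ℂ} (hg : ContinuousOn g (ball 0 R'))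
    (hs : tsupport φ ⊆ ball 0 R') (h0 : ∀ x, x ∉ tsupport φ → g x = 0) : Integrable g :=
  (contDiff_zero.1 (contDiff_cut (n := 0) (contDiffOn_zero.2 hg) hs h0)).integrable_of_hasCompactSupport
    (HasCompactSupport.intro (hasCompactSupport_of_ball hs) h0)

/-- Integration by parts against a cut-off. -/
theorem green (C : Coef) {u v : R3 → C3} (hu : ContDiffOn ℝ 2 u (ball 0 R'))
    (hv : ContDiffOn ℝ 2 v (ball 0 R')) (hsol : ∀ x ∈ ball 0 R', lame C.lam C.mu u x = 0)
    (hφ : ContDiff ℝ ∞ φ) (hs : tsupport φ ⊆ ball 0 R') :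
    Integrable (fun x => (φ x : ℂ) * energy C.lam C.mu u v x) ∧
      Integrable (fun x => ∑ l, ∑ j, ((pd j φ x : ℝ) : ℂ) * stress C u l j x * v x l) ∧
      ∫ x, (φ x : ℂ) * energy C.lam C.mu u v x
        = -∫ x, ∑ l, ∑ j, ((pd j φ x : ℝ) : ℂ) * stress C u l j x * v x l := by
  have hv1 : ∀ l, ContDiffOn ℝ 1 (fun y => v y l) (ball 0 R') := fun l =>
    (contDiffOn_comp hv l).of_le (by norm_num)
  have hφc : ContDiff ℝ 1 fun y => (φ y : ℂ) :=
    Complex.ofRealCLM.contDiff.comp (hφ.of_le (by exact_mod_cast le_top))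
  have hst := fun l j => (contDiffOn_stress C hu l j).continuousOn
  have hgr : ∀ l j, ContinuousOn (fun x => grad v x l j) (ball 0 R') := fun l j =>
    (contDiffOn_pd (contDiffOn_comp hv l) j).continuousOn
  have hp : ∀ j, Continuous fun x => ((pd j φ x : ℝ) : ℂ) := fun j =>
    Complex.continuous_ofReal.comp (smooth_pd hφ).continuous
  have hA : Integrable fun x => ∑ l, ∑ j, ((pd j φ x : ℝ) : ℂ) * stress C u l j x * v x l := by
    refine integrable_cut ?_ hs fun x hx => by simp [pd_eq_zero_of_not_tsupport hx]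
    exact continuousOn_finsetSum _ fun l _ => continuousOn_finsetSum _ fun j _ =>
      (((hp j).continuousOn.mul (hst l j)).mul (hv1 l).continuousOn)
  have hB : Integrable fun x => (φ x : ℂ) * energy C.lam C.mu u v x := by
    refine integrable_cut ?_ hs fun x hx => by simp [image_eq_zero_of_notMem_tsupport hx]
    refine hφc.continuous.continuousOn.mul ?_
    refine ContinuousOn.congr ?_ fun x _ => (sum_stress_grad C u v x).symm
    exact continuousOn_finsetSum _ fun l _ => continuousOn_finsetSum _ fun j _ =>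
      (hst l j).mul (hgr l j)
  refine ⟨hB, hA, ?_⟩
  let F : Fin 3 → R3 → ℂ := fun j x => ∑ l, (φ x : ℂ) * (stress C u l j x * v x l)
  have hF0 : ∀ j x, x ∉ tsupport φ → F j x = 0 := fun j x hx => by
    simp [F, image_eq_zero_of_notMem_tsupport hx]
  have hF : ∀ j, ContDiff ℝ 1 (F j) := fun j => by
    refine contDiff_cut ?_ hs (hF0 j)
    exact ContDiffOn.sum fun l _ =>
      hφc.contDiffOn.mul ((contDiffOn_stress C hu l j).mul (hv1 l))
  have hFs : ∀ j, HasCompactSupport (F j) := fun j =>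
    HasCompactSupport.intro (hasCompactSupport_of_ball hs) (hF0 j)
  have hdiv : ∀ x, ∑ j, pd j (F j) x = (φ x : ℂ) * energy C.lam C.mu u v x
      + ∑ l, ∑ j, ((pd j φ x : ℝ) : ℂ) * stress C u l j x * v x l := by
    intro x
    by_cases hx : x ∈ tsupport φ
    · have hxb := hs hx
      have hds : ∀ l j, DifferentiableAt ℝ (stress C u l j) x := fun l j =>
        ((contDiffOn_stress C hu l j).contDiffAt (isOpen_ball.mem_nhds hxb)).differentiableAt one_ne_zero
      have hdv : ∀ l, DifferentiableAt ℝ (fun y => v y l) x := fun l =>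
        ((hv1 l).contDiffAt (isOpen_ball.mem_nhds hxb)).differentiableAt one_ne_zero
      have hdf : DifferentiableAt ℝ (fun y => (φ y : ℂ)) x := hφc.differentiable one_ne_zero x
      have hlz : ∀ l, ∑ j, pd j (stress C u l j) x = 0 := fun l => by
        rw [← lame_eq C hu hxb l, hsol x hxb]; rfl
      have he : ∀ j, pd j (F j) x = ∑ l, (((pd j φ x : ℝ) : ℂ) * (stress C u l j x * v x l)
          + (φ x : ℂ) * (pd j (stress C u l j) x * v x l + stress C u l j x * grad v x l j)) := by
        intro j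
        simp only [F]
        have hdj : ∀ l ∈ (Finset.univ : Finset (Fin 3)),
            DifferentiableAt ℝ (fun y => (φ y : ℂ) * (stress C u l j y * v y l)) x :=
          fun l _ => hdf.mul ((hds l j).mul (hdv l))
        rw [pd_sum _ hdj]
        refine Finset.sum_congr rfl fun l _ => ?_
        rw [pd_mul hdf ((hds l j).fun_mul (hdv l)), pd_mul (hds l j) (hdv l),
          pd_ofReal (hφ.differentiable (by simp) x)]
        rfl
      rw [← sum_stress_grad C u v x]
      simp only [he]
      rw [Finset.sum_comm]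
      simp only [Finset.sum_add_distrib, ← Finset.mul_sum, ← Finset.sum_mul, hlz, zero_mul,
        zero_add, mul_assoc]
      ring
    · have : ∀ j, pd j (F j) x = 0 := fun j => by
        rw [pd_congr (g := fun _ => (0 : ℂ)) ?_]
        · exact pd_const 0
        · filter_upwards [(isClosed_tsupport φ).isOpen_compl.mem_nhds hx] with y hy using hF0 j y hy
      simp [this, image_eq_zero_of_notMem_tsupport hx, pd_eq_zero_of_not_tsupport hx]
  have hint : ∀ j, Integrable (pd j (F j)) := fun j =>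
    (((hF j).continuous_fderiv one_ne_zero).clm_apply continuous_const).integrable_of_hasCompactSupport
      ((hFs j).fderiv_apply ℝ _)
  have h0 : ∫ x, ∑ j, pd j (F j) x = 0 := by
    rw [integral_finsetSum _ fun j _ => hint j]
    simp [fun j => integral_pd j (hF j) (hFs j)]
  simp only [hdiv] at h0
  rw [integral_add hB hA] at h0
  exact eq_neg_of_add_eq_zero_left h0

/-- The flux of a solution of each system through the gradient of the cut-off vanishes. -/
theorem flux_zero {C₁ C₂ : Coef} {R : ℝ} (hE : EqOut C₁ C₂ R) (hI : IntId C₁ C₂ R) {r₀ : ℝ}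
    (hr : R < r₀) (hR' : R < R') {u v : R3 → C3} (hu : ContDiffOn ℝ 2 u (ball 0 R'))
    (hv : ContDiffOn ℝ 2 v (ball 0 R')) (hus : ∀ x ∈ ball 0 R', lame C₁.lam C₁.mu u x = 0)
    (hvs : ∀ x ∈ ball 0 R', lame C₂.lam C₂.mu v x = 0) (hφ : ContDiff ℝ ∞ φ)
    (hs : tsupport φ ⊆ ball 0 R') (h1 : ∀ x ∈ closedBall (0 : R3) r₀, φ x = 1) :
    ∫ x, dens (C₁.lam0 : ℂ) φ u v x = 0 := by
  obtain ⟨iB₁, iA₁, g₁⟩ := green C₁ hu hv hus hφ hs
  obtain ⟨iB₂, iA₂, g₂⟩ := green C₂ hv hu hvs hφ hs
  have hlhs : ∫ x, ((φ x : ℂ) * energy C₁.lam C₁.mu u v x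
      - (φ x : ℂ) * energy C₂.lam C₂.mu v u x) = 0 := by
    have h := hI R' u v hR' hu hv hus hvs
    rw [← integral_indicator measurableSet_ball] at h
    rw [← h]
    refine integral_congr_ae (Eventually.of_forall fun x => ?_)
    dsimp only
    rw [energy_comm C₂.lam C₂.mu v u x]
    by_cases hx : x ∈ ball (0 : R3) R
    · rw [Set.indicator_of_mem hx, h1 x (closedBall_subset_closedBall hr.le (ball_subset_closedBall hx))]
      simp
    · rw [Set.indicator_of_notMem hx, ← mul_sub]
      have hx' : R ≤ ‖x‖ := by simpa using hx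
      simp [energy, hE.lam x hx', hE.mu x hx']
  rw [integral_sub iB₁ iB₂, g₁, g₂] at hlhs
  have hpt : ∀ x, (∑ l, ∑ j, ((pd j φ x : ℝ) : ℂ) * stress C₁ u l j x * v x l)
      - (∑ l, ∑ j, ((pd j φ x : ℝ) : ℂ) * stress C₂ v l j x * u x l) = dens (C₁.lam0 : ℂ) φ u v x := by
    intro x
    by_cases hx : x ∈ ball (0 : R3) r₀
    · have : ∀ j, pd j φ x = 0 := fun j => by
        rw [pd_congr (g := fun _ => (1 : ℝ)) ?_]
        · exact pd_const 1
        · filter_upwards [isOpen_ball.mem_nhds hx] with y hy using h1 y (ball_subset_closedBall hy)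
      simp [dens, ctr, cgrad, this]
    · have hx' : R ≤ ‖x‖ := hr.le.trans (by simpa using hx)
      have e₁ := C₁.lam_out x (hE.rad₁.trans hx')
      have e₂ := C₁.mu_out x (hE.rad₁.trans hx')
      simp [dens, ctr, cgrad, grad, stress, strain, dvg, ← hE.lam x hx', ← hE.mu x hx', e₁, e₂,
        Fin.sum_univ_three]
      ring
  simp only [← hpt]
  rw [integral_sub iA₁ iA₂]
  linear_combination -hlhs

theorem intId_self (C : Coef) (R : ℝ) : IntId C C R := fun _ _ _ _ _ _ _ _ => by simp

end Vale.Agent.P136.Orth
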