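import Vale.Agent.P136.Spec

/-!
The weighted commutator identity on the planes of a null vector, for scalar functions.
-/

noncomputable section

namespace Vale.Agent.P136.PlaneB

open MeasureTheory Metric Function
open scoped ComplexConjugate

theorem cont_dv {f : R3 → ℂ} (hf : ContDiff ℝ 1 f) (w : R3) :
    Continuous fun x => fderiv ℝ f x w :=
  (hf.continuous_fderiv one_ne_zero).clm_apply continuous_const

theorem supp_dv {f : R3 → ℂ} (hf : HasCompactSupport f) (w : R3) :
    HasCompactSupport fun x => fderiv ℝ f x w :=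
  hf.fderiv_apply (𝕜 := ℝ) w

theorem ibp {f g : R3 → ℂ} (hf : ContDiff ℝ 1 f) (hfs : HasCompactSupport f)
    (hg : ContDiff ℝ 1 g) (w : R3) :
    ∫ x, f x * fderiv ℝ g x w = -∫ x, fderiv ℝ f x w * g x := by
  have hd : ∀ {h : R3 → ℂ}, ContDiff ℝ 1 h → ∀ x, DifferentiableAt ℝ h x :=
    fun h x => (h.differentiable one_ne_zero) x
  refine integral_mul_fderiv_eq_neg_fderiv_mul_of_integrable ?_ ?_ ?_
    (fun x _ => hd hf x) (fun x _ => hd hg x)
  · exact ((cont_dv hf w).mul hg.continuous).integrable_of_hasCompactSupport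
      ((supp_dv hfs w).mul_right)
  · exact (hf.continuous.mul (cont_dv hg w)).integrable_of_hasCompactSupport hfs.mul_right
  · exact (hf.continuous.mul hg.continuous).integrable_of_hasCompactSupport hfs.mul_right

theorem deriv_shift {f g : R3 → ℂ} (hf : ContDiff ℝ 1 f) (hfs : HasCompactSupport f)
    (hg : Continuous g) (hgs : HasCompactSupport g) (A : R3) :
    HasDerivAt (fun s : ℝ => ∫ x, f (x + s • A) * g x) (∫ x, fderiv ℝ f x A * g x) 0 := by
  obtain ⟨C, hC⟩ := (supp_dv hfs A).exists_bound_of_continuous (cont_dv hf A)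
  have hsh : ∀ s : ℝ, Continuous fun x => f (x + s • A) * g x := fun s =>
    (hf.continuous.comp (continuous_id.add continuous_const)).mul hg
  have h := hasDerivAt_integral_of_dominated_loc_of_deriv_le (μ := (volume : Measure R3))
    (F := fun (s : ℝ) (x : R3) => f (x + s • A) * g x)
    (F' := fun (s : ℝ) (x : R3) => fderiv ℝ f (x + s • A) A * g x)
    (bound := fun x => C * ‖g x‖) (x₀ := 0) (s := Set.univ) Filter.univ_mem
    (Filter.Eventually.of_forall fun s => (hsh s).aestronglyMeasurable)
    ((hsh 0).integrable_of_hasCompactSupport hgs.mul_left)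
    ((((cont_dv hf A).comp (continuous_id.add continuous_const)).mul hg).aestronglyMeasurable)
    (Filter.Eventually.of_forall fun x s _ => by
      rw [norm_mul]; exact mul_le_mul_of_nonneg_right (hC _) (norm_nonneg _))
    ((hg.norm.const_mul C).integrable_of_hasCompactSupport hgs.norm.mul_left)
    (Filter.Eventually.of_forall fun x s _ => by
      have h1 : HasDerivAt (fun r : ℝ => x + r • A) A s := by
        simpa using ((hasDerivAt_id s).smul_const A).const_add x
      exact (((hf.differentiable one_ne_zero) _).hasFDerivAt.comp_hasDerivAt s h1).mul_const _)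
  simpa using h.2

theorem swap {a b : R3 → ℂ} (ha : ContDiff ℝ 1 a) (has : HasCompactSupport a)
    (hb : ContDiff ℝ 1 b) (hbs : HasCompactSupport b) (A B : R3) :
    ∫ x, fderiv ℝ a x A * fderiv ℝ b x B = ∫ x, fderiv ℝ a x B * fderiv ℝ b x A := by
  have h1 := deriv_shift ha has (cont_dv hb B) (supp_dv hbs B) A
  have h2 := (deriv_shift hb hbs (cont_dv ha B) (supp_dv has B) (-A)).neg
  have heq : (fun s : ℝ => ∫ x, a (x + s • A) * fderiv ℝ b x B)
      = fun s : ℝ => -∫ x, b (x + s • -A) * fderiv ℝ a x B := by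
    funext s
    rw [ibp (f := fun x => a (x + s • A)) (ha.comp (contDiff_id.add contDiff_const))
      (has.comp_homeomorph (Homeomorph.addRight (s • A))) hb B]
    congr 1
    rw [← integral_add_right_eq_self (fun x => b (x + s • -A) * fderiv ℝ a x B) (s • A)]
    congr 1
    funext x
    rw [fderiv_comp_add_right]
    simp [smul_neg, mul_comm]
  rw [heq] at h1
  have := h1.unique h2
  rw [this]
  rw [← integral_neg]
  congr 1
  funext x
  simp [mul_comm]

/-- real part of a complex vector -/
def reV (θ : C3) : R3 := WithLp.toLp 2 fun i => (θ i).re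

/-- imaginary part of a complex vector -/
def imV (θ : C3) : R3 := WithLp.toLp 2 fun i => (θ i).im

/-- the complex linear coordinate of the planes -/
def ell (θ : C3) : R3 →L[ℝ] ℂ :=
  ∑ i, θ i • (Complex.ofRealCLM.comp (EuclideanSpace.proj i))

theorem ell_apply (θ : C3) (x : R3) : ell θ x = ∑ i, θ i * (x i : ℂ) := by
  simp [ell, ContinuousLinearMap.sum_apply]

theorem ell_null {θ : C3} (h : ∑ i, θ i ^ 2 = 0) :
    ell θ (reV θ) + Complex.I * ell θ (imV θ) = 0 := by
  rw [← h, ell_apply, ell_apply, Finset.mul_sum, ← Finset.sum_add_distrib]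
  refine Finset.sum_congr rfl fun i _ => ?_
  simp only [reV, imV]
  apply Complex.ext <;> simp [sq] <;> ring

theorem ell_conj (θ : C3) :
    conj (ell θ (reV θ)) + Complex.I * conj (ell θ (imV θ)) = ((∑ i, ‖θ i‖ ^ 2 : ℝ) : ℂ) := by
  rw [ell_apply, ell_apply, map_sum, map_sum, Finset.mul_sum, ← Finset.sum_add_distrib,
    Complex.ofReal_sum]
  refine Finset.sum_congr rfl fun i _ => ?_
  rw [Complex.sq_norm, Complex.normSq_apply]
  simp only [reV, imV]
  apply Complex.ext <;> simp <;> ring

theorem dD_scalar (θ : C3) (f : R3 → ℂ) (x : R3) :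
    dD θ f x = fderiv ℝ f x (reV θ) + Complex.I * fderiv ℝ f x (imV θ) := by
  have hd : ∀ w : R3, fderiv ℝ f x w = ∑ i, (w i : ℂ) * pd i f x := by
    intro w
    have hw : w = ∑ i, (w i) • EuclideanSpace.single i (1 : ℝ) := by
      ext j; simp [Pi.single_apply]
    conv_lhs => rw [hw]
    simp [pd, map_sum, map_smul]
  rw [hd, hd, Finset.mul_sum, ← Finset.sum_add_distrib]
  refine Finset.sum_congr rfl fun i _ => ?_
  simp only [reV, imV, smul_eq_mul]
  rw [← mul_assoc, ← add_mul, mul_comm Complex.I, Complex.re_add_im]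

theorem fderiv_conj' {f : R3 → ℂ} {x : R3} (hf : DifferentiableAt ℝ f x) (w : R3) :
    fderiv ℝ (fun y => conj (f y)) x w = conj (fderiv ℝ f x w) := by
  have h := ((Complex.conjCLE : ℂ →L[ℝ] ℂ).hasFDerivAt.comp x hf.hasFDerivAt)
  exact DFunLike.congr_fun h.fderiv w

/-- the weighted bound for one scalar component -/
theorem scalar_bound {θ : C3} (hθ : ∑ i, θ i ^ 2 = 0) (m : ℝ) {v : R3 → ℂ} (hv : ContDiff ℝ 1 v)
    (hvs : HasCompactSupport v) :
    2 * m * (∑ i, ‖θ i‖ ^ 2) ^ 2 * ∫ x, Real.exp (2 * m * ‖ell θ x‖ ^ 2) * ‖v x‖ ^ 2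
      ≤ ∫ x, Real.exp (2 * m * ‖ell θ x‖ ^ 2) * ‖dD θ v x‖ ^ 2 := by
  set N : ℝ := ∑ i, ‖θ i‖ ^ 2 with hN
  set A := reV θ
  set B := imV θ
  set l := ell θ
  set e : R3 → ℂ := fun x => Complex.exp ((m : ℂ) * (l x * conj (l x))) with he
  set u : R3 → ℂ := fun x => e x * v x with hu
  have hl : ContDiff ℝ 1 (fun x => l x) := l.contDiff
  have hlc : ContDiff ℝ 1 (fun x => conj (l x)) := Complex.conjCLE.contDiff.comp hl
  have hec : ContDiff ℝ 1 e := (contDiff_const.mul (hl.mul hlc)).cexp
  have huc : ContDiff ℝ 1 u := hec.mul hv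
  have hus : HasCompactSupport u := hvs.mul_left
  have hub : ContDiff ℝ 1 (fun x => conj (u x)) := Complex.conjCLE.contDiff.comp huc
  have hubs : HasCompactSupport (fun x => conj (u x)) := hus.comp_left (map_zero conj)
  set q : R3 → ℂ := fun x => conj (u x) * u x with hq
  have hqc : ContDiff ℝ 1 q := hub.mul huc
  have hqs : HasCompactSupport q := hus.mul_left
  set a : R3 → ℂ := fun x => (m : ℂ) * N * l x with ha
  have hac : ContDiff ℝ 1 a := contDiff_const.mul hl
  have hab : ContDiff ℝ 1 (fun x => conj (a x)) := Complex.conjCLE.contDiff.comp hac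
  have hd1 : ∀ {f : R3 → ℂ}, ContDiff ℝ 1 f → ∀ x, DifferentiableAt ℝ f x :=
    fun h x => (h.differentiable one_ne_zero) x
  have hDl : ∀ x w, fderiv ℝ (fun y => l y) x w = l w := fun x w => by
    rw [show (fun y => l y) = ⇑l from rfl, l.fderiv]
  have hDlc : ∀ x w, fderiv ℝ (fun y => conj (l y)) x w = conj (l w) := fun x w => by
    rw [fderiv_conj' (hd1 hl x), hDl]
  have hDe : ∀ x w, fderiv ℝ e x w
      = e x * ((m : ℂ) * (l w * conj (l x) + l x * conj (l w))) := by
    intro x w
    have hexp := ((hd1 hl x).hasFDerivAt.mul (hd1 hlc x).hasFDerivAt).const_mul (m : ℂ)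
    have := hexp.cexp.fderiv
    rw [show fderiv ℝ e x = _ from this]
    simp [hDl, hDlc, he]
    ring
  have hDu : ∀ x w, fderiv ℝ u x w = fderiv ℝ e x w * v x + e x * fderiv ℝ v x w := by
    intro x w
    rw [show fderiv ℝ u x = _ from ((hd1 hec x).hasFDerivAt.mul (hd1 hv x).hasFDerivAt).fderiv]
    simp
    ring
  have hP : ∀ x, e x * dD θ v x
      = fderiv ℝ u x A + Complex.I * fderiv ℝ u x B - a x * u x := by
    intro x
    rw [dD_scalar, hDu, hDu, hDe, hDe]
    have h1 := ell_null hθ
    have h2 := ell_conj θ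
    simp only [ha, hu]
    linear_combination (-(e x * v x * (m : ℂ) * conj (l x))) * h1
      + (-(e x * v x * (m : ℂ) * l x)) * h2
  have hDa : ∀ x, fderiv ℝ (fun y => conj (a y)) x A + Complex.I * fderiv ℝ (fun y => conj (a y)) x B
      = (m : ℂ) * N * N := by
    intro x
    have hf : ∀ w, fderiv ℝ (fun y => conj (a y)) x w = (m : ℂ) * N * conj (l w) := by
      intro w
      rw [fderiv_conj' (hd1 hac x), show fderiv ℝ a x = _ from
        ((hd1 hl x).hasFDerivAt.const_mul ((m : ℂ) * N)).fderiv]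
      simp [hDl]
    rw [hf, hf]
    linear_combination ((m : ℂ) * N) * ell_conj θ
  have hDa' : ∀ x, fderiv ℝ a x A - Complex.I * fderiv ℝ a x B = (m : ℂ) * N * N := by
    intro x
    have h := congrArg conj (hDa x)
    rw [fderiv_conj' (hd1 hac x), fderiv_conj' (hd1 hac x)] at h
    simpa [sub_eq_add_neg] using h
  have hDq : ∀ x w, fderiv ℝ q x w
      = conj (fderiv ℝ u x w) * u x + conj (u x) * fderiv ℝ u x w := by
    intro x w
    rw [show fderiv ℝ q x = _ from ((hd1 hub x).hasFDerivAt.mul (hd1 huc x).hasFDerivAt).fderiv]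
    simp [fderiv_conj' (hd1 huc x)]
    ring
  have key : ∀ x, conj (e x * dD θ v x) * (e x * dD θ v x)
      - (conj (fderiv ℝ u x A - Complex.I * fderiv ℝ u x B + conj (a x) * u x)
          * (fderiv ℝ u x A - Complex.I * fderiv ℝ u x B + conj (a x) * u x))
      = 2 * Complex.I * (conj (fderiv ℝ u x A) * fderiv ℝ u x B
          - conj (fderiv ℝ u x B) * fderiv ℝ u x A)
        - (conj (a x) * fderiv ℝ q x A + Complex.I * (conj (a x) * fderiv ℝ q x B))
        - (a x * fderiv ℝ q x A - Complex.I * (a x * fderiv ℝ q x B)) := by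
    intro x
    rw [hP, hDq, hDq]
    simp only [map_add, map_sub, map_mul, Complex.conj_I, Complex.conj_conj]
    ring
  have int : ∀ {f : R3 → ℂ}, Continuous f → HasCompactSupport f → Integrable f :=
    fun hf hfs => hf.integrable_of_hasCompactSupport hfs
  have i0 : Integrable fun x => conj (fderiv ℝ u x A) * fderiv ℝ u x B :=
    int ((Complex.continuous_conj.comp (cont_dv huc A)).mul (cont_dv huc B))
      (supp_dv hus B).mul_left
  have i0' : Integrable fun x => conj (fderiv ℝ u x B) * fderiv ℝ u x A :=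
    int ((Complex.continuous_conj.comp (cont_dv huc B)).mul (cont_dv huc A))
      (supp_dv hus A).mul_left
  have i1 : ∀ w, Integrable fun x => conj (a x) * fderiv ℝ q x w := fun w =>
    int (hab.continuous.mul (cont_dv hqc w)) (supp_dv hqs w).mul_left
  have i2 : ∀ w, Integrable fun x => a x * fderiv ℝ q x w := fun w =>
    int (hac.continuous.mul (cont_dv hqc w)) (supp_dv hqs w).mul_left
  have I0 : (∫ x, conj (fderiv ℝ u x A) * fderiv ℝ u x B)
      = ∫ x, conj (fderiv ℝ u x B) * fderiv ℝ u x A := by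
    have h := swap hub hubs huc hus A B
    simpa [fderiv_conj' (hd1 huc _)] using h
  have I1 : ∀ (c : R3 → ℂ), ContDiff ℝ 1 c → ∀ w,
      ∫ x, c x * fderiv ℝ q x w = -∫ x, fderiv ℝ c x w * q x := by
    intro c hc w
    have h := ibp hqc hqs hc w
    simp only [mul_comm (q _)] at h
    rw [h]
    simp [mul_comm]
  have iq : ∀ {c : R3 → ℂ}, ContDiff ℝ 1 c → ∀ w, Integrable fun x => fderiv ℝ c x w * q x :=
    fun hc w => int ((cont_dv hc w).mul hqc.continuous) hqs.mul_left
  have J1 : ∫ x, (conj (a x) * fderiv ℝ q x A + Complex.I * (conj (a x) * fderiv ℝ q x B))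
      = -((m : ℂ) * N * N * ∫ x, q x) := by
    rw [integral_add (i1 A) ((i1 B).const_mul _), integral_const_mul, I1 _ hab, I1 _ hab,
      ← integral_const_mul (((m : ℂ) * N * N)), mul_neg, ← neg_add, ← integral_const_mul,
      ← integral_add (iq hab A) ((iq hab B).const_mul _)]
    congr 2
    funext x
    rw [← hDa x]; ring
  have J2 : ∫ x, (a x * fderiv ℝ q x A - Complex.I * (a x * fderiv ℝ q x B))
      = -((m : ℂ) * N * N * ∫ x, q x) := by
    rw [integral_sub (i2 A) ((i2 B).const_mul _), integral_const_mul, I1 _ hac, I1 _ hac,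
      ← integral_const_mul (((m : ℂ) * N * N)), mul_neg, sub_neg_eq_add, neg_add_eq_sub,
      ← neg_sub, ← integral_const_mul,
      ← integral_sub (iq hac A) ((iq hac B).const_mul _)]
    congr 2
    funext x
    rw [← hDa' x]; ring
  set Q : R3 → ℂ := fun x => fderiv ℝ u x A - Complex.I * fderiv ℝ u x B + conj (a x) * u x with hQ
  have hQc : Continuous Q := ((cont_dv huc A).sub (continuous_const.mul (cont_dv huc B))).add
    (hab.continuous.mul huc.continuous)
  have hQs : HasCompactSupport Q :=
    ((supp_dv hus A).sub (supp_dv hus B).mul_left).add hus.mul_left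
  have hLc : Continuous fun x => e x * dD θ v x := by
    simp only [dD_scalar]
    exact hec.continuous.mul ((cont_dv hv A).add (continuous_const.mul (cont_dv hv B)))
  have hLs : HasCompactSupport fun x => e x * dD θ v x := by
    simp only [dD_scalar]
    exact ((supp_dv hvs A).add (supp_dv hvs B).mul_left).mul_left
  have total : (∫ x, conj (e x * dD θ v x) * (e x * dD θ v x)) - ∫ x, conj (Q x) * Q x
      = 2 * (m : ℂ) * N * N * ∫ x, q x := by
    have ia : Integrable fun x => conj (e x * dD θ v x) * (e x * dD θ v x) :=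
      int ((Complex.continuous_conj.comp hLc).mul hLc) hLs.mul_left
    have ib : Integrable fun x => conj (Q x) * Q x :=
      int ((Complex.continuous_conj.comp hQc).mul hQc) hQs.mul_left
    have icross := (i0.sub i0').const_mul (2 * Complex.I)
    have ic1 : Integrable fun x =>
        conj (a x) * fderiv ℝ q x A + Complex.I * (conj (a x) * fderiv ℝ q x B) :=
      (i1 A).add ((i1 B).const_mul _)
    have ic2 : Integrable fun x =>
        a x * fderiv ℝ q x A - Complex.I * (a x * fderiv ℝ q x B) :=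
      (i2 A).sub ((i2 B).const_mul _)
    rw [← integral_sub ia ib, integral_congr_ae (Filter.Eventually.of_forall key),
      integral_sub (by exact icross.sub ic1) ic2, integral_sub (by exact icross) ic1,
      integral_const_mul, integral_sub i0 i0', I0, sub_self, J1, J2]
    ring
  have sqn : ∀ z : ℂ, conj z * z = ((‖z‖ ^ 2 : ℝ) : ℂ) := fun z => by
    rw [Complex.conj_mul', Complex.ofReal_pow]
  have hne : ∀ x, ‖e x‖ ^ 2 = Real.exp (2 * m * ‖l x‖ ^ 2) := fun x => by
    rw [he]
    simp only [Complex.norm_exp, Complex.mul_conj', ← Complex.ofReal_pow, ← Complex.ofReal_mul,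
      Complex.ofReal_re]
    rw [← Real.exp_nat_mul]
    congr 1
    ring
  simp only [hq, sqn, integral_complex_ofReal, hu] at total
  simp only [norm_mul, mul_pow, hne] at total
  have h0 : (0 : ℝ) ≤ ∫ x, ‖Q x‖ ^ 2 := integral_nonneg fun x => sq_nonneg _
  have htot : (∫ x, Real.exp (2 * m * ‖l x‖ ^ 2) * ‖dD θ v x‖ ^ 2) - (∫ x, ‖Q x‖ ^ 2)
      = 2 * m * N * N * ∫ x, Real.exp (2 * m * ‖l x‖ ^ 2) * ‖v x‖ ^ 2 := by
    exact_mod_cast total
  rw [show 2 * m * N ^ 2 = 2 * m * N * N by ring, ← htot]
  linarith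

end Vale.Agent.P136.PlaneB
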