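import Vale.Agent.P136.Mod.PlaneExistEval

/-!
# A degenerate variational problem with smooth solutions

For a first order operator `L = ∑ cᵢ ∂ᵢ + A` on the whole space and a cutoff `1 - ζ` with an
a priori bound `‖φ‖² ≤ K (‖L φ‖² + ‖(1 - ζ) φ‖²)`, the problem `L* (L w - f₁) + (1 - ζ)² w = f₀`
has a smooth solution of finite energy. Smoothness holds because the translated problems depend
smoothly on the shift.
-/

noncomputable section

namespace Vale.Agent.P136.PlaneExist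

open MeasureTheory Metric Function Set Filter
open scoped ContDiff Topology RealInnerProductSpace

set_option linter.unusedSectionVars false

variable {F : Type*} [NormedAddCommGroup F] [InnerProductSpace ℝ F] [FiniteDimensional ℝ F]

theorem integrable_inner_test {f η : R3 → F} (hf : Continuous f) (hη : IsTest η) :
    Integrable fun x => ⟪f x, η x⟫ :=
  (hf.inner hη.continuous).integrable_of_hasCompactSupport
    (hη.2.mono fun x hx h => hx (by simp [h]))

theorem ae_eq_of_inner_test {f g : R3 → F} (hf : LocallyIntegrable f) (hg : LocallyIntegrable g)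
    (h : ∀ η, IsTest η → ∫ x, ⟪f x, η x⟫ = ∫ x, ⟪g x, η x⟫) : f =ᵐ[volume] g := by
  refine ae_eq_of_integral_contDiff_smul_eq hf hg fun ψ h1 h2 => ext_inner_left ℝ fun v => ?_
  have hfi := hf.integrable_smul_left_of_hasCompactSupport h1.continuous h2
  have hgi := hg.integrable_smul_left_of_hasCompactSupport h1.continuous h2
  rw [← integral_inner hfi, ← integral_inner hgi]
  have := h (fun x => ψ x • v) ⟨h1.smul contDiff_const, h2.smul_right⟩
  simpa only [real_inner_smul_right, real_inner_comm v] using this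

theorem normSq_ae {p : H F} {g : R3 → F} (h : p =ᵐ[volume] g) : ‖p‖ ^ 2 = ∫ x, ‖g x‖ ^ 2 := by
  rw [← real_inner_self_eq_norm_sq, L2.inner_def]
  refine integral_congr_ae ?_
  filter_upwards [h] with x hx
  rw [hx, real_inner_self_eq_norm_sq]

theorem inner_ae {p q : H F} {g k : R3 → F} (h : p =ᵐ[volume] g) (h' : q =ᵐ[volume] k) :
    ⟪p, q⟫ = ∫ x, ⟪g x, k x⟫ := by
  rw [L2.inner_def]
  refine integral_congr_ae ?_
  filter_upwards [h, h'] with x hx hx'
  rw [hx, hx']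

theorem shift_ae {φ : H F} {g : R3 → F} (h : φ =ᵐ[volume] g) (a : R3) :
    shiftL a φ =ᵐ[volume] fun x => g (x + a) :=
  (shiftL_ae a φ).trans
    ((measurePreserving_add_right (volume : Measure R3) a).quasiMeasurePreserving.ae_eq_comp h)

theorem inner_shift (h : R3) (a b : H F) : ⟪shiftL h a, shiftL h b⟫ = ⟪a, b⟫ := by
  rw [inner_ae (shiftL_ae h a) (shiftL_ae h b), L2.inner_def]
  exact integral_add_right_eq_self (fun x => ⟪a x, b x⟫) h

theorem shift_shift (a : R3) (φ : H F) : shiftL a (shiftL (-a) φ) = φ := by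
  refine Lp.ext ((shift_ae (shiftL_ae (-a) φ) a).trans (ae_of_all _ fun x => ?_))
  simp

open scoped Classical in
/-- The `L²` class of a test function. -/
def toH (f : R3 → F) : H F := if h : IsTest f then h.memLp.toLp f else 0

theorem toH_ae {f : R3 → F} (hf : IsTest f) : toH f =ᵐ[volume] f := by
  rw [toH, dif_pos hf]; exact MemLp.coeFn_toLp _

theorem isBddOp_toH : IsBddOp (toH : (R3 → F) → H F) where
  map_add f g hf hg := by
    simp only [toH, dif_pos hf, dif_pos hg, dif_pos (hf.add hg)]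
    exact MemLp.toLp_add _ _
  map_smul c f hf := by
    simp only [toH, dif_pos hf, dif_pos (hf.smul c)]
    exact MemLp.toLp_const_smul _ _
  bound R := by
    refine ⟨volume.real (closedBall (0 : R3) R) ^ (1 / (2 : ℝ)), fun f hf hsupp s hs hfs => ?_⟩
    let g := indicatorConstLp 2 (measurableSet_closedBall (x := (0 : R3)) (ε := R))
      (measure_closedBall_lt_top (μ := volume)).ne s
    have h1 : ‖toH f‖ ≤ ‖g‖ := by
      refine Lp.norm_le_norm_of_ae_le ?_
      filter_upwards [toH_ae hf, indicatorConstLp_coeFn (p := 2) (μ := (volume : Measure R3))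
        (hs := measurableSet_closedBall (x := (0 : R3)) (ε := R))
        (hμs := (measure_closedBall_lt_top).ne) (c := s)] with x e1 e2
      rw [e1, e2]
      by_cases hx : x ∈ closedBall (0 : R3) R
      · rw [indicator_of_mem hx, Real.norm_of_nonneg hs]; exact hfs x
      · rw [indicator_of_notMem hx, norm_zero, hsupp x (by simpa using hx), norm_zero]
    refine h1.trans (le_of_eq ?_)
    rw [norm_indicatorConstLp (by norm_num) (by norm_num), Real.norm_of_nonneg hs]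
    simp [mul_comm]

theorem memLp_apply {a : R3 → F →L[ℝ] F} (ha : IsTest a) (φ : H F) :
    MemLp (fun x => a x (φ x)) 2 := by
  obtain ⟨C, hC⟩ := ha.2.exists_bound_of_continuous ha.continuous
  refine (Lp.memLp φ).of_le_mul (c := C)
    (isBoundedBilinearMap_apply.continuous.comp_aestronglyMeasurable
      (ha.continuous.aestronglyMeasurable.prodMk (Lp.aestronglyMeasurable φ)))
    (ae_of_all _ fun x => ?_)
  exact ((a x).le_opNorm _).trans (mul_le_mul_of_nonneg_right (hC x) (norm_nonneg _))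

/-- Multiplication by a test field of operators, as a linear map. -/
def mulLin {a : R3 → F →L[ℝ] F} (ha : IsTest a) : H F →ₗ[ℝ] H F where
  toFun φ := (memLp_apply ha φ).toLp _
  map_add' φ ψ := by
    refine Lp.ext ?_
    filter_upwards [(memLp_apply ha (φ + ψ)).coeFn_toLp, (memLp_apply ha φ).coeFn_toLp,
      (memLp_apply ha ψ).coeFn_toLp, Lp.coeFn_add φ ψ,
      Lp.coeFn_add ((memLp_apply ha φ).toLp _) ((memLp_apply ha ψ).toLp _)] with x h1 h2 h3 h4 h5
    rw [h1, h5, Pi.add_apply, h2, h3, h4, Pi.add_apply, map_add]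
  map_smul' c φ := by
    refine Lp.ext ?_
    filter_upwards [(memLp_apply ha (c • φ)).coeFn_toLp, (memLp_apply ha φ).coeFn_toLp,
      Lp.coeFn_smul c φ, Lp.coeFn_smul c ((memLp_apply ha φ).toLp _)] with x h1 h2 h3 h4
    rw [RingHom.id_apply, h1, h4, Pi.smul_apply, h2, h3, Pi.smul_apply, map_smul]

theorem mulLin_le {a : R3 → F →L[ℝ] F} (ha : IsTest a) {s : ℝ} (hs : ∀ x, ‖a x‖ ≤ s) (φ : H F) :
    ‖mulLin ha φ‖ ≤ s * ‖φ‖ := by
  refine Lp.norm_le_mul_norm_of_ae_le_mul ?_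
  filter_upwards [(memLp_apply ha φ).coeFn_toLp] with x hx
  rw [show mulLin ha φ = (memLp_apply ha φ).toLp _ from rfl, hx]
  exact ((a x).le_opNorm _).trans (mul_le_mul_of_nonneg_right (hs x) (norm_nonneg _))

open scoped Classical in
/-- Multiplication by a test field of operators. -/
def mulH (a : R3 → F →L[ℝ] F) : H F →L[ℝ] H F :=
  if h : IsTest a then
    (mulLin h).mkContinuous (Classical.choose (h.2.exists_bound_of_continuous h.continuous))
      (mulLin_le h (Classical.choose_spec (h.2.exists_bound_of_continuous h.continuous)))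
  else 0

theorem mulH_ae {a : R3 → F →L[ℝ] F} (ha : IsTest a) (φ : H F) :
    mulH a φ =ᵐ[volume] fun x => a x (φ x) := by
  rw [mulH, dif_pos ha]; exact (memLp_apply ha φ).coeFn_toLp

theorem mulH_ae' {a : R3 → F →L[ℝ] F} (ha : IsTest a) {φ : H F} {g : R3 → F}
    (h : φ =ᵐ[volume] g) : mulH a φ =ᵐ[volume] fun x => a x (g x) := by
  filter_upwards [mulH_ae ha φ, h] with x h1 h2
  rw [h1, h2]

theorem isBddOp_mulH : IsBddOp (mulH : (R3 → F →L[ℝ] F) → _) where
  map_add f g hf hg := by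
    refine ContinuousLinearMap.ext fun φ => Lp.ext ?_
    filter_upwards [mulH_ae (hf.add hg) φ, mulH_ae hf φ, mulH_ae hg φ,
      Lp.coeFn_add (mulH f φ) (mulH g φ)] with x h1 h2 h3 h4
    rw [add_apply, h1, h4]
    simp only [Pi.add_apply, h2, h3, add_apply]
  map_smul c f hf := by
    refine ContinuousLinearMap.ext fun φ => Lp.ext ?_
    filter_upwards [mulH_ae (hf.smul c) φ, mulH_ae hf φ, Lp.coeFn_smul c (mulH f φ)]
      with x h1 h2 h3
    rw [smul_apply, h1, h3]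
    simp only [Pi.smul_apply, h2, smul_apply]
  bound _ := ⟨1, fun f hf _ s hs hfs => by
    rw [one_mul, mulH, dif_pos hf]
    exact ContinuousLinearMap.opNorm_le_bound _ hs (mulLin_le hf hfs)⟩

theorem shift_mulH {a : R3 → F →L[ℝ] F} (ha : IsTest a) (h : R3) (φ : H F) :
    mulH (fun x => a (x + h)) (shiftL h φ) = shiftL h (mulH a φ) :=
  Lp.ext ((mulH_ae' (ha.comp_add h) (shiftL_ae h φ)).trans (shift_ae (mulH_ae ha φ) h).symm)

/-- The adjoint as a real linear isometry. -/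
def adjR {X Y : Type*} [NormedAddCommGroup X] [InnerProductSpace ℝ X] [CompleteSpace X]
    [NormedAddCommGroup Y] [InnerProductSpace ℝ Y] [CompleteSpace Y] :
    (X →L[ℝ] Y) →L[ℝ] (Y →L[ℝ] X) :=
  LinearMap.mkContinuous
    { toFun := fun A => ContinuousLinearMap.adjoint A
      map_add' := fun A B => map_add _ A B
      map_smul' := fun c A => by simp }
    1 fun A => by simp

theorem adjR_inner {X Y : Type*} [NormedAddCommGroup X] [InnerProductSpace ℝ X] [CompleteSpace X]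
    [NormedAddCommGroup Y] [InnerProductSpace ℝ Y] [CompleteSpace Y] (A : X →L[ℝ] Y) (y : Y)
    (x : X) : ⟪adjR A y, x⟫ = ⟪y, A x⟫ :=
  ContinuousLinearMap.adjoint_inner_left A x y

/-- The Gram operator. -/
def gram {X Y : Type*} [NormedAddCommGroup X] [InnerProductSpace ℝ X] [CompleteSpace X]
    [NormedAddCommGroup Y] [InnerProductSpace ℝ Y] [CompleteSpace Y] (A : X →L[ℝ] Y) :
    X →L[ℝ] X :=
  (adjR A).comp A

theorem gram_inner {X Y : Type*} [NormedAddCommGroup X] [InnerProductSpace ℝ X] [CompleteSpace X]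
    [NormedAddCommGroup Y] [InnerProductSpace ℝ Y] [CompleteSpace Y] (A : X →L[ℝ] Y) (v w : X) :
    ⟪gram A v, w⟫ = ⟪A v, A w⟫ :=
  adjR_inner A (A v) w

theorem contDiff_gram_add {P X Y : Type*} [NormedAddCommGroup P] [NormedSpace ℝ P]
    [NormedAddCommGroup X] [InnerProductSpace ℝ X] [CompleteSpace X]
    [NormedAddCommGroup Y] [InnerProductSpace ℝ Y] [CompleteSpace Y] {A B : P → X →L[ℝ] Y}
    (hA : ContDiff ℝ ∞ A) (hB : ContDiff ℝ ∞ B) :
    ContDiff ℝ ∞ fun h => gram (A h) + gram (B h) := by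
  have e : ∀ {C : P → X →L[ℝ] Y}, ContDiff ℝ ∞ C → ContDiff ℝ ∞ fun h => adjR (C h) :=
    fun hC => (ContinuousLinearMap.contDiff (adjR (X := X) (Y := Y))).comp hC
  exact ((e hA).clm_comp hA).add ((e hB).clm_comp hB)

theorem contDiff_adjR_apply {P X Y : Type*} [NormedAddCommGroup P] [NormedSpace ℝ P]
    [NormedAddCommGroup X] [InnerProductSpace ℝ X] [CompleteSpace X]
    [NormedAddCommGroup Y] [InnerProductSpace ℝ Y] [CompleteSpace Y] {A : P → X →L[ℝ] Y}
    {y : P → Y} (hA : ContDiff ℝ ∞ A) (hy : ContDiff ℝ ∞ y) :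
    ContDiff ℝ ∞ fun h => adjR (A h) (y h) := by
  have e : ContDiff ℝ ∞ fun h => adjR (A h) :=
    (ContinuousLinearMap.contDiff (adjR (X := X) (Y := Y))).comp hA
  exact e.clm_apply hy

theorem contDiff_inverse_apply {P X : Type*} [NormedAddCommGroup P] [NormedSpace ℝ P]
    [NormedAddCommGroup X] [InnerProductSpace ℝ X] [CompleteSpace X] {A : P → X →L[ℝ] X}
    {y : P → X} (hA : ContDiff ℝ ∞ A) (hu : ∀ h, IsUnit (A h)) (hy : ContDiff ℝ ∞ y) :
    ContDiff ℝ ∞ fun h => Ring.inverse (A h) (y h) := by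
  refine ContDiff.clm_apply (contDiff_iff_contDiffAt.2 fun h => ?_) hy
  obtain ⟨u, e⟩ := hu h
  have := contDiffAt_ringInverse ℝ (n := (∞ : WithTop ℕ∞)) u
  rw [e] at this
  exact this.comp h hA.contDiffAt

variable (F) in
/-- The data of the problem. -/
structure Dat where
  c : Fin 3 → F →L[ℝ] F
  c' : Fin 3 → F →L[ℝ] F
  adj_c : ∀ i x y, ⟪c i x, y⟫ = ⟪x, c' i y⟫
  A : R3 → F →L[ℝ] F
  A' : R3 → F →L[ℝ] F
  adj_A : ∀ z x y, ⟪A z x, y⟫ = ⟪x, A' z y⟫
  hA : IsTest A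
  hA' : IsTest A'
  ζ : R3 → ℝ
  hζ : IsTest ζ
  K : ℝ

/-- A constant coefficient first order operator. -/
def cD (c : Fin 3 → F →L[ℝ] F) (φ : R3 → F) : R3 → F := fun x => ∑ i, c i (pd i φ x)

theorem contDiff_cD {c : Fin 3 → F →L[ℝ] F} {φ : R3 → F} (hφ : ContDiff ℝ ∞ φ) :
    ContDiff ℝ ∞ (cD c φ) :=
  ContDiff.sum fun i _ => (c i).contDiff.comp (contDiff_pd hφ i)

theorem IsTest.cD {c : Fin 3 → F →L[ℝ] F} {φ : R3 → F} (hφ : IsTest φ) :
    IsTest (Vale.Agent.P136.PlaneExist.cD c φ) := by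
  have h : Vale.Agent.P136.PlaneExist.cD c φ = ∑ i, fun x => c i (Vale.Agent.P136.pd i φ x) := by
    funext x; simp [PlaneExist.cD, Finset.sum_apply]
  rw [h]
  exact IsTest.sum _ fun i =>
    ⟨(c i).contDiff.comp (hφ.pd i).1, (hφ.pd i).2.comp_left (map_zero _)⟩

theorem integral_inner_cD {c c' : Fin 3 → F →L[ℝ] F} (hc : ∀ i x y, ⟪c i x, y⟫ = ⟪x, c' i y⟫)
    {r η : R3 → F} (hr : ContDiff ℝ ∞ r) (hη : IsTest η) :
    ∫ x, ⟪r x, cD c η x⟫ = -∫ x, ⟪cD c' r x, η x⟫ := by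
  have hterm : ∀ i, IsTest fun x => c i (pd i η x) := fun i =>
    ⟨(c i).contDiff.comp (hη.pd i).1, (hη.pd i).2.comp_left (map_zero _)⟩
  have hcη : ∀ i, IsTest fun x => c i (η x) := fun i =>
    ⟨(c i).contDiff.comp hη.1, hη.2.comp_left (map_zero _)⟩
  have h1 : ∀ i, ∫ x, ⟪r x, c i (pd i η x)⟫ = -∫ x, ⟪c' i (pd i r x), η x⟫ := by
    intro i
    have e : ∀ x, fderiv ℝ (fun y => c i (η y)) x (EuclideanSpace.single i 1)
        = c i (pd i η x) := fun x => by
      rw [show (fun y => c i (η y)) = c i ∘ η from rfl,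
        fderiv_comp x (c i).differentiableAt (hη.differentiable x), (c i).fderiv]
      rfl
    have := integral_bilinear_fderiv_right_eq_neg_left_of_integrable (μ := (volume : Measure R3))
      (f := r) (g := fun y => c i (η y)) (v := EuclideanSpace.single i 1)
      (B := innerSL ℝ (E := F))
      (integrable_inner_test (contDiff_pd hr i).continuous (hcη i))
      (by simp only [e]; exact integrable_inner_test hr.continuous (hterm i))
      (integrable_inner_test hr.continuous (hcη i))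
      (fun x _ => hr.differentiable (by simp) x) (fun x _ => (hcη i).differentiable x)
    simp only [e] at this
    refine (Eq.trans this ?_)
    congr 1
    refine integral_congr_ae (ae_of_all _ fun x => ?_)
    show ⟪pd i r x, c i (η x)⟫ = ⟪c' i (pd i r x), η x⟫
    rw [real_inner_comm, hc i, real_inner_comm]
  simp only [cD, inner_sum, sum_inner]
  rw [integral_finsetSum _ fun i _ => integrable_inner_test hr.continuous (hterm i),
    integral_finsetSum _ fun i _ => integrable_inner_test (f := fun x => c' i (pd i r x))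
      ((c' i).continuous.comp (contDiff_pd hr i).continuous) hη,
    ← Finset.sum_neg_distrib]
  exact Finset.sum_congr rfl fun i _ => h1 i

variable (D : Dat F)

/-- The operator. -/
def Dat.L (φ : R3 → F) : R3 → F := fun x => cD D.c φ x + D.A x (φ x)

/-- The formal adjoint. -/
def Dat.Lt (r : R3 → F) : R3 → F := fun x => -cD D.c' r x + D.A' x (r x)

/-- The a priori bound. -/
def Dat.Bound : Prop :=
  ∀ φ, IsTest φ →
    ∫ x, ‖φ x‖ ^ 2 ≤ D.K * ((∫ x, ‖D.L φ x‖ ^ 2) + ∫ x, ‖(1 - D.ζ x) • φ x‖ ^ 2)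

/-- Pairs `(φ, ∑ cᵢ ∂ᵢ φ)`. -/
def Dat.pairs : Submodule ℝ (WithLp 2 (H F × H F)) where
  carrier := {p | ∃ φ, IsTest φ ∧ p.fst =ᵐ[volume] φ ∧ p.snd =ᵐ[volume] cD D.c φ}
  zero_mem' := ⟨0, isTest_zero, Lp.coeFn_zero _ _ _, (Lp.coeFn_zero _ _ _).trans
    (ae_of_all _ fun x => by simp [cD, pd])⟩
  add_mem' := by
    rintro p q ⟨φ, hφ, e1, e2⟩ ⟨ψ, hψ, e3, e4⟩
    refine ⟨φ + ψ, hφ.add hψ, (Lp.coeFn_add _ _).trans (e1.add e3),
      (Lp.coeFn_add _ _).trans ((e2.add e4).trans (ae_of_all _ fun x => ?_))⟩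
    simp [cD, pd, fderiv_add (hφ.differentiable x) (hψ.differentiable x), Finset.sum_add_distrib]
  smul_mem' := by
    rintro a p ⟨φ, hφ, e1, e2⟩
    refine ⟨a • φ, hφ.smul a, (Lp.coeFn_smul _ _).trans (e1.const_smul a),
      (Lp.coeFn_smul _ _).trans ((e2.const_smul a).trans (ae_of_all _ fun x => ?_))⟩
    simp [cD, pd, fderiv_const_smul (hφ.differentiable x), Finset.smul_sum]

/-- The energy space. -/
abbrev Dat.V : Submodule ℝ (WithLp 2 (H F × H F)) := D.pairs.topologicalClosure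

instance : CompleteSpace D.V := D.pairs.isClosed_topologicalClosure.completeSpace_coe

variable (F) in
/-- The first entry. -/
abbrev pFst : WithLp 2 (H F × H F) →L[ℝ] H F := WithLp.fstL 2 ℝ (H F) (H F)

variable (F) in
/-- The second entry. -/
abbrev pSnd : WithLp 2 (H F × H F) →L[ℝ] H F := WithLp.sndL 2 ℝ (H F) (H F)

/-- The translated operator on pairs. -/
def Dat.Lh (h : R3) : WithLp 2 (H F × H F) →L[ℝ] H F :=
  pSnd F + (mulH fun x => D.A (x + h)).comp (pFst F)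

/-- The field `ζ • id`. -/
def Dat.Z (x : R3) : F →L[ℝ] F := D.ζ x • ContinuousLinearMap.id ℝ F

theorem Dat.isTest_Z : IsTest D.Z :=
  ⟨D.hζ.1.smul contDiff_const, D.hζ.2.smul_right⟩

/-- The translated cutoff on pairs. -/
def Dat.Ch (h : R3) : WithLp 2 (H F × H F) →L[ℝ] H F :=
  pFst F - (mulH fun x => D.Z (x + h)).comp (pFst F)

theorem Dat.Lh_ae (h : R3) {p : WithLp 2 (H F × H F)} {g₁ g₂ : R3 → F}
    (e1 : p.fst =ᵐ[volume] g₁) (e2 : p.snd =ᵐ[volume] g₂) :
    D.Lh h p =ᵐ[volume] fun x => g₂ x + D.A (x + h) (g₁ x) := by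
  have h3 := mulH_ae' (D.hA.comp_add h) e1
  filter_upwards [h3, e2, Lp.coeFn_add p.snd (mulH (fun x => D.A (x + h)) p.fst)] with x a b c
  change (p.snd + mulH (fun x => D.A (x + h)) p.fst : H F) x = _
  rw [c, Pi.add_apply, a, b]

theorem Dat.Ch_ae (h : R3) {p : WithLp 2 (H F × H F)} {g₁ : R3 → F}
    (e1 : p.fst =ᵐ[volume] g₁) :
    D.Ch h p =ᵐ[volume] fun x => (1 - D.ζ (x + h)) • g₁ x := by
  have h3 := mulH_ae' (D.isTest_Z.comp_add h) e1
  filter_upwards [h3, e1, Lp.coeFn_sub p.fst (mulH (fun x => D.Z (x + h)) p.fst)] with x a b c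
  change (p.fst - mulH (fun x => D.Z (x + h)) p.fst : H F) x = _
  rw [c, Pi.sub_apply, a, b]
  simp [Dat.Z, sub_smul]

attribute [local irreducible] mulH shiftL

/-- The translated form. -/
def Dat.B (h : R3) : D.V →L[ℝ] D.V :=
  gram ((D.Lh h).comp D.V.subtypeL) + gram ((D.Ch h).comp D.V.subtypeL)

theorem Dat.inner_B (h : R3) (v w : D.V) :
    ⟪D.B h v, w⟫ = ⟪D.Lh h v, D.Lh h w⟫ + ⟪D.Ch h v, D.Ch h w⟫ := by
  simp only [Dat.B, add_apply, inner_add_left, gram_inner]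
  rfl

variable {D} in
theorem Dat.bound_pair (hK : D.Bound) (h : R3) {p : WithLp 2 (H F × H F)} (hp : p ∈ D.V) :
    ‖p‖ ^ 2 ≤ (2 + (2 * ‖mulH fun x => D.A (x + h)‖ ^ 2 + 1) * max D.K 0)
      * (‖D.Lh h p‖ ^ 2 + ‖D.Ch h p‖ ^ 2) := by
  refine closure_minimal (t := {p | ‖p‖ ^ 2 ≤ (2 + (2 * ‖mulH fun x => D.A (x + h)‖ ^ 2 + 1)
    * max D.K 0) * (‖D.Lh h p‖ ^ 2 + ‖D.Ch h p‖ ^ 2)}) ?_ ?_ hp
  · rintro p ⟨φ, hφ, e1, e2⟩
    have k := hK _ (hφ.comp_add (-h))
    have n1 : ‖p.fst‖ ^ 2 = ∫ x, ‖φ (x + -h)‖ ^ 2 := by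
      rw [normSq_ae e1]
      exact (integral_add_right_eq_self (fun x => ‖φ x‖ ^ 2) (-h)).symm
    have n2 : ‖D.Lh h p‖ ^ 2 = ∫ x, ‖D.L (fun y => φ (y + -h)) x‖ ^ 2 := by
      rw [normSq_ae (D.Lh_ae h e1 e2),
        ← integral_add_right_eq_self (fun x => ‖cD D.c φ x + D.A (x + h) (φ x)‖ ^ 2) (-h)]
      refine integral_congr_ae (ae_of_all _ fun x => ?_)
      simp [Dat.L, cD, pd, fderiv_comp_add_right]
    have n3 : ‖D.Ch h p‖ ^ 2 = ∫ x, ‖(1 - D.ζ x) • φ (x + -h)‖ ^ 2 := by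
      rw [normSq_ae (D.Ch_ae h e1),
        ← integral_add_right_eq_self (fun x => ‖(1 - D.ζ (x + h)) • φ x‖ ^ 2) (-h)]
      simp
    rw [← n1, ← n2, ← n3] at k
    have e3 : ‖p.snd‖ ≤ ‖D.Lh h p‖ + ‖mulH fun x => D.A (x + h)‖ * ‖p.fst‖ := by
      have : p.snd = D.Lh h p - (mulH fun x => D.A (x + h)) p.fst := by simp [Dat.Lh]
      calc ‖p.snd‖ ≤ ‖D.Lh h p‖ + ‖(mulH fun x => D.A (x + h)) p.fst‖ := by
            rw [this]; exact norm_sub_le _ _
        _ ≤ _ := by gcongr; exact ContinuousLinearMap.le_opNorm _ _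
    simp only [mem_ofPred_eq]
    rw [WithLp.prod_norm_sq_eq_of_L2]
    change ‖p.fst‖ ^ 2 + ‖p.snd‖ ^ 2 ≤ _
    set m := ‖mulH fun x => D.A (x + h)‖
    have k2 : ‖p.fst‖ ^ 2 ≤ max D.K 0 * (‖D.Lh h p‖ ^ 2 + ‖D.Ch h p‖ ^ 2) :=
      k.trans (mul_le_mul_of_nonneg_right (le_max_left _ _) (by positivity))
    have k3 := mul_le_mul_of_nonneg_left k2 (by positivity : (0 : ℝ) ≤ 2 * m ^ 2 + 1)
    nlinarith [mul_self_le_mul_self (norm_nonneg p.snd) e3,
      sq_nonneg (‖D.Lh h p‖ - m * ‖p.fst‖), sq_nonneg ‖D.Ch h p‖]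
  · exact isClosed_le (by fun_prop) (by fun_prop)

variable {D} in
theorem Dat.isUnit_B (hK : D.Bound) (h : R3) : IsUnit (D.B h) := by
  set N := 2 + (2 * ‖mulH fun x => D.A (x + h)‖ ^ 2 + 1) * max D.K 0 with hN
  have hN0 : 0 < N := by positivity
  refine ContinuousLinearMap.isUnit_of_forall_le_norm_inner_map _
    (c := ⟨N⁻¹, (inv_pos.2 hN0).le⟩) (show (0 : ℝ) < N⁻¹ from inv_pos.2 hN0) fun v => ?_
  rw [D.inner_B, real_inner_self_eq_norm_sq, real_inner_self_eq_norm_sq,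
    Real.norm_of_nonneg (by positivity)]
  change ‖(v : WithLp 2 (H F × H F))‖ ^ 2 * N⁻¹ ≤ _
  rw [← div_eq_mul_inv, div_le_iff₀ hN0, mul_comm]
  exact Dat.bound_pair hK h v.2

/-- The translated right side. -/
def Dat.rhs (f₀ f₁ : R3 → F) (h : R3) : D.V :=
  adjR ((pFst F).comp D.V.subtypeL) (toH fun x => f₀ (x + h))
    + adjR ((D.Lh h).comp D.V.subtypeL) (toH fun x => f₁ (x + h))

theorem Dat.inner_rhs (f₀ f₁ : R3 → F) (h : R3) (w : D.V) :
    ⟪D.rhs f₀ f₁ h, w⟫ = ⟪toH fun x => f₀ (x + h), (w : WithLp 2 (H F × H F)).fst⟫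
      + ⟪toH fun x => f₁ (x + h), D.Lh h w⟫ := by
  simp only [Dat.rhs, inner_add_left, adjR_inner]
  rfl

/-- The translated solution. -/
def Dat.sol (f₀ f₁ : R3 → F) (h : R3) : D.V := Ring.inverse (D.B h) (D.rhs f₀ f₁ h)

variable {D} in
theorem Dat.contDiff_sol (hK : D.Bound) {f₀ f₁ : R3 → F} (h0 : IsTest f₀) (h1 : IsTest f₁) :
    ContDiff ℝ ∞ fun h => (D.sol f₀ f₁ h : WithLp 2 (H F × H F)).fst := by
  have hL : ContDiff ℝ ∞ fun h => (D.Lh h).comp D.V.subtypeL :=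
    (contDiff_const.add ((contDiff_shift isBddOp_mulH D.hA).clm_comp contDiff_const)).clm_comp
      contDiff_const
  have hC : ContDiff ℝ ∞ fun h => (D.Ch h).comp D.V.subtypeL :=
    (contDiff_const.sub ((contDiff_shift isBddOp_mulH D.isTest_Z).clm_comp contDiff_const)
      ).clm_comp contDiff_const
  have hB : ContDiff ℝ ∞ D.B := contDiff_gram_add hL hC
  have hr : ContDiff ℝ ∞ (D.rhs f₀ f₁) :=
    (contDiff_adjR_apply contDiff_const (contDiff_shift isBddOp_toH h0)).add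
      (contDiff_adjR_apply hL (contDiff_shift isBddOp_toH h1))
  exact ((pFst F).comp D.V.subtypeL).contDiff.comp
    (contDiff_inverse_apply hB (Dat.isUnit_B hK) hr)

/-- Translation of pairs. -/
def shiftP (h : R3) (p : WithLp 2 (H F × H F)) : WithLp 2 (H F × H F) :=
  WithLp.toLp 2 (shiftL h p.fst, shiftL h p.snd)

theorem shiftP_shiftP (h : R3) (p : WithLp 2 (H F × H F)) : shiftP h (shiftP (-h) p) = p := by
  simp only [shiftP, WithLp.toLp_fst, WithLp.toLp_snd, shift_shift]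
  rfl

theorem continuous_shiftP (h : R3) : Continuous (shiftP (F := F) h) :=
  (WithLp.prod_continuous_toLp 2 _ _).comp
    (((shiftL h).continuous.comp (pFst F).continuous).prodMk
      ((shiftL h).continuous.comp (pSnd F).continuous))

theorem Dat.shiftP_mem (h : R3) {p : WithLp 2 (H F × H F)} (hp : p ∈ D.V) :
    shiftP h p ∈ D.V := by
  refine map_mem_closure (continuous_shiftP h) hp ?_
  rintro q ⟨φ, hφ, e1, e2⟩
  refine ⟨fun x => φ (x + h), hφ.comp_add h, shift_ae e1 h,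
    (shift_ae e2 h).trans (ae_of_all _ fun x => ?_)⟩
  simp [cD, pd, fderiv_comp_add_right]

theorem Dat.Lh_shiftP (h : R3) (p : WithLp 2 (H F × H F)) :
    D.Lh h (shiftP h p) = shiftL h (D.Lh 0 p) := by
  simp [Dat.Lh, shiftP, shift_mulH D.hA, map_add]

theorem Dat.Ch_shiftP (h : R3) (p : WithLp 2 (H F × H F)) :
    D.Ch h (shiftP h p) = shiftL h (D.Ch 0 p) := by
  simp [Dat.Ch, shiftP, shift_mulH D.isTest_Z, map_sub]

theorem toH_shift {f : R3 → F} (hf : IsTest f) (h : R3) :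
    (toH fun x => f (x + h)) = shiftL h (toH f) :=
  Lp.ext ((toH_ae (hf.comp_add h)).trans (shift_ae (toH_ae hf) h).symm)

variable {D} in
theorem Dat.B_sol (hK : D.Bound) (f₀ f₁ : R3 → F) (h : R3) :
    D.B h (D.sol f₀ f₁ h) = D.rhs f₀ f₁ h := by
  have := congrArg (fun T : D.V →L[ℝ] D.V => T (D.rhs f₀ f₁ h))
    (Ring.mul_inverse_cancel _ (Dat.isUnit_B hK h))
  simpa [Dat.sol] using this

attribute [local irreducible] Dat.sol Dat.rhs Dat.B Dat.Lh Dat.Ch toH

theorem Dat.form_shift (h : R3) (a b : WithLp 2 (H F × H F)) :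
    ⟪D.Lh h (shiftP h a), D.Lh h (shiftP h b)⟫ + ⟪D.Ch h (shiftP h a), D.Ch h (shiftP h b)⟫
      = ⟪D.Lh 0 a, D.Lh 0 b⟫ + ⟪D.Ch 0 a, D.Ch 0 b⟫ :=
  congrArg₂ (· + ·)
    ((congrArg₂ (fun x y : H F => ⟪x, y⟫) (D.Lh_shiftP h a) (D.Lh_shiftP h b)).trans
      (inner_shift h _ _))
    ((congrArg₂ (fun x y : H F => ⟪x, y⟫) (D.Ch_shiftP h a) (D.Ch_shiftP h b)).trans
      (inner_shift h _ _))

theorem Dat.rhs_shift {f₀ f₁ : R3 → F} (h0 : IsTest f₀) (h1 : IsTest f₁) (h : R3)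
    (b : WithLp 2 (H F × H F)) :
    ⟪toH fun x => f₀ (x + h), (shiftP h b).fst⟫ + ⟪toH fun x => f₁ (x + h), D.Lh h (shiftP h b)⟫
      = ⟪toH f₀, b.fst⟫ + ⟪toH f₁, D.Lh 0 b⟫ :=
  congrArg₂ (· + ·)
    ((congrArg₂ (fun x y : H F => ⟪x, y⟫) (toH_shift h0 h)
      (rfl : (shiftP h b).fst = shiftL h b.fst)).trans (inner_shift h _ _))
    ((congrArg₂ (fun x y : H F => ⟪x, y⟫) (toH_shift h1 h) (D.Lh_shiftP h b)).trans
      (inner_shift h _ _))

variable {D} in
theorem Dat.sol_shift (hK : D.Bound) {f₀ f₁ : R3 → F} (h0 : IsTest f₀) (h1 : IsTest f₁) (h : R3) :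
    (D.sol f₀ f₁ h : WithLp 2 (H F × H F)).fst
      = shiftL h (D.sol f₀ f₁ 0 : WithLp 2 (H F × H F)).fst := by
  obtain ⟨v, hv⟩ : ∃ v : D.V, (v : WithLp 2 (H F × H F)) = shiftP h (D.sol f₀ f₁ 0) :=
    ⟨⟨_, D.shiftP_mem h (D.sol f₀ f₁ 0).2⟩, rfl⟩
  have key : D.B h v = D.rhs f₀ f₁ h := by
    refine ext_inner_right ℝ fun w => ?_
    obtain ⟨q, hw⟩ : ∃ q : D.V, (w : WithLp 2 (H F × H F)) = shiftP h q :=
      ⟨⟨_, D.shiftP_mem (-h) w.2⟩, (shiftP_shiftP h _).symm⟩
    have e := congrArg (fun z => ⟪z, q⟫) (Dat.B_sol hK f₀ f₁ 0)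
    simp only [D.inner_B, D.inner_rhs, add_zero] at e
    refine (D.inner_B h v w).trans (Eq.trans ?_ (D.inner_rhs f₀ f₁ h w).symm)
    rw [hv, hw]
    exact (D.form_shift h _ _).trans (e.trans (D.rhs_shift h0 h1 h _).symm)
  have hinj : Injective (D.B h) :=
    (ContinuousLinearMap.isUnit_iff_bijective.1 (Dat.isUnit_B hK h)).1
  have hvs : v = D.sol f₀ f₁ h := hinj (key.trans (Dat.B_sol hK f₀ f₁ h).symm)
  exact (congrArg (fun z : D.V => (z : WithLp 2 (H F × H F)).fst) hvs).symm.trans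
    (congrArg (fun z : WithLp 2 (H F × H F) => z.fst) hv)

theorem Dat.snd_eq {p : WithLp 2 (H F × H F)} (hp : p ∈ D.V) {η : R3 → F} (hη : IsTest η) :
    ⟪p.snd, toH η⟫ = -⟪p.fst, toH (cD D.c' η)⟫ := by
  refine closure_minimal (t := {p : WithLp 2 (H F × H F) |
    ⟪p.snd, toH η⟫ = -⟪p.fst, toH (cD D.c' η)⟫}) ?_ ?_ hp
  · rintro q ⟨φ, hφ, e1, e2⟩
    simp only [mem_ofPred_eq]
    rw [inner_ae e2 (toH_ae hη), inner_ae e1 (toH_ae hη.cD)]
    have := integral_inner_cD (c := D.c') (c' := D.c)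
      (fun i x y => by rw [real_inner_comm, ← D.adj_c, real_inner_comm]) hφ.1 hη
    rw [this, neg_neg]
  · exact isClosed_eq ((pSnd F).continuous.inner continuous_const)
      ((pFst F).continuous.inner continuous_const).neg

/-- The solution of the variational problem. -/
theorem core (hK : D.Bound) {f₀ f₁ : R3 → F} (h0 : IsTest f₀) (h1 : IsTest f₁) :
    ∃ w : R3 → F, ContDiff ℝ ∞ w ∧ MemLp w 2 ∧ MemLp (D.L w) 2 ∧
      (∀ x, D.Lt (fun y => D.L w y - f₁ y) x + (1 - D.ζ x) ^ 2 • w x = f₀ x) ∧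
      (∫ x, ‖D.L w x‖ ^ 2) + (∫ x, ‖(1 - D.ζ x) • w x‖ ^ 2)
        = (∫ x, ⟪f₀ x, w x⟫) + ∫ x, ⟪f₁ x, D.L w x⟫ := by
  set v := D.sol f₀ f₁ 0 with hv
  set p := (v : WithLp 2 (H F × H F)) with hp
  have hsm : ContDiff ℝ ∞ fun a => shiftL a p.fst :=
    (funext fun a => Dat.sol_shift hK h0 h1 a : (fun h => (D.sol f₀ f₁ h : WithLp 2 (H F × H F)).fst)
      = fun a => shiftL a p.fst) ▸ Dat.contDiff_sol hK h0 h1
  obtain ⟨w, hw, hwe⟩ := exists_smooth_rep _ hsm
  have e1 : p.fst =ᵐ[volume] w := hwe.symm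
  have e2 : p.snd =ᵐ[volume] cD D.c w := by
    refine ae_eq_of_inner_test ((Lp.memLp _).locallyIntegrable one_le_two)
      (contDiff_cD hw).continuous.locallyIntegrable fun η hη => ?_
    have e := D.snd_eq v.2 hη
    rw [← hp, inner_ae (EventuallyEq.rfl) (toH_ae hη), inner_ae e1 (toH_ae hη.cD)] at e
    rw [e, integral_inner_cD (c := D.c') (c' := D.c)
      (fun i x y => by rw [real_inner_comm, ← D.adj_c, real_inner_comm]) hw hη, neg_neg]
  have eL : D.Lh 0 p =ᵐ[volume] D.L w := by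
    refine (D.Lh_ae 0 e1 e2).trans (ae_of_all _ fun x => ?_)
    simp [Dat.L]
  have eC : D.Ch 0 p =ᵐ[volume] fun x => (1 - D.ζ x) • w x := by
    refine (D.Ch_ae 0 e1).trans (ae_of_all _ fun x => ?_)
    simp
  have heq : ∀ u : D.V, ⟪D.Lh 0 p, D.Lh 0 u⟫ + ⟪D.Ch 0 p, D.Ch 0 u⟫
      = ⟪toH f₀, (u : WithLp 2 (H F × H F)).fst⟫ + ⟪toH f₁, D.Lh 0 u⟫ := fun u => by
    have e := congrArg (fun z => ⟪z, u⟫) (Dat.B_sol hK f₀ f₁ 0)
    simpa only [D.inner_B, D.inner_rhs, add_zero] using e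
  refine ⟨w, hw, (memLp_congr_ae e1).1 (Lp.memLp _), (memLp_congr_ae eL).1 (Lp.memLp _), ?_, ?_⟩
  swap
  · have e := heq v
    rw [← hp, inner_ae (toH_ae h0) e1, inner_ae (toH_ae h1) eL] at e
    rw [← normSq_ae eL, ← normSq_ae eC, ← real_inner_self_eq_norm_sq,
      ← real_inner_self_eq_norm_sq]
    exact e
  obtain ⟨r, hr⟩ : ∃ r : R3 → F, r = fun y => D.L w y - f₁ y := ⟨_, rfl⟩
  rw [← hr]
  have hrs : ContDiff ℝ ∞ r := by
    rw [hr]; exact ((contDiff_cD hw).add (D.hA.1.clm_apply hw)).sub h1.1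
  obtain ⟨S, hS⟩ : ∃ S : R3 → F, S = fun x => D.Lt r x + (1 - D.ζ x) ^ 2 • w x - f₀ x :=
    ⟨_, rfl⟩
  have hSc : Continuous S := hS ▸
    (((contDiff_cD hrs).continuous.neg.add (D.hA'.continuous.clm_apply hrs.continuous)).add
      (((continuous_const.sub D.hζ.continuous).pow 2).smul hw.continuous)).sub h0.continuous
  suffices hS0 : S = 0 from fun x => sub_eq_zero.1 (congrFun (hS.symm.trans hS0) x)
  refine (hSc.ae_eq_iff_eq volume continuous_zero).1 (ae_eq_of_inner_test hSc.locallyIntegrable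
    continuous_zero.locallyIntegrable fun η hη => ?_)
  simp only [Pi.zero_apply, inner_zero_left, integral_zero]
  have hLη : IsTest (D.L η) := by
    have : IsTest fun x => D.A x (η x) :=
      ⟨D.hA.1.clm_apply hη.1, hη.2.mono fun x hx h => hx (by simp [h])⟩
    exact hη.cD.add this
  have hCη : IsTest fun x => (1 - D.ζ x) • η x :=
    ⟨(contDiff_const.sub D.hζ.1).smul hη.1, hη.2.smul_left (f := fun x => 1 - D.ζ x)⟩
  have hmem : WithLp.toLp 2 (toH η, toH (cD D.c η)) ∈ D.V :=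
    D.pairs.le_topologicalClosure ⟨η, hη, toH_ae hη, toH_ae hη.cD⟩
  have e := heq ⟨_, hmem⟩
  have u1 : D.Lh 0 (WithLp.toLp 2 (toH η, toH (cD D.c η))) =ᵐ[volume] D.L η := by
    refine (D.Lh_ae 0 (p := WithLp.toLp 2 (toH η, toH (cD D.c η))) (g₁ := η) (g₂ := cD D.c η)
      (toH_ae hη) (toH_ae hη.cD)).trans
      (ae_of_all _ fun x => ?_)
    simp [Dat.L]
  have u2 : D.Ch 0 (WithLp.toLp 2 (toH η, toH (cD D.c η)))
      =ᵐ[volume] fun x => (1 - D.ζ x) • η x := by
    refine (D.Ch_ae 0 (p := WithLp.toLp 2 (toH η, toH (cD D.c η))) (g₁ := η) (toH_ae hη)).trans (ae_of_all _ fun x => ?_)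
    simp
  simp only [WithLp.toLp_fst] at e
  rw [inner_ae eL u1, inner_ae eC u2, inner_ae (toH_ae h0) (toH_ae hη),
    inner_ae (toH_ae h1) u1] at e
  have hLw : Continuous (D.L w) := ((contDiff_cD hw).add (D.hA.1.clm_apply hw)).continuous
  have p1 : ∫ x, ⟪r x, D.L η x⟫ = ∫ x, ⟪D.Lt r x, η x⟫ := by
    have hA1 : IsTest fun x => D.A x (η x) :=
      ⟨D.hA.1.clm_apply hη.1, hη.2.mono fun x hx h => hx (by simp [h])⟩
    simp only [Dat.L, Dat.Lt, inner_add_right, inner_add_left, inner_neg_left]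
    rw [integral_add (integrable_inner_test hrs.continuous hη.cD)
        (integrable_inner_test hrs.continuous hA1),
      integral_add (f := fun x => -⟪cD D.c' r x, η x⟫)
        ((integrable_inner_test (contDiff_cD hrs).continuous hη).neg)
        (integrable_inner_test (D.hA'.continuous.clm_apply hrs.continuous) hη),
      integral_inner_cD D.adj_c hrs hη, integral_neg]
    congr 1
    refine integral_congr_ae (ae_of_all _ fun x => ?_)
    simp only
    rw [real_inner_comm, D.adj_A, real_inner_comm]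
  have hw2 : Continuous fun x => (1 - D.ζ x) • w x :=
    (continuous_const.sub D.hζ.continuous).smul hw.continuous
  have p2 : ∀ x, ⟪(1 - D.ζ x) ^ 2 • w x, η x⟫ = ⟪(1 - D.ζ x) • w x, (1 - D.ζ x) • η x⟫ := by
    intro x; rw [real_inner_smul_left, real_inner_smul_left, real_inner_smul_right]; ring
  have i1 := integrable_inner_test (D.hA'.continuous.clm_apply hrs.continuous) hη
  have iL : Integrable fun x => ⟪D.Lt r x, η x⟫ :=
    integrable_inner_test ((contDiff_cD hrs).continuous.neg.add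
      (D.hA'.continuous.clm_apply hrs.continuous)) hη
  have iC : Integrable fun x => ⟪(1 - D.ζ x) ^ 2 • w x, η x⟫ := by
    simp only [p2]; exact integrable_inner_test hw2 hCη
  have p3 : ∫ x, ⟪r x, D.L η x⟫ = (∫ x, ⟪D.L w x, D.L η x⟫) - ∫ x, ⟪f₁ x, D.L η x⟫ := by
    simp only [hr, inner_sub_left]
    exact integral_sub (integrable_inner_test hLw hLη) (integrable_inner_test h1.continuous hLη)
  simp only [hS, inner_sub_left, inner_add_left]
  rw [integral_sub (f := fun x => ⟪D.Lt r x, η x⟫ + ⟪(1 - D.ζ x) ^ 2 • w x, η x⟫) (iL.add iC)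
      (integrable_inner_test h0.continuous hη), integral_add iL iC,
    ← p1, p3]
  simp only [p2]
  linarith

end Vale.Agent.P136.PlaneExist
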