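import Vale.Agent.P136.Mod.PlaneExistTrans

/-!
# A smooth representative from smooth translates

If the translates of a square integrable function depend smoothly on the shift, the function has
a smooth representative. The point value comes from the fundamental solution of
`(1 - ∂₀) (1 - ∂₁) (1 - ∂₂)`, the exponential on an octant.
-/

noncomputable section

namespace Vale.Agent.P136.PlaneExist

open MeasureTheory Metric Function Set Filter
open scoped ContDiff Topology RealInnerProductSpace

set_option linter.unusedSectionVars false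

variable {F : Type*} [NormedAddCommGroup F] [InnerProductSpace ℝ F] [FiniteDimensional ℝ F]

/-- Square integrable fields. -/
abbrev H (F : Type*) [NormedAddCommGroup F] [InnerProductSpace ℝ F] := Lp F 2 (volume : Measure R3)

/-- Translation. -/
def shiftL (a : R3) : H F →ₗᵢ[ℝ] H F :=
  Lp.compMeasurePreservingₗᵢ ℝ (fun x => x + a) (measurePreserving_add_right volume a)

theorem shiftL_ae (a : R3) (φ : H F) : shiftL a φ =ᵐ[volume] fun x => φ (x + a) :=
  Lp.coeFn_compMeasurePreserving φ (measurePreserving_add_right volume a)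

/-- The exponential on the half line. -/
def g1 : ℝ → ℝ := (Ici 0).indicator fun t => Real.exp (-t)

theorem g1_nonneg (t : ℝ) : 0 ≤ g1 t := indicator_nonneg (fun t _ => (Real.exp_pos _).le) t

theorem g1_le_one (t : ℝ) : g1 t ≤ 1 := by
  by_cases ht : 0 ≤ t <;> simp [g1, ht]

theorem measurable_g1 : Measurable g1 :=
  (Real.measurable_exp.comp measurable_neg).indicator measurableSet_Ici

theorem integrable_g1 : Integrable g1 :=
  (integrable_indicator_iff measurableSet_Ici).2
    ((integrableOn_exp_neg_Ioi 0).congr_set_ae Ioi_ae_eq_Ici.symm)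

/-- The unit vectors. -/
def uv (i : Fin 3) : R3 := EuclideanSpace.single i 1

theorem integral_g1_line {f : R3 → ℝ} (hf : IsTest f) (i : Fin 3) (b : R3) :
    ∫ t, g1 t * (f + pd i f) (b - t • uv i) = f b := by
  obtain ⟨M, hM⟩ := hf.2.exists_bound_of_continuous hf.continuous
  obtain ⟨M', hM'⟩ := (hf.pd i).2.exists_bound_of_continuous (hf.pd i).continuous
  have hd : ∀ t ∈ Ici (0 : ℝ), HasDerivAt (fun t => -Real.exp (-t) * f (b - t • uv i))
      (Real.exp (-t) * (f + pd i f) (b - t • uv i)) t := by
    intro t _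
    have h1 : HasDerivAt (fun t : ℝ => f (b - t • uv i)) (-pd i f (b - t • uv i)) t := by
      have hl : HasDerivAt (fun t : ℝ => b - t • uv i) (-uv i) t := by
        simpa using ((hasDerivAt_id t).smul_const (uv i)).const_sub b
      have := (hf.differentiable (b - t • uv i)).hasFDerivAt.comp_hasDerivAt t hl
      rw [map_neg] at this
      exact this
    have h2 : HasDerivAt (fun t : ℝ => -Real.exp (-t)) (Real.exp (-t)) t := by
      exact (hasDerivAt_neg t).exp.neg.congr_deriv (by simp)
    refine (h2.mul h1).congr_deriv ?_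
    simp only [Pi.add_apply]; ring
  have hint : IntegrableOn (fun t => Real.exp (-t) * (f + pd i f) (b - t • uv i)) (Ioi 0) := by
    refine (integrableOn_exp_neg_Ioi 0).mul_bdd (c := M + M') ?_ ?_
    · exact ((hf.continuous.add (hf.pd i).continuous).comp (by fun_prop)).aestronglyMeasurable
    · filter_upwards with t
      exact (norm_add_le _ _).trans (add_le_add (hM _) (hM' _))
  have hlim : Tendsto (fun t => -Real.exp (-t) * f (b - t • uv i)) atTop (𝓝 0) := by
    refine squeeze_zero_norm (fun t => ?_)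
      (by simpa using Real.tendsto_exp_neg_atTop_nhds_zero.mul_const M)
    rw [norm_mul, norm_neg, Real.norm_of_nonneg (Real.exp_pos _).le]
    exact mul_le_mul_of_nonneg_left (hM _) (Real.exp_pos _).le
  have key := integral_Ioi_of_hasDerivAt_of_tendsto' hd hint hlim
  have he : (fun t => g1 t * (f + pd i f) (b - t • uv i))
      = (Ici 0).indicator fun t => Real.exp (-t) * (f + pd i f) (b - t • uv i) := by
    funext t; by_cases ht : 0 ≤ t <;> simp [g1, ht]
  rw [he, integral_indicator measurableSet_Ici, integral_Ici_eq_integral_Ioi, key]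
  simp

/-- The kernel. -/
def kG (x : R3) : ℝ := g1 (x 0) * (g1 (x 1) * g1 (x 2))

theorem kG_nonneg (x : R3) : 0 ≤ kG x :=
  mul_nonneg (g1_nonneg _) (mul_nonneg (g1_nonneg _) (g1_nonneg _))

theorem kG_le_one (x : R3) : kG x ≤ 1 :=
  mul_le_one₀ (g1_le_one _) (mul_nonneg (g1_nonneg _) (g1_nonneg _))
    (mul_le_one₀ (g1_le_one _) (g1_nonneg _) (g1_le_one _))

theorem measurable_kG : Measurable kG := by
  have := measurable_g1
  unfold kG
  fun_prop

/-- The coordinates as a measurable equivalence. -/
def split : R3 ≃ᵐ ℝ × (ℝ × ℝ) :=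
  ((MeasurableEquiv.toLp 2 (Fin 3 → ℝ)).symm.trans
    (MeasurableEquiv.piFinSuccAbove (fun _ : Fin 3 => ℝ) 0)).trans
    (MeasurableEquiv.prodCongr (MeasurableEquiv.refl ℝ) MeasurableEquiv.finTwoArrow)

theorem measurePreserving_split : MeasurePreserving split := by
  have h1 : MeasurePreserving (MeasurableEquiv.toLp 2 (Fin 3 → ℝ)).symm :=
    PiLp.volume_preserving_ofLp (Fin 3)
  exact ((MeasurePreserving.id volume).prod (volume_preserving_finTwoArrow ℝ)).comp
    ((volume_preserving_piFinSuccAbove (fun _ : Fin 3 => ℝ) 0).comp h1)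

theorem split_apply (x : R3) : split x = (x 0, x 1, x 2) := rfl

theorem split_symm_apply (p : ℝ × ℝ × ℝ) :
    split.symm p = p.1 • uv 0 + p.2.1 • uv 1 + p.2.2 • uv 2 := by
  apply split.injective
  rw [MeasurableEquiv.apply_symm_apply, split_apply]
  simp [uv]

theorem integrable_kG : Integrable kG := by
  rw [← measurePreserving_split.symm.integrable_comp_emb split.symm.measurableEmbedding]
  have h : kG ∘ split.symm = fun p : ℝ × ℝ × ℝ => g1 p.1 * (g1 p.2.1 * g1 p.2.2) := by
    funext p
    have := split_symm_apply p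
    simp [kG, this, uv]
  rw [h]
  exact integrable_g1.mul_prod (integrable_g1.mul_prod integrable_g1)

theorem memLp_kG : MemLp kG 2 := by
  rw [memLp_two_iff_integrable_sq measurable_kG.aestronglyMeasurable]
  refine integrable_kG.mono' (measurable_kG.pow_const 2).aestronglyMeasurable ?_
  filter_upwards with x
  rw [Real.norm_of_nonneg (sq_nonneg _)]
  nlinarith [kG_nonneg x, kG_le_one x]

/-- One transposed factor. -/
def tP (i : Fin 3) (f : R3 → ℝ) : R3 → ℝ := f + pd i f

/-- One factor. -/
def sP (i : Fin 3) (f : R3 → ℝ) : R3 → ℝ := f - pd i f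

theorem IsTest.tP {f : R3 → ℝ} (hf : IsTest f) (i : Fin 3) :
    IsTest (Vale.Agent.P136.PlaneExist.tP i f) := hf.add (hf.pd i)

/-- The transposed operator. -/
def tQ (f : R3 → ℝ) : R3 → ℝ := tP 2 (tP 1 (tP 0 f))

/-- The operator. -/
def sQ (f : R3 → ℝ) : R3 → ℝ := sP 0 (sP 1 (sP 2 f))

theorem contDiff_sP {f : R3 → ℝ} (hf : ContDiff ℝ ∞ f) (i : Fin 3) : ContDiff ℝ ∞ (sP i f) :=
  hf.sub (contDiff_pd hf i)

theorem contDiff_sQ {f : R3 → ℝ} (hf : ContDiff ℝ ∞ f) : ContDiff ℝ ∞ (sQ f) :=
  contDiff_sP (contDiff_sP (contDiff_sP hf 2) 1) 0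

theorem integral_kG_tQ {ψ : R3 → ℝ} (hψ : IsTest ψ) (b : R3) :
    ∫ x, kG x * tQ ψ (b - x) = ψ b := by
  have t0 := hψ.tP 0
  have t1 := t0.tP 1
  have t2 : IsTest (tQ ψ) := t1.tP 2
  obtain ⟨M, hM⟩ := t2.2.exists_bound_of_continuous t2.continuous
  have hint : Integrable fun x => kG x * tQ ψ (b - x) :=
    integrable_kG.mul_bdd (c := M) (t2.continuous.comp (by fun_prop)).aestronglyMeasurable
      (ae_of_all _ fun x => hM _)
  rw [← measurePreserving_split.symm.integral_comp split.symm.measurableEmbedding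
    fun x => kG x * tQ ψ (b - x)]
  have hint' : Integrable fun p => kG (split.symm p) * tQ ψ (b - split.symm p) :=
    (measurePreserving_split.symm.integrable_comp_emb split.symm.measurableEmbedding).2 hint
  have he : ∀ a c d : ℝ, kG (split.symm (a, c, d)) * tQ ψ (b - split.symm (a, c, d))
      = g1 a * (g1 c * (g1 d * tQ ψ (b - a • uv 0 - c • uv 1 - d • uv 2))) := by
    intro a c d
    rw [split_symm_apply]
    have : kG (a • uv 0 + c • uv 1 + d • uv 2) = g1 a * (g1 c * g1 d) := by simp [kG, uv]
    rw [this, ← sub_sub, ← sub_sub]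
    ring
  rw [Measure.volume_eq_prod, integral_prod _ hint']
  conv_rhs => rw [← integral_g1_line hψ 0 b]
  refine integral_congr_ae ?_
  rw [Measure.volume_eq_prod] at hint'
  filter_upwards [hint'.prod_right_ae] with a ha
  rw [Measure.volume_eq_prod, integral_prod _ ha]
  simp only [he, integral_const_mul]
  congr 1
  conv_rhs => rw [show ψ + pd 0 ψ = tP 0 ψ from rfl,
    ← integral_g1_line t0 1 (b - a • uv 0)]
  refine integral_congr_ae (ae_of_all _ fun c => ?_)
  simp only
  congr 1
  exact integral_g1_line t1 2 (b - a • uv 0 - c • uv 1)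

theorem integral_mul_sP {ψ s : R3 → ℝ} (hψ : IsTest ψ) (hs : ContDiff ℝ ∞ s) (i : Fin 3) :
    ∫ x, ψ x * sP i s x = ∫ x, tP i ψ x * s x := by
  have hsd : Differentiable ℝ s := hs.differentiable (by simp)
  have h1 : Integrable fun x => ψ x * pd i s x :=
    (hψ.continuous.mul (contDiff_pd hs i).continuous).integrable_of_hasCompactSupport
      hψ.2.mul_right
  have h2 : Integrable fun x => pd i ψ x * s x :=
    ((hψ.pd i).continuous.mul hs.continuous).integrable_of_hasCompactSupport (hψ.pd i).2.mul_right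
  have h3 : Integrable fun x => ψ x * s x :=
    (hψ.continuous.mul hs.continuous).integrable_of_hasCompactSupport hψ.2.mul_right
  have key : ∫ x, ψ x * pd i s x = -∫ x, pd i ψ x * s x :=
    integral_mul_fderiv_eq_neg_fderiv_mul_of_integrable h2 h1 h3
      (fun x _ => hψ.differentiable x) (fun x _ => hsd x)
  simp only [sP, tP, Pi.sub_apply, Pi.add_apply, mul_sub, add_mul]
  rw [integral_sub h3 h1, integral_add h3 h2, key]
  ring

theorem integral_mul_sQ {ψ s : R3 → ℝ} (hψ : IsTest ψ) (hs : ContDiff ℝ ∞ s) :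
    ∫ x, ψ x * sQ s x = ∫ x, tQ ψ x * s x := by
  rw [sQ, integral_mul_sP hψ (contDiff_sP (contDiff_sP hs 2) 1),
    integral_mul_sP (hψ.tP 0) (contDiff_sP hs 2), integral_mul_sP ((hψ.tP 0).tP 1) hs]
  rfl

/-- The kernel times a vector. -/
def kHat (e : F) : H F :=
  MemLp.toLp (fun x => kG x • e)
    ((memLp_kG.const_smul ‖e‖).mono
      (measurable_kG.aestronglyMeasurable.smul_const e)
      (ae_of_all _ fun x => by simp [norm_smul, mul_comm]))

theorem inner_kHat_shift (e : F) (w : H F) (a : R3) :
    ⟪kHat e, shiftL a w⟫ = ∫ y, kG (y - a) * ⟪e, w y⟫ := by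
  rw [L2.inner_def]
  have h : (fun x => ⟪kHat e x, shiftL a w x⟫) =ᵐ[volume]
      fun x => (fun y => kG (y - a) * ⟪e, w y⟫) (x + a) := by
    filter_upwards [MemLp.coeFn_toLp (μ := volume) (f := fun x => kG x • e) _, shiftL_ae a w]
      with x h1 h2
    rw [kHat, h1, h2]
    simp [real_inner_smul_left]
  rw [integral_congr_ae h, integral_add_right_eq_self (fun y => kG (y - a) * ⟪e, w y⟫) a]

theorem integral_test_shift (e : F) (w : H F) (hw : ContDiff ℝ ∞ fun a => shiftL a w)
    {ψ : R3 → ℝ} (hψ : IsTest ψ) :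
    ∫ a, ψ a * sQ (fun a => ⟪kHat e, shiftL a w⟫) a = ∫ y, ψ y * ⟪e, w y⟫ := by
  set f : R3 → ℝ := fun y => ⟪e, w y⟫ with hfdef
  have hf : MemLp f 2 := (Lp.memLp w).continuousLinearMap_comp (innerSL ℝ e) |>.ae_eq
    (ae_of_all _ fun x => rfl)
  set q := tQ ψ with hqdef
  have hq : IsTest q := ((hψ.tP 0).tP 1).tP 2
  rw [integral_mul_sQ hψ (contDiff_const.inner ℝ hw)]
  simp only [inner_kHat_shift, ← integral_const_mul]
  have hqi : Integrable fun a => ‖q a‖ :=
    (hq.continuous.integrable_of_hasCompactSupport hq.2).norm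
  have hb : Integrable (fun z : R3 × R3 => ‖q z.1‖ * kG (z.2 - z.1) + ‖q z.1‖ * f z.2 ^ 2)
      ((volume : Measure R3).prod volume) :=
    Integrable.add
      ((measurePreserving_prod_sub volume volume).integrable_comp_of_integrable
        (hqi.mul_prod integrable_kG))
      (hqi.mul_prod hf.integrable_sq)
  have hint : Integrable (uncurry fun a y => q a * (kG (y - a) * f y))
      ((volume : Measure R3).prod volume) := by
    refine hb.mono' ?_ (ae_of_all _ fun z => ?_)
    · exact (hq.continuous.aestronglyMeasurable.comp_fst).mul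
        (((measurable_kG.comp (measurable_snd.sub measurable_fst)).aestronglyMeasurable).mul
          hf.aestronglyMeasurable.comp_snd)
    · simp only [uncurry, norm_mul, Real.norm_of_nonneg (kG_nonneg _), ← mul_add]
      refine mul_le_mul_of_nonneg_left ?_ (norm_nonneg _)
      have h0 := kG_nonneg (z.2 - z.1)
      have h1 := kG_le_one (z.2 - z.1)
      rw [Real.norm_eq_abs, ← sq_abs]
      nlinarith [abs_nonneg (f z.2), sq_nonneg (kG (z.2 - z.1) - |f z.2|)]
  rw [integral_integral_swap hint]
  refine integral_congr_ae (ae_of_all _ fun y => ?_)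
  simp only [← mul_assoc, integral_mul_const]
  congr 1
  rw [← integral_sub_left_eq_self (fun a => q a * kG (y - a)) volume y]
  simp only [sub_sub_cancel]
  rw [← integral_kG_tQ hψ y]
  exact integral_congr_ae (ae_of_all _ fun x => mul_comm _ _)

/-- Smooth translates give a smooth representative. -/
theorem exists_smooth_rep (w : H F) (hw : ContDiff ℝ ∞ fun a => shiftL a w) :
    ∃ g : R3 → F, ContDiff ℝ ∞ g ∧ g =ᵐ[volume] w := by
  classical
  let b := stdOrthonormalBasis ℝ F
  refine ⟨fun a => ∑ k, sQ (fun a => ⟪kHat (b k), shiftL a w⟫) a • b k, ?_, ?_⟩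
  · exact ContDiff.sum fun k _ => (contDiff_sQ (contDiff_const.inner ℝ hw)).smul contDiff_const
  refine ae_eq_of_integral_contDiff_smul_eq
    (Continuous.locallyIntegrable <| continuous_finsetSum _ fun k _ =>
      ((contDiff_sQ (contDiff_const.inner ℝ hw)).continuous.smul continuous_const))
    ((Lp.memLp w).locallyIntegrable one_le_two) fun ψ h1 h2 => ?_
  have hψ : IsTest ψ := ⟨h1, h2⟩
  have hp : ∀ k, Integrable fun a => ψ a * sQ (fun a => ⟪kHat (b k), shiftL a w⟫) a := fun k =>
    (h1.continuous.mul (contDiff_sQ (contDiff_const.inner ℝ hw)).continuous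
      ).integrable_of_hasCompactSupport h2.mul_right
  simp only [Finset.smul_sum, smul_smul]
  rw [integral_finsetSum _ fun k _ => (hp k).smul_const _]
  simp only [integral_smul_const, integral_test_shift _ w hw hψ]
  have hwi : Integrable fun y => ψ y • w y :=
    ((Lp.memLp w).locallyIntegrable one_le_two).integrable_smul_left_of_hasCompactSupport
      h1.continuous h2
  conv_rhs => rw [← b.sum_repr' (∫ y, ψ y • w y)]
  refine Finset.sum_congr rfl fun k _ => ?_
  rw [← integral_inner hwi]
  simp only [real_inner_smul_right]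

end Vale.Agent.P136.PlaneExist
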