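import Vale.Agent.P136.Spec

/-!
# Test functions and smoothness in the translation parameter

If a linear map on test functions is bounded by the sup norm on functions supported in a fixed
ball, then its value on the translates of a test function is a smooth function of the shift.
-/

noncomputable section

namespace Vale.Agent.P136.PlaneExist

open MeasureTheory Metric Function
open scoped ContDiff Topology

/-- A test function. -/
def IsTest {E : Type*} [NormedAddCommGroup E] [NormedSpace ℝ E] (f : R3 → E) : Prop :=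
  ContDiff ℝ ∞ f ∧ HasCompactSupport f

variable {E : Type*} [NormedAddCommGroup E] [NormedSpace ℝ E]
variable {Y : Type*} [NormedAddCommGroup Y] [NormedSpace ℝ Y]

theorem IsTest.add {f g : R3 → E} (hf : IsTest f) (hg : IsTest g) : IsTest (f + g) :=
  ⟨hf.1.add hg.1, hf.2.add hg.2⟩

theorem IsTest.smul {f : R3 → E} (c : ℝ) (hf : IsTest f) : IsTest (c • f) :=
  ⟨hf.1.const_smul c, hf.2.smul_left (f := fun _ => c)⟩

theorem IsTest.neg {f : R3 → E} (hf : IsTest f) : IsTest (-f) := by
  simpa using hf.smul (-1)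

theorem IsTest.sub {f g : R3 → E} (hf : IsTest f) (hg : IsTest g) : IsTest (f - g) := by
  simpa [sub_eq_add_neg] using hf.add hg.neg

theorem isTest_zero : IsTest (0 : R3 → E) :=
  ⟨contDiff_const, HasCompactSupport.zero⟩

theorem IsTest.sum {ι : Type*} (s : Finset ι) {f : ι → R3 → E} (hf : ∀ i, IsTest (f i)) :
    IsTest (∑ i ∈ s, f i) := by
  classical
  induction s using Finset.induction with
  | empty => simpa using isTest_zero
  | insert i s hi ih => rw [Finset.sum_insert hi]; exact (hf i).add ih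

theorem IsTest.continuous {f : R3 → E} (hf : IsTest f) : Continuous f := hf.1.continuous

theorem IsTest.differentiable {f : R3 → E} (hf : IsTest f) : Differentiable ℝ f :=
  hf.1.differentiable (by simp)

theorem IsTest.comp_add {f : R3 → E} (hf : IsTest f) (h : R3) :
    IsTest fun x => f (x + h) :=
  ⟨hf.1.comp (contDiff_id.add contDiff_const), hf.2.comp_homeomorph (Homeomorph.addRight h)⟩

theorem IsTest.memLp {f : R3 → E} (hf : IsTest f) {p : ENNReal} : MemLp f p :=
  hf.continuous.memLp_of_hasCompactSupport hf.2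

theorem contDiff_pd {f : R3 → E} (hf : ContDiff ℝ ∞ f) (i : Fin 3) : ContDiff ℝ ∞ (pd i f) :=
  (hf.fderiv_right (by simp)).clm_apply contDiff_const

theorem IsTest.pd {f : R3 → E} (hf : IsTest f) (i : Fin 3) :
    IsTest (Vale.Agent.P136.pd i f) :=
  ⟨contDiff_pd hf.1 i, hf.2.fderiv_apply ℝ _⟩

/-- The coordinates of a vector. -/
def crd (i : Fin 3) : R3 →L[ℝ] ℝ := innerSL ℝ (EuclideanSpace.single i 1)

theorem crd_apply (i : Fin 3) (k : R3) : crd i k = k i := by
  simp [crd, PiLp.inner_apply]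

theorem fderiv_eq_sum (f : R3 → E) (y k : R3) :
    fderiv ℝ f y k = ∑ i, crd i k • Vale.Agent.P136.pd i f y := by
  have hk : k = ∑ i, crd i k • EuclideanSpace.single i (1 : ℝ) := by
    ext j; simp [crd_apply, Finset.sum_apply, Pi.single_apply]
  conv_lhs => rw [hk]
  simp [Vale.Agent.P136.pd, map_sum, map_smul]

/-- A linear map on test functions, bounded by the sup norm on each ball. -/
structure IsBddOp (Φ : (R3 → E) → Y) : Prop where
  map_add : ∀ f g, IsTest f → IsTest g → Φ (f + g) = Φ f + Φ g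
  map_smul : ∀ (c : ℝ) f, IsTest f → Φ (c • f) = c • Φ f
  bound : ∀ R : ℝ, ∃ C : ℝ, ∀ f, IsTest f → (∀ x, R < ‖x‖ → f x = 0) →
    ∀ s : ℝ, 0 ≤ s → (∀ x, ‖f x‖ ≤ s) → ‖Φ f‖ ≤ C * s

theorem IsBddOp.map_zero {Φ : (R3 → E) → Y} (hΦ : IsBddOp Φ) : Φ 0 = 0 := by
  simpa using hΦ.map_smul 0 0 isTest_zero

theorem IsBddOp.map_sum {Φ : (R3 → E) → Y} (hΦ : IsBddOp Φ) (s : Finset (Fin 3))
    {f : Fin 3 → R3 → E} (hf : ∀ i, IsTest (f i)) : Φ (∑ i ∈ s, f i) = ∑ i ∈ s, Φ (f i) := by
  classical
  induction s using Finset.induction with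
  | empty => simpa using hΦ.map_zero
  | insert i s hi ih =>
    rw [Finset.sum_insert hi, Finset.sum_insert hi, hΦ.map_add _ _ (hf i) (IsTest.sum s hf), ih]

/-- The derivative of `h ↦ Φ (f (· + h))`. -/
def shiftDeriv (Φ : (R3 → E) → Y) (f : R3 → E) (h : R3) : R3 →L[ℝ] Y :=
  ∑ i, (crd i).smulRight (Φ fun x => Vale.Agent.P136.pd i f (x + h))

theorem hasFDerivAt_shift {Φ : (R3 → E) → Y} (hΦ : IsBddOp Φ) {f : R3 → E} (hf : IsTest f)
    (h : R3) : HasFDerivAt (fun h => Φ fun x => f (x + h)) (shiftDeriv Φ f h) h := by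
  obtain ⟨R, hR⟩ := hf.2.isCompact.isBounded.subset_closedBall (0 : R3)
  have hsm : ContDiff ℝ 1 (fderiv ℝ f) :=
    (hf.1.of_le (m := 2) (WithTop.coe_le_coe.2 le_top)).fderiv_right (by norm_num)
  obtain ⟨L, hL⟩ : ∃ L, LipschitzWith L (fderiv ℝ f) :=
    ContDiff.lipschitzWith_of_hasCompactSupport (hf.2.fderiv ℝ) hsm one_ne_zero
  obtain ⟨C, hC⟩ := hΦ.bound (R + ‖h‖ + 1)
  rw [hasFDerivAt_iff_isLittleO_nhds_zero]
  refine Asymptotics.IsBigO.trans_isLittleO (g := fun k : R3 => ‖k‖ ^ 2) ?_
    (Asymptotics.isLittleO_norm_pow_id one_lt_two)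
  refine Asymptotics.IsBigO.of_bound (C * L) ?_
  filter_upwards [closedBall_mem_nhds (0 : R3) zero_lt_one] with k hk
  rw [mem_closedBall_zero_iff] at hk
  have t1 := hf.comp_add (h + k)
  have t2 := hf.comp_add h
  have t3 : IsTest (∑ i, crd i k • fun x => Vale.Agent.P136.pd i f (x + h)) :=
    IsTest.sum _ fun i => ((hf.pd i).comp_add h).smul _
  set N : R3 → E := (fun x => f (x + (h + k))) - (fun x => f (x + h)) -
    ∑ i, crd i k • fun x => Vale.Agent.P136.pd i f (x + h) with hN
  have hΦN : Φ N = Φ (fun x => f (x + (h + k))) - Φ (fun x => f (x + h))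
      - shiftDeriv Φ f h k := by
    have hsub : ∀ a b : R3 → E, IsTest a → IsTest b → Φ (a - b) = Φ a - Φ b := by
      intro a b ha hb
      have := hΦ.map_add (a - b) b (ha.sub hb) hb
      rw [sub_add_cancel] at this
      rw [this, add_sub_cancel_right]
    rw [hN, hsub _ _ (t1.sub t2) t3, hsub _ _ t1 t2,
      hΦ.map_sum _ fun i => ((hf.pd i).comp_add h).smul _]
    congr 1
    simp only [shiftDeriv, FunLike.coe_sum, Finset.sum_apply,
      ContinuousLinearMap.smulRight_apply]
    exact Finset.sum_congr rfl fun i _ => hΦ.map_smul _ _ ((hf.pd i).comp_add h)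
  rw [← hΦN, Real.norm_of_nonneg (by positivity), mul_assoc]
  have hNx : ∀ x, N x = f (x + h + k) - f (x + h) - fderiv ℝ f (x + h) k := by
    intro x; simp [hN, fderiv_eq_sum, add_assoc, Finset.sum_apply]
  refine hC N ((t1.sub t2).sub t3) (fun x hx => ?_) _ (by positivity) fun x => ?_
  · have h0 : ∀ y, R < ‖y‖ → f y = 0 ∧ fderiv ℝ f y = 0 := fun y hy => by
      have hy' : y ∉ tsupport f := fun h' => absurd (mem_closedBall_zero_iff.1 (hR h')) (not_le.2 hy)
      exact ⟨image_eq_zero_of_notMem_tsupport hy', fderiv_of_notMem_tsupport ℝ hy'⟩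
    have a1 : R < ‖x + h‖ := by
      have := norm_sub_le (x + h) h; rw [add_sub_cancel_right] at this; linarith
    have a2 : R < ‖x + h + k‖ := by
      have := norm_sub_le (x + h + k) (h + k)
      rw [add_assoc, add_sub_cancel_right] at this
      have := norm_add_le h k
      rw [add_assoc]; linarith
    simp [hNx, (h0 _ a1).1, (h0 _ a1).2, (h0 _ a2).1]
  · rw [hNx]
    have key := (convex_closedBall (x + h) ‖k‖).norm_image_sub_le_of_norm_fderiv_le'
      (f := f) (φ := fderiv ℝ f (x + h)) (C := (L : ℝ) * ‖k‖)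
      (fun y _ => hf.differentiable y)
      (fun y hy => (hL.norm_sub_le y (x + h)).trans <| by
        gcongr; rw [← dist_eq_norm]; exact hy)
      (mem_closedBall_self (norm_nonneg k))
      (y := x + h + k) (by simp [dist_eq_norm])
    simp only [add_sub_cancel_left] at key
    exact key.trans (le_of_eq (by ring))

/-- Smoothness in the shift. -/
theorem contDiff_shift {Φ : (R3 → E) → Y} (hΦ : IsBddOp Φ) {f : R3 → E} (hf : IsTest f) :
    ContDiff ℝ ∞ fun h => Φ fun x => f (x + h) := by
  suffices H : ∀ n : ℕ, ∀ f : R3 → E, IsTest f → ContDiff ℝ n fun h => Φ fun x => f (x + h) from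
    contDiff_infty.2 fun n => H n f hf
  intro n
  induction n with
  | zero =>
    intro f hf
    exact contDiff_zero.2 (continuous_iff_continuousAt.2 fun h =>
      (hasFDerivAt_shift hΦ hf h).continuousAt)
  | succ n ih =>
    intro f hf
    refine (contDiff_succ_iff_hasFDerivAt).2
      ⟨fun h => shiftDeriv Φ f h, ?_, fun h => hasFDerivAt_shift hΦ hf h⟩
    exact ContDiff.sum fun i _ =>
      ((ContinuousLinearMap.smulRightL ℝ R3 Y (crd i)).contDiff).comp (ih _ (hf.pd i))

end Vale.Agent.P136.PlaneExist
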