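import Vale.Agent.P136.Spec

/-!
# Calculus helpers for the rigidity module

Rules for `pd`, constancy, and uniqueness for a closed linear overdetermined first order system.
-/

noncomputable section

namespace Vale.Agent.P136.Rig

open Set Metric
open scoped ContDiff

variable {E : Type*} [NormedAddCommGroup E] [NormedSpace ℝ E]

lemma fderiv_eq_sum (f : R3 → E) (x d : R3) : fderiv ℝ f x d = ∑ i, d i • pd i f x := by
  have h : d = ∑ i : Fin 3, d i • EuclideanSpace.single i (1 : ℝ) := by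
    refine PiLp.ext fun k => ?_
    simp [Pi.single_apply]
  conv_lhs => rw [h]
  simp only [map_sum, map_smul, pd]

lemma contDiff_pd {f : R3 → E} (hf : ContDiff ℝ ∞ f) (i : Fin 3) : ContDiff ℝ ∞ (pd i f) :=
  (hf.fderiv_right (m := ∞) le_rfl).clm_apply contDiff_const

lemma diffAt {f : R3 → E} (hf : ContDiff ℝ ∞ f) (x : R3) : DifferentiableAt ℝ f x :=
  (hf.differentiable (by decide)).differentiableAt

lemma pd_const (i : Fin 3) (c : E) (x : R3) : pd i (fun _ => c) x = 0 := by
  simp [pd]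

lemma pd_of_eventuallyEq {f g : R3 → E} {x : R3} (h : f =ᶠ[nhds x] g) (i : Fin 3) :
    pd i f x = pd i g x := by
  simp only [pd, h.fderiv_eq]

lemma pd_ofReal {f : R3 → ℝ} {x : R3} (hf : DifferentiableAt ℝ f x) (i : Fin 3) :
    pd i (fun y => (f y : ℂ)) x = ((pd i f x : ℝ) : ℂ) := by
  have h : HasFDerivAt (fun y => (f y : ℂ)) (Complex.ofRealCLM.comp (fderiv ℝ f x)) x :=
    Complex.ofRealCLM.hasFDerivAt.comp x hf.hasFDerivAt
  simp [pd, h.fderiv]

lemma pd_add {f g : R3 → E} {x : R3} (hf : DifferentiableAt ℝ f x) (hg : DifferentiableAt ℝ g x)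
    (i : Fin 3) : pd i (fun y => f y + g y) x = pd i f x + pd i g x := by
  simp [pd, fderiv_fun_add hf hg]

lemma pd_sub {f g : R3 → E} {x : R3} (hf : DifferentiableAt ℝ f x) (hg : DifferentiableAt ℝ g x)
    (i : Fin 3) : pd i (fun y => f y - g y) x = pd i f x - pd i g x := by
  simp [pd, fderiv_fun_sub hf hg]

lemma pd_mul {𝕜 : Type*} [NormedField 𝕜] [NormedAlgebra ℝ 𝕜] {f g : R3 → 𝕜} {x : R3}
    (hf : DifferentiableAt ℝ f x) (hg : DifferentiableAt ℝ g x) (i : Fin 3) :
    pd i (fun y => f y * g y) x = pd i f x * g x + f x * pd i g x := by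
  simp only [pd, fderiv_fun_mul hf hg]
  simp [smul_eq_mul]
  ring

lemma pd_inv {f : R3 → ℝ} {x : R3} (hf : DifferentiableAt ℝ f x) (h0 : f x ≠ 0) (i : Fin 3) :
    pd i (fun y => (f y)⁻¹) x = -(pd i f x) / f x ^ 2 := by
  have h := (hasDerivAt_inv h0).comp_hasFDerivAt x hf.hasFDerivAt
  have h' : HasFDerivAt (fun y => (f y)⁻¹) (-(f x ^ 2)⁻¹ • fderiv ℝ f x) x := h
  simp [pd, h'.fderiv]
  ring

lemma pd_div {f g : R3 → ℝ} {x : R3} (hf : DifferentiableAt ℝ f x) (hg : DifferentiableAt ℝ g x)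
    (h0 : g x ≠ 0) (i : Fin 3) :
    pd i (fun y => f y / g y) x = pd i f x / g x - f x * pd i g x / g x ^ 2 := by
  simp only [div_eq_mul_inv]
  rw [pd_mul hf (hg.fun_inv h0), pd_inv hg h0]
  field_simp
  ring

lemma pd_comm {f : R3 → ℝ} (hf : ContDiff ℝ ∞ f) (i j : Fin 3) (x : R3) :
    pd i (pd j f) x = pd j (pd i f) x := by
  have hd : DifferentiableAt ℝ (fderiv ℝ f) x := diffAt (hf.fderiv_right (m := ∞) le_rfl) x
  have h : ∀ a b : Fin 3, pd a (pd b f) x
      = fderiv ℝ (fderiv ℝ f) x (EuclideanSpace.single a 1) (EuclideanSpace.single b 1) := by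
    intro a b
    change fderiv ℝ (fun y => fderiv ℝ f y (EuclideanSpace.single b 1)) x
      (EuclideanSpace.single a 1) = _
    rw [fderiv_clm_apply hd (differentiableAt_const _)]
    simp
  rw [h, h]
  exact (hf.contDiffAt.isSymmSndFDerivAt (by simp; decide)).eq _ _

lemma eq_const_of_pd {f : R3 → E} (hf : Differentiable ℝ f) (h : ∀ i x, pd i f x = 0)
    (x y : R3) : f x = f y := by
  refine is_const_of_fderiv_eq_zero hf (fun z => ?_) x y
  refine ContinuousLinearMap.ext fun d => ?_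
  rw [fderiv_eq_sum]
  simp [h]

/-- A far away point. -/
lemma exists_far (R : ℝ) : ∃ x : R3, R < ‖x‖ := by
  refine ⟨EuclideanSpace.single 0 (|R| + 1), ?_⟩
  rw [PiLp.norm_single, Real.norm_eq_abs, abs_of_pos (by positivity)]
  linarith [le_abs_self R]

/-- A function with derivative bounded by itself, vanishing at one point, vanishes. -/
lemma eq_zero_of_fderiv_le {f : R3 → E} (hf : Differentiable ℝ f) {Φ : R3 → ℝ}
    (hΦ : Continuous Φ) (hb : ∀ x d, ‖fderiv ℝ f x d‖ ≤ Φ x * ‖d‖ * ‖f x‖) {x₀ : R3}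
    (h0 : f x₀ = 0) (x : R3) : f x = 0 := by
  set γ : ℝ → R3 := fun t => x₀ + t • (x - x₀)
  have hγ : ∀ t, HasDerivAt γ (x - x₀) t := fun t => by
    simpa [γ] using ((hasDerivAt_id t).smul_const (x - x₀)).const_add x₀
  have hγc : Continuous γ := continuous_iff_continuousAt.2 fun t => (hγ t).continuousAt
  obtain ⟨B, hB⟩ := (isCompact_Icc (a := (0 : ℝ)) (b := 1)).exists_bound_of_continuousOn
    ((hΦ.comp hγc).mul continuous_const (f := fun t => Φ (γ t))
      |>.continuousOn : ContinuousOn (fun t => Φ (γ t) * ‖x - x₀‖) (Icc 0 1))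
  have hq : ∀ t, HasDerivAt (fun s => f (γ s)) (fderiv ℝ f (γ t) (x - x₀)) t := fun t =>
    (hf (γ t)).hasFDerivAt.comp_hasDerivAt t (hγ t)
  have := norm_le_gronwallBound_of_norm_deriv_right_le (f := fun s => f (γ s))
    (f' := fun t => fderiv ℝ f (γ t) (x - x₀)) (δ := 0) (K := B) (ε := 0) (a := 0) (b := 1)
    ((hf.continuous.comp hγc).continuousOn) (fun t _ => (hq t).hasDerivWithinAt)
    (by simp [γ, h0]) (fun t ht => by
      rw [add_zero]
      refine (hb (γ t) (x - x₀)).trans (mul_le_mul_of_nonneg_right ?_ (norm_nonneg _))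
      exact (le_abs_self _).trans (hB t (Ico_subset_Icc_self ht)))
    1 (right_mem_Icc.2 zero_le_one)
  rw [gronwallBound_ε0_δ0, norm_le_zero_iff] at this
  simpa [γ] using this

/-- `f` is bounded by a continuous multiple of the size of `(e, s)`. -/
def Dom (e : Fin 3 → R3 → ℝ) (s f : R3 → ℝ) : Prop :=
  ∃ Φ : R3 → ℝ, Continuous Φ ∧ ∀ x, |f x| ≤ Φ x * ‖((fun i => e i x), s x)‖

section Dom

variable {e : Fin 3 → R3 → ℝ} {s : R3 → ℝ}

lemma dom_e (i : Fin 3) : Dom e s (e i) :=
  ⟨fun _ => 1, continuous_const, fun x => by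
    rw [one_mul, ← Real.norm_eq_abs]
    exact (norm_le_pi_norm (fun i => e i x) i).trans (le_max_left _ _)⟩

lemma dom_s : Dom e s s :=
  ⟨fun _ => 1, continuous_const, fun x => by
    rw [one_mul, ← Real.norm_eq_abs]
    exact le_max_right _ _⟩

lemma Dom.add {f g : R3 → ℝ} (hf : Dom e s f) (hg : Dom e s g) :
    Dom e s (fun x => f x + g x) := by
  obtain ⟨Φ, hΦ, h⟩ := hf
  obtain ⟨Ψ, hΨ, h'⟩ := hg
  exact ⟨fun x => Φ x + Ψ x, hΦ.add hΨ, fun x => (abs_add_le _ _).trans (by
    rw [add_mul]; exact add_le_add (h x) (h' x))⟩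

lemma Dom.mul {f c : R3 → ℝ} (hf : Dom e s f) (hc : Continuous c) :
    Dom e s (fun x => c x * f x) := by
  obtain ⟨Φ, hΦ, h⟩ := hf
  exact ⟨fun x => |c x| * Φ x, hc.abs.mul hΦ, fun x => by
    rw [abs_mul, mul_assoc]; exact mul_le_mul_of_nonneg_left (h x) (abs_nonneg _)⟩

lemma Dom.congr {f g : R3 → ℝ} (hf : Dom e s f) (h : ∀ x, g x = f x) : Dom e s g := by
  obtain ⟨Φ, hΦ, hb⟩ := hf
  exact ⟨Φ, hΦ, fun x => by rw [h]; exact hb x⟩

end Dom

/-- A closed system `∂ j e i = δ i j * s + e i * P j + Q i * e j` with `e = 0` near a point. -/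
lemma overdetermined {e P Q : Fin 3 → R3 → ℝ} (he : ∀ i, ContDiff ℝ ∞ (e i))
    (hP : ∀ i, ContDiff ℝ ∞ (P i)) (hQ : ∀ i, ContDiff ℝ ∞ (Q i))
    (hoff : ∀ i j, i ≠ j → ∀ x, pd j (e i) x = e i x * P j x + Q i x * e j x)
    (hdiag : ∀ i x, pd i (e i) x - (e i x * P i x + Q i x * e i x)
      = pd 0 (e 0) x - (e 0 x * P 0 x + Q 0 x * e 0 x))
    {x₀ : R3} (h0 : ∀ i, e i =ᶠ[nhds x₀] fun _ => 0) (i : Fin 3) (x : R3) : e i x = 0 := by
  set s : R3 → ℝ := fun x => pd 0 (e 0) x - (e 0 x * P 0 x + Q 0 x * e 0 x) with hs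
  have hsS : ContDiff ℝ ∞ s :=
    (contDiff_pd (he 0) 0).sub (((he 0).mul (hP 0)).add ((hQ 0).mul (he 0)))
  have hde : ∀ i j, Dom e s (fun x => pd j (e i) x) := by
    intro i j
    have hG : Dom e s (fun x => P j x * e i x + Q i x * e j x) :=
      ((dom_e i).mul (hP j).continuous).add ((dom_e j).mul (hQ i).continuous)
    by_cases hij : i = j
    · subst hij
      exact (hG.add dom_s).congr fun x => by rw [hs]; linarith [hdiag i x]
    · exact hG.congr fun x => by rw [hoff i j hij x]; ring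
  set G : Fin 3 → Fin 3 → R3 → ℝ := fun i j x => e i x * P j x + Q i x * e j x with hG
  have hGs : ∀ i j, ContDiff ℝ ∞ (G i j) := fun i j =>
    ((he i).mul (hP j)).add ((hQ i).mul (he j))
  have hdG : ∀ i j k, Dom e s (fun x => pd k (G i j) x) := by
    intro i j k
    refine ((((hde i k).mul (hP j).continuous).add
      ((dom_e i).mul (contDiff_pd (hP j) k).continuous)).add
      (((hde j k).mul (hQ i).continuous).add
      ((dom_e j).mul (contDiff_pd (hQ i) k).continuous))).congr fun x => ?_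
    simp only [hG]
    rw [pd_add (diffAt ((he i).mul (hP j)) x) (diffAt ((hQ i).mul (he j)) x),
      pd_mul (diffAt (he i) x) (diffAt (hP j) x), pd_mul (diffAt (hQ i) x) (diffAt (he j) x)]
    ring
  have hds : ∀ k, Dom e s (fun x => pd k s x) := by
    intro k
    obtain ⟨i, hik⟩ : ∃ i : Fin 3, i ≠ k := ⟨k + 1, by fin_cases k <;> decide⟩
    refine ((hdG i k i).add ((hdG i i k).mul (c := fun _ => (-1 : ℝ)) continuous_const)).congr
      fun x => ?_
    have h1 : pd i (e i) = fun y => s y + G i i y := funext fun y => by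
      simp only [hs, hG]; linarith [hdiag i y]
    have h2 : pd k (e i) = G i k := funext fun y => hoff i k hik y
    have h3 := pd_comm (he i) k i x
    rw [h1, h2, pd_add (diffAt hsS x) (diffAt (hGs i i) x)] at h3
    linarith
  choose Φe hΦe hbe using fun a : Fin 3 × Fin 3 => hde a.1 a.2
  choose Φs hΦs hbs using hds
  set f : R3 → (Fin 3 → ℝ) × ℝ := fun x => ((fun i => e i x), s x) with hf
  set Φ : R3 → ℝ := fun x => (∑ a, |Φe a x|) + ∑ k, |Φs k x| with hΦ
  have hfd : ∀ x, HasFDerivAt f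
      ((ContinuousLinearMap.pi fun i => fderiv ℝ (e i) x).prod (fderiv ℝ s x)) x := fun x =>
    (hasFDerivAt_pi.2 fun i => (diffAt (he i) x).hasFDerivAt).prodMk (diffAt hsS x).hasFDerivAt
  have key : ∀ (g : R3 → ℝ) (x d : R3), (∀ k, |pd k g x| ≤ Φ x * ‖f x‖) →
      |fderiv ℝ g x d| ≤ (3 * Φ x) * ‖d‖ * ‖f x‖ := by
    intro g x d hg
    rw [fderiv_eq_sum]
    refine (Finset.abs_sum_le_sum_abs _ _).trans ?_
    refine (Finset.sum_le_sum (g := fun _ => ‖d‖ * (Φ x * ‖f x‖)) fun k _ => ?_).trans_eq ?_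
    · rw [smul_eq_mul, abs_mul]
      exact mul_le_mul (by simpa using PiLp.norm_apply_le d k) (hg k) (abs_nonneg _)
        (norm_nonneg _)
    · simp
      ring
  have hΦc : Continuous Φ := (continuous_finsetSum _ fun a _ => (hΦe a).abs).add
    (continuous_finsetSum _ fun k _ => (hΦs k).abs)
  have hfx : f x₀ = 0 := by
    refine Prod.ext (funext fun j => (h0 j).eq_of_nhds) ?_
    simp [hf, hs, pd_of_eventuallyEq (h0 0), pd_const, (h0 0).eq_of_nhds]
  have := eq_zero_of_fderiv_le (f := f) (fun x => (hfd x).differentiableAt)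
    (Φ := fun x => 3 * Φ x) (continuous_const.mul hΦc) (fun x d => by
      rw [(hfd x).fderiv, ContinuousLinearMap.prod_apply, Prod.norm_def]
      refine max_le ((pi_norm_le_iff_of_nonneg ?_).2 fun j => ?_) ?_
      · simp only [hΦ]; positivity
      · rw [Real.norm_eq_abs]
        refine key (e j) x d fun k => (hbe (j, k) x).trans ?_
        refine mul_le_mul_of_nonneg_right ((le_abs_self _).trans ?_) (norm_nonneg _)
        refine (Finset.single_le_sum (fun a _ => abs_nonneg (Φe a x))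
          (Finset.mem_univ (j, k))).trans ?_
        simp only [hΦ]
        exact le_add_of_nonneg_right (by positivity)
      · rw [Real.norm_eq_abs]
        refine key s x d fun k => (hbs k x).trans ?_
        refine mul_le_mul_of_nonneg_right ((le_abs_self _).trans ?_) (norm_nonneg _)
        refine (Finset.single_le_sum (fun a _ => abs_nonneg (Φs a x))
          (Finset.mem_univ k)).trans ?_
        simp only [hΦ]
        exact le_add_of_nonneg_left (by positivity)) hfx x
  exact congrFun (congrArg Prod.fst this) i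

end Vale.Agent.P136.Rig
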